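import Mathlib
import Vale.Agent.P145W85.Bd.B2
import Vale.Agent.P145W85.Bd.B1

set_option linter.all false

section

/-!
# Block form of the conditional Newman inequality and Taylor expansion
-/

namespace Vale.Agent.P145W85.P153.CLT

open MeasureTheory Filter Finset
open scoped Topology

variable {Ω : Type*} {mΩ : MeasurableSpace Ω} {μ : Measure Ω}
variable {ι β : Type*} [Fintype ι] [DecidableEq β]

/-- Indices whose block lies in `T`. -/
def sT (b : ι → β) (T : Finset β) : Finset ι := univ.filter (fun i => b i ∈ T)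

/-- Total covariance between different blocks, inside a set of indices. -/
noncomputable def cross (μ : Measure[mΩ] Ω) (g : ι → ℝ) (r : ι → Ω → ℝ) (b : ι → β)
    (s : Finset ι) : ℝ :=
  ∑ i ∈ s, ∑ j ∈ s, if b i = b j then 0 else |g i| * |g j| * ∫ ω, r i ω * r j ω ∂μ

omit [Fintype ι] in
lemma integral_mul_nonneg_of_assoc [IsProbabilityMeasure μ] {m : MeasurableSpace Ω} (hm : m ≤ mΩ)
    {r : ι → Ω → ℝ} (hA : NP μ m r)
    (hc : ∀ i, μ[r i | m] =ᵐ[μ] 0) (i j : ι) : 0 ≤ ∫ ω, r i ω * r j ω ∂μ := by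
  rw [← integral_condExp hm]
  refine integral_nonneg_of_ae ?_
  filter_upwards [hA.nn i j, hc i] with ω h1 h2
  simp only [ccov] at h1
  rw [h2] at h1
  simpa only [Pi.zero_apply, zero_mul, sub_zero] using h1

omit [Fintype ι] in
lemma condExp_aL [IsProbabilityMeasure μ] (m : MeasurableSpace Ω) {g : ι → ℝ}
    {r : ι → Ω → ℝ} (hr : ∀ i, BM (mΩ := mΩ) (r i)) (hc : ∀ i, μ[r i | m] =ᵐ[μ] 0)
    (s : Finset ι) : μ[aL g r s | m] =ᵐ[μ] 0 := by
  classical
  have e : aL g r s = ∑ i ∈ s, (|g i|) • r i := by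
    funext ω
    simp only [aL, Finset.sum_apply, Pi.smul_apply, smul_eq_mul]
  rw [e]
  have h1 := condExp_finsetSum (μ := μ) (s := s) (f := fun i => (|g i|) • r i)
    (fun i _ => ((hr i).integrable (μ := μ)).smul _) m
  refine h1.trans ?_
  have h2 : ∀ i ∈ s, μ[(|g i|) • r i | m] =ᵐ[μ] 0 := by
    intro i _
    filter_upwards [condExp_smul (μ := μ) (|g i|) (r i) m, hc i] with ω a b
    rw [a, Pi.smul_apply, b]
    simp
  have h3 : ∀ᵐ ω ∂μ, ∀ i ∈ s, (μ[(|g i|) • r i | m]) ω = 0 := by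
    have := (Finset.eventually_all s (l := ae μ) (p := fun i ω => (μ[(|g i|) • r i | m]) ω = 0)).2
      (fun i hi => h2 i hi)
    exact this
  filter_upwards [h3] with ω h
  rw [Finset.sum_apply, Pi.zero_apply]
  exact Finset.sum_eq_zero h

omit [Fintype ι] in
lemma integral_ccov_aL [IsProbabilityMeasure μ] {m : MeasurableSpace Ω} (hm : m ≤ mΩ) {g : ι → ℝ}
    {r : ι → Ω → ℝ} (hr : ∀ i, BM (mΩ := mΩ) (r i)) (hc : ∀ i, μ[r i | m] =ᵐ[μ] 0)
    (s t : Finset ι) :
    ∫ ω, ccov μ m (aL g r s) (aL g r t) ω ∂μ =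
      ∑ i ∈ s, ∑ j ∈ t, |g i| * |g j| * ∫ ω, r i ω * r j ω ∂μ := by
  have h1 : ccov μ m (aL g r s) (aL g r t) =ᵐ[μ] μ[fun ω => aL g r s ω * aL g r t ω | m] := by
    filter_upwards [condExp_aL (g := g) m hr hc s] with ω h
    simp only [ccov]
    rw [h]
    simp
  rw [integral_congr_ae h1, integral_condExp hm]
  have h2 : (fun ω => aL g r s ω * aL g r t ω) = fun ω =>
      ∑ i ∈ s, ∑ j ∈ t, |g i| * |g j| * (r i ω * r j ω) := by
    funext ω
    simp only [aL]
    rw [Finset.sum_mul_sum]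
    refine Finset.sum_congr rfl fun i _ => Finset.sum_congr rfl fun j _ => ?_
    ring
  rw [h2, integral_finsetSum]
  · refine Finset.sum_congr rfl fun i _ => ?_
    rw [integral_finsetSum]
    · refine Finset.sum_congr rfl fun j _ => ?_
      rw [integral_const_mul]
    · intro j _
      exact (((hr i).mul (hr j)).integrable (μ := μ)).const_mul _
  · intro i _
    exact integrable_finsetSum _ fun j _ => (((hr i).mul (hr j)).integrable (μ := μ)).const_mul _

omit [Fintype ι] in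
lemma integrable_ccov_aL [IsProbabilityMeasure μ] (m : MeasurableSpace Ω) {g : ι → ℝ}
    {r : ι → Ω → ℝ} (hr : ∀ i, BM (mΩ := mΩ) (r i)) (hc : ∀ i, μ[r i | m] =ᵐ[μ] 0)
    (s t : Finset ι) : Integrable (ccov μ m (aL g r s) (aL g r t)) μ := by
  have h1 : ccov μ m (aL g r s) (aL g r t) =ᵐ[μ] μ[fun ω => aL g r s ω * aL g r t ω | m] := by
    filter_upwards [condExp_aL (g := g) m hr hc s] with ω h
    simp only [ccov]
    rw [h]
    simp
  exact integrable_condExp.congr h1.symm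

lemma cross_insert_le [IsProbabilityMeasure μ] {m : MeasurableSpace Ω} (hm : m ≤ mΩ) {g : ι → ℝ}
    {r : ι → Ω → ℝ} (hA : NP μ m r) (hc : ∀ i, μ[r i | m] =ᵐ[μ] 0)
    (b : ι → β) (b0 : β) (T : Finset β) (hb : b0 ∉ T) :
    (∑ i ∈ sT b {b0}, ∑ j ∈ sT b T, |g i| * |g j| * ∫ ω, r i ω * r j ω ∂μ) +
      cross μ g r b (sT b T) ≤ cross μ g r b (sT b (insert b0 T)) := by
  classical
  have hdisj : Disjoint (sT b {b0}) (sT b T) := by
    rw [Finset.disjoint_left]
    intro i h1 h2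
    simp only [sT, mem_filter, mem_univ, true_and, mem_singleton] at h1 h2
    exact hb (h1 ▸ h2)
  have hun : sT b (insert b0 T) = sT b {b0} ∪ sT b T := by
    ext i
    simp only [sT, mem_insert, mem_filter, mem_univ, true_and, mem_singleton, mem_union]
  have hnn : ∀ i j, 0 ≤ (if b i = b j then 0 else |g i| * |g j| * ∫ ω, r i ω * r j ω ∂μ) := by
    intro i j
    split_ifs
    · exact le_rfl
    · exact mul_nonneg (mul_nonneg (abs_nonneg _) (abs_nonneg _))
        (integral_mul_nonneg_of_assoc hm hA hc i j)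
  unfold cross
  rw [hun, Finset.sum_union hdisj]
  refine add_le_add ?_ ?_
  · refine Finset.sum_le_sum fun i hi => ?_
    rw [Finset.sum_union hdisj]
    have h1 : ∑ j ∈ sT b T, |g i| * |g j| * ∫ ω, r i ω * r j ω ∂μ =
        ∑ j ∈ sT b T, (if b i = b j then 0 else |g i| * |g j| * ∫ ω, r i ω * r j ω ∂μ) := by
      refine Finset.sum_congr rfl fun j hj => ?_
      simp only [sT, mem_filter, mem_univ, true_and, mem_singleton] at hi hj
      rw [if_neg]
      intro h
      exact hb (hi ▸ h ▸ hj)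
    rw [h1]
    exact le_add_of_nonneg_left (Finset.sum_nonneg fun j _ => hnn i j)
  · refine Finset.sum_le_sum fun i _ => ?_
    rw [Finset.sum_union hdisj]
    exact le_add_of_nonneg_left (Finset.sum_nonneg fun j _ => hnn i j)

omit [DecidableEq β] in
lemma integrable_prod_condExp [IsProbabilityMeasure μ] {m : MeasurableSpace Ω} (hm : m ≤ mΩ)
    (T : Finset β) (f : β → Ω → ℂ) (hf : ∀ b ω, ‖f b ω‖ ≤ 1) (hfi : ∀ b, Integrable (f b) μ) :
    Integrable (fun ω => ∏ b ∈ T, (μ[f b | m]) ω) μ := by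
  refine Integrable.of_bound ?_ 1 ?_
  · refine Finset.aestronglyMeasurable_fun_prod T fun b _ => ?_
    exact (stronglyMeasurable_condExp.mono hm).aestronglyMeasurable
  · have h : ∀ᵐ ω ∂μ, ∀ b ∈ T, ‖(μ[f b | m]) ω‖ ≤ 1 :=
      (Finset.eventually_all T (l := ae μ) (p := fun b ω => ‖(μ[f b | m]) ω‖ ≤ 1)).2
        (fun b _ => norm_condExp_le_one hm (hf b) (hfi b))
    filter_upwards [h] with ω h
    rw [norm_prod]
    exact Finset.prod_le_one (fun b _ => norm_nonneg _) h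

/-- Block form of the conditional Newman inequality (integrated). -/
theorem newman_blocks [IsProbabilityMeasure μ] {m : MeasurableSpace Ω} (hm : m ≤ mΩ) {g : ι → ℝ}
    {r : ι → Ω → ℝ} (hr : ∀ i, BM (mΩ := mΩ) (r i)) (hA : NP μ m r)
    (hc : ∀ i, μ[r i | m] =ᵐ[μ] 0) (b : ι → β) (T : Finset β) :
    ∫ ω, ‖(μ[fun ω => ei (lL g r (sT b T) ω) | m]) ω -
      ∏ c ∈ T, (μ[fun ω => ei (lL g r (sT b {c}) ω) | m]) ω‖ ∂μ ≤
      4 * cross μ g r b (sT b T) := by
  classical
  have hi : ∀ s : Finset ι, Integrable (fun ω => ei (lL g r s ω)) μ := fun s =>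
    integrable_ei (bm_lL hr s).1
  have hn : ∀ (s : Finset ι) ω, ‖ei (lL g r s ω)‖ ≤ 1 := fun s ω => (norm_ei _).le
  induction T using Finset.induction_on with
  | empty =>
    have h0 : sT b (∅ : Finset β) = ∅ := by simp [sT]
    rw [h0]
    have h1 : (fun ω => ei (lL g r (∅ : Finset ι) ω)) = fun _ : Ω => (1 : ℂ) := by
      funext ω
      simp [lL, ei_zero]
    rw [h1]
    simp only [condExp_const hm, prod_empty, sub_self, norm_zero, integral_zero, cross, sum_empty, sum_const_zero, mul_zero, Std.le_refl]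
  | insert c T hcT ih =>
    have hsplit : ∀ ω, lL g r (sT b (insert c T)) ω = lL g r (sT b {c}) ω + lL g r (sT b T) ω := by
      intro ω
      have hdisj : Disjoint (sT b {c}) (sT b T) := by
        rw [Finset.disjoint_left]
        intro i h1 h2
        simp only [sT, mem_filter, mem_univ, true_and, mem_singleton] at h1 h2
        exact hcT (h1 ▸ h2)
      have hun : sT b (insert c T) = sT b {c} ∪ sT b T := by
        ext i
        simp only [sT, mem_insert, mem_filter, mem_univ, true_and, mem_singleton, mem_union]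
      unfold lL
      rw [hun, Finset.sum_union hdisj]
    have e1 : (fun ω => ei (lL g r (sT b (insert c T)) ω)) =
        fun ω => ei (lL g r (sT b {c}) ω) * ei (lL g r (sT b T) ω) := by
      funext ω
      rw [hsplit, ei_add]
    rw [e1]
    have hP := integrable_prod_condExp (μ := μ) hm T (fun c ω => ei (lL g r (sT b {c}) ω))
      (fun c ω => hn _ ω) (fun c => hi _)
    have k1 := hA.ineq g (sT b {c}) (sT b T)
    have k2 := norm_condExp_le_one (μ := μ) hm (hn (sT b {c})) (hi _)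
    have hd : Integrable (fun ω => ‖(μ[fun ω => ei (lL g r (sT b T) ω) | m]) ω -
        ∏ c ∈ T, (μ[fun ω => ei (lL g r (sT b {c}) ω) | m]) ω‖) μ :=
      (integrable_condExp.sub hP).norm
    have hcc := (integrable_ccov_aL (μ := μ) (g := g) m hr hc (sT b {c}) (sT b T)).const_mul 4
    calc ∫ ω, ‖(μ[fun ω => ei (lL g r (sT b {c}) ω) * ei (lL g r (sT b T) ω) | m]) ω -
          ∏ c ∈ insert c T, (μ[fun ω => ei (lL g r (sT b {c}) ω) | m]) ω‖ ∂μ
        ≤ ∫ ω, (4 * ccov μ m (aL g r (sT b {c})) (aL g r (sT b T)) ω +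
          ‖(μ[fun ω => ei (lL g r (sT b T) ω) | m]) ω -
            ∏ c ∈ T, (μ[fun ω => ei (lL g r (sT b {c}) ω) | m]) ω‖) ∂μ := by
          refine integral_mono_of_nonneg (ae_of_all _ fun ω => norm_nonneg _) (hcc.add hd) ?_
          filter_upwards [k1, k2] with ω a1 a2
          rw [Finset.prod_insert hcT]
          set A := (μ[fun ω => ei (lL g r (sT b {c}) ω) * ei (lL g r (sT b T) ω) | m]) ω
          set B := (μ[fun ω => ei (lL g r (sT b {c}) ω) | m]) ω
          set C := (μ[fun ω => ei (lL g r (sT b T) ω) | m]) ω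
          set D := ∏ c ∈ T, (μ[fun ω => ei (lL g r (sT b {c}) ω) | m]) ω
          have : A - B * D = (A - B * C) + B * (C - D) := by ring
          rw [this]
          refine (norm_add_le _ _).trans (add_le_add a1 ?_)
          rw [norm_mul]
          calc ‖B‖ * ‖C - D‖ ≤ 1 * ‖C - D‖ := mul_le_mul_of_nonneg_right a2 (norm_nonneg _)
            _ = _ := one_mul _
      _ = 4 * (∑ i ∈ sT b {c}, ∑ j ∈ sT b T, |g i| * |g j| * ∫ ω, r i ω * r j ω ∂μ) +
          ∫ ω, ‖(μ[fun ω => ei (lL g r (sT b T) ω) | m]) ω -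
            ∏ c ∈ T, (μ[fun ω => ei (lL g r (sT b {c}) ω) | m]) ω‖ ∂μ := by
          rw [integral_add hcc hd, integral_const_mul, integral_ccov_aL hm hr hc]
      _ ≤ 4 * (∑ i ∈ sT b {c}, ∑ j ∈ sT b T, |g i| * |g j| * ∫ ω, r i ω * r j ω ∂μ) +
          4 * cross μ g r b (sT b T) := add_le_add le_rfl ih
      _ ≤ 4 * cross μ g r b (sT b (insert c T)) := by
          rw [← mul_add]
          exact mul_le_mul_of_nonneg_left (cross_insert_le hm hA hc b c T hcT) (by norm_num)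

end Vale.Agent.P145W85.P153.CLT
end

section

/-!
# Central limit theorem for martingale differences that are conditionally associated

The characteristic function of `∑_j ∑_i g j i * r j i` is close to `exp (-s / 2)`, with an
explicit error: cross covariances between different blocks, the size of the block sums, and
the `L¹` fluctuation of the total conditional block variance.
-/

namespace Vale.Agent.P145W85.P153.CLT

open MeasureTheory Filter Finset
open scoped Topology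

variable {Ω : Type*} {mΩ : MeasurableSpace Ω} {μ : Measure Ω}

lemma taylor_ei {x : ℝ} (hx : |x| ≤ 1) :
    ‖ei x - (1 + Complex.I * x - ((x ^ 2 / 2 : ℝ) : ℂ))‖ ≤ 2 / 9 * |x| ^ 3 := by
  have h1 : ‖Complex.I * (x : ℂ)‖ = |x| := by
    rw [norm_mul, Complex.norm_I, one_mul, Complex.norm_real, Real.norm_eq_abs]
  have h := Complex.exp_bound (x := Complex.I * x) (by rw [h1]; exact hx) (n := 3) (by norm_num)
  rw [h1] at h
  have e : ∑ m ∈ range 3, (Complex.I * (x : ℂ)) ^ m / (m.factorial : ℂ) =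
      1 + Complex.I * x - ((x ^ 2 / 2 : ℝ) : ℂ) := by
    simp only [Finset.sum_range_succ, Finset.sum_range_zero, Nat.factorial]
    push_cast
    ring_nf
    rw [Complex.I_sq]
    ring
  rw [e] at h
  refine h.trans (le_of_eq ?_)
  norm_num [Nat.factorial]
  ring

lemma exp_neg_half_bound {v : ℝ} (h0 : 0 ≤ v) (h1 : v ≤ 1) :
    |Real.exp (-v / 2) - (1 - v / 2)| ≤ v ^ 2 / 4 := by
  have h := Real.abs_exp_sub_one_sub_id_le (x := -v / 2) (by
    rw [abs_le]
    constructor <;> linarith only [h0, h1])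
  have e : Real.exp (-v / 2) - (1 - v / 2) = Real.exp (-v / 2) - 1 - -v / 2 := by ring
  rw [e]
  refine h.trans (le_of_eq ?_)
  ring

/-- Conditional Taylor expansion of one block. -/
lemma taylor_block [IsProbabilityMeasure μ] {m : MeasurableSpace Ω} (hm : m ≤ mΩ) {X : Ω → ℝ}
    (hX : Measurable[mΩ] X) {η : ℝ} (hη : η ≤ 1) (hb : ∀ ω, |X ω| ≤ η)
    (hc : μ[X | m] =ᵐ[μ] 0) :
    ∀ᵐ ω ∂μ, ‖(μ[fun ω => ei (X ω) | m]) ω -
      ((Real.exp (-|(μ[fun ω => X ω ^ 2 | m]) ω| / 2) : ℝ) : ℂ)‖ ≤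
      η * |(μ[fun ω => X ω ^ 2 | m]) ω| := by
  obtain ⟨ω0⟩ : Nonempty Ω := by
    by_contra h
    rw [not_nonempty_iff] at h
    have h1 := measure_univ (μ := μ)
    rw [Set.univ_eq_empty_iff.2 h, measure_empty] at h1
    exact zero_ne_one h1
  have hη0 : 0 ≤ η := (abs_nonneg _).trans (hb ω0)
  have hXi : Integrable X μ := integrable_of_norm_le hX.aestronglyMeasurable η hb
  have hX2b : ∀ ω, |X ω ^ 2| ≤ η ^ 2 := by
    intro ω
    rw [abs_pow]
    exact pow_le_pow_left₀ (abs_nonneg _) (hb ω) 2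
  have hX2i : Integrable (fun ω => X ω ^ 2) μ :=
    integrable_of_norm_le (hX.pow_const 2).aestronglyMeasurable (η ^ 2) hX2b
  have hei : Integrable (fun ω => ei (X ω)) μ := integrable_ei hX
  -- the quadratic polynomial
  set q : Ω → ℂ := fun ω => 1 + Complex.I * X ω - ((X ω ^ 2 / 2 : ℝ) : ℂ) with hq
  have hXc : Integrable (fun ω => Complex.I * (X ω : ℂ)) μ := (hXi.ofReal).const_mul _
  have hX2c : Integrable (fun ω => ((X ω ^ 2 / 2 : ℝ) : ℂ)) μ := (hX2i.div_const 2).ofReal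
  have hqi : Integrable q μ := ((integrable_const 1).add hXc).sub hX2c
  have hre := condExp_re m hqi
  have him := condExp_im m hqi
  have e1 : (fun ω => (q ω).re) = (fun _ => (1 : ℝ)) - (2 : ℝ)⁻¹ • (fun ω => X ω ^ 2) := by
    funext ω
    simp only [hq, Complex.sub_re, Complex.add_re, Complex.one_re, Complex.mul_re, Complex.I_re,
      Complex.I_im, Complex.ofReal_re, Complex.ofReal_im, Pi.sub_apply, Pi.smul_apply, smul_eq_mul]
    ring
  have e2 : (fun ω => (q ω).im) = X := by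
    funext ω
    simp only [hq, Complex.sub_im, Complex.add_im, Complex.one_im, Complex.mul_im, Complex.I_re,
      Complex.I_im, Complex.ofReal_re, Complex.ofReal_im]
    ring
  rw [e1] at hre
  rw [e2] at him
  have c1 := condExp_sub (μ := μ) (integrable_const (1 : ℝ)) (hX2i.smul (2 : ℝ)⁻¹) m
  have c2 := condExp_smul (μ := μ) (2 : ℝ)⁻¹ (fun ω => X ω ^ 2) m
  rw [condExp_const hm] at c1
  -- comparison of `ei X` with the polynomial
  have d1 := condExp_sub hei hqi m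
  have d2 := norm_condExp_le (μ := μ) (m := m) ((fun ω => ei (X ω)) - q)
  have d3 : μ[fun ω => ‖((fun ω => ei (X ω)) - q) ω‖ | m] ≤ᵐ[μ]
      μ[(2 / 9 * η) • (fun ω => X ω ^ 2) | m] := by
    refine condExp_mono (hei.sub hqi).norm (hX2i.smul _) (ae_of_all _ fun ω => ?_)
    simp only [Pi.sub_apply, Pi.smul_apply, smul_eq_mul]
    refine (taylor_ei ((hb ω).trans hη)).trans ?_
    have : |X ω| ^ 3 = |X ω| * X ω ^ 2 := by
      rw [← sq_abs (X ω)]
      ring
    rw [this]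
    have h2 := mul_le_mul_of_nonneg_right (hb ω) (sq_nonneg (X ω))
    linarith only [h2]
  have d4 := condExp_smul (μ := μ) (2 / 9 * η) (fun ω => X ω ^ 2) m
  have p1 : 0 ≤ᵐ[μ] μ[fun ω => X ω ^ 2 | m] := condExp_nonneg (ae_of_all _ fun ω => sq_nonneg _)
  have p2 : μ[fun ω => X ω ^ 2 | m] ≤ᵐ[μ] μ[fun _ => η ^ 2 | m] :=
    condExp_mono hX2i (integrable_const _) (ae_of_all _ fun ω => (le_abs_self _).trans (hX2b ω))
  rw [condExp_const hm] at p2
  filter_upwards [hre, him, c1, c2, d1, d2, d3, d4, p1, p2, hc] with ω hre him c1 c2 d1 d2 d3 d4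
    p1 p2 hc
  set v := (μ[fun ω => X ω ^ 2 | m]) ω with hv
  have p1' : 0 ≤ v := p1
  rw [abs_of_nonneg p1']
  have hq' : (μ[q | m]) ω = ((1 - v / 2 : ℝ) : ℂ) := by
    apply Complex.ext
    · rw [hre, c1, Pi.sub_apply, c2, Pi.smul_apply, smul_eq_mul, ← hv, Complex.ofReal_re]
      ring
    · rw [him, hc, Complex.ofReal_im]
      rfl
  have hv1 : v ≤ η ^ 2 := p2
  have hv2 : v ≤ η := hv1.trans (by nlinarith only [hη, hη0])
  have a1 : ‖(μ[fun ω => ei (X ω) | m]) ω - (μ[q | m]) ω‖ ≤ 2 / 9 * η * v := by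
    rw [← Pi.sub_apply, ← d1]
    refine d2.trans (d3.trans ?_)
    rw [d4, Pi.smul_apply, smul_eq_mul]
  have a2 : ‖(((1 - v / 2 : ℝ) : ℂ)) - ((Real.exp (-v / 2) : ℝ) : ℂ)‖ ≤ η * v / 4 := by
    rw [← Complex.ofReal_sub, Complex.norm_real, Real.norm_eq_abs, abs_sub_comm]
    refine (exp_neg_half_bound p1' (hv2.trans hη)).trans ?_
    have := mul_le_mul_of_nonneg_right hv2 p1'
    nlinarith only [this]
  calc ‖(μ[fun ω => ei (X ω) | m]) ω - ((Real.exp (-v / 2) : ℝ) : ℂ)‖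
      = ‖((μ[fun ω => ei (X ω) | m]) ω - (μ[q | m]) ω) +
        ((((1 - v / 2 : ℝ) : ℂ)) - ((Real.exp (-v / 2) : ℝ) : ℂ))‖ := by
        rw [hq']
        congr 1
        ring
    _ ≤ 2 / 9 * η * v + η * v / 4 := (norm_add_le _ _).trans (add_le_add a1 a2)
    _ ≤ η * v := by
        have := mul_nonneg hη0 p1'
        nlinarith only [this]

lemma norm_prod_sub_prod_le {β : Type*} (T : Finset β) (a c : β → ℂ) (ha : ∀ b ∈ T, ‖a b‖ ≤ 1)
    (hc : ∀ b ∈ T, ‖c b‖ ≤ 1) :
    ‖∏ b ∈ T, a b - ∏ b ∈ T, c b‖ ≤ ∑ b ∈ T, ‖a b - c b‖ := by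
  classical
  induction T using Finset.induction_on with
  | empty => simp only [prod_empty, sub_self, norm_zero, sum_empty, Std.le_refl]
  | insert b T hb ih =>
    rw [Finset.prod_insert hb, Finset.prod_insert hb, Finset.sum_insert hb]
    have ih := ih (fun i hi => ha i (mem_insert_of_mem hi)) (fun i hi => hc i (mem_insert_of_mem hi))
    have e : a b * ∏ i ∈ T, a i - c b * ∏ i ∈ T, c i =
        (a b - c b) * ∏ i ∈ T, a i + c b * (∏ i ∈ T, a i - ∏ i ∈ T, c i) := by ring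
    rw [e]
    refine (norm_add_le _ _).trans ?_
    rw [norm_mul, norm_mul]
    refine add_le_add ?_ ?_
    · have : ‖∏ i ∈ T, a i‖ ≤ 1 := by
        rw [norm_prod]
        exact Finset.prod_le_one (fun i _ => norm_nonneg _) fun i hi => ha i (mem_insert_of_mem hi)
      calc _ ≤ ‖a b - c b‖ * 1 := mul_le_mul_of_nonneg_left this (norm_nonneg _)
        _ = _ := mul_one _
    · calc _ ≤ 1 * ‖∏ i ∈ T, a i - ∏ i ∈ T, c i‖ :=
            mul_le_mul_of_nonneg_right (hc b (mem_insert_self _ _)) (norm_nonneg _)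
        _ = ‖∏ i ∈ T, a i - ∏ i ∈ T, c i‖ := one_mul _
        _ ≤ _ := ih

variable {ι β : Type*} [Fintype ι] [Fintype β] [DecidableEq β]

/-- The conditional block variance. -/
noncomputable def bvar (μ : Measure[mΩ] Ω) (m : MeasurableSpace Ω) (g : ι → ℝ) (r : ι → Ω → ℝ)
    (b : ι → β) (ω : Ω) : ℝ :=
  ∑ c : β, |(μ[fun ω => lL g r (sT b {c}) ω ^ 2 | m]) ω|

/-- One row: conditional characteristic function against the Gaussian one. -/
theorem row_bound [IsProbabilityMeasure μ] {m : MeasurableSpace Ω} (hm : m ≤ mΩ) {g : ι → ℝ}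
    {r : ι → Ω → ℝ} (hr : ∀ i, BM (mΩ := mΩ) (r i)) (hA : NP μ m r)
    (hc : ∀ i, μ[r i | m] =ᵐ[μ] 0) (b : ι → β) {η : ℝ} (hη : η ≤ 1)
    (hb : ∀ c ω, |lL g r (sT b {c}) ω| ≤ η) :
    ∫ ω, ‖(μ[fun ω => ei (∑ i, g i * r i ω) | m]) ω -
      ((Real.exp (-bvar μ m g r b ω / 2) : ℝ) : ℂ)‖ ∂μ ≤
      4 * cross μ g r b univ + η * ∑ c : β, ∫ ω, lL g r (sT b {c}) ω ^ 2 ∂μ := by
  have hN := newman_blocks (μ := μ) (g := g) hm hr hA hc b (univ : Finset β)
  have hu : sT b (univ : Finset β) = univ := by simp only [sT, mem_univ, filter_true]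
  rw [hu] at hN
  have hcl : ∀ c : β, μ[lL g r (sT b {c}) | m] =ᵐ[μ] 0 := by
    intro c
    have e : lL g r (sT b {c}) = ∑ i ∈ sT b {c}, (g i) • r i := by
      funext ω
      simp [lL, Finset.sum_apply]
    rw [e]
    have h1 := condExp_finsetSum (μ := μ) (s := sT b {c}) (f := fun i => (g i) • r i)
      (fun i _ => ((hr i).integrable (μ := μ)).smul _) m
    refine h1.trans ?_
    have h3 : ∀ᵐ ω ∂μ, ∀ i ∈ sT b {c}, (μ[(g i) • r i | m]) ω = 0 := by
      refine (Finset.eventually_all (sT b {c}) (l := ae μ)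
        (p := fun i ω => (μ[(g i) • r i | m]) ω = 0)).2 (fun i _ => ?_)
      filter_upwards [condExp_smul (μ := μ) (g i) (r i) m, hc i] with ω a b
      rw [a, Pi.smul_apply, b]
      simp
    filter_upwards [h3] with ω h
    rw [Finset.sum_apply, Pi.zero_apply]
    exact Finset.sum_eq_zero h
  have hi : ∀ s : Finset ι, Integrable (fun ω => ei (lL g r s ω)) μ := fun s =>
    integrable_ei (bm_lL hr s).1
  have hT : ∀ᵐ ω ∂μ, ∀ c : β, ‖(μ[fun ω => ei (lL g r (sT b {c}) ω) | m]) ω -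
      ((Real.exp (-|(μ[fun ω => lL g r (sT b {c}) ω ^ 2 | m]) ω| / 2) : ℝ) : ℂ)‖ ≤
      η * |(μ[fun ω => lL g r (sT b {c}) ω ^ 2 | m]) ω| :=
    ae_all_iff.2 fun c => taylor_block hm (bm_lL hr _).1 hη (hb c) (hcl c)
  have hO : ∀ᵐ ω ∂μ, ∀ c : β, ‖(μ[fun ω => ei (lL g r (sT b {c}) ω) | m]) ω‖ ≤ 1 :=
    ae_all_iff.2 fun c => norm_condExp_le_one hm (fun ω => (norm_ei _).le) (hi _)
  have hP := integrable_prod_condExp (μ := μ) hm (univ : Finset β)
      (fun c ω => ei (lL g r (sT b {c}) ω)) (fun c ω => (norm_ei _).le) (fun c => hi _)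
  have hd : Integrable (fun ω => ‖(μ[fun ω => ei (lL g r univ ω) | m]) ω -
        ∏ c : β, (μ[fun ω => ei (lL g r (sT b {c}) ω) | m]) ω‖) μ :=
      (integrable_condExp.sub hP).norm
  have hV : Integrable (fun ω => η * bvar μ m g r b ω) μ := by
    refine Integrable.const_mul ?_ _
    exact integrable_finsetSum _ fun c _ => integrable_condExp.abs
  have hVint : ∫ ω, bvar μ m g r b ω ∂μ = ∑ c : β, ∫ ω, lL g r (sT b {c}) ω ^ 2 ∂μ := by
    unfold bvar
    rw [integral_finsetSum _ fun c _ => integrable_condExp.abs]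
    refine Finset.sum_congr rfl fun c _ => ?_
    rw [← integral_condExp hm (f := fun ω => lL g r (sT b {c}) ω ^ 2)]
    refine integral_congr_ae ?_
    filter_upwards [condExp_nonneg (μ := μ) (m := m)
      (f := fun ω => lL g r (sT b {c}) ω ^ 2) (ae_of_all _ fun ω => sq_nonneg _)] with ω h
    exact abs_of_nonneg h
  have e0 : (fun ω => ei (∑ i, g i * r i ω)) = fun ω => ei (lL g r univ ω) := rfl
  rw [e0]
  calc ∫ ω, ‖(μ[fun ω => ei (lL g r univ ω) | m]) ω -
      ((Real.exp (-bvar μ m g r b ω / 2) : ℝ) : ℂ)‖ ∂μ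
      ≤ ∫ ω, (‖(μ[fun ω => ei (lL g r univ ω) | m]) ω -
        ∏ c : β, (μ[fun ω => ei (lL g r (sT b {c}) ω) | m]) ω‖ + η * bvar μ m g r b ω) ∂μ := by
        refine integral_mono_of_nonneg (ae_of_all _ fun ω => norm_nonneg _) (hd.add hV) ?_
        filter_upwards [hT, hO] with ω h1 h2
        have e1 : ((Real.exp (-bvar μ m g r b ω / 2) : ℝ) : ℂ) =
            ∏ c : β, ((Real.exp (-|(μ[fun ω => lL g r (sT b {c}) ω ^ 2 | m]) ω| / 2) : ℝ) : ℂ) := by
          rw [← Complex.ofReal_prod, ← Real.exp_sum]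
          congr 2
          unfold bvar
          rw [← Finset.sum_div, Finset.sum_neg_distrib]
        rw [e1]
        set A := (μ[fun ω => ei (lL g r univ ω) | m]) ω
        set B := ∏ c : β, (μ[fun ω => ei (lL g r (sT b {c}) ω) | m]) ω
        set D := ∏ c : β, ((Real.exp (-|(μ[fun ω => lL g r (sT b {c}) ω ^ 2 | m]) ω| / 2) : ℝ) : ℂ)
        have : A - D = (A - B) + (B - D) := by ring
        rw [this]
        refine (norm_add_le _ _).trans (add_le_add le_rfl ?_)
        refine (norm_prod_sub_prod_le _ _ _ (fun c _ => h2 c) (fun c _ => ?_)).trans ?_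
        · rw [Complex.norm_real, Real.norm_eq_abs, abs_of_pos (Real.exp_pos _),
            Real.exp_le_one_iff]
          have := abs_nonneg ((μ[fun ω => lL g r (sT b {c}) ω ^ 2 | m]) ω)
          linarith only [this]
        · unfold bvar
          rw [Finset.mul_sum]
          exact Finset.sum_le_sum fun c _ => h1 c
    _ = ∫ ω, ‖(μ[fun ω => ei (lL g r univ ω) | m]) ω -
        ∏ c : β, (μ[fun ω => ei (lL g r (sT b {c}) ω) | m]) ω‖ ∂μ +
        η * ∑ c : β, ∫ ω, lL g r (sT b {c}) ω ^ 2 ∂μ := by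
        rw [integral_add hd hV, integral_const_mul, hVint]
    _ ≤ _ := add_le_add hN le_rfl

/-- Central limit theorem for conditionally associated martingale differences: explicit bound
for the characteristic function. -/
theorem np_mart_clt [IsProbabilityMeasure μ] (F : ℕ → MeasurableSpace Ω) (hF : ∀ j, F j ≤ mΩ)
    (hmono : Monotone F) (r : ℕ → ι → Ω → ℝ) (g : ℕ → ι → ℝ) (b : ι → β)
    (hrm : ∀ j i, Measurable[F (j + 1)] (r j i)) (C : ℝ) (hrb : ∀ j i ω, |r j i ω| ≤ C)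
    (hA : ∀ j, NP μ (F j) (r j)) (hc : ∀ j i, μ[r j i | F j] =ᵐ[μ] 0)
    {η : ℝ} (hη : η ≤ 1) (hb : ∀ j c ω, |lL (g j) (r j) (sT b {c}) ω| ≤ η)
    (s : ℝ) (hs : 0 ≤ s) (J : ℕ) :
    ‖∫ ω, ei (∑ j ∈ range J, ∑ i, g j i * r j i ω) ∂μ - ((Real.exp (-s / 2) : ℝ) : ℂ)‖ ≤
      2 * ∑ j ∈ range J, (4 * cross μ (g j) (r j) b univ +
        η * ∑ c : β, ∫ ω, lL (g j) (r j) (sT b {c}) ω ^ 2 ∂μ) +
      (s + 4) * ∫ ω, |∑ j ∈ range J, bvar μ (F j) (g j) (r j) b ω - s| ∂μ := by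
  have hBM : ∀ j i, BM (mΩ := mΩ) (r j i) := fun j i =>
    ⟨(hrm j i).mono (hF _) le_rfl, C, hrb j i⟩
  have hmV : ∀ j, Measurable[F j] (bvar μ (F j) (g j) (r j) b) := by
    intro j
    unfold bvar
    refine Finset.measurable_sum _ fun c _ => ?_
    exact continuous_abs.measurable.comp stronglyMeasurable_condExp.measurable
  have h := mart_clt (μ := μ) F hF hmono (fun j ω => ∑ i, g j i * r j i ω)
    (fun j => bvar μ (F j) (g j) (r j) b)
    (fun j => Finset.measurable_sum _ fun i _ => (hrm j i).const_mul _) hmV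
    (fun j ω => Finset.sum_nonneg fun c _ => abs_nonneg _)
    (fun j => integrable_finsetSum _ fun c _ => integrable_condExp.abs) s hs J
  refine h.trans (add_le_add (mul_le_mul_of_nonneg_left (Finset.sum_le_sum fun j _ => ?_)
    (by norm_num)) le_rfl)
  exact row_bound (hF j) (hBM j) (hA j) (hc j) b hη (hb j)

end Vale.Agent.P145W85.P153.CLT
end

section

/-!
# Conditional variances replaced by squares

Version of the central limit theorem where the hypothesis is on the sum of the squares of the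
block sums instead of the sum of their conditional variances.
-/

namespace Vale.Agent.P145W85.P153.CLT

open MeasureTheory Filter Finset
open scoped Topology ENNReal

variable {Ω : Type*} {mΩ : MeasurableSpace Ω} {μ : Measure Ω}

lemma BM.memLp [IsFiniteMeasure μ] {X : Ω → ℝ} (hX : BM (mΩ := mΩ) X) (p : ℝ≥0∞) :
    MemLp X p μ := by
  obtain ⟨h1, C, hC⟩ := hX
  exact MemLp.of_bound h1.aestronglyMeasurable C (ae_of_all _ hC)

lemma int3 {f g h : Ω → ℝ} (hf : Integrable f μ) (hg : Integrable g μ) (hh : Integrable h μ)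
    (c : ℝ) : ∫ ω, (f ω + c * g ω + h ω) ∂μ = ∫ ω, f ω ∂μ + c * ∫ ω, g ω ∂μ + ∫ ω, h ω ∂μ := by
  have h1 : ∫ ω, (f ω + c * g ω + h ω) ∂μ = ∫ ω, (f ω + c * g ω) ∂μ + ∫ ω, h ω ∂μ :=
    integral_add (hf.add (hg.const_mul c)) hh
  have h2 : ∫ ω, (f ω + c * g ω) ∂μ = ∫ ω, f ω ∂μ + ∫ ω, c * g ω ∂μ :=
    integral_add hf (hg.const_mul c)
  rw [h1, h2, integral_const_mul]

/-- Orthogonality of the martingale `∑ (Q j - E[Q j | F j])`. -/
lemma mart_sq [IsProbabilityMeasure μ] (F : ℕ → MeasurableSpace Ω) (hF : ∀ j, F j ≤ mΩ)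
    (hmono : Monotone F) (Q : ℕ → Ω → ℝ) (hQm : ∀ j, Measurable[F (j + 1)] (Q j))
    (hQ : ∀ j, BM (mΩ := mΩ) (Q j)) (J : ℕ) :
    MemLp (fun ω => ∑ j ∈ range J, (Q j ω - (μ[Q j | F j]) ω)) 2 μ ∧
    ∫ ω, (∑ j ∈ range J, (Q j ω - (μ[Q j | F j]) ω)) ^ 2 ∂μ ≤
      ∑ j ∈ range J, ∫ ω, Q j ω ^ 2 ∂μ := by
  have hV2 : ∀ j, MemLp (μ[Q j | F j]) 2 μ := fun j => ((hQ j).memLp 2).condExp (by norm_num)
  have hD2 : ∀ j, MemLp (fun ω => Q j ω - (μ[Q j | F j]) ω) 2 μ := fun j =>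
    ((hQ j).memLp 2).sub (hV2 j)
  have hDi : ∀ j, Integrable (fun ω => Q j ω - (μ[Q j | F j]) ω) μ := fun j =>
    (hD2 j).integrable (by norm_num)
  have hD0 : ∀ j, μ[fun ω => Q j ω - (μ[Q j | F j]) ω | F j] =ᵐ[μ] 0 := by
    intro j
    have h1 := condExp_sub (μ := μ) ((hQ j).integrable) (integrable_condExp (f := Q j) (m := F j)
      (μ := μ)) (F j)
    have h2 := condExp_of_stronglyMeasurable (μ := μ) (hF j)
      (stronglyMeasurable_condExp (f := Q j) (m := F j) (μ := μ)) integrable_condExp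
    have h3 : (fun ω => Q j ω - (μ[Q j | F j]) ω) = Q j - μ[Q j | F j] := rfl
    rw [h3]
    filter_upwards [h1] with ω a
    rw [a, Pi.sub_apply, h2]
    simp
  -- one term
  have hDsq : ∀ j, ∫ ω, (Q j ω - (μ[Q j | F j]) ω) ^ 2 ∂μ ≤ ∫ ω, Q j ω ^ 2 ∂μ := by
    intro j
    have i1 : Integrable (fun ω => Q j ω * (μ[Q j | F j]) ω) μ :=
      ((hQ j).memLp 2).integrable_mul (hV2 j)
    have i2 : Integrable (fun ω => Q j ω ^ 2) μ := ((hQ j).memLp 2).integrable_sq
    have i3 : Integrable (fun ω => (μ[Q j | F j]) ω ^ 2) μ := (hV2 j).integrable_sq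
    have e1 : ∫ ω, Q j ω * (μ[Q j | F j]) ω ∂μ = ∫ ω, (μ[Q j | F j]) ω ^ 2 ∂μ := by
      have h1 := condExp_mul_of_stronglyMeasurable_right (μ := μ)
        (stronglyMeasurable_condExp (f := Q j) (m := F j) (μ := μ)) i1 (hQ j).integrable
      rw [← integral_condExp (hF j) (f := fun ω => Q j ω * (μ[Q j | F j]) ω)]
      refine integral_congr_ae ?_
      filter_upwards [h1] with ω a
      have a' : (μ[fun ω => Q j ω * (μ[Q j | F j]) ω | F j]) ω =
        (μ[Q j | F j]) ω * (μ[Q j | F j]) ω := a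
      rw [a']
      ring
    have e2 : ∫ ω, (Q j ω - (μ[Q j | F j]) ω) ^ 2 ∂μ =
        ∫ ω, Q j ω ^ 2 ∂μ - ∫ ω, (μ[Q j | F j]) ω ^ 2 ∂μ := by
      have e3 : (fun ω => (Q j ω - (μ[Q j | F j]) ω) ^ 2) = fun ω =>
          Q j ω ^ 2 + (-2) * (Q j ω * (μ[Q j | F j]) ω) + (μ[Q j | F j]) ω ^ 2 := by
        funext ω
        ring
      rw [e3, int3 i2 i1 i3, e1]
      ring
    rw [e2]
    have : 0 ≤ ∫ ω, (μ[Q j | F j]) ω ^ 2 ∂μ := integral_nonneg fun ω => sq_nonneg _
    linarith only [this]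
  induction J with
  | zero => exact ⟨by simp only [range_zero, sum_sub_distrib, sum_empty, sub_self, MemLp.zero'], by simp⟩
  | succ J ih =>
    obtain ⟨ih1, ih2⟩ := ih
    simp only [Finset.sum_range_succ]
    refine ⟨ih1.add (hD2 J), ?_⟩
    set S : Ω → ℝ := fun ω => ∑ j ∈ range J, (Q j ω - (μ[Q j | F j]) ω) with hS
    have hSm : StronglyMeasurable[F J] S := by
      refine Finset.stronglyMeasurable_fun_sum _ fun j hj => ?_
      have hj' := mem_range.1 hj
      exact (((hQm j).mono (hmono (by omega)) le_rfl).stronglyMeasurable).sub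
        (stronglyMeasurable_condExp.mono (hmono (by omega)))
    have i1 : Integrable (fun ω => S ω * (Q J ω - (μ[Q J | F J]) ω)) μ :=
      ih1.integrable_mul (hD2 J)
    have e1 : ∫ ω, S ω * (Q J ω - (μ[Q J | F J]) ω) ∂μ = 0 := by
      have h1 := condExp_mul_of_stronglyMeasurable_left (μ := μ) hSm i1 (hDi J)
      rw [← integral_condExp (hF J) (f := fun ω => S ω * (Q J ω - (μ[Q J | F J]) ω))]
      have h2 : μ[fun ω => S ω * (Q J ω - (μ[Q J | F J]) ω) | F J] =ᵐ[μ] 0 := by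
        filter_upwards [h1, hD0 J] with ω a b
        have a' : (μ[fun ω => S ω * (Q J ω - (μ[Q J | F J]) ω) | F J]) ω =
          S ω * (μ[fun ω => Q J ω - (μ[Q J | F J]) ω | F J]) ω := a
        rw [a', b]
        simp
      rw [integral_congr_ae h2]
      simp
    have i2 : Integrable (fun ω => S ω ^ 2) μ := ih1.integrable_sq
    have i3 : Integrable (fun ω => (Q J ω - (μ[Q J | F J]) ω) ^ 2) μ := (hD2 J).integrable_sq
    have e2 : (fun ω => (S ω + (Q J ω - (μ[Q J | F J]) ω)) ^ 2) = fun ω =>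
        S ω ^ 2 + 2 * (S ω * (Q J ω - (μ[Q J | F J]) ω)) + (Q J ω - (μ[Q J | F J]) ω) ^ 2 := by
      funext ω
      ring
    have e3 : ∫ ω, (S ω + (Q J ω - (μ[Q J | F J]) ω)) ^ 2 ∂μ =
        ∫ ω, S ω ^ 2 ∂μ + ∫ ω, (Q J ω - (μ[Q J | F J]) ω) ^ 2 ∂μ := by
      rw [e2, int3 i2 i1 i3, e1]
      ring
    rw [e3]
    exact add_le_add ih2 (hDsq J)

lemma integral_abs_le_sqrt [IsProbabilityMeasure μ] {f : Ω → ℝ} (hf : MemLp f 2 μ) {S : ℝ}
    (hS : ∫ ω, f ω ^ 2 ∂μ ≤ S) : ∫ ω, |f ω| ∂μ ≤ Real.sqrt S := by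
  have hi : Integrable (fun ω => |f ω|) μ := (hf.integrable (by norm_num)).abs
  have hi2 : Integrable (fun ω => f ω ^ 2) μ := hf.integrable_sq
  have h0 : 0 ≤ ∫ ω, f ω ^ 2 ∂μ := integral_nonneg fun ω => sq_nonneg _
  apply Real.le_sqrt_of_sq_le
  refine le_trans ?_ hS
  set a := ∫ ω, |f ω| ∂μ with ha
  have h1 : 0 ≤ ∫ ω, (|f ω| - a) ^ 2 ∂μ := integral_nonneg fun ω => sq_nonneg _
  have e : (fun ω => (|f ω| - a) ^ 2) = fun ω => f ω ^ 2 + (-(2 * a)) * |f ω| + a ^ 2 := by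
    funext ω
    rw [← sq_abs (f ω)]
    ring
  rw [e, int3 hi2 hi (integrable_const _), ← ha] at h1
  simp only [integral_const, probReal_univ, smul_eq_mul, one_mul] at h1
  linarith

variable {ι β : Type*} [Fintype ι] [Fintype β] [DecidableEq β]

/-- Central limit theorem for conditionally associated martingale differences, with squares of
the block sums. -/
theorem np_mart_clt_sq [IsProbabilityMeasure μ] (F : ℕ → MeasurableSpace Ω)
    (hF : ∀ j, F j ≤ mΩ) (hmono : Monotone F) (r : ℕ → ι → Ω → ℝ) (g : ℕ → ι → ℝ) (b : ι → β)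
    (hrm : ∀ j i, Measurable[F (j + 1)] (r j i)) (C : ℝ) (hrb : ∀ j i ω, |r j i ω| ≤ C)
    (hA : ∀ j, NP μ (F j) (r j)) (hc : ∀ j i, μ[r j i | F j] =ᵐ[μ] 0)
    {η : ℝ} (hη : η ≤ 1) (hb : ∀ j c ω, |lL (g j) (r j) (sT b {c}) ω| ≤ η)
    (s : ℝ) (hs : 0 ≤ s) (J : ℕ) :
    ‖∫ ω, ei (∑ j ∈ range J, ∑ i, g j i * r j i ω) ∂μ - ((Real.exp (-s / 2) : ℝ) : ℂ)‖ ≤
      2 * ∑ j ∈ range J, (4 * cross μ (g j) (r j) b univ +
        η * ∑ c : β, ∫ ω, lL (g j) (r j) (sT b {c}) ω ^ 2 ∂μ) +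
      (s + 4) * (∫ ω, |∑ j ∈ range J, ∑ c : β, lL (g j) (r j) (sT b {c}) ω ^ 2 - s| ∂μ +
        Real.sqrt (∑ j ∈ range J, ∫ ω, (∑ c : β, lL (g j) (r j) (sT b {c}) ω ^ 2) ^ 2 ∂μ)) := by
  refine (np_mart_clt F hF hmono r g b hrm C hrb hA hc hη hb s hs J).trans ?_
  refine add_le_add le_rfl (mul_le_mul_of_nonneg_left ?_ (by linarith only [hs]))
  have hBM : ∀ j i, BM (mΩ := mΩ) (r j i) := fun j i =>
    ⟨(hrm j i).mono (hF _) le_rfl, C, hrb j i⟩
  have hLm : ∀ j c, Measurable[F (j + 1)] (lL (g j) (r j) (sT b {c})) := fun j c =>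
    Finset.measurable_sum _ fun i _ => (hrm j i).const_mul _
  have hLB : ∀ j c, BM (mΩ := mΩ) (fun ω => lL (g j) (r j) (sT b {c}) ω ^ 2) := by
    intro j c
    have := (bm_lL (mΩ := mΩ) (g := g j) (hBM j) (sT b {c})).mul
      (bm_lL (mΩ := mΩ) (g := g j) (hBM j) (sT b {c}))
    have e : (fun ω => lL (g j) (r j) (sT b {c}) ω ^ 2) =
        fun ω => lL (g j) (r j) (sT b {c}) ω * lL (g j) (r j) (sT b {c}) ω := by
      funext ω
      ring
    rw [e]
    exact this
  set Q : ℕ → Ω → ℝ := fun j ω => ∑ c : β, lL (g j) (r j) (sT b {c}) ω ^ 2 with hQ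
  have hQB : ∀ j, BM (mΩ := mΩ) (Q j) := fun j => BM.sum _ fun c _ => hLB j c
  have hQm : ∀ j, Measurable[F (j + 1)] (Q j) := fun j =>
    Finset.measurable_sum _ fun c _ => (hLm j c).pow_const 2
  obtain ⟨m1, m2⟩ := mart_sq (μ := μ) F hF hmono Q hQm hQB J
  have m3 := integral_abs_le_sqrt m1 m2
  -- the conditional block variance is the conditional expectation of `Q`
  have hv : ∀ j, bvar μ (F j) (g j) (r j) b =ᵐ[μ] μ[Q j | F j] := by
    intro j
    have e : Q j = ∑ c : β, fun ω => lL (g j) (r j) (sT b {c}) ω ^ 2 := by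
      funext ω
      simp only [hQ, Finset.sum_apply]
    have h1 := condExp_finsetSum (μ := μ) (s := (univ : Finset β))
      (f := fun c => fun ω => lL (g j) (r j) (sT b {c}) ω ^ 2)
      (fun c _ => (hLB j c).integrable) (F j)
    have h2 : ∀ᵐ ω ∂μ, ∀ c : β, 0 ≤ (μ[fun ω => lL (g j) (r j) (sT b {c}) ω ^ 2 | F j]) ω :=
      ae_all_iff.2 fun c => condExp_nonneg (ae_of_all _ fun ω => sq_nonneg _)
    rw [e]
    filter_upwards [h1, h2] with ω a1 a2
    rw [a1, Finset.sum_apply]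
    unfold bvar
    exact Finset.sum_congr rfl fun c _ => abs_of_nonneg (a2 c)
  have hvall : ∀ᵐ ω ∂μ, ∀ j, bvar μ (F j) (g j) (r j) b ω = (μ[Q j | F j]) ω :=
    ae_all_iff.2 hv
  have hQi : Integrable (fun ω => |∑ j ∈ range J, Q j ω - s|) μ :=
    ((integrable_finsetSum _ fun j _ => (hQB j).integrable).sub (integrable_const s)).abs
  have hm1 : Integrable (fun ω => |∑ j ∈ range J, (Q j ω - (μ[Q j | F j]) ω)|) μ :=
    (m1.integrable (by norm_num)).abs
  calc ∫ ω, |∑ j ∈ range J, bvar μ (F j) (g j) (r j) b ω - s| ∂μ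
      ≤ ∫ ω, (|∑ j ∈ range J, Q j ω - s| +
          |∑ j ∈ range J, (Q j ω - (μ[Q j | F j]) ω)|) ∂μ := by
        refine integral_mono_of_nonneg (ae_of_all _ fun ω => abs_nonneg _) (hQi.add hm1) ?_
        filter_upwards [hvall] with ω h
        simp only [h]
        have e : ∑ j ∈ range J, (μ[Q j | F j]) ω - s = (∑ j ∈ range J, Q j ω - s) -
            ∑ j ∈ range J, (Q j ω - (μ[Q j | F j]) ω) := by
          rw [Finset.sum_sub_distrib]
          ring
        rw [e]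
        exact abs_sub _ _
    _ = ∫ ω, |∑ j ∈ range J, Q j ω - s| ∂μ +
        ∫ ω, |∑ j ∈ range J, (Q j ω - (μ[Q j | F j]) ω)| ∂μ := integral_add hQi hm1
    _ ≤ _ := add_le_add le_rfl m3

end Vale.Agent.P145W85.P153.CLT
end

section

/-!
# Orthogonality of martingale differences
-/

namespace Vale.Agent.P145W85.P153.Asm

open MeasureTheory Filter Finset
open scoped Topology ENNReal
open Vale.Agent.P145W85.P153.CLT

variable {Ω : Type*} {mΩ : MeasurableSpace Ω} {μ : Measure Ω}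

/-- Sum of squares of martingale differences. -/
lemma mart_orth [IsProbabilityMeasure μ] (F : ℕ → MeasurableSpace Ω) (hF : ∀ j, F j ≤ mΩ)
    (hmono : Monotone F) (D : ℕ → Ω → ℝ) (hDm : ∀ j, AEStronglyMeasurable[F (j + 1)] (D j) μ)
    (hD2 : ∀ j, MemLp (D j) 2 μ) (hD0 : ∀ j, μ[D j | F j] =ᵐ[μ] 0) (J : ℕ) :
    MemLp (fun ω => ∑ j ∈ range J, D j ω) 2 μ ∧
    AEStronglyMeasurable[F J] (fun ω => ∑ j ∈ range J, D j ω) μ ∧
    ∫ ω, (∑ j ∈ range J, D j ω) ^ 2 ∂μ = ∑ j ∈ range J, ∫ ω, D j ω ^ 2 ∂μ := by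
  induction J with
  | zero => exact ⟨by simp only [range_zero, sum_empty, MemLp.zero'], by simpa only [range_zero, sum_empty] using aestronglyMeasurable_const, by simp⟩
  | succ J ih =>
    obtain ⟨ih1, ih2, ih3⟩ := ih
    simp only [Finset.sum_range_succ]
    refine ⟨ih1.add (hD2 J), (ih2.mono (hmono (Nat.le_succ J))).add (hDm J), ?_⟩
    have i1 : Integrable (fun ω => (∑ j ∈ range J, D j ω) * D J ω) μ :=
      ih1.integrable_mul (hD2 J)
    have e1 : ∫ ω, (∑ j ∈ range J, D j ω) * D J ω ∂μ = 0 := by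
      have h1 := condExp_mul_of_aestronglyMeasurable_left (μ := μ) ih2 i1
        ((hD2 J).integrable (by norm_num))
      rw [← integral_condExp (hF J) (f := fun ω => (∑ j ∈ range J, D j ω) * D J ω)]
      have h2 : μ[fun ω => (∑ j ∈ range J, D j ω) * D J ω | F J] =ᵐ[μ] 0 := by
        filter_upwards [h1, hD0 J] with ω a b
        have a' : (μ[fun ω => (∑ j ∈ range J, D j ω) * D J ω | F J]) ω =
          (∑ j ∈ range J, D j ω) * (μ[D J | F J]) ω := a
        rw [a', b]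
        simp
      rw [integral_congr_ae h2]
      simp
    have e2 : (fun ω => (∑ j ∈ range J, D j ω + D J ω) ^ 2) = fun ω =>
        (∑ j ∈ range J, D j ω) ^ 2 + 2 * ((∑ j ∈ range J, D j ω) * D J ω) + D J ω ^ 2 := by
      funext ω
      ring
    rw [e2, int3 ih1.integrable_sq i1 (hD2 J).integrable_sq, e1, ih3]
    ring

end Vale.Agent.P145W85.P153.Asm
end

section

/-!
# The abstract row model

`h p` is the height at the site `p = (row, position)`.  `F l` is generated by the rows `≤ l`.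
Two structural facts are used: reflection (`refl`, `inv`) and the conditional Newman property.
-/

namespace Vale.Agent.P145W85.P153.Asm

open MeasureTheory Filter Finset
open scoped Topology ENNReal
open Vale.Agent.P145W85.P153.CLT

variable {Ω : Type*} {mΩ : MeasurableSpace Ω} {μ : Measure Ω}

lemma int4 {f g k r : Ω → ℝ} (hf : Integrable f μ) (hg : Integrable g μ) (hk : Integrable k μ)
    (hr : Integrable r μ) (c : ℝ) : ∫ ω, (f ω + c * g ω + k ω - r ω) ∂μ =
      ∫ ω, f ω ∂μ + c * ∫ ω, g ω ∂μ + ∫ ω, k ω ∂μ - ∫ ω, r ω ∂μ := by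
  have h1 : ∫ ω, (f ω + c * g ω + k ω - r ω) ∂μ =
      ∫ ω, (f ω + c * g ω + k ω) ∂μ - ∫ ω, r ω ∂μ :=
    integral_sub ((hf.add (hg.const_mul c)).add hk) hr
  rw [h1, int3 hf hg hk]

/-- Reflection of a site in the row `l`. -/
def rho (l : ℤ) (p : ℤ × ℤ) : ℤ × ℤ := (2 * l - p.1, p.2)

/-- Mean square difference of two heights. -/
noncomputable def msd (μ : Measure[mΩ] Ω) (h : ℤ × ℤ → Ω → ℝ) (p q : ℤ × ℤ) : ℝ :=
  ∫ ω, (h p ω - h q ω) ^ 2 ∂μ

/-- `p` and its reflection in the row `l` are in the window, `p` above the row. -/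
def Win (lo hi l : ℤ) (p : ℤ × ℤ) : Prop := l ≤ p.1 ∧ p.1 ≤ hi ∧ lo ≤ 2 * l - p.1

/-- The abstract row model on the rows `lo, ..., hi`. -/
structure Rows (μ : Measure[mΩ] Ω) (F : ℤ → MeasurableSpace Ω) (h : ℤ × ℤ → Ω → ℝ) (B : ℝ)
    (lo hi : ℤ) : Prop where
  hF : ∀ l, F l ≤ mΩ
  mono : Monotone F
  meas : ∀ p, Measurable[F p.1] (h p)
  bm : ∀ p, BM (mΩ := mΩ) (h p)
  refl : ∀ l p q π π', Win lo hi l p → Win lo hi l q → π.1 = l → π'.1 = l →
    ∫ ω, ((μ[h p | F l]) ω - h π ω) * ((μ[h q | F l]) ω - h π' ω) ∂μ =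
      ∫ ω, (h p ω - h π ω) * (h (rho l q) ω - h π' ω) ∂μ
  inv : ∀ l p q, Win lo hi l p → Win lo hi l q →
    msd μ h (rho l p) (rho l q) = msd μ h p q
  np : ∀ l {ι : Type} [Fintype ι] (u : ι → ℤ × ℤ), lo ≤ l → (∀ i, l < (u i).1 ∧ (u i).1 ≤ hi) →
    NP μ (F l) (fun i => h (u i))
  lip : ∀ j x ω, lo ≤ j → j + 1 ≤ hi → |h (j + 1, x) ω - h (j, x) ω| ≤ B

variable {F : ℤ → MeasurableSpace Ω} {h : ℤ × ℤ → Ω → ℝ} {B : ℝ} {lo hi : ℤ}

lemma Rows.measΩ (R : Rows μ F h B lo hi) (p : ℤ × ℤ) : Measurable[mΩ] (h p) :=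
  (R.meas p).mono (R.hF _) le_rfl

lemma integral_mul_eq [IsProbabilityMeasure μ] {X Y : Ω → ℝ} (hX : BM (mΩ := mΩ) X)
    (hY : BM (mΩ := mΩ) Y) :
    ∫ ω, X ω * Y ω ∂μ = (∫ ω, X ω ^ 2 ∂μ + ∫ ω, Y ω ^ 2 ∂μ - ∫ ω, (X ω - Y ω) ^ 2 ∂μ) / 2 := by
  have i1 : Integrable (fun ω => X ω ^ 2) μ := (hX.memLp 2).integrable_sq
  have i2 : Integrable (fun ω => Y ω ^ 2) μ := (hY.memLp 2).integrable_sq
  have i3 : Integrable (fun ω => X ω * Y ω) μ := (hX.mul hY).integrable
  have e : (fun ω => (X ω - Y ω) ^ 2) = fun ω => X ω ^ 2 + (-2) * (X ω * Y ω) + Y ω ^ 2 := by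
    funext ω
    ring
  rw [e, int3 i1 i3 i2]
  ring

lemma Rows.int_mul (_R : Rows μ F h B lo hi) [IsProbabilityMeasure μ] (p q : ℤ × ℤ) :
    ∫ ω, h p ω * h q ω ∂μ =
      (∫ ω, h p ω ^ 2 ∂μ + ∫ ω, h q ω ^ 2 ∂μ - msd μ h p q) / 2 :=
  integral_mul_eq (_R.bm p) (_R.bm q)

/-- Product of conditional expectations against a product with a measurable factor. -/
lemma int_condExp_mul [IsProbabilityMeasure μ] {m : MeasurableSpace Ω} (hm : m ≤ mΩ) {X Y : Ω → ℝ}
    (hX : BM (mΩ := mΩ) X) (hY : MemLp Y 2 μ) (hYm : AEStronglyMeasurable[m] Y μ) :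
    ∫ ω, (μ[X | m]) ω * Y ω ∂μ = ∫ ω, X ω * Y ω ∂μ := by
  have i1 : Integrable (fun ω => X ω * Y ω) μ := (hX.memLp 2).integrable_mul hY
  have h1 := condExp_mul_of_aestronglyMeasurable_right (μ := μ) hYm i1 hX.integrable
  rw [← integral_condExp hm (f := fun ω => X ω * Y ω)]
  refine (integral_congr_ae ?_).symm
  filter_upwards [h1] with ω a
  exact a

/-- The innovation of `h p` after row `l`. -/
noncomputable def inn (μ : Measure[mΩ] Ω) (F : ℤ → MeasurableSpace Ω) (h : ℤ × ℤ → Ω → ℝ) (l : ℤ)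
    (p : ℤ × ℤ) (ω : Ω) : ℝ := h p ω - (μ[h p | F l]) ω

lemma Rows.memLp_condExp (R : Rows μ F h B lo hi) [IsProbabilityMeasure μ] (l : ℤ) (p : ℤ × ℤ) :
    MemLp (μ[h p | F l]) 2 μ := ((R.bm p).memLp 2).condExp (by norm_num)

lemma Rows.memLp_inn (R : Rows μ F h B lo hi) [IsProbabilityMeasure μ] (l : ℤ) (p : ℤ × ℤ) :
    MemLp (inn μ F h l p) 2 μ := ((R.bm p).memLp 2).sub (R.memLp_condExp l p)

lemma Rows.condExp_inn (R : Rows μ F h B lo hi) [IsProbabilityMeasure μ] (l : ℤ) (p : ℤ × ℤ) :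
    μ[inn μ F h l p | F l] =ᵐ[μ] 0 := by
  have h1 := condExp_sub (μ := μ) ((R.bm p).integrable) (integrable_condExp (f := h p) (m := F l)
    (μ := μ)) (F l)
  have h2 := condExp_of_stronglyMeasurable (μ := μ) (R.hF l)
    (stronglyMeasurable_condExp (f := h p) (m := F l) (μ := μ)) integrable_condExp
  have h3 : inn μ F h l p = h p - μ[h p | F l] := rfl
  rw [h3]
  filter_upwards [h1] with ω a
  rw [a, Pi.sub_apply, h2]
  simp

/-- An innovation is orthogonal to everything measurable before. -/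
lemma Rows.int_inn_mul (R : Rows μ F h B lo hi) [IsProbabilityMeasure μ] (l : ℤ) (p : ℤ × ℤ)
    {Y : Ω → ℝ} (hY : MemLp Y 2 μ) (hYm : AEStronglyMeasurable[F l] Y μ) :
    ∫ ω, inn μ F h l p ω * Y ω ∂μ = 0 := by
  have i1 : Integrable (fun ω => h p ω * Y ω) μ := ((R.bm p).memLp 2).integrable_mul hY
  have i2 : Integrable (fun ω => (μ[h p | F l]) ω * Y ω) μ :=
    (R.memLp_condExp l p).integrable_mul hY
  have e : (fun ω => inn μ F h l p ω * Y ω) =
      fun ω => h p ω * Y ω - (μ[h p | F l]) ω * Y ω := by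
    funext ω
    simp only [inn]
    ring
  rw [e, integral_sub i1 i2, int_condExp_mul (R.hF l) (R.bm p) hY hYm]
  ring

/-- The covariance of innovations after the same row. -/
noncomputable def cr (μ : Measure[mΩ] Ω) (h : ℤ × ℤ → Ω → ℝ) (l : ℤ) (p q : ℤ × ℤ) : ℝ :=
  (msd μ h p (rho l q) - msd μ h p q) / 2

/-- Mean square of the conditional expectation of an increment. -/
noncomputable def tr (μ : Measure[mΩ] Ω) (h : ℤ × ℤ → Ω → ℝ) (l : ℤ) (p π q π' : ℤ × ℤ) : ℝ :=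
  (msd μ h p π' + msd μ h π (rho l q) - msd μ h p (rho l q) - msd μ h π π') / 2

lemma Rows.int_diff (R : Rows μ F h B lo hi) [IsProbabilityMeasure μ] (p π q π' : ℤ × ℤ) :
    ∫ ω, (h p ω - h π ω) * (h q ω - h π' ω) ∂μ =
      (msd μ h p π' + msd μ h π q - msd μ h p q - msd μ h π π') / 2 := by
  have i1 := ((R.bm p).mul (R.bm q)).integrable (μ := μ)
  have i2 := ((R.bm p).mul (R.bm π')).integrable (μ := μ)
  have i3 := ((R.bm π).mul (R.bm q)).integrable (μ := μ)
  have i4 := ((R.bm π).mul (R.bm π')).integrable (μ := μ)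
  have e : (fun ω => (h p ω - h π ω) * (h q ω - h π' ω)) = fun ω =>
      (h p ω * h q ω + (-1) * (h p ω * h π' ω) + (h π ω * h π' ω)) - h π ω * h q ω := by
    funext ω
    ring
  rw [e, int4 i1 i2 i4 i3,
    R.int_mul p q, R.int_mul p π', R.int_mul π π', R.int_mul π q]
  ring

lemma Rows.int_proj (R : Rows μ F h B lo hi) [IsProbabilityMeasure μ] (l : ℤ) (p π q π' : ℤ × ℤ)
    (hp : Win lo hi l p) (hq : Win lo hi l q) (hπ : π.1 = l) (hπ' : π'.1 = l) :
    ∫ ω, ((μ[h p | F l]) ω - h π ω) * ((μ[h q | F l]) ω - h π' ω) ∂μ = tr μ h l p π q π' := by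
  rw [R.refl l p q π π' hp hq hπ hπ', R.int_diff]
  rfl

lemma Rows.int_h_inn_zero (R : Rows μ F h B lo hi) [IsProbabilityMeasure μ] (l : ℤ) (w p : ℤ × ℤ)
    (hw : w.1 ≤ l) : ∫ ω, h w ω * inn μ F h l p ω ∂μ = 0 := by
  have e : (fun ω => h w ω * inn μ F h l p ω) = fun ω => inn μ F h l p ω * h w ω := by
    funext ω
    ring
  rw [e]
  exact R.int_inn_mul l p ((R.bm w).memLp 2)
    ((R.meas w).mono (R.mono hw) le_rfl).stronglyMeasurable.aestronglyMeasurable

lemma Rows.int_h_inn (R : Rows μ F h B lo hi) [IsProbabilityMeasure μ] (l : ℤ) (w p : ℤ × ℤ)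
    (hw : Win lo hi l w) (hp : Win lo hi l p) :
    ∫ ω, h w ω * inn μ F h l p ω ∂μ = cr μ h l w p := by
  set π : ℤ × ℤ := (l, p.2) with hπ
  have bπ := (R.bm π).memLp (μ := μ) 2
  have bw := (R.bm w).memLp (μ := μ) 2
  have bp := (R.bm p).memLp (μ := μ) 2
  have hπm : AEStronglyMeasurable[F l] (h π) μ :=
    (R.meas π).stronglyMeasurable.aestronglyMeasurable
  have mI := R.memLp_inn l p
  have mE := R.memLp_condExp l p
  have mD : MemLp (fun ω => (μ[h p | F l]) ω - h π ω) 2 μ := mE.sub bπ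
  have mDm : AEStronglyMeasurable[F l] (fun ω => (μ[h p | F l]) ω - h π ω) μ :=
    stronglyMeasurable_condExp.aestronglyMeasurable.sub hπm
  have i1 : Integrable (fun ω => h w ω * inn μ F h l p ω) μ := bw.integrable_mul mI
  have i2 : Integrable (fun ω => h π ω * inn μ F h l p ω) μ := bπ.integrable_mul mI
  -- subtract the height in the row
  have e1 : ∫ ω, h w ω * inn μ F h l p ω ∂μ =
      ∫ ω, (h w ω - h π ω) * (h p ω - h π ω) ∂μ -
      ∫ ω, (h w ω - h π ω) * ((μ[h p | F l]) ω - h π ω) ∂μ := by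
    have j1 : Integrable (fun ω => (h w ω - h π ω) * (h p ω - h π ω)) μ :=
      (bw.sub bπ).integrable_mul (bp.sub bπ)
    have j2 : Integrable (fun ω => (h w ω - h π ω) * ((μ[h p | F l]) ω - h π ω)) μ :=
      (bw.sub bπ).integrable_mul mD
    rw [← integral_sub j1 j2]
    have z := R.int_h_inn_zero l π p (by simp [hπ])
    have e2 : ∫ ω, h w ω * inn μ F h l p ω ∂μ =
        ∫ ω, (h w ω * inn μ F h l p ω - h π ω * inn μ F h l p ω) ∂μ := by
      rw [integral_sub i1 i2, z, sub_zero]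
    rw [e2]
    refine integral_congr_ae (ae_of_all _ fun ω => ?_)
    simp only [inn]
    ring
  have e3 : ∫ ω, (h w ω - h π ω) * ((μ[h p | F l]) ω - h π ω) ∂μ = tr μ h l w π p π := by
    rw [← R.int_proj l w π p π hw hp rfl rfl]
    have k1 : Integrable (fun ω => h w ω * ((μ[h p | F l]) ω - h π ω)) μ := bw.integrable_mul mD
    have k2 : Integrable (fun ω => (μ[h w | F l]) ω * ((μ[h p | F l]) ω - h π ω)) μ :=
      (R.memLp_condExp l w).integrable_mul mD
    have k3 : Integrable (fun ω => h π ω * ((μ[h p | F l]) ω - h π ω)) μ := bπ.integrable_mul mD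
    have c := int_condExp_mul (μ := μ) (R.hF l) (R.bm w) mD mDm
    have f1 : (fun ω => (h w ω - h π ω) * ((μ[h p | F l]) ω - h π ω)) = fun ω =>
        h w ω * ((μ[h p | F l]) ω - h π ω) - h π ω * ((μ[h p | F l]) ω - h π ω) := by
      funext ω
      ring
    have f2 : (fun ω => ((μ[h w | F l]) ω - h π ω) * ((μ[h p | F l]) ω - h π ω)) = fun ω =>
        (μ[h w | F l]) ω * ((μ[h p | F l]) ω - h π ω) - h π ω * ((μ[h p | F l]) ω - h π ω) := by
      funext ω
      ring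
    rw [f1, f2, integral_sub k1 k3, integral_sub k2 k3, c]
  have hπw : Win lo hi l π := by
    obtain ⟨a, b, c⟩ := hp
    exact ⟨le_rfl, a.trans b, by simp only [hπ]; linarith only [a, c]⟩
  have hρ : rho l π = π := by
    ext
    · simp only [rho, hπ]
      ring
    · rfl
  have hv := R.inv l π p hπw hp
  rw [hρ] at hv
  have hππ : msd μ h π π = 0 := by simp [msd]
  rw [e1, e3, R.int_diff]
  unfold tr cr
  rw [hv]
  ring

lemma Rows.int_inn_inn (R : Rows μ F h B lo hi) [IsProbabilityMeasure μ] (l : ℤ) (p q : ℤ × ℤ)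
    (hp : Win lo hi l p) (hq : Win lo hi l q) :
    ∫ ω, inn μ F h l p ω * inn μ F h l q ω ∂μ = cr μ h l p q := by
  have i1 : Integrable (fun ω => h p ω * inn μ F h l q ω) μ :=
    ((R.bm p).memLp 2).integrable_mul (R.memLp_inn l q)
  have i2 : Integrable (fun ω => (μ[h p | F l]) ω * inn μ F h l q ω) μ :=
    (R.memLp_condExp l p).integrable_mul (R.memLp_inn l q)
  have e : (fun ω => inn μ F h l p ω * inn μ F h l q ω) =
      fun ω => h p ω * inn μ F h l q ω - (μ[h p | F l]) ω * inn μ F h l q ω := by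
    funext ω
    simp only [inn]
    ring
  have e2 : ∫ ω, (μ[h p | F l]) ω * inn μ F h l q ω ∂μ = 0 := by
    have e3 : (fun ω => (μ[h p | F l]) ω * inn μ F h l q ω) =
        fun ω => inn μ F h l q ω * (μ[h p | F l]) ω := by
      funext ω
      ring
    rw [e3]
    exact R.int_inn_mul l q (R.memLp_condExp l p)
      stronglyMeasurable_condExp.aestronglyMeasurable
  rw [e, integral_sub i1 i2, R.int_h_inn l p q hp hq, e2]
  ring

/-- The row model from the non-neutral identities. -/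
theorem Rows.of_plain [IsProbabilityMeasure μ] (hF : ∀ l, F l ≤ mΩ) (mono : Monotone F)
    (meas : ∀ p, Measurable[F p.1] (h p)) (bm : ∀ p, BM (mΩ := mΩ) (h p))
    (refl : ∀ l p q, Win lo hi l p → Win lo hi l q →
      ∫ ω, (μ[h p | F l]) ω * (μ[h q | F l]) ω ∂μ = ∫ ω, h p ω * h (rho l q) ω ∂μ)
    (inv : ∀ l p q, Win lo hi l p → Win lo hi l q →
      ∫ ω, h (rho l p) ω * h (rho l q) ω ∂μ = ∫ ω, h p ω * h q ω ∂μ)
    (np : ∀ l {ι : Type} [Fintype ι] (u : ι → ℤ × ℤ), lo ≤ l →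
      (∀ i, l < (u i).1 ∧ (u i).1 ≤ hi) → NP μ (F l) (fun i => h (u i)))
    (lip : ∀ j x ω, lo ≤ j → j + 1 ≤ hi → |h (j + 1, x) ω - h (j, x) ω| ≤ B) :
    Rows μ F h B lo hi where
  hF := hF
  mono := mono
  meas := meas
  bm := bm
  np := np
  lip := lip
  inv := by
    intro l p q hp hq
    have e : ∀ p q : ℤ × ℤ, msd μ h p q =
        ∫ ω, h p ω * h p ω ∂μ + (-2) * ∫ ω, h p ω * h q ω ∂μ + ∫ ω, h q ω * h q ω ∂μ := by
      intro p q
      have e1 : (fun ω => (h p ω - h q ω) ^ 2) =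
          fun ω => h p ω * h p ω + (-2) * (h p ω * h q ω) + h q ω * h q ω := by
        funext ω
        ring
      unfold msd
      rw [e1]
      exact int3 ((bm p).mul (bm p)).integrable ((bm p).mul (bm q)).integrable
        ((bm q).mul (bm q)).integrable (-2)
    rw [e, e, inv l p p hp hp, inv l q q hq hq, inv l p q hp hq]
  refl := by
    intro l p q π π' hp hq hπ hπ'
    have mp : MemLp (μ[h p | F l]) 2 μ := ((bm p).memLp 2).condExp (by norm_num)
    have mq : MemLp (μ[h q | F l]) 2 μ := ((bm q).memLp 2).condExp (by norm_num)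
    have bπ := (bm π).memLp (μ := μ) 2
    have bπ' := (bm π').memLp (μ := μ) 2
    have hm : ∀ π : ℤ × ℤ, π.1 = l → AEStronglyMeasurable[F l] (h π) μ := by
      intro π hπ
      exact ((meas π).mono (mono hπ.le) le_rfl).stronglyMeasurable.aestronglyMeasurable
    have i1 : Integrable (fun ω => (μ[h p | F l]) ω * (μ[h q | F l]) ω) μ := mp.integrable_mul mq
    have i2 : Integrable (fun ω => (μ[h p | F l]) ω * h π' ω) μ := mp.integrable_mul bπ'
    have i3 : Integrable (fun ω => (μ[h q | F l]) ω * h π ω) μ := mq.integrable_mul bπ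
    have i4 : Integrable (fun ω => h π ω * h π' ω) μ := ((bm π).mul (bm π')).integrable
    have i5 : Integrable (fun ω => h p ω * h (rho l q) ω) μ :=
      ((bm p).mul (bm (rho l q))).integrable
    have i6 : Integrable (fun ω => h p ω * h π' ω) μ := ((bm p).mul (bm π')).integrable
    have i7 : Integrable (fun ω => h (rho l q) ω * h π ω) μ :=
      ((bm (rho l q)).mul (bm π)).integrable
    have e : (fun ω => ((μ[h p | F l]) ω - h π ω) * ((μ[h q | F l]) ω - h π' ω)) = fun ω =>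
        ((μ[h p | F l]) ω * (μ[h q | F l]) ω + (-1) * ((μ[h p | F l]) ω * h π' ω) +
          h π ω * h π' ω) - (μ[h q | F l]) ω * h π ω := by
      funext ω
      ring
    have e' : (fun ω => (h p ω - h π ω) * (h (rho l q) ω - h π' ω)) = fun ω =>
        (h p ω * h (rho l q) ω + (-1) * (h p ω * h π' ω) +
          h π ω * h π' ω) - h (rho l q) ω * h π ω := by
      funext ω
      ring
    have e2 : ∫ ω, (μ[h p | F l]) ω * h π' ω ∂μ = ∫ ω, h p ω * h π' ω ∂μ :=
      int_condExp_mul (hF l) (bm p) bπ' (hm π' hπ')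
    have e3 : ∫ ω, (μ[h q | F l]) ω * h π ω ∂μ = ∫ ω, h q ω * h π ω ∂μ :=
      int_condExp_mul (hF l) (bm q) bπ (hm π hπ)
    have hπw : Win lo hi l π := by
      obtain ⟨a, b, c⟩ := hp
      exact ⟨hπ.ge, by linarith only [hπ, a, b], by linarith⟩
    have e4 : ∫ ω, h (rho l q) ω * h π ω ∂μ = ∫ ω, h q ω * h π ω ∂μ := by
      have h1 := inv l q π hq hπw
      have h2 : rho l π = π := by
        ext
        · simp only [rho, hπ]
          ring
        · simp [rho]
      rwa [h2] at h1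
    rw [e, e', int4 i1 i2 i4 i3, int4 i5 i6 i4 i7, e2, e3, e4, refl l p q hp hq]

end Vale.Agent.P145W85.P153.Asm
end

section

/-!
# The strip inequality

For the abstract row model the characteristic function of a neutral linear functional is compared
with a Gaussian one; the error is expressed with mean square differences and local functions.
-/

namespace Vale.Agent.P145W85.P153.Asm

open MeasureTheory Filter Finset
open scoped Topology ENNReal
open Vale.Agent.P145W85.P153.CLT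

variable {Ω : Type*} {mΩ : MeasurableSpace Ω} {μ : Measure Ω}

lemma int_sum_mul_sum [IsProbabilityMeasure μ] {κ κ' : Type*} (s : Finset κ) (t : Finset κ')
    (a : κ → ℝ) (b : κ' → ℝ) (U : κ → Ω → ℝ) (V : κ' → Ω → ℝ) (hU : ∀ k ∈ s, MemLp (U k) 2 μ)
    (hV : ∀ k ∈ t, MemLp (V k) 2 μ) :
    ∫ ω, (∑ k ∈ s, a k * U k ω) * (∑ k ∈ t, b k * V k ω) ∂μ =
      ∑ k ∈ s, ∑ k' ∈ t, a k * b k' * ∫ ω, U k ω * V k' ω ∂μ := by
  have e : (fun ω => (∑ k ∈ s, a k * U k ω) * (∑ k ∈ t, b k * V k ω)) = fun ω =>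
      ∑ k ∈ s, ∑ k' ∈ t, a k * b k' * (U k ω * V k' ω) := by
    funext ω
    rw [Finset.sum_mul_sum]
    refine Finset.sum_congr rfl fun i _ => Finset.sum_congr rfl fun j _ => ?_
    ring
  have hi : ∀ k ∈ s, ∀ k' ∈ t, Integrable (fun ω => a k * b k' * (U k ω * V k' ω)) μ :=
    fun k hk k' hk' => ((hU k hk).integrable_mul (hV k' hk')).const_mul _
  rw [e, integral_finsetSum _ fun k hk => integrable_finsetSum _ fun k' hk' => hi k hk k' hk']
  refine Finset.sum_congr rfl fun k hk => ?_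
  rw [integral_finsetSum _ fun k' hk' => hi k hk k' hk']
  refine Finset.sum_congr rfl fun k' _ => ?_
  rw [integral_const_mul]

variable {ι β : Type} [Fintype ι] [Fintype β] [DecidableEq β]

/-- Geometry of the mesoscopic rows. -/
structure Geo (ι β : Type) where
  /-- number of rows in one step -/
  K : ℕ
  /-- first step -/
  I0 : ℤ
  /-- positions -/
  x : ι → ℤ
  /-- blocks -/
  b : ι → β

/-- Row at which step `j` starts. -/
def Geo.l (G : Geo ι β) (j : ℕ) : ℤ := (G.I0 + j) * G.K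

/-- Site at the end of step `j`. -/
def Geo.site (G : Geo ι β) (j : ℕ) (i : ι) : ℤ × ℤ := (G.l (j + 1), G.x i)

/-- Site at the beginning of step `j`. -/
def Geo.base (G : Geo ι β) (j : ℕ) (i : ι) : ℤ × ℤ := (G.l j, G.x i)

omit [Fintype ι] [Fintype β] [DecidableEq β] in
lemma Geo.l_succ (G : Geo ι β) (j : ℕ) : G.l (j + 1) = G.l j + G.K := by
  unfold Geo.l
  push_cast
  ring

omit [Fintype ι] [Fintype β] [DecidableEq β] in
lemma Geo.l_mono (G : Geo ι β) : Monotone G.l := by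
  refine monotone_nat_of_le_succ fun j => ?_
  rw [G.l_succ]
  have : (0 : ℤ) ≤ G.K := Int.natCast_nonneg _
  linarith

/-- The steps `0, ..., J - 1` are inside the window, `T` is the highest row. -/
structure Geo.In (G : Geo ι β) (lo hi : ℤ) (J : ℕ) (T : ℤ) : Prop where
  top : T ≤ hi
  bot : lo ≤ 2 * G.l 0 - T
  last : G.l J ≤ T

omit [Fintype ι] [Fintype β] [DecidableEq β] in
lemma Geo.In.mid {G : Geo ι β} {lo hi : ℤ} {J : ℕ} {T : ℤ} (W : G.In lo hi J T) {j : ℕ}
    (hj : j < J) : lo ≤ G.l j ∧ G.l (j + 1) ≤ hi ∧ ∀ w : ℤ × ℤ, G.l j ≤ w.1 → w.1 ≤ T →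
      Win lo hi (G.l j) w := by
  have h1 := G.l_mono (Nat.zero_le j)
  have h2 := G.l_mono (show j + 1 ≤ J from hj)
  have h3 := G.l_mono (Nat.le_succ j)
  have h4 := G.l_mono (Nat.zero_le J)
  have a := W.top
  have b := W.bot
  have c := W.last
  refine ⟨by linarith only [h1, h2, h3, b, c], by linarith only [h2, a, c], fun w h5 h6 => ⟨h5, by linarith only [a, h6], by linarith only [h1, b, h6]⟩⟩

omit [Fintype ι] [Fintype β] [DecidableEq β] in
lemma Geo.In.site {G : Geo ι β} {lo hi : ℤ} {J : ℕ} {T : ℤ} (W : G.In lo hi J T) {j : ℕ}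
    (hj : j < J) (i : ι) : Win lo hi (G.l j) (G.site j i) := by
  have h2 := G.l_mono (show j + 1 ≤ J from hj)
  exact (W.mid hj).2.2 _ (G.l_mono (Nat.le_succ j)) (h2.trans W.last)

variable {F : ℤ → MeasurableSpace Ω} {h : ℤ × ℤ → Ω → ℝ} {B : ℝ} {lo hi : ℤ}

omit [Fintype ι] [Fintype β] [DecidableEq β] in
lemma Rows.lip_base (R : Rows μ F h B lo hi) (G : Geo ι β) {J : ℕ} {T : ℤ} (W : G.In lo hi J T)
    {j : ℕ} (hj : j < J) (i : ι) (ω : Ω) :
    |h (G.site j i) ω - h (G.base j i) ω| ≤ B * G.K := by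
  obtain ⟨w1, w2, -⟩ := W.mid hj
  rw [G.l_succ] at w2
  have key : ∀ n : ℕ, n ≤ G.K → |h (G.l j + n, G.x i) ω - h (G.l j, G.x i) ω| ≤ B * n := by
    intro n
    induction n with
    | zero => simp only [zero_le, CharP.cast_eq_zero, add_zero, sub_self, abs_zero, mul_zero, Std.le_refl, imp_self]
    | succ n ih =>
      intro hn
      have ih := ih (Nat.le_of_succ_le hn)
      have hn' : ((n + 1 : ℕ) : ℤ) ≤ (G.K : ℤ) := by exact_mod_cast hn
      push_cast at hn'
      have hn0 : (0 : ℤ) ≤ (n : ℤ) := Int.natCast_nonneg _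
      have h1 := R.lip (G.l j + n) (G.x i) ω (by linarith only [w1]) (by linarith only [w2, hn])
      have e : (G.l j + ((n + 1 : ℕ) : ℤ)) = G.l j + n + 1 := by push_cast; ring
      rw [e]
      calc |h (G.l j + n + 1, G.x i) ω - h (G.l j, G.x i) ω|
          = |(h (G.l j + n + 1, G.x i) ω - h (G.l j + n, G.x i) ω) +
            (h (G.l j + n, G.x i) ω - h (G.l j, G.x i) ω)| := by congr 1; ring
        _ ≤ B + B * n := (abs_add_le _ _).trans (add_le_add h1 ih)
        _ = B * ((n + 1 : ℕ) : ℝ) := by push_cast; ring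
  have := key G.K le_rfl
  unfold Geo.site Geo.base
  rw [G.l_succ]
  exact this

/-- Truncated conditional expectation. -/
noncomputable def cc (μ : Measure[mΩ] Ω) (F : ℤ → MeasurableSpace Ω) (h : ℤ × ℤ → Ω → ℝ) (B : ℝ)
    (G : Geo ι β) (j : ℕ) (i : ι) (ω : Ω) : ℝ :=
  max (h (G.base j i) ω - B * G.K)
    (min (h (G.base j i) ω + B * G.K) ((μ[h (G.site j i) | F (G.l j)]) ω))

/-- Innovations of one step (truncated on a null set). -/
noncomputable def rr (μ : Measure[mΩ] Ω) (F : ℤ → MeasurableSpace Ω) (h : ℤ × ℤ → Ω → ℝ) (B : ℝ)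
    (G : Geo ι β) (J : ℕ) (j : ℕ) (i : ι) (ω : Ω) : ℝ :=
  if j < J then h (G.site j i) ω - cc μ F h B G j i ω else 0

omit [Fintype ι] [Fintype β] [DecidableEq β] in
lemma rr_lt {G : Geo ι β} {J j : ℕ} (hj : j < J) :
    rr μ F h B G J j = fun i ω => h (G.site j i) ω - cc μ F h B G j i ω := by
  funext i ω
  simp [rr, hj]

omit [Fintype ι] [Fintype β] [DecidableEq β] in
lemma rr_ge {G : Geo ι β} {J j : ℕ} (hj : ¬ j < J) : rr μ F h B G J j = fun _ _ => 0 := by
  funext i ω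
  simp [rr, hj]

/-- The zero family has the Newman property. -/
lemma np_zero [IsProbabilityMeasure μ] {m : MeasurableSpace Ω} (hm : m ≤ mΩ) :
    NP μ m (fun (_ : ι) (_ : Ω) => (0 : ℝ)) := by
  refine CondAssoc.np (fun i => ⟨measurable_const, 0, by simp only [abs_zero, Std.le_refl, implies_true]⟩) ?_
  intro f g _ _ _ _
  have e1 : (μ[fun _ : Ω => f (fun _ => (0 : ℝ)) | m]) = fun _ => f (fun _ => 0) :=
    condExp_const hm _
  have e2 : (μ[fun _ : Ω => g (fun _ => (0 : ℝ)) | m]) = fun _ => g (fun _ => 0) :=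
    condExp_const hm _
  have e3 : (μ[fun _ : Ω => f (fun _ => (0 : ℝ)) * g (fun _ => (0 : ℝ)) | m]) =
      fun _ => f (fun _ => 0) * g (fun _ => 0) := condExp_const hm _
  rw [e1, e2, e3]

section

variable [IsProbabilityMeasure μ]

omit [Fintype ι] [Fintype β] [DecidableEq β] in
lemma nonneg_BK (R : Rows μ F h B lo hi) (G : Geo ι β) {J : ℕ} {T : ℤ} (W : G.In lo hi J T)
    {j : ℕ} (hj : j < J) (i : ι) : 0 ≤ B * G.K := by
  obtain ⟨ω⟩ : Nonempty Ω := by
    by_contra h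
    rw [not_nonempty_iff] at h
    have h1 := measure_univ (μ := μ)
    rw [Set.univ_eq_empty_iff.2 h, measure_empty] at h1
    exact zero_ne_one h1
  exact (abs_nonneg _).trans (R.lip_base G W hj i ω)

omit [Fintype ι] [Fintype β] [DecidableEq β] in
lemma cc_ae (R : Rows μ F h B lo hi) (G : Geo ι β) {J : ℕ} {T : ℤ} (W : G.In lo hi J T)
    {j : ℕ} (hj : j < J) (i : ι) :
    cc μ F h B G j i =ᵐ[μ] μ[h (G.site j i) | F (G.l j)] := by
  have hb := R.bm (G.base j i)
  have hs := R.bm (G.site j i)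
  have hbm : StronglyMeasurable[F (G.l j)] (h (G.base j i)) := (R.meas (G.base j i)).stronglyMeasurable
  have up : μ[h (G.site j i) | F (G.l j)] ≤ᵐ[μ] fun ω => h (G.base j i) ω + B * G.K := by
    have h1 : μ[h (G.site j i) | F (G.l j)] ≤ᵐ[μ]
        μ[fun ω => h (G.base j i) ω + B * G.K | F (G.l j)] := by
      refine condExp_mono hs.integrable (hb.integrable.add (integrable_const _)) ?_
      refine ae_of_all _ fun ω => ?_
      have := (abs_le.1 (R.lip_base G W hj i ω)).2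
      simp only
      linarith only [this]
    have e1 : μ[fun ω => h (G.base j i) ω + B * G.K | F (G.l j)] =
        fun ω => h (G.base j i) ω + B * G.K :=
      condExp_of_stronglyMeasurable (R.hF _) (hbm.add stronglyMeasurable_const)
        (hb.integrable.add (integrable_const _))
    rwa [e1] at h1
  have lo' : (fun ω => h (G.base j i) ω - B * G.K) ≤ᵐ[μ] μ[h (G.site j i) | F (G.l j)] := by
    have h1 : μ[fun ω => h (G.base j i) ω - B * G.K | F (G.l j)] ≤ᵐ[μ]
        μ[h (G.site j i) | F (G.l j)] := by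
      refine condExp_mono (hb.integrable.sub (integrable_const _)) hs.integrable ?_
      refine ae_of_all _ fun ω => ?_
      have := (abs_le.1 (R.lip_base G W hj i ω)).1
      simp only
      linarith only [this]
    have e1 : μ[fun ω => h (G.base j i) ω - B * G.K | F (G.l j)] =
        fun ω => h (G.base j i) ω - B * G.K :=
      condExp_of_stronglyMeasurable (R.hF _) (hbm.sub stronglyMeasurable_const)
        (hb.integrable.sub (integrable_const _))
    rwa [e1] at h1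
  filter_upwards [up, lo'] with ω h1 h2
  unfold cc
  rw [min_eq_right h1, max_eq_right h2]

omit [Fintype ι] [Fintype β] [DecidableEq β] in
lemma rr_ae (R : Rows μ F h B lo hi) (G : Geo ι β) {J : ℕ} {T : ℤ} (W : G.In lo hi J T)
    {j : ℕ} (hj : j < J) (i : ι) :
    rr μ F h B G J j i =ᵐ[μ] inn μ F h (G.l j) (G.site j i) := by
  rw [rr_lt hj]
  filter_upwards [cc_ae R G W hj i] with ω h1
  simp only [inn, h1]

omit [Fintype ι] [Fintype β] [DecidableEq β] [IsProbabilityMeasure μ] in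
lemma cc_meas (R : Rows μ F h B lo hi) (G : Geo ι β) (j : ℕ) (i : ι) :
    Measurable[F (G.l j)] (cc μ F h B G j i) := by
  have hbm : Measurable[F (G.l j)] (h (G.base j i)) := R.meas (G.base j i)
  have hc : Measurable[F (G.l j)] (μ[h (G.site j i) | F (G.l j)]) :=
    stronglyMeasurable_condExp.measurable
  exact (hbm.sub_const _).max ((hbm.add_const _).min hc)

omit [Fintype ι] [Fintype β] [DecidableEq β] in
lemma cc_dist (R : Rows μ F h B lo hi) (G : Geo ι β) {J : ℕ} {T : ℤ} (W : G.In lo hi J T)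
    {j : ℕ} (hj : j < J) (i : ι) (ω : Ω) :
    |h (G.base j i) ω - cc μ F h B G j i ω| ≤ B * G.K := by
  have h0 := nonneg_BK R G W hj i
  unfold cc
  rw [abs_le]
  constructor
  · have h1 : max (h (G.base j i) ω - B * G.K)
      (min (h (G.base j i) ω + B * G.K) ((μ[h (G.site j i) | F (G.l j)]) ω)) ≤
        h (G.base j i) ω + B * G.K :=
      max_le (by linarith only [h0]) (min_le_left _ _)
    linarith only [h1]
  · have h1 := le_max_left (h (G.base j i) ω - B * G.K)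
      (min (h (G.base j i) ω + B * G.K) ((μ[h (G.site j i) | F (G.l j)]) ω))
    linarith only [h1]

omit [Fintype ι] [Fintype β] [DecidableEq β] in
lemma rr_bound (R : Rows μ F h B lo hi) (G : Geo ι β) {J : ℕ} {T : ℤ} (W : G.In lo hi J T)
    (hB : 0 ≤ B) (j : ℕ) (i : ι) (ω : Ω) :
    |rr μ F h B G J j i ω| ≤ 2 * (B * G.K) := by
  by_cases hj : j < J
  · have h1 := R.lip_base G W hj i ω
    have h2 := cc_dist R G W hj i ω
    rw [rr_lt hj]
    calc |h (G.site j i) ω - cc μ F h B G j i ω|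
        = |(h (G.site j i) ω - h (G.base j i) ω) + (h (G.base j i) ω - cc μ F h B G j i ω)| := by
          congr 1
          ring
      _ ≤ B * G.K + B * G.K := (abs_add_le _ _).trans (add_le_add h1 h2)
      _ = 2 * (B * G.K) := by ring
  · rw [rr_ge hj]
    simp only [abs_zero]
    (clear * - hB; positivity)

omit [Fintype ι] [Fintype β] [DecidableEq β] in
lemma cc_bm (R : Rows μ F h B lo hi) (G : Geo ι β) {J : ℕ} {T : ℤ} (W : G.In lo hi J T)
    {j : ℕ} (hj : j < J) (i : ι) : BM (mΩ := mΩ) (cc μ F h B G j i) := by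
  obtain ⟨m1, C, hC⟩ := R.bm (G.base j i)
  refine ⟨(cc_meas R G j i).mono (R.hF _) le_rfl, C + B * G.K, fun ω => ?_⟩
  have h2 := cc_dist R G W hj i ω
  calc |cc μ F h B G j i ω|
      = |h (G.base j i) ω - (h (G.base j i) ω - cc μ F h B G j i ω)| := by congr 1; ring
    _ ≤ |h (G.base j i) ω| + |h (G.base j i) ω - cc μ F h B G j i ω| := abs_sub _ _
    _ ≤ C + B * G.K := add_le_add (hC ω) h2

omit [Fintype ι] [Fintype β] [DecidableEq β] in
lemma rr_bm (R : Rows μ F h B lo hi) (G : Geo ι β) {J : ℕ} {T : ℤ} (W : G.In lo hi J T)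
    (j : ℕ) (i : ι) : BM (mΩ := mΩ) (rr μ F h B G J j i) := by
  by_cases hj : j < J
  · rw [rr_lt hj]
    obtain ⟨m1, C, hC⟩ := R.bm (G.site j i)
    obtain ⟨m2, C', hC'⟩ := cc_bm R G W hj i
    exact ⟨m1.sub m2, C + C', fun ω => (abs_sub _ _).trans (add_le_add (hC ω) (hC' ω))⟩
  · rw [rr_ge hj]
    exact ⟨measurable_const, 0, by simp⟩

omit [Fintype β] [DecidableEq β] in
lemma rr_np (R : Rows μ F h B lo hi) (G : Geo ι β) {J : ℕ} {T : ℤ} (W : G.In lo hi J T)
    (hK : 0 < G.K) (j : ℕ) : NP μ (F (G.l j)) (rr μ F h B G J j) := by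
  by_cases hj : j < J
  · rw [rr_lt hj]
    obtain ⟨w1, w2, -⟩ := W.mid hj
    have h1 := R.np (G.l j) (G.site j) w1 (fun i => by
      refine ⟨?_, w2⟩
      show G.l j < G.l (j + 1)
      rw [G.l_succ]
      have : (0 : ℤ) < G.K := by exact_mod_cast hK
      linarith only [hK])
    exact h1.sub (R.hF _) (fun i => R.bm _) (fun i => cc_meas R G j i) (fun i => cc_bm R G W hj i)
  · rw [rr_ge hj]
    exact np_zero (R.hF _)

omit [Fintype ι] [Fintype β] [DecidableEq β] in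
lemma rr_centered (R : Rows μ F h B lo hi) (G : Geo ι β) {J : ℕ} {T : ℤ} (W : G.In lo hi J T)
    (j : ℕ) (i : ι) :
    μ[rr μ F h B G J j i | F (G.l j)] =ᵐ[μ] 0 := by
  by_cases hj : j < J
  · exact (condExp_congr_ae (rr_ae R G W hj i)).trans (R.condExp_inn _ _)
  · rw [rr_ge hj]
    exact (condExp_const (R.hF _) (0 : ℝ)).eventuallyEq

omit [Fintype ι] [Fintype β] [DecidableEq β] [IsProbabilityMeasure μ] in
lemma rr_meas (R : Rows μ F h B lo hi) (G : Geo ι β) (J : ℕ) (j : ℕ) (i : ι) :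
    Measurable[F (G.l (j + 1))] (rr μ F h B G J j i) := by
  by_cases hj : j < J
  · rw [rr_lt hj]
    have h1 : Measurable[F (G.l (j + 1))] (h (G.site j i)) := R.meas (G.site j i)
    exact h1.sub ((cc_meas R G j i).mono (R.mono (G.l_mono (Nat.le_succ j))) le_rfl)
  · rw [rr_ge hj]
    exact measurable_const

omit [Fintype ι] [Fintype β] [DecidableEq β] in
lemma int_rr_rr (R : Rows μ F h B lo hi) (G : Geo ι β) {J : ℕ} {T : ℤ} (W : G.In lo hi J T)
    {j : ℕ} (hj : j < J) (i i' : ι) :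
    ∫ ω, rr μ F h B G J j i ω * rr μ F h B G J j i' ω ∂μ =
      cr μ h (G.l j) (G.site j i) (G.site j i') := by
  rw [← R.int_inn_inn (G.l j) (G.site j i) (G.site j i') (W.site hj i) (W.site hj i')]
  refine integral_congr_ae ?_
  filter_upwards [rr_ae R G W hj i, rr_ae R G W hj i'] with ω h1 h2
  simp only [h1, h2]

end

end Vale.Agent.P145W85.P153.Asm
end

section

/-!
# The strip inequality: main theorem
-/

namespace Vale.Agent.P145W85.P153.Asm

open MeasureTheory Filter Finset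
open scoped Topology ENNReal
open Vale.Agent.P145W85.P153.CLT

variable {Ω : Type*} {mΩ : MeasurableSpace Ω} {μ : Measure Ω}

/-- Covariance of innovations in terms of mean square differences. -/
noncomputable def crV (V : ℤ × ℤ → ℤ × ℤ → ℝ) (l : ℤ) (p q : ℤ × ℤ) : ℝ :=
  (V p (rho l q) - V p q) / 2

/-- Covariance of projected increments. -/
noncomputable def trV (V : ℤ × ℤ → ℤ × ℤ → ℝ) (l : ℤ) (p π q π' : ℤ × ℤ) : ℝ :=
  (V p π' + V π (rho l q) - V p (rho l q) - V π π') / 2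

/-- Covariance of increments. -/
noncomputable def ddV (V : ℤ × ℤ → ℤ × ℤ → ℝ) (p π q π' : ℤ × ℤ) : ℝ :=
  (V p π' + V π q - V p q - V π π') / 2

variable {ι β : Type} [Fintype ι] [Fintype β] [DecidableEq β]

/-- Mean square error of the innovation approximation. -/
noncomputable def err2 (V : ℤ × ℤ → ℤ × ℤ → ℝ) (G : Geo ι β) (A : Finset (ℤ × ℤ))
    (a : ℤ × ℤ → ℝ) (g : ℕ → ι → ℝ) (J : ℕ) : ℝ :=
  (-(1 / 2)) * ∑ w ∈ A, ∑ w' ∈ A, a w * a w' * V w w' -
  2 * ∑ j ∈ range J, ∑ i, g j i * ∑ w ∈ A,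
    (if G.l j < w.1 then a w * crV V (G.l j) w (G.site j i) else 0) +
  ∑ j ∈ range J, ∑ i, ∑ i', g j i * g j i' * crV V (G.l j) (G.site j i) (G.site j i')

/-- Covariances between different blocks. -/
noncomputable def vcross (V : ℤ × ℤ → ℤ × ℤ → ℝ) (G : Geo ι β) (g : ℕ → ι → ℝ) (J : ℕ) : ℝ :=
  ∑ j ∈ range J, ∑ i, ∑ i', if G.b i = G.b i' then 0 else
    |g j i| * |g j i'| * crV V (G.l j) (G.site j i) (G.site j i')

/-- Sum of the variances of the block sums. -/
noncomputable def vsq (V : ℤ × ℤ → ℤ × ℤ → ℝ) (G : Geo ι β) (g : ℕ → ι → ℝ) (J : ℕ) : ℝ :=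
  ∑ j ∈ range J, ∑ c : β, ∑ i ∈ sT G.b {c}, ∑ i' ∈ sT G.b {c},
    g j i * g j i' * crV V (G.l j) (G.site j i) (G.site j i')

/-- Sum of the second moments of the local block sums. -/
noncomputable def vloc (V : ℤ × ℤ → ℤ × ℤ → ℝ) (G : Geo ι β) (g : ℕ → ι → ℝ) (J : ℕ) : ℝ :=
  ∑ j ∈ range J, ∑ c : β, ∑ i ∈ sT G.b {c}, ∑ i' ∈ sT G.b {c},
    g j i * g j i' * ddV V (G.site j i) (G.base j i) (G.site j i') (G.base j i')

/-- Sum of the second moments of the differences. -/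
noncomputable def vdel (V : ℤ × ℤ → ℤ × ℤ → ℝ) (G : Geo ι β) (g : ℕ → ι → ℝ) (J : ℕ) : ℝ :=
  ∑ j ∈ range J, ∑ c : β, ∑ i ∈ sT G.b {c}, ∑ i' ∈ sT G.b {c},
    g j i * g j i' * trV V (G.l j) (G.site j i) (G.base j i) (G.site j i') (G.base j i')

/-- Local block sum. -/
def yloc (h : ℤ × ℤ → Ω → ℝ) (G : Geo ι β) (g : ℕ → ι → ℝ) (j : ℕ) (c : β) (ω : Ω) : ℝ :=
  ∑ i ∈ sT G.b {c}, g j i * (h (G.site j i) ω - h (G.base j i) ω)

/-- Deviation of the local squares. -/
noncomputable def dev (μ : Measure[mΩ] Ω) (h : ℤ × ℤ → Ω → ℝ) (G : Geo ι β) (g : ℕ → ι → ℝ)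
    (J : ℕ) (s : ℝ) : ℝ :=
  ∫ ω, |∑ j ∈ range J, ∑ c : β, yloc h G g j c ω ^ 2 - s| ∂μ

variable {F : ℤ → MeasurableSpace Ω} {h : ℤ × ℤ → Ω → ℝ} {B : ℝ} {lo hi : ℤ}

section

variable [IsProbabilityMeasure μ]

omit [Fintype ι] [Fintype β] [DecidableEq β] in
lemma rr_memLp (R : Rows μ F h B lo hi) (G : Geo ι β) {J : ℕ} {T : ℤ} (W : G.In lo hi J T)
    (j : ℕ) (i : ι) : MemLp (rr μ F h B G J j i) 2 μ :=
  (rr_bm R G W j i).memLp 2

omit [Fintype β] [DecidableEq β] in
/-- The error of the innovation approximation. -/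
lemma int_sq_XY (R : Rows μ F h B lo hi) (G : Geo ι β) {J : ℕ} {T : ℤ} (W : G.In lo hi J T)
    (A : Finset (ℤ × ℤ)) (hAT : ∀ w ∈ A, w.1 ≤ T) (a : ℤ × ℤ → ℝ)
    (ha : ∑ w ∈ A, a w = 0) (g : ℕ → ι → ℝ) :
    ∫ ω, (∑ w ∈ A, a w * h w ω - ∑ j ∈ range J, ∑ i, g j i * rr μ F h B G J j i ω) ^ 2 ∂μ =
      err2 (msd μ h) G A a g J := by
  classical
  -- reindex the innovations
  set X : Ω → ℝ := fun ω => ∑ w ∈ A, a w * h w ω with hX
  set Y : Ω → ℝ := fun ω => ∑ j ∈ range J, ∑ i, g j i * rr μ F h B G J j i ω with hY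
  have hY' : ∀ ω, Y ω = ∑ k ∈ range J ×ˢ (univ : Finset ι), g k.1 k.2 * rr μ F h B G J k.1 k.2 ω := by
    intro ω
    rw [hY, Finset.sum_product]
  have hmh : ∀ w ∈ A, MemLp (h w) 2 μ := fun w _ => (R.bm w).memLp 2
  have hmr : ∀ k ∈ range J ×ˢ (univ : Finset ι), MemLp (rr μ F h B G J k.1 k.2) 2 μ :=
    fun k _ => rr_memLp R G W k.1 k.2
  have hXm : MemLp X 2 μ := memLp_finsetSum _ fun w hw => (hmh w hw).const_mul (a w)
  have hYm : MemLp Y 2 μ := memLp_finsetSum _ fun j _ => memLp_finsetSum _ fun i _ =>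
    (rr_memLp R G W j i).const_mul (g j i)
  have e0 : (fun ω => (X ω - Y ω) ^ 2) = fun ω => X ω ^ 2 + (-2) * (X ω * Y ω) + Y ω ^ 2 := by
    funext ω
    ring
  have e1 : ∫ ω, (X ω - Y ω) ^ 2 ∂μ =
      ∫ ω, X ω ^ 2 ∂μ + (-2) * ∫ ω, X ω * Y ω ∂μ + ∫ ω, Y ω ^ 2 ∂μ := by
    rw [e0]
    exact int3 hXm.integrable_sq (hXm.integrable_mul hYm) hYm.integrable_sq (-2)
  -- the variance of X
  have vX : ∫ ω, X ω ^ 2 ∂μ = (-(1 / 2)) * ∑ w ∈ A, ∑ w' ∈ A, a w * a w' * msd μ h w w' := by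
    have h1 : ∫ ω, X ω ^ 2 ∂μ = ∑ w ∈ A, ∑ w' ∈ A, a w * a w' * ∫ ω, h w ω * h w' ω ∂μ := by
      rw [← int_sum_mul_sum A A a a h h hmh hmh]
      exact integral_congr_ae (ae_of_all _ fun ω => by simp only [hX]; ring)
    rw [h1]
    have h2 : ∀ w w', a w * a w' * ∫ ω, h w ω * h w' ω ∂μ =
        (a w * (∫ ω, h w ω ^ 2 ∂μ) / 2) * a w' + (a w) * (a w' * (∫ ω, h w' ω ^ 2 ∂μ) / 2) +
          (-(1 / 2)) * (a w * a w' * msd μ h w w') := by
      intro w w'
      rw [R.int_mul w w']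
      ring
    simp only [h2, Finset.sum_add_distrib, ← Finset.mul_sum, ha, mul_zero, Finset.sum_const_zero]
    rw [← Finset.sum_mul, ha]
    ring
  -- the covariance
  have cXY : ∫ ω, X ω * Y ω ∂μ = ∑ j ∈ range J, ∑ i, g j i * ∑ w ∈ A,
      (if G.l j < w.1 then a w * crV (msd μ h) (G.l j) w (G.site j i) else 0) := by
    have h1 : ∫ ω, X ω * Y ω ∂μ = ∑ w ∈ A, ∑ k ∈ range J ×ˢ (univ : Finset ι),
        a w * g k.1 k.2 * ∫ ω, h w ω * rr μ F h B G J k.1 k.2 ω ∂μ := by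
      rw [← int_sum_mul_sum A (range J ×ˢ (univ : Finset ι)) a (fun k => g k.1 k.2) h
        (fun k => rr μ F h B G J k.1 k.2) hmh hmr]
      refine integral_congr_ae (ae_of_all _ fun ω => ?_)
      simp only [hY' ω, hX]
    rw [h1, Finset.sum_comm, Finset.sum_product]
    refine Finset.sum_congr rfl fun j hj => Finset.sum_congr rfl fun i _ => ?_
    rw [Finset.mul_sum]
    refine Finset.sum_congr rfl fun w hwA => ?_
    rw [Finset.mem_range] at hj
    have h2 : ∫ ω, h w ω * rr μ F h B G J j i ω ∂μ =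
        ∫ ω, h w ω * inn μ F h (G.l j) (G.site j i) ω ∂μ := by
      refine integral_congr_ae ?_
      filter_upwards [rr_ae R G W hj i] with ω h1
      simp only [h1]
    simp only
    rw [h2]
    split_ifs with hw
    · rw [R.int_h_inn (G.l j) w (G.site j i) ((W.mid hj).2.2 w hw.le (hAT w hwA)) (W.site hj i)]
      unfold cr crV
      ring
    · rw [R.int_h_inn_zero (G.l j) w (G.site j i) (not_lt.1 hw)]
      ring
  -- the variance of Y
  have vY : ∫ ω, Y ω ^ 2 ∂μ = ∑ j ∈ range J, ∑ i, ∑ i', g j i * g j i' *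
      crV (msd μ h) (G.l j) (G.site j i) (G.site j i') := by
    have hDm : ∀ j, AEStronglyMeasurable[F (G.l (j + 1))] (fun ω => ∑ i, g j i * rr μ F h B G J j i ω)
        μ := fun j => (Finset.measurable_sum _ fun i _ =>
          (rr_meas R G J j i).const_mul _).stronglyMeasurable.aestronglyMeasurable
    have hD2 : ∀ j, MemLp (fun ω => ∑ i, g j i * rr μ F h B G J j i ω) 2 μ := fun j =>
      memLp_finsetSum _ fun i _ => (rr_memLp R G W j i).const_mul (g j i)
    have hD0 : ∀ j, μ[fun ω => ∑ i, g j i * rr μ F h B G J j i ω | F (G.l j)] =ᵐ[μ] 0 := by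
      intro j
      have e : (fun ω => ∑ i, g j i * rr μ F h B G J j i ω) =
          ∑ i, (g j i) • rr μ F h B G J j i := by
        funext ω
        simp only [Finset.sum_apply, Pi.smul_apply, smul_eq_mul]
      rw [e]
      have h1 := condExp_finsetSum (μ := μ) (s := (univ : Finset ι))
        (f := fun i => (g j i) • rr μ F h B G J j i)
        (fun i _ => ((rr_memLp R G W j i).integrable (by norm_num)).smul _) (F (G.l j))
      refine h1.trans ?_
      have h3 : ∀ᵐ ω ∂μ, ∀ i ∈ (univ : Finset ι),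
          (μ[(g j i) • rr μ F h B G J j i | F (G.l j)]) ω = 0 := by
        refine (Finset.eventually_all (univ : Finset ι) (l := ae μ)
          (p := fun i ω => (μ[(g j i) • rr μ F h B G J j i | F (G.l j)]) ω = 0)).2 (fun i _ => ?_)
        filter_upwards [condExp_smul (μ := μ) (g j i) (rr μ F h B G J j i) (F (G.l j)),
          rr_centered R G W j i] with ω a b
        rw [a, Pi.smul_apply, b]
        simp
      filter_upwards [h3] with ω h
      rw [Finset.sum_apply, Pi.zero_apply]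
      exact Finset.sum_eq_zero h
    obtain ⟨-, -, h1⟩ := mart_orth (μ := μ) (fun j => F (G.l j)) (fun j => R.hF _)
      (fun i j hij => R.mono (G.l_mono hij)) (fun j ω => ∑ i, g j i * rr μ F h B G J j i ω)
      hDm hD2 hD0 J
    rw [hY, h1]
    refine Finset.sum_congr rfl fun j hj => ?_
    rw [Finset.mem_range] at hj
    have h2 : ∫ ω, (∑ i, g j i * rr μ F h B G J j i ω) ^ 2 ∂μ =
        ∑ i, ∑ i', g j i * g j i' * ∫ ω, rr μ F h B G J j i ω * rr μ F h B G J j i' ω ∂μ := by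
      rw [← int_sum_mul_sum univ univ (g j) (g j) (rr μ F h B G J j) (rr μ F h B G J j)
        (fun i _ => rr_memLp R G W j i) (fun i _ => rr_memLp R G W j i)]
      exact integral_congr_ae (ae_of_all _ fun ω => by simp only; ring)
    rw [h2]
    refine Finset.sum_congr rfl fun i _ => Finset.sum_congr rfl fun i' _ => ?_
    rw [int_rr_rr R G W hj i i']
    rfl
  unfold err2
  rw [e1, vX, cXY, vY]
  ring

omit [Fintype β] in
lemma int_block_sq (R : Rows μ F h B lo hi) (G : Geo ι β) {J : ℕ} {T : ℤ} (W : G.In lo hi J T)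
    (g : ℕ → ι → ℝ) {j : ℕ} (hj : j < J) (c : β) :
    ∫ ω, lL (g j) (rr μ F h B G J j) (sT G.b {c}) ω ^ 2 ∂μ =
      ∑ i ∈ sT G.b {c}, ∑ i' ∈ sT G.b {c},
        g j i * g j i' * crV (msd μ h) (G.l j) (G.site j i) (G.site j i') := by
  have h2 : ∫ ω, lL (g j) (rr μ F h B G J j) (sT G.b {c}) ω ^ 2 ∂μ =
      ∑ i ∈ sT G.b {c}, ∑ i' ∈ sT G.b {c},
        g j i * g j i' * ∫ ω, rr μ F h B G J j i ω * rr μ F h B G J j i' ω ∂μ := by
    rw [← int_sum_mul_sum _ _ (g j) (g j) (rr μ F h B G J j) (rr μ F h B G J j)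
      (fun i _ => rr_memLp R G W j i) (fun i _ => rr_memLp R G W j i)]
    exact integral_congr_ae (ae_of_all _ fun ω => by simp only [lL]; ring)
  rw [h2]
  refine Finset.sum_congr rfl fun i _ => Finset.sum_congr rfl fun i' _ => ?_
  rw [int_rr_rr R G W hj i i']
  rfl

omit [Fintype β] in
lemma int_loc_sq (R : Rows μ F h B lo hi) (G : Geo ι β) (g : ℕ → ι → ℝ) (j : ℕ) (c : β) :
    ∫ ω, yloc h G g j c ω ^ 2 ∂μ =
      ∑ i ∈ sT G.b {c}, ∑ i' ∈ sT G.b {c},
        g j i * g j i' * ddV (msd μ h) (G.site j i) (G.base j i) (G.site j i') (G.base j i') := by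
  have hm : ∀ i : ι, MemLp (fun ω => h (G.site j i) ω - h (G.base j i) ω) 2 μ := fun i =>
    ((R.bm _).memLp 2).sub ((R.bm _).memLp 2)
  have h2 : ∫ ω, yloc h G g j c ω ^ 2 ∂μ =
      ∑ i ∈ sT G.b {c}, ∑ i' ∈ sT G.b {c}, g j i * g j i' *
        ∫ ω, (h (G.site j i) ω - h (G.base j i) ω) * (h (G.site j i') ω - h (G.base j i') ω) ∂μ := by
    rw [← int_sum_mul_sum _ _ (g j) (g j) (fun i ω => h (G.site j i) ω - h (G.base j i) ω)
      (fun i ω => h (G.site j i) ω - h (G.base j i) ω) (fun i _ => hm i) (fun i _ => hm i)]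
    exact integral_congr_ae (ae_of_all _ fun ω => by simp only [yloc]; ring)
  rw [h2]
  refine Finset.sum_congr rfl fun i _ => Finset.sum_congr rfl fun i' _ => ?_
  rw [R.int_diff]
  rfl

omit [Fintype β] in
lemma int_del_sq (R : Rows μ F h B lo hi) (G : Geo ι β) {J : ℕ} {T : ℤ} (W : G.In lo hi J T)
    (g : ℕ → ι → ℝ) {j : ℕ} (hj : j < J) (c : β) :
    ∫ ω, (lL (g j) (rr μ F h B G J j) (sT G.b {c}) ω - yloc h G g j c ω) ^ 2 ∂μ =
      ∑ i ∈ sT G.b {c}, ∑ i' ∈ sT G.b {c},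
        g j i * g j i' * trV (msd μ h) (G.l j) (G.site j i) (G.base j i) (G.site j i')
          (G.base j i') := by
  classical
  have hm : ∀ i : ι, MemLp (fun ω => (μ[h (G.site j i) | F (G.l j)]) ω - h (G.base j i) ω) 2 μ :=
    fun i => (R.memLp_condExp _ _).sub ((R.bm _).memLp 2)
  have e : (fun ω => (lL (g j) (rr μ F h B G J j) (sT G.b {c}) ω - yloc h G g j c ω) ^ 2) =ᵐ[μ]
      fun ω => (∑ i ∈ sT G.b {c}, g j i * ((μ[h (G.site j i) | F (G.l j)]) ω -
        h (G.base j i) ω)) * (∑ i ∈ sT G.b {c}, g j i * ((μ[h (G.site j i) | F (G.l j)]) ω -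
        h (G.base j i) ω)) := by
    have h1 : ∀ᵐ ω ∂μ, ∀ i : ι, cc μ F h B G j i ω = (μ[h (G.site j i) | F (G.l j)]) ω :=
      ae_all_iff.2 fun i => cc_ae R G W hj i
    filter_upwards [h1] with ω h1
    have e1 : lL (g j) (rr μ F h B G J j) (sT G.b {c}) ω - yloc h G g j c ω =
        -∑ i ∈ sT G.b {c}, g j i * ((μ[h (G.site j i) | F (G.l j)]) ω - h (G.base j i) ω) := by
      unfold lL yloc
      rw [← Finset.sum_sub_distrib, ← Finset.sum_neg_distrib]
      refine Finset.sum_congr rfl fun i _ => ?_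
      rw [rr_lt hj]
      simp only
      rw [h1 i]
      ring
    rw [e1]
    ring
  rw [integral_congr_ae e, int_sum_mul_sum _ _ (g j) (g j)
    (fun i ω => (μ[h (G.site j i) | F (G.l j)]) ω - h (G.base j i) ω)
    (fun i ω => (μ[h (G.site j i) | F (G.l j)]) ω - h (G.base j i) ω)
    (fun i _ => hm i) (fun i _ => hm i)]
  refine Finset.sum_congr rfl fun i _ => Finset.sum_congr rfl fun i' _ => ?_
  rw [R.int_proj (G.l j) (G.site j i) (G.base j i) (G.site j i') (G.base j i')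
    (W.site hj i) (W.site hj i') rfl rfl]
  rfl

end

end Vale.Agent.P145W85.P153.Asm
end

section

/-!
# P153, two-point part: Riemann sums of continuous functions of compact support in the plane
-/

open MeasureTheory Filter Topology Set
open scoped ENNReal Real

namespace Vale.Agent.P145W85.P153.TwoPt

variable {E : Type*} [NormedAddCommGroup E] [NormedSpace ℝ E] [CompleteSpace E]

/-- Integral of a step function with cells of size `α × β`. -/
theorem integral_step (α β : ℝ) (hα : 0 < α) (hβ : 0 < β) (s : Finset (ℤ × ℤ))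
    (g : ℤ × ℤ → E) (hg : ∀ p, p ∉ s → g p = 0) :
    ∫ z : ℝ × ℝ, g (⌊z.1 / α⌋, ⌊z.2 / β⌋) = (α * β) • ∑ p ∈ s, g p := by
  have key : ∀ z : ℝ × ℝ, g (⌊z.1 / α⌋, ⌊z.2 / β⌋) =
      ∑ p ∈ s, (Ico (p.1 * α) ((p.1 + 1) * α) ×ˢ Ico (p.2 * β) ((p.2 + 1) * β)).indicator
        (fun _ => g p) z := by
    intro z
    have hmem : ∀ p : ℤ × ℤ, z ∈ (Ico (p.1 * α) ((p.1 + 1) * α) ×ˢ
        Ico (p.2 * β) ((p.2 + 1) * β) : Set (ℝ × ℝ)) ↔ (⌊z.1 / α⌋, ⌊z.2 / β⌋) = p := by
      intro p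
      rw [Prod.ext_iff]
      simp only [mem_prod, mem_Ico]
      rw [Int.floor_eq_iff, Int.floor_eq_iff, le_div_iff₀ hα, div_lt_iff₀ hα, le_div_iff₀ hβ,
        div_lt_iff₀ hβ]
    by_cases hs : (⌊z.1 / α⌋, ⌊z.2 / β⌋) ∈ s
    · rw [Finset.sum_eq_single_of_mem _ hs]
      · rw [indicator_of_mem ((hmem _).2 rfl)]
      · intro p _ hp
        exact indicator_of_notMem (fun h => hp ((hmem p).1 h).symm) _
    · rw [hg _ hs, Finset.sum_eq_zero]
      intro p hp
      exact indicator_of_notMem (fun h => hs ((hmem p).1 h ▸ hp)) _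
  have hcell : ∀ p : ℤ × ℤ, volume (Ico ((p.1 : ℝ) * α) ((p.1 + 1) * α) ×ˢ
      Ico ((p.2 : ℝ) * β) ((p.2 + 1) * β) : Set (ℝ × ℝ)) = ENNReal.ofReal (α * β) := by
    intro p
    rw [Measure.volume_eq_prod, Measure.prod_prod, Real.volume_Ico, Real.volume_Ico,
      ← ENNReal.ofReal_mul (by linarith)]
    congr 1
    ring
  simp_rw [key]
  rw [integral_finsetSum]
  · rw [Finset.smul_sum]
    refine Finset.sum_congr rfl fun p _ => ?_
    rw [integral_indicator_const _ (measurableSet_Ico.prod measurableSet_Ico), measureReal_def,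
      hcell, ENNReal.toReal_ofReal (by positivity)]
  · intro p _
    refine (integrable_indicator_iff (measurableSet_Ico.prod measurableSet_Ico)).2 ?_
    refine integrableOn_const ?_ (by simp)
    rw [hcell]
    exact ENNReal.ofReal_ne_top

/-- Riemann sums in the plane. -/
theorem riemann2 (F : ℝ × ℝ → E) (hF : Continuous F) (hc : HasCompactSupport F)
    (α β : ℕ → ℝ) (hα : ∀ n, 0 < α n) (hβ : ∀ n, 0 < β n) (hα0 : Tendsto α atTop (𝓝 0))
    (hβ0 : Tendsto β atTop (𝓝 0)) (s : ℕ → Finset (ℤ × ℤ))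
    (hs : ∀ n, ∀ p : ℤ × ℤ, p ∉ s n → F (p.1 * α n, p.2 * β n) = 0) :
    Tendsto (fun n => (α n * β n) • ∑ p ∈ s n, F (p.1 * α n, p.2 * β n)) atTop
      (𝓝 (∫ z, F z)) := by
  have h1 : ∀ n, (α n * β n) • ∑ p ∈ s n, F (p.1 * α n, p.2 * β n) =
      ∫ z : ℝ × ℝ, F (⌊z.1 / α n⌋ * α n, ⌊z.2 / β n⌋ * β n) := by
    intro n
    rw [← integral_step (α n) (β n) (hα n) (hβ n) (s n)
      (fun p : ℤ × ℤ => F (p.1 * α n, p.2 * β n)) (hs n)]
  simp_rw [h1]
  obtain ⟨C, hC⟩ := hc.exists_bound_of_continuous hF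
  obtain ⟨R, hR⟩ := hc.isCompact.isBounded.subset_closedBall (0 : ℝ × ℝ)
  have hsup : ∀ z : ℝ × ℝ, R < ‖z‖ → F z = 0 := by
    intro z hz
    by_contra h
    have := hR (subset_tsupport _ (Function.mem_support.2 h))
    rw [mem_closedBall_zero_iff] at this
    linarith only [hz, this]
  have hfl : ∀ (a x : ℝ), 0 < a → |⌊x / a⌋ * a - x| ≤ a := by
    intro a x ha
    have h2 := Int.floor_le (x / a)
    have h3 := Int.lt_floor_add_one (x / a)
    rw [le_div_iff₀ ha] at h2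
    rw [div_lt_iff₀ ha] at h3
    rw [abs_le]
    constructor <;> nlinarith
  have hα1 : ∀ᶠ n in atTop, α n < 1 := hα0.eventually (gt_mem_nhds one_pos)
  have hβ1 : ∀ᶠ n in atTop, β n < 1 := hβ0.eventually (gt_mem_nhds one_pos)
  refine tendsto_integral_filter_of_dominated_convergence
    ((Metric.closedBall (0 : ℝ × ℝ) (R + 1)).indicator (fun _ => C)) ?_ ?_ ?_ ?_
  · refine Eventually.of_forall fun n => ?_
    refine StronglyMeasurable.aestronglyMeasurable ?_
    have hm : Measurable fun z : ℝ × ℝ => ((⌊z.1 / α n⌋, ⌊z.2 / β n⌋) : ℤ × ℤ) := by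
      fun_prop
    have hm2 : StronglyMeasurable fun p : ℤ × ℤ => F (p.1 * α n, p.2 * β n) :=
      StronglyMeasurable.of_discrete
    exact hm2.comp_measurable hm
  · filter_upwards [hα1, hβ1] with n hn1 hn2
    refine Eventually.of_forall fun z => ?_
    by_cases hz : z ∈ Metric.closedBall (0 : ℝ × ℝ) (R + 1)
    · rw [indicator_of_mem hz]
      exact hC _
    · rw [indicator_of_notMem hz]
      rw [mem_closedBall_zero_iff, not_le] at hz
      have h4 : R < ‖((⌊z.1 / α n⌋ * α n, ⌊z.2 / β n⌋ * β n) : ℝ × ℝ)‖ := by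
        have h5 : ‖((⌊z.1 / α n⌋ * α n, ⌊z.2 / β n⌋ * β n) : ℝ × ℝ) - z‖ ≤ 1 := by
          rw [Prod.norm_def]
          refine max_le ?_ ?_
          · exact (hfl _ _ (hα n)).trans hn1.le
          · exact (hfl _ _ (hβ n)).trans hn2.le
        have h6 := norm_sub_norm_le z ((⌊z.1 / α n⌋ * α n, ⌊z.2 / β n⌋ * β n) : ℝ × ℝ)
        rw [norm_sub_rev] at h6
        linarith
      rw [hsup _ h4, norm_zero]
  · exact (integrable_indicator_iff measurableSet_closedBall).2
      (integrableOn_const (measure_closedBall_lt_top.ne) (by simp))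
  · refine Eventually.of_forall fun z => ?_
    refine (hF.tendsto z).comp ?_
    refine Tendsto.prodMk_nhds ?_ ?_
    · refine tendsto_iff_norm_sub_tendsto_zero.2 ?_
      refine squeeze_zero (fun n => norm_nonneg _) (fun n => hfl _ _ (hα n)) hα0
    · refine tendsto_iff_norm_sub_tendsto_zero.2 ?_
      refine squeeze_zero (fun n => norm_nonneg _) (fun n => hfl _ _ (hβ n)) hβ0

end Vale.Agent.P145W85.P153.TwoPt
end

section

/-!
# P153, block D3: sums of local squares tend to a constant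

`D i x` is the (bounded) increment of the height over one block of rows, `W i c` the square of the
increment summed over a block of `l` sites.  If the block squares have the same mean and
decorrelate along each row, then the weighted sums of squares converge to a constant.
-/

namespace Vale.Agent.P145W85.P153.CLT

open MeasureTheory Filter Finset
open scoped Topology ENNReal

variable {Ω : Type*} {mΩ : MeasurableSpace Ω} {μ : Measure Ω}

/-- Second moment of a weighted average along one row. -/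
lemma row_second_moment [IsProbabilityMeasure μ] (W : ℤ → Ω → ℝ) (hWm : ∀ c, Measurable (W c))
    {B : ℝ} (hWb : ∀ c ω, |W c ω| ≤ B) {w : ℝ} (hw : ∀ c, ∫ ω, W c ω ∂μ = w) {ε : ℝ}
    (hε : 0 ≤ ε) {R : ℕ}
    (hdec : ∀ c c' : ℤ, (R : ℤ) ≤ |c - c'| → ∫ ω, W c ω * W c' ω ∂μ ≤ w ^ 2 + ε)
    (C : Finset ℤ) (a : ℤ → ℝ) {α : ℝ} (ha0 : ∀ c, 0 ≤ a c) (ha : ∀ c, a c ≤ α) :
    ∫ ω, (∑ c ∈ C, a c * (W c ω - w)) ^ 2 ∂μ ≤
      α ^ 2 * (C.card * (2 * R + 1) * B ^ 2 + ε * C.card ^ 2) := by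
  have hα : 0 ≤ α := (ha0 0).trans (ha 0)
  have hint : ∀ c, Integrable (W c) μ := fun c =>
    Integrable.of_bound (hWm c).aestronglyMeasurable B (ae_of_all _ (hWb c))
  have hB : 0 ≤ B := by
    obtain ⟨ω0⟩ : Nonempty Ω := by
      by_contra h
      rw [not_nonempty_iff] at h
      have h1 := measure_univ (μ := μ)
      rw [Set.univ_eq_empty_iff.2 h, measure_empty] at h1
      exact zero_ne_one h1
    exact (abs_nonneg _).trans (hWb 0 ω0)
  have hint2 : ∀ c c', Integrable (fun ω => W c ω * W c' ω) μ := fun c c' =>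
    Integrable.of_bound ((hWm c).mul (hWm c')).aestronglyMeasurable (B * B)
      (ae_of_all _ fun ω => by
        rw [Real.norm_eq_abs, abs_mul]
        exact mul_le_mul (hWb c ω) (hWb c' ω) (abs_nonneg _) hB)
  have hcov : ∀ c c', ∫ ω, (W c ω - w) * (W c' ω - w) ∂μ = ∫ ω, W c ω * W c' ω ∂μ - w ^ 2 := by
    intro c c'
    have e : (fun ω => (W c ω - w) * (W c' ω - w)) =
        fun ω => W c ω * W c' ω - (w * W c ω + w * W c' ω) + w ^ 2 := by
      funext ω; ring
    have i1 : Integrable (fun ω => w * W c ω + w * W c' ω) μ :=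
      ((hint c).const_mul w).add ((hint c').const_mul w)
    have i2 : Integrable (fun ω => W c ω * W c' ω - (w * W c ω + w * W c' ω)) μ :=
      (hint2 c c').sub i1
    have e3 : ∫ ω, (W c ω * W c' ω - (w * W c ω + w * W c' ω) + w ^ 2) ∂μ =
        ∫ ω, (W c ω * W c' ω - (w * W c ω + w * W c' ω)) ∂μ + ∫ _ω, w ^ 2 ∂μ :=
      integral_add i2 (integrable_const _)
    have e4 : ∫ ω, (W c ω * W c' ω - (w * W c ω + w * W c' ω)) ∂μ =
        ∫ ω, W c ω * W c' ω ∂μ - ∫ ω, (w * W c ω + w * W c' ω) ∂μ :=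
      integral_sub (hint2 c c') i1
    have e5 : ∫ ω, (w * W c ω + w * W c' ω) ∂μ = ∫ ω, w * W c ω ∂μ + ∫ ω, w * W c' ω ∂μ :=
      integral_add ((hint c).const_mul w) ((hint c').const_mul w)
    rw [e, e3, e4, e5, integral_const_mul, integral_const_mul, hw, hw, integral_const]
    simp only [probReal_univ, smul_eq_mul, one_mul]
    ring
  have hint3 : ∀ c c', Integrable (fun ω => (W c ω - w) * (W c' ω - w)) μ := by
    intro c c'
    have e : (fun ω => (W c ω - w) * (W c' ω - w)) =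
        fun ω => W c ω * W c' ω - (w * W c ω + w * W c' ω) + w ^ 2 := by
      funext ω; ring
    rw [e]
    exact ((hint2 c c').sub (((hint c).const_mul w).add ((hint c').const_mul w))).add
      (integrable_const _)
  have e1 : ∫ ω, (∑ c ∈ C, a c * (W c ω - w)) ^ 2 ∂μ =
      ∑ c ∈ C, ∑ c' ∈ C, a c * a c' * (∫ ω, W c ω * W c' ω ∂μ - w ^ 2) := by
    have e2 : (fun ω => (∑ c ∈ C, a c * (W c ω - w)) ^ 2) =
        fun ω => ∑ c ∈ C, ∑ c' ∈ C, a c * a c' * ((W c ω - w) * (W c' ω - w)) := by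
      funext ω
      rw [sq, Finset.sum_mul_sum]
      refine Finset.sum_congr rfl fun c _ => Finset.sum_congr rfl fun c' _ => ?_
      ring
    rw [e2, integral_finsetSum _ fun c _ => integrable_finsetSum _ fun c' _ =>
      (hint3 c c').const_mul _]
    refine Finset.sum_congr rfl fun c _ => ?_
    rw [integral_finsetSum _ fun c' _ => (hint3 c c').const_mul _]
    refine Finset.sum_congr rfl fun c' _ => ?_
    rw [integral_const_mul, hcov]
  rw [e1]
  have hb : ∀ c c', ∫ ω, W c ω * W c' ω ∂μ - w ^ 2 ≤ B ^ 2 := by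
    intro c c'
    have h1 : ∫ ω, W c ω * W c' ω ∂μ ≤ ∫ _ω, B ^ 2 ∂μ := by
      refine integral_mono (hint2 c c') (integrable_const _) fun ω => ?_
      have h2 := mul_le_mul (hWb c ω) (hWb c' ω) (abs_nonneg _) hB
      calc W c ω * W c' ω ≤ |W c ω * W c' ω| := le_abs_self _
        _ = |W c ω| * |W c' ω| := abs_mul _ _
        _ ≤ B * B := h2
        _ = B ^ 2 := (sq B).symm
    rw [integral_const] at h1
    simp at h1
    nlinarith only [h1]
  have hrow : ∀ c ∈ C, ∑ c' ∈ C, a c * a c' * (∫ ω, W c ω * W c' ω ∂μ - w ^ 2) ≤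
      α ^ 2 * ((2 * R + 1) * B ^ 2 + ε * C.card) := by
    intro c hc
    have h1 : ∀ c' ∈ C, a c * a c' * (∫ ω, W c ω * W c' ω ∂μ - w ^ 2) ≤
        (if c' ∈ Finset.Icc (c - R) (c + R) then α ^ 2 * B ^ 2 else 0) + α ^ 2 * ε := by
      intro c' _
      have haa : 0 ≤ a c * a c' := mul_nonneg (ha0 _) (ha0 _)
      have haa2 : a c * a c' ≤ α ^ 2 := by
        rw [sq]; exact mul_le_mul (ha _) (ha _) (ha0 _) hα
      split_ifs with hcc
      · have h3 : a c * a c' * (∫ ω, W c ω * W c' ω ∂μ - w ^ 2) ≤ a c * a c' * B ^ 2 :=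
          mul_le_mul_of_nonneg_left (hb c c') haa
        have h4 : a c * a c' * B ^ 2 ≤ α ^ 2 * B ^ 2 :=
          mul_le_mul_of_nonneg_right haa2 (sq_nonneg _)
        have h5 : 0 ≤ α ^ 2 * ε := mul_nonneg (sq_nonneg _) hε
        linarith only [h3, h4, h5]
      · have h6 : (R : ℤ) ≤ |c - c'| := by
          by_contra h7
          rw [not_le, abs_lt] at h7
          exact hcc (Finset.mem_Icc.2 ⟨by linarith only [h7], by linarith⟩)
        have h8 : ∫ ω, W c ω * W c' ω ∂μ - w ^ 2 ≤ ε := by linarith only [hdec c c' h6]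
        calc a c * a c' * (∫ ω, W c ω * W c' ω ∂μ - w ^ 2) ≤ a c * a c' * ε :=
              mul_le_mul_of_nonneg_left h8 haa
          _ ≤ α ^ 2 * ε := mul_le_mul_of_nonneg_right haa2 hε
          _ = 0 + α ^ 2 * ε := by ring
    refine (Finset.sum_le_sum h1).trans ?_
    rw [Finset.sum_add_distrib, Finset.sum_const, ← Finset.sum_filter, Finset.sum_const]
    have h9 : ((C.filter fun c' => c' ∈ Finset.Icc (c - R) (c + R)).card : ℝ) ≤ 2 * R + 1 := by
      have h10 : (C.filter fun c' => c' ∈ Finset.Icc (c - R) (c + R)) ⊆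
          Finset.Icc (c - R) (c + R) := fun x hx => (Finset.mem_filter.1 hx).2
      have h11 := Finset.card_le_card h10
      rw [Int.card_Icc] at h11
      have h12 : (c + R + 1 - (c - R)).toNat = 2 * R + 1 := by
        have : c + R + 1 - (c - R) = ((2 * R + 1 : ℕ) : ℤ) := by push_cast; ring
        rw [this, Int.toNat_natCast]
      rw [h12] at h11
      exact_mod_cast h11
    rw [nsmul_eq_mul, nsmul_eq_mul]
    have h13 : 0 ≤ α ^ 2 * B ^ 2 := by (clear * -; positivity)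
    nlinarith only [h9, h13]
  refine (Finset.sum_le_sum hrow).trans ?_
  rw [Finset.sum_const, nsmul_eq_mul]
  refine le_of_eq ?_
  ring

lemma nonempty_of_prob [IsProbabilityMeasure μ] : Nonempty Ω := by
  by_contra h
  rw [not_nonempty_iff] at h
  have h1 := measure_univ (μ := μ)
  rw [Set.univ_eq_empty_iff.2 h, measure_empty] at h1
  exact zero_ne_one h1

/-- The sum over a block of `l` sites. -/
noncomputable def blk (D : ℤ → ℤ → Ω → ℝ) (l : ℕ) (i c : ℤ) (ω : Ω) : ℝ :=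
  ∑ x ∈ Finset.Ico (c * l) (c * l + l), D i x ω

/-- Weighted squares of block sums: explicit bound. `p i x` are the weights of the sites, `q i c`
those of the blocks. -/
theorem loc_bound [IsProbabilityMeasure μ] (D : ℤ → ℤ → Ω → ℝ) (hDm : ∀ i x, Measurable (D i x))
    {A : ℝ} (hDb : ∀ i x ω, |D i x ω| ≤ A) (l : ℕ) {w : ℝ}
    (hw : ∀ i c : ℤ, ∫ ω, (blk D l i c ω) ^ 2 ∂μ = w) {ε : ℝ} (hε : 0 ≤ ε) {R : ℕ}
    (hdec : ∀ i c c' : ℤ, (R : ℤ) ≤ |c - c'| →
      ∫ ω, (blk D l i c ω) ^ 2 * (blk D l i c' ω) ^ 2 ∂μ ≤ w ^ 2 + ε)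
    (p q : ℤ → ℤ → ℝ) {η P : ℝ} (hp : ∀ i x, |p i x| ≤ P) (hq : ∀ i c, |q i c| ≤ P)
    (hpq : ∀ i c : ℤ, ∀ x ∈ Finset.Ico (c * l) (c * l + l), |p i x - q i c| ≤ η)
    (I C : Finset ℤ) (s : ℝ) :
    ∫ ω, |∑ i ∈ I, ∑ c ∈ C, (∑ x ∈ Finset.Ico (c * l) (c * l + l), p i x * D i x ω) ^ 2 - s| ∂μ ≤
      I.card * (C.card * (2 * (l * A) ^ 2 * P * η)) +
      I.card * Real.sqrt ((P ^ 2) ^ 2 * (C.card * (2 * R + 1) * ((l * A) ^ 2) ^ 2 +
        ε * C.card ^ 2)) +
      |∑ i ∈ I, ∑ c ∈ C, q i c ^ 2 * w - s| := by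
  obtain ⟨ω0⟩ := nonempty_of_prob (μ := μ)
  have hA : 0 ≤ A := (abs_nonneg _).trans (hDb 0 0 ω0)
  have hP : 0 ≤ P := (abs_nonneg _).trans (hp 0 0)
  have hcard : ∀ c : ℤ, (Finset.Ico (c * l) (c * l + l)).card = l := by
    intro c
    rw [Int.card_Ico]
    simp only [add_sub_cancel_left, Int.toNat_natCast]
  have hblkm : ∀ i c, Measurable (blk D l i c) := fun i c =>
    Finset.measurable_sum _ fun x _ => hDm i x
  have hblk : ∀ i c ω, |blk D l i c ω| ≤ l * A := by
    intro i c ω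
    refine (Finset.abs_sum_le_sum_abs _ _).trans ?_
    refine (Finset.sum_le_sum fun x _ => hDb i x ω).trans ?_
    rw [Finset.sum_const, hcard, nsmul_eq_mul]
  have hWb : ∀ i c ω, |(blk D l i c ω) ^ 2| ≤ (l * A) ^ 2 := by
    intro i c ω
    rw [abs_pow]
    exact pow_le_pow_left₀ (abs_nonneg _) (hblk i c ω) 2
  -- the block with the exact weights
  set U : ℤ → ℤ → Ω → ℝ := fun i c ω =>
    ∑ x ∈ Finset.Ico (c * l) (c * l + l), p i x * D i x ω with hU
  have hUm : ∀ i c, Measurable (U i c) := fun i c =>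
    Finset.measurable_sum _ fun x _ => (hDm i x).const_mul _
  have hUb : ∀ i c ω, |U i c ω| ≤ l * A * P := by
    intro i c ω
    refine (Finset.abs_sum_le_sum_abs _ _).trans ?_
    refine (Finset.sum_le_sum (g := fun _ => A * P) fun x _ => ?_).trans ?_
    · rw [abs_mul, mul_comm]
      exact mul_le_mul (hDb i x ω) (hp i x) (abs_nonneg _) hA
    · rw [Finset.sum_const, hcard, nsmul_eq_mul]
      exact le_of_eq (by ring)
  have hdiff : ∀ i c ω, |U i c ω - q i c * blk D l i c ω| ≤ l * A * η := by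
    intro i c ω
    have e : U i c ω - q i c * blk D l i c ω =
        ∑ x ∈ Finset.Ico (c * l) (c * l + l), (p i x - q i c) * D i x ω := by
      rw [hU, blk, Finset.mul_sum, ← Finset.sum_sub_distrib]
      exact Finset.sum_congr rfl fun x _ => by ring
    rw [e]
    refine (Finset.abs_sum_le_sum_abs _ _).trans ?_
    refine (Finset.sum_le_sum (g := fun _ => η * A) fun x hx => ?_).trans ?_
    · rw [abs_mul]
      exact mul_le_mul (hpq i c x hx) (hDb i x ω) (abs_nonneg _)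
        ((abs_nonneg _).trans (hpq i c x hx))
    · rw [Finset.sum_const, hcard, nsmul_eq_mul]
      exact le_of_eq (by ring)
  have hsq : ∀ i c ω, |U i c ω ^ 2 - q i c ^ 2 * (blk D l i c ω) ^ 2| ≤
      2 * (l * A) ^ 2 * P * η := by
    intro i c ω
    have e : U i c ω ^ 2 - q i c ^ 2 * (blk D l i c ω) ^ 2 =
        (U i c ω - q i c * blk D l i c ω) * (U i c ω + q i c * blk D l i c ω) := by ring
    rw [e, abs_mul]
    have h1 : |U i c ω + q i c * blk D l i c ω| ≤ 2 * (l * A * P) := by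
      refine (abs_add_le _ _).trans ?_
      have h2 : |q i c * blk D l i c ω| ≤ l * A * P := by
        rw [abs_mul, mul_comm]
        exact mul_le_mul (hblk i c ω) (hq i c) (abs_nonneg _) (by (clear * - hA; positivity))
      linarith only [h2, hUb i c ω]
    have h3 := mul_le_mul (hdiff i c ω) h1 (abs_nonneg _)
      ((abs_nonneg _).trans (hdiff i c ω))
    refine h3.trans (le_of_eq ?_)
    ring
  -- integrability
  have hWi : ∀ i c, Integrable (fun ω => (blk D l i c ω) ^ 2) μ := fun i c =>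
    Integrable.of_bound ((hblkm i c).pow_const 2).aestronglyMeasurable _ (ae_of_all _ (hWb i c))
  have hrowi : ∀ i, Integrable (fun ω => ∑ c ∈ C, q i c ^ 2 * ((blk D l i c ω) ^ 2 - w)) μ :=
    fun i => integrable_finsetSum _ fun c _ => ((hWi i c).sub (integrable_const _)).const_mul _
  have hrow2 : ∀ i, MemLp (fun ω => ∑ c ∈ C, q i c ^ 2 * ((blk D l i c ω) ^ 2 - w)) 2 μ := by
    intro i
    refine memLp_finsetSum _ fun c _ => ?_
    refine MemLp.const_mul ?_ _
    refine MemLp.sub ?_ (memLp_const _)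
    exact MemLp.of_bound ((hblkm i c).pow_const 2).aestronglyMeasurable _ (ae_of_all _ (hWb i c))
  have hpt : ∀ ω, |∑ i ∈ I, ∑ c ∈ C, U i c ω ^ 2 - s| ≤
      I.card * (C.card * (2 * (l * A) ^ 2 * P * η)) +
      ∑ i ∈ I, |∑ c ∈ C, q i c ^ 2 * ((blk D l i c ω) ^ 2 - w)| +
      |∑ i ∈ I, ∑ c ∈ C, q i c ^ 2 * w - s| := by
    intro ω
    have e : ∑ i ∈ I, ∑ c ∈ C, U i c ω ^ 2 - s =
        ∑ i ∈ I, ∑ c ∈ C, (U i c ω ^ 2 - q i c ^ 2 * (blk D l i c ω) ^ 2) +
        ∑ i ∈ I, ∑ c ∈ C, q i c ^ 2 * ((blk D l i c ω) ^ 2 - w) +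
        (∑ i ∈ I, ∑ c ∈ C, q i c ^ 2 * w - s) := by
      simp only [mul_sub, Finset.sum_sub_distrib]
      ring
    rw [e]
    refine (abs_add_le _ _).trans (add_le_add ?_ le_rfl)
    refine (abs_add_le _ _).trans (add_le_add ?_ (Finset.abs_sum_le_sum_abs _ _))
    refine (Finset.abs_sum_le_sum_abs _ _).trans ?_
    have h1 : ∀ i ∈ I, |∑ c ∈ C, (U i c ω ^ 2 - q i c ^ 2 * (blk D l i c ω) ^ 2)| ≤
        C.card * (2 * (l * A) ^ 2 * P * η) := by
      intro i _
      refine (Finset.abs_sum_le_sum_abs _ _).trans ?_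
      refine (Finset.sum_le_sum fun c _ => hsq i c ω).trans ?_
      rw [Finset.sum_const, nsmul_eq_mul]
    refine (Finset.sum_le_sum h1).trans ?_
    rw [Finset.sum_const, nsmul_eq_mul]
  have hrowb : ∀ i, ∫ ω, |∑ c ∈ C, q i c ^ 2 * ((blk D l i c ω) ^ 2 - w)| ∂μ ≤
      Real.sqrt ((P ^ 2) ^ 2 * (C.card * (2 * R + 1) * ((l * A) ^ 2) ^ 2 + ε * C.card ^ 2)) := by
    intro i
    refine integral_abs_le_sqrt (hrow2 i) ?_
    refine row_second_moment (fun c ω => (blk D l i c ω) ^ 2) (fun c => (hblkm i c).pow_const 2)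
      (hWb i) (hw i) hε (hdec i) C (fun c => q i c ^ 2) (fun c => sq_nonneg _) fun c => ?_
    rw [← sq_abs]
    exact pow_le_pow_left₀ (abs_nonneg _) (hq i c) 2
  have hUi : Integrable (fun ω => |∑ i ∈ I, ∑ c ∈ C, U i c ω ^ 2 - s|) μ := by
    refine (Integrable.sub ?_ (integrable_const s)).abs
    refine integrable_finsetSum _ fun i _ => integrable_finsetSum _ fun c _ => ?_
    refine Integrable.of_bound ((hUm i c).pow_const 2).aestronglyMeasurable ((l * A * P) ^ 2)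
      (ae_of_all _ fun ω => ?_)
    rw [Real.norm_eq_abs, abs_pow]
    exact pow_le_pow_left₀ (abs_nonneg _) (hUb i c ω) 2
  have i1 : Integrable (fun ω => ∑ i ∈ I, |∑ c ∈ C, q i c ^ 2 * ((blk D l i c ω) ^ 2 - w)|) μ :=
    integrable_finsetSum _ fun i _ => (hrowi i).abs
  calc ∫ ω, |∑ i ∈ I, ∑ c ∈ C, U i c ω ^ 2 - s| ∂μ
      ≤ ∫ ω, (I.card * (C.card * (2 * (l * A) ^ 2 * P * η)) +
          ∑ i ∈ I, |∑ c ∈ C, q i c ^ 2 * ((blk D l i c ω) ^ 2 - w)| +
          |∑ i ∈ I, ∑ c ∈ C, q i c ^ 2 * w - s|) ∂μ :=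
        integral_mono hUi (((integrable_const _).add i1).add (integrable_const _)) hpt
    _ = I.card * (C.card * (2 * (l * A) ^ 2 * P * η)) +
          ∑ i ∈ I, ∫ ω, |∑ c ∈ C, q i c ^ 2 * ((blk D l i c ω) ^ 2 - w)| ∂μ +
          |∑ i ∈ I, ∑ c ∈ C, q i c ^ 2 * w - s| := by
        have e1 : ∫ ω, (I.card * (C.card * (2 * (l * A) ^ 2 * P * η)) +
            ∑ i ∈ I, |∑ c ∈ C, q i c ^ 2 * ((blk D l i c ω) ^ 2 - w)| +
            |∑ i ∈ I, ∑ c ∈ C, q i c ^ 2 * w - s|) ∂μ =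
            ∫ ω, (I.card * (C.card * (2 * (l * A) ^ 2 * P * η)) +
            ∑ i ∈ I, |∑ c ∈ C, q i c ^ 2 * ((blk D l i c ω) ^ 2 - w)|) ∂μ +
            ∫ _ω, |∑ i ∈ I, ∑ c ∈ C, q i c ^ 2 * w - s| ∂μ :=
          integral_add ((integrable_const _).add i1) (integrable_const _)
        have e2 : ∫ ω, (I.card * (C.card * (2 * (l * A) ^ 2 * P * η)) +
            ∑ i ∈ I, |∑ c ∈ C, q i c ^ 2 * ((blk D l i c ω) ^ 2 - w)|) ∂μ =
            ∫ _ω, (I.card * (C.card * (2 * (l * A) ^ 2 * P * η)) : ℝ) ∂μ +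
            ∫ ω, ∑ i ∈ I, |∑ c ∈ C, q i c ^ 2 * ((blk D l i c ω) ^ 2 - w)| ∂μ :=
          integral_add (integrable_const _) i1
        rw [e1, e2, integral_finsetSum _ fun i _ => (hrowi i).abs, integral_const,
          integral_const]
        simp only [probReal_univ, smul_eq_mul, one_mul]
    _ ≤ _ := by
        refine add_le_add (add_le_add le_rfl ?_) le_rfl
        refine (Finset.sum_le_sum fun i _ => hrowb i).trans ?_
        rw [Finset.sum_const, nsmul_eq_mul]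

/-- The deterministic sum of the local means. -/
lemma riemann_sq (l K : ℕ) (hl : 0 < l) (hK : 0 < K) (w : ℝ)
    (g : ℝ × ℝ → ℝ) (hg : Continuous g) (hgc : HasCompactSupport g)
    (L : ℕ → ℝ) (hL0 : ∀ n, 0 < L n) (hL : Tendsto L atTop atTop)
    (I C : ℕ → Finset ℤ)
    (hI : ∀ n, ∀ i : ℤ, i ∉ I n → ∀ y : ℝ, g ((i : ℝ) * K / L n, y) = 0)
    (hC : ∀ n, ∀ c : ℤ, c ∉ C n → ∀ t : ℝ, g (t, (c : ℝ) * l / L n) = 0) :
    Tendsto (fun n => ∑ i ∈ I n, ∑ c ∈ C n,
      ((L n)⁻¹ * g ((i : ℝ) * K / L n, (c : ℝ) * l / L n)) ^ 2 * w) atTop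
      (𝓝 (w / (K * l) * ∫ z, g z ^ 2)) := by
  have hl' : (0 : ℝ) < l := by exact_mod_cast hl
  have hK' : (0 : ℝ) < K := by exact_mod_cast hK
  have hα0 : Tendsto (fun n => (K : ℝ) / L n) atTop (𝓝 0) :=
    Tendsto.div_atTop tendsto_const_nhds hL
  have hβ0 : Tendsto (fun n => (l : ℝ) / L n) atTop (𝓝 0) :=
    Tendsto.div_atTop tendsto_const_nhds hL
  have hr := TwoPt.riemann2 (fun z => g z ^ 2) (hg.pow 2)
    (by
      refine hgc.comp_left (g := fun y : ℝ => y ^ 2) ?_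
      simp)
    (fun n => (K : ℝ) / L n) (fun n => (l : ℝ) / L n) (fun n => div_pos hK' (hL0 n))
    (fun n => div_pos hl' (hL0 n)) hα0 hβ0 (fun n => I n ×ˢ C n) (by
      intro n z hz
      have e1 : (z.1 : ℝ) * ((K : ℝ) / L n) = (z.1 : ℝ) * K / L n := by ring
      have e2 : (z.2 : ℝ) * ((l : ℝ) / L n) = (z.2 : ℝ) * l / L n := by ring
      simp only [e1, e2]
      rw [Finset.mem_product, not_and_or] at hz
      rcases hz with hz | hz
      · rw [hI n z.1 hz]; simp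
      · rw [hC n z.2 hz]; simp)
  have hr2 := hr.const_mul (w / (K * l))
  refine hr2.congr fun n => ?_
  rw [Finset.sum_product, smul_eq_mul, Finset.mul_sum, Finset.mul_sum]
  refine Finset.sum_congr rfl fun i _ => ?_
  rw [Finset.mul_sum, Finset.mul_sum]
  refine Finset.sum_congr rfl fun c _ => ?_
  have e1 : (i : ℝ) * ((K : ℝ) / L n) = (i : ℝ) * K / L n := by ring
  have e2 : (c : ℝ) * ((l : ℝ) / L n) = (c : ℝ) * l / L n := by ring
  rw [e1, e2]
  have h0 := (hL0 n).ne'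
  (clear * - hK hl h0; field_simp)

lemma term1_le {nI nC L M lA G e η : ℝ} (hL : 0 < L) (hM : 0 ≤ M) (hG : 0 ≤ G) (he : 0 < e)
    (hnI : nI ≤ M * L) (hnC0 : 0 ≤ nC) (hnC : nC ≤ M * L)
    (hη : η = e / (4 * (4 * M ^ 2 * lA ^ 2 * (G + 1) + 1))) :
    nI * (nC * (2 * lA ^ 2 * ((G + 1) / L) * (2 * η / L))) ≤ e / 4 := by
  set Q1 : ℝ := 4 * M ^ 2 * lA ^ 2 * (G + 1) with hQ1
  have hQ1' : 0 ≤ Q1 := by (clear * - hG; positivity)
  have hη0 : 0 < η := by rw [hη]; (clear * - he hG; positivity)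
  have hX : 0 ≤ 2 * lA ^ 2 * ((G + 1) / L) * (2 * η / L) := by positivity
  have h5 : nI * (nC * (2 * lA ^ 2 * ((G + 1) / L) * (2 * η / L))) ≤
      (M * L) * ((M * L) * (2 * lA ^ 2 * ((G + 1) / L) * (2 * η / L))) := by
    have h51 : nC * (2 * lA ^ 2 * ((G + 1) / L) * (2 * η / L)) ≤
        (M * L) * (2 * lA ^ 2 * ((G + 1) / L) * (2 * η / L)) :=
      mul_le_mul_of_nonneg_right hnC hX
    exact mul_le_mul hnI h51 (mul_nonneg hnC0 hX) (by positivity)
  have h6 : (M * L) * ((M * L) * (2 * lA ^ 2 * ((G + 1) / L) * (2 * η / L))) = Q1 * η := by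
    rw [hQ1]
    have h0 := hL.ne'
    field_simp
    ring
  rw [h6] at h5
  refine h5.trans ?_
  rw [hη, ← mul_div_assoc, div_le_div_iff₀ (by (clear * - hG; positivity)) (by norm_num)]
  nlinarith only [he]

lemma term2_le {nI nC L M B G e θ ε r : ℝ} (hL : 0 < L) (hM : 0 ≤ M) (hG : 0 ≤ G) (he : 0 < e)
    (hr : 0 ≤ r) (hB : 0 ≤ B)
    (hnI : nI ≤ M * L) (hnC0 : 0 ≤ nC) (hnC : nC ≤ M * L)
    (hθ : θ = (e / (4 * (M * (G + 1) ^ 2 + 1))) ^ 2 / 2) (hε : ε = θ / (M ^ 2 + 1))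
    (h3 : M * r * B / L < θ) :
    nI * Real.sqrt ((((G + 1) / L) ^ 2) ^ 2 * (nC * r * B + ε * nC ^ 2)) ≤ e / 4 := by
  set Q2 : ℝ := M * (G + 1) ^ 2 with hQ2
  have hQ2' : 0 ≤ Q2 := by positivity
  have hθ0 : 0 < θ := by rw [hθ]; positivity
  have hε0 : 0 < ε := by rw [hε]; (clear * - hθ0; positivity)
  have h5 : (((G + 1) / L) ^ 2) ^ 2 * (nC * r * B + ε * nC ^ 2) ≤
      (((G + 1) ^ 2 / L) * (e / (4 * (Q2 + 1)))) ^ 2 := by
    have h6 : (((G + 1) / L) ^ 2) ^ 2 * (nC * r * B + ε * nC ^ 2) ≤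
        (((G + 1) / L) ^ 2) ^ 2 * ((M * L) * r * B + ε * (M * L) ^ 2) := by
      gcongr
    refine h6.trans ?_
    have h7 : (((G + 1) / L) ^ 2) ^ 2 * ((M * L) * r * B + ε * (M * L) ^ 2) =
        ((G + 1) ^ 2 / L) ^ 2 * (M * r * B / L + ε * M ^ 2) := by
      have h0 := hL.ne'
      (clear * - h0 hG; field_simp)
    rw [h7, mul_pow]
    have h8 : ε * M ^ 2 ≤ θ := by
      rw [hε, div_mul_eq_mul_div, div_le_iff₀ (by (clear * -; positivity))]
      nlinarith only [hθ0]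
    have h9 : M * r * B / L + ε * M ^ 2 ≤ (e / (4 * (Q2 + 1))) ^ 2 := by
      have h10 : θ + θ = (e / (4 * (Q2 + 1))) ^ 2 := by rw [hθ]; ring
      linarith only [h3, hθ, h8]
    exact mul_le_mul_of_nonneg_left h9 (sq_nonneg _)
  have h11 := Real.sqrt_le_sqrt h5
  rw [Real.sqrt_sq (by (clear * - hG hL he hM; positivity))] at h11
  have h12 : nI * Real.sqrt ((((G + 1) / L) ^ 2) ^ 2 * (nC * r * B + ε * nC ^ 2)) ≤
      (M * L) * (((G + 1) ^ 2 / L) * (e / (4 * (Q2 + 1)))) :=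
    mul_le_mul hnI h11 (Real.sqrt_nonneg _) (by (clear * - hM hL; positivity))
  have h13 : (M * L) * (((G + 1) ^ 2 / L) * (e / (4 * (Q2 + 1)))) =
      Q2 * (e / (4 * (Q2 + 1))) := by
    rw [hQ2]
    have h0 := hL.ne'
    (clear * - h0 hM hG he; field_simp)
  rw [h13] at h12
  refine h12.trans ?_
  rw [← mul_div_assoc, div_le_div_iff₀ (by (clear * - hM hG; positivity)) (by norm_num)]
  nlinarith only [he]

/-- **Local squares tend to a constant.**  `D i x` are bounded increments whose block squares have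
the same mean `w` and decorrelate along each row; `p n i x` are weights which, up to `o(1 / L n)`,
are `(L n)⁻¹ g (i K / L n, x / L n)` with `g` continuous of compact support. -/
theorem local_squares [IsProbabilityMeasure μ] (D : ℤ → ℤ → Ω → ℝ)
    (hDm : ∀ i x, Measurable (D i x)) {A : ℝ} (hDb : ∀ i x ω, |D i x ω| ≤ A)
    (l K : ℕ) (hl : 0 < l) (hK : 0 < K) {w : ℝ}
    (hw : ∀ i c : ℤ, ∫ ω, (blk D l i c ω) ^ 2 ∂μ = w)
    (hdec : ∀ ε : ℝ, 0 < ε → ∃ R : ℕ, ∀ i c c' : ℤ, (R : ℤ) ≤ |c - c'| →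
      ∫ ω, (blk D l i c ω) ^ 2 * (blk D l i c' ω) ^ 2 ∂μ ≤ w ^ 2 + ε)
    (g : ℝ × ℝ → ℝ) (hg : Continuous g) (hgc : HasCompactSupport g)
    (L : ℕ → ℝ) (hL0 : ∀ n, 0 < L n) (hL : Tendsto L atTop atTop)
    (I C : ℕ → Finset ℤ) {M : ℝ} (hIM : ∀ n, ((I n).card : ℝ) ≤ M * L n)
    (hCM : ∀ n, ((C n).card : ℝ) ≤ M * L n)
    (hI : ∀ n, ∀ i : ℤ, i ∉ I n → ∀ y : ℝ, g ((i : ℝ) * K / L n, y) = 0)
    (hC : ∀ n, ∀ c : ℤ, c ∉ C n → ∀ t : ℝ, g (t, (c : ℝ) * l / L n) = 0)
    (p : ℕ → ℤ → ℤ → ℝ) (δ : ℕ → ℝ) (hδ : Tendsto δ atTop (𝓝 0))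
    (hp : ∀ n, ∀ i x : ℤ, |p n i x - (L n)⁻¹ * g ((i : ℝ) * K / L n, (x : ℝ) / L n)| ≤
      δ n / L n) :
    Tendsto (fun n => ∫ ω, |∑ i ∈ I n, ∑ c ∈ C n,
      (∑ x ∈ Finset.Ico (c * l) (c * l + l), p n i x * D i x ω) ^ 2 -
        w / (K * l) * ∫ z, g z ^ 2| ∂μ) atTop (𝓝 0) := by
  obtain ⟨ω0⟩ := nonempty_of_prob (μ := μ)
  have hA : 0 ≤ A := (abs_nonneg _).trans (hDb 0 0 ω0)
  obtain ⟨G, hG⟩ := hgc.exists_bound_of_continuous hg
  have hG0 : 0 ≤ G := (norm_nonneg _).trans (hG 0)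
  have hM : 0 ≤ M := by
    by_contra h
    push Not at h
    have h1 := hIM 0
    have h2 : M * L 0 < 0 := mul_neg_of_neg_of_pos h (hL0 0)
    have h3 : (0 : ℝ) ≤ ((I 0).card : ℝ) := Nat.cast_nonneg _
    linarith only [h1, h2]
  have huc := hgc.uniformContinuous_of_continuous hg
  -- the deterministic term
  have hT3 := riemann_sq l K hl hK w g hg hgc L hL0 hL I C hI hC
  -- the estimate
  have key : ∀ e : ℝ, 0 < e → ∀ᶠ n in atTop, ∫ ω, |∑ i ∈ I n, ∑ c ∈ C n,
      (∑ x ∈ Finset.Ico (c * l) (c * l + l), p n i x * D i x ω) ^ 2 -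
        w / (K * l) * ∫ z, g z ^ 2| ∂μ < e := by
    intro e he
    -- constants
    obtain ⟨η, hη⟩ : ∃ η, η = e / (4 * (4 * M ^ 2 * (l * A) ^ 2 * (G + 1) + 1)) := ⟨_, rfl⟩
    have hη0 : 0 < η := by rw [hη]; (clear * - he hG0; positivity)
    obtain ⟨θ, hθ⟩ : ∃ θ, θ = (e / (4 * (M * (G + 1) ^ 2 + 1))) ^ 2 / 2 := ⟨_, rfl⟩
    have hθ0 : 0 < θ := by rw [hθ]; (clear * - he hM hG0; positivity)
    obtain ⟨ε, hε⟩ : ∃ ε, ε = θ / (M ^ 2 + 1) := ⟨_, rfl⟩
    have hε0 : 0 < ε := by rw [hε]; (clear * - hθ0; positivity)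
    obtain ⟨R, hR⟩ := hdec ε hε0
    obtain ⟨d, hd, hdg⟩ := Metric.uniformContinuous_iff.1 huc η hη0
    have hev1 : ∀ᶠ n in atTop, δ n < min η 1 :=
      hδ.eventually (gt_mem_nhds (lt_min hη0 one_pos))
    have hev2 : ∀ᶠ n in atTop, (l : ℝ) / L n < d := by
      have : Tendsto (fun n => (l : ℝ) / L n) atTop (𝓝 0) :=
        Tendsto.div_atTop tendsto_const_nhds hL
      exact this.eventually (gt_mem_nhds hd)
    have hev3 : ∀ᶠ n in atTop, M * (2 * R + 1) * ((l * A) ^ 2) ^ 2 / L n < θ := by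
      have : Tendsto (fun n => M * (2 * R + 1) * ((l * A) ^ 2) ^ 2 / L n) atTop (𝓝 0) :=
        Tendsto.div_atTop tendsto_const_nhds hL
      exact this.eventually (gt_mem_nhds hθ0)
    have hev4 : ∀ᶠ n in atTop, |∑ i ∈ I n, ∑ c ∈ C n,
        ((L n)⁻¹ * g ((i : ℝ) * K / L n, (c : ℝ) * l / L n)) ^ 2 * w -
        w / (K * l) * ∫ z, g z ^ 2| < e / 4 := by
      have h1 := Metric.tendsto_nhds.1 hT3 (e / 4) (by positivity)
      filter_upwards [h1] with n hn
      rwa [Real.dist_eq] at hn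
    filter_upwards [hev1, hev2, hev3, hev4] with n h1 h2 h3 h4
    have hLn := hL0 n
    have hδη : δ n ≤ η := h1.le.trans (min_le_left _ _)
    have hδ1 : δ n ≤ 1 := h1.le.trans (min_le_right _ _)
    have hgabs : ∀ z, |(L n)⁻¹ * g z| ≤ G / L n := by
      intro z
      rw [abs_mul, abs_of_pos (inv_pos.2 hLn), div_eq_inv_mul]
      exact mul_le_mul_of_nonneg_left (hG z) (inv_pos.2 hLn).le
    have hGP : G / L n ≤ (G + 1) / L n := by
      gcongr; linarith only []
    have hpP : ∀ i x, |p n i x| ≤ (G + 1) / L n := by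
      intro i x
      have h5 := hp n i x
      have h6 := hgabs ((i : ℝ) * K / L n, (x : ℝ) / L n)
      have h7 : δ n / L n ≤ 1 / L n := by (clear * - hδ1 hLn; gcongr)
      have h8 : |p n i x| ≤ |p n i x - (L n)⁻¹ * g ((i : ℝ) * K / L n, (x : ℝ) / L n)| +
          |(L n)⁻¹ * g ((i : ℝ) * K / L n, (x : ℝ) / L n)| := by
        have := abs_add_le (p n i x - (L n)⁻¹ * g ((i : ℝ) * K / L n, (x : ℝ) / L n))
          ((L n)⁻¹ * g ((i : ℝ) * K / L n, (x : ℝ) / L n))
        rwa [sub_add_cancel] at this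
      rw [add_div]
      linarith only [h5, h6, h7, h8]
    have hpq : ∀ i c : ℤ, ∀ x ∈ Finset.Ico (c * l) (c * l + l),
        |p n i x - (L n)⁻¹ * g ((i : ℝ) * K / L n, (c : ℝ) * l / L n)| ≤ 2 * η / L n := by
      intro i c x hx
      rw [Finset.mem_Ico] at hx
      have h5 := hp n i x
      have hx1 : (c : ℝ) * l ≤ x := by exact_mod_cast hx.1
      have hx2 : (x : ℝ) < c * l + l := by exact_mod_cast hx.2
      have h6 : dist (((i : ℝ) * K / L n, (x : ℝ) / L n) : ℝ × ℝ)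
          ((i : ℝ) * K / L n, (c : ℝ) * l / L n) < d := by
        rw [Prod.dist_eq, dist_self, Real.dist_eq]
        refine max_lt hd ?_
        rw [← sub_div, abs_div, abs_of_pos hLn, abs_of_nonneg (by linarith only [hx1])]
        refine lt_of_le_of_lt ?_ h2
        gcongr
        linarith only [hx2]
      have h7 := hdg h6
      rw [Real.dist_eq] at h7
      have h8 : |(L n)⁻¹ * g ((i : ℝ) * K / L n, (x : ℝ) / L n) -
          (L n)⁻¹ * g ((i : ℝ) * K / L n, (c : ℝ) * l / L n)| ≤ η / L n := by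
        rw [← mul_sub, abs_mul, abs_of_pos (inv_pos.2 hLn), div_eq_inv_mul η (L n)]
        exact mul_le_mul_of_nonneg_left h7.le (inv_pos.2 hLn).le
      have h9 := abs_sub_le (p n i x) ((L n)⁻¹ * g ((i : ℝ) * K / L n, (x : ℝ) / L n))
        ((L n)⁻¹ * g ((i : ℝ) * K / L n, (c : ℝ) * l / L n))
      have h10 : δ n / L n ≤ η / L n := by (clear * - hδη hLn; gcongr)
      have h11 : 2 * η / L n = η / L n + η / L n := by ring
      linarith only [h5, h8, h9, h10, h11]
    have hb := loc_bound (μ := μ) D hDm hDb l hw hε0.le hR (p n)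
      (fun i c => (L n)⁻¹ * g ((i : ℝ) * K / L n, (c : ℝ) * l / L n)) hpP
      (fun i c => (hgabs _).trans hGP) hpq (I n) (C n) (w / (K * l) * ∫ z, g z ^ 2)
    refine lt_of_le_of_lt hb ?_
    have hterm1 := term1_le (nI := (I n).card) (nC := (C n).card) (lA := l * A) hLn hM hG0 he
      (hIM n) (Nat.cast_nonneg _) (hCM n) hη
    have hterm2 := term2_le (nI := (I n).card) (nC := (C n).card) (r := 2 * R + 1)
      (B := ((l * A) ^ 2) ^ 2) hLn hM hG0 he (by (clear * -; positivity)) (by (clear * -; positivity))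
      (hIM n) (Nat.cast_nonneg _) (hCM n) hθ hε h3
    linarith only [he, h4, hterm1, hterm2]
  rw [Metric.tendsto_nhds]
  intro e he
  filter_upwards [key e he] with n hn
  rw [Real.dist_eq, sub_zero, abs_of_nonneg (integral_nonneg fun _ => abs_nonneg _)]
  exact hn

end Vale.Agent.P145W85.P153.CLT
end

section

/-!
# P153, block D3 for the plane measure

The hypotheses of `local_squares` for the vertical increments of the height over `K` double rows
under a measure `P` with `GFF.Plane P`, and the resulting limit of the sums of local squares.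
-/

namespace Vale.Agent.P145W85.P153.CLT

open MeasureTheory Filter Finset
open scoped Topology ENNReal

/-- Truncation to `[-A, A]`. -/
noncomputable def clamp (A x : ℝ) : ℝ := max (-A) (min A x)

lemma clamp_abs {A : ℝ} (hA : 0 ≤ A) (x : ℝ) : |clamp A x| ≤ A := by
  unfold clamp
  rw [abs_le]
  exact ⟨le_max_left _ _, max_le (by linarith only [hA]) (min_le_left _ _)⟩

lemma clamp_eq {A x : ℝ} (h : |x| ≤ A) : clamp A x = x := by
  unfold clamp
  rw [abs_le] at h
  rw [min_eq_right h.2, max_eq_right h.1]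

lemma clamp_neg {A : ℝ} (hA : 0 ≤ A) (x : ℝ) : clamp A (-x) = -clamp A x := by
  unfold clamp
  rcases le_total x (-A) with h | h
  · rw [min_eq_left (by linarith only [h] : A ≤ -x), min_eq_right (by linarith only [hA, h] : x ≤ A),
      max_eq_right (by linarith : -A ≤ A), max_eq_left h, neg_neg]
  · rcases le_total x A with h' | h'
    · rw [min_eq_right (by linarith only [h] : -x ≤ A), min_eq_right h', max_eq_right (by linarith : -A ≤ -x),
        max_eq_right h]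
    · rw [min_eq_right (by linarith : -x ≤ A), min_eq_left h', max_eq_left (by linarith : -x ≤ -A),
        max_eq_right (by linarith only [hA] : -A ≤ A)]

lemma measurable_clamp (A : ℝ) : Measurable (clamp A) := by
  unfold clamp
  fun_prop

/-- Increment of the height over `K` double rows, at the site `x` of the double row `i K`. -/
def Dp (K : ℕ) (i x : ℤ) (φ : ℤ × ℤ → ℤ) : ℝ :=
  ((φ (GFF.ev ((i + 1) * K) x) : ℤ) : ℝ) - ((φ (GFF.ev (i * K) x) : ℤ) : ℝ)

/-- The truncated increment. -/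
noncomputable def Dc (K : ℕ) (i x : ℤ) (φ : ℤ × ℤ → ℤ) : ℝ := clamp (2 * K) (Dp K i x φ)

lemma measurable_coord (v : ℤ × ℤ) : Measurable fun φ : ℤ × ℤ → ℤ => ((φ v : ℤ) : ℝ) :=
  (measurable_of_countable (fun z : ℤ => (z : ℝ))).comp (measurable_pi_apply v)

lemma measurable_Dp (K : ℕ) (i x : ℤ) : Measurable (Dp K i x) :=
  (measurable_coord _).sub (measurable_coord _)

lemma measurable_Dc (K : ℕ) (i x : ℤ) : Measurable (Dc K i x) :=
  (measurable_clamp _).comp (measurable_Dp K i x)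

lemma abs_Dc (K : ℕ) (i x : ℤ) (φ : ℤ × ℤ → ℤ) : |Dc K i x φ| ≤ 2 * K :=
  clamp_abs (by positivity) _

/-- A Lipschitz height changes by at most two over a double row. -/
lemma step_two (φ : ℤ × ℤ → ℤ) (h : ∀ x y, GFF.Adj x y → |φ x - φ y| ≤ 1) (j x : ℤ) :
    |φ (GFF.ev (j + 1) x) - φ (GFF.ev j x)| ≤ 2 := by
  have h1 := h (x - j - 1, 2 * j + 1) (GFF.ev j x) (by
    unfold GFF.Adj GFF.ev
    have : ((x - j - (x - j - 1), 2 * j - (2 * j + 1)) : ℤ × ℤ) = (1, -1) := by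
      ext <;> simp
    rw [this]
    simp only [Int.reduceNeg, Set.mem_insert_iff, Prod.mk.injEq, neg_eq_zero, one_ne_zero, and_false, reduceCtorEq, and_self, and_true, Set.mem_singleton_iff, or_false, or_true])
  have h2 := h (GFF.ev (j + 1) x) (x - j - 1, 2 * j + 1) (by
    unfold GFF.Adj GFF.ev
    have : ((x - j - 1 - (x - (j + 1)), 2 * j + 1 - 2 * (j + 1)) : ℤ × ℤ) = (0, -1) := by
      ext
      · change x - j - 1 - (x - (j + 1)) = 0
        ring
      · simp only [Int.reduceNeg]; ring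
    simp only [Int.reduceNeg, this, Set.mem_insert_iff, Prod.mk.injEq, zero_ne_one, neg_eq_zero, one_ne_zero, and_self, zero_eq_neg, reduceCtorEq, and_false, and_true, Set.mem_singleton_iff, or_self, or_false, or_true])
  rw [abs_le] at *
  constructor <;> linarith only [h1, h2]

lemma step_K (φ : ℤ × ℤ → ℤ) (h : ∀ x y, GFF.Adj x y → |φ x - φ y| ≤ 1) (j x : ℤ) (K : ℕ) :
    |φ (GFF.ev (j + K) x) - φ (GFF.ev j x)| ≤ 2 * K := by
  induction K with
  | zero => simp
  | succ k ih =>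
    have h1 := step_two φ h (j + k) x
    have e : (j + ((k + 1 : ℕ) : ℤ)) = j + k + 1 := by push_cast; ring
    rw [e]
    push_cast
    rw [abs_le] at *
    constructor <;> linarith only [ih, h1]

lemma Dc_eq (φ : ℤ × ℤ → ℤ) (h : ∀ x y, GFF.Adj x y → |φ x - φ y| ≤ 1) (K : ℕ) (i x : ℤ) :
    Dc K i x φ = Dp K i x φ := by
  refine clamp_eq ?_
  have h1 := step_K φ h (i * K) x K
  have e : i * K + K = (i + 1) * K := by ring
  rw [e] at h1
  unfold Dp
  exact_mod_cast h1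

/-- Increments and translations. -/
lemma Dp_shift (K : ℕ) (i j x y : ℤ) (φ : ℤ × ℤ → ℤ) :
    Dp K (i + j) (x + y) φ = Dp K j x (GFF.shift (GFF.ev (i * K) y) φ) := by
  unfold Dp GFF.shift
  have e1 : GFF.ev ((i + j + 1) * K) (x + y) = GFF.ev ((j + 1) * K) x + GFF.ev (i * K) y := by
    unfold GFF.ev
    ext
    · simp only [Prod.mk_add_mk]; ring
    · simp only [Prod.mk_add_mk]; ring
  have e2 : GFF.ev ((i + j) * K) (x + y) = GFF.ev (j * K) x + GFF.ev (i * K) y := by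
    unfold GFF.ev
    ext
    · simp only [Prod.mk_add_mk]; ring
    · simp only [Prod.mk_add_mk]; ring
  rw [e1, e2]
  push_cast
  ring

lemma Dc_shift (K : ℕ) (i j x y : ℤ) (φ : ℤ × ℤ → ℤ) :
    Dc K (i + j) (x + y) φ = Dc K j x (GFF.shift (GFF.ev (i * K) y) φ) := by
  unfold Dc
  rw [Dp_shift]

lemma blk_shift (K l : ℕ) (i j c d : ℤ) (φ : ℤ × ℤ → ℤ) :
    blk (Dc K) l (i + j) (c + d) φ =
      blk (Dc K) l j d (GFF.shift (GFF.ev (i * K) (c * l)) φ) := by
  unfold blk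
  have e : Finset.Ico ((c + d) * (l : ℤ)) ((c + d) * l + l) =
      (Finset.Ico (d * (l : ℤ)) (d * l + l)).map (addRightEmbedding (c * (l : ℤ))) := by
    rw [Finset.map_add_right_Ico]
    congr 1 <;> ring
  rw [e, Finset.sum_map]
  refine Finset.sum_congr rfl fun x _ => ?_
  rw [addRightEmbedding_apply, Dc_shift]

lemma measurable_shift (t : ℤ × ℤ) : Measurable (GFF.shift t) := by
  unfold GFF.shift
  fun_prop

lemma measurable_blk (K l : ℕ) (i c : ℤ) : Measurable (blk (Dc K) l i c) :=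
  Finset.measurable_sum _ fun x _ => measurable_Dc K i x

lemma abs_blk (K l : ℕ) (i c : ℤ) (φ : ℤ × ℤ → ℤ) : |blk (Dc K) l i c φ| ≤ l * (2 * K) := by
  refine (Finset.abs_sum_le_sum_abs _ _).trans ?_
  refine (Finset.sum_le_sum fun x _ => abs_Dc K i x φ).trans ?_
  rw [Finset.sum_const, nsmul_eq_mul, Int.card_Ico]
  simp only [add_sub_cancel_left, Int.toNat_natCast, Std.le_refl]

/-- The mean of the squared increment over a block of length `l`. -/
noncomputable def wKl (P : Measure (ℤ × ℤ → ℤ)) (K l : ℕ) : ℝ :=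
  ∫ φ, (∑ x ∈ Finset.Ico (0 : ℤ) l, (((φ (GFF.ev K x) : ℤ) : ℝ) - ((φ (GFF.ev 0 x) : ℤ) : ℝ))) ^ 2 ∂P

variable {P : Measure (ℤ × ℤ → ℤ)}

lemma Plane.integral_shift (hP : GFF.Plane P) (t : ℤ × ℤ) (F : (ℤ × ℤ → ℤ) → ℝ)
    (hF : Measurable F) : ∫ φ, F (GFF.shift t φ) ∂P = ∫ φ, F φ ∂P := by
  conv_rhs => rw [← hP.shift t]
  rw [integral_map (measurable_shift t).aemeasurable hF.aestronglyMeasurable]

lemma blk_ae (hP : GFF.Plane P) (K : ℕ) :
    ∀ᵐ φ ∂P, ∀ i x, Dc K i x φ = Dp K i x φ := by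
  filter_upwards [hP.lip] with φ hφ i x
  exact Dc_eq φ hφ K i x

lemma plane_w (hP : GFF.Plane P) (K l : ℕ) (i c : ℤ) :
    ∫ φ, (blk (Dc K) l i c φ) ^ 2 ∂P = wKl P K l := by
  have h1 : ∀ φ, (blk (Dc K) l i c φ) ^ 2 =
      (fun ψ => (blk (Dc K) l 0 0 ψ) ^ 2) (GFF.shift (GFF.ev (i * K) (c * l)) φ) := by
    intro φ
    have := blk_shift K l i 0 c 0 φ
    rw [add_zero, add_zero] at this
    simp only [this]
  simp_rw [h1]
  rw [Plane.integral_shift hP _ (fun ψ => (blk (Dc K) l 0 0 ψ) ^ 2)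
    ((measurable_blk K l 0 0).pow_const 2)]
  unfold wKl
  refine integral_congr_ae ?_
  filter_upwards [blk_ae hP K] with φ hφ
  unfold blk
  simp only [hφ, zero_mul, zero_add]
  congr 1
  refine Finset.sum_congr rfl fun x _ => ?_
  unfold Dp
  simp

lemma plane_dec (hP : GFF.Plane P) (K l : ℕ) (hl : 0 < l) (ε : ℝ) (hε : 0 < ε) :
    ∃ R : ℕ, ∀ i c c' : ℤ, (R : ℤ) ≤ |c - c'| →
      ∫ φ, (blk (Dc K) l i c φ) ^ 2 * (blk (Dc K) l i c' φ) ^ 2 ∂P ≤ wKl P K l ^ 2 + ε := by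
  have := hP.prob
  set W : (ℤ × ℤ → ℤ) → ℝ := fun φ => (blk (Dc K) l 0 0 φ) ^ 2 with hW
  have hWm : Measurable W := (measurable_blk K l 0 0).pow_const 2
  have hWb : ∃ M, ∀ φ, |W φ| ≤ M := by
    refine ⟨(l * (2 * K)) ^ 2, fun φ => ?_⟩
    rw [hW]
    simp only
    rw [abs_pow]
    exact pow_le_pow_left₀ (abs_nonneg _) (abs_blk K l 0 0 φ) 2
  set B : Finset (ℤ × ℤ) := (Finset.Ico (0 : ℤ) l).image (fun x => GFF.ev K x) ∪
    (Finset.Ico (0 : ℤ) l).image (fun x => GFF.ev 0 x) with hB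
  have hWB : ∀ φ ψ : ℤ × ℤ → ℤ, (∀ x ∈ B, φ x = ψ x) → W φ = W ψ := by
    intro φ ψ h
    rw [hW]
    simp only
    congr 1
    unfold blk
    refine Finset.sum_congr rfl fun x hx => ?_
    have hx' : x ∈ Finset.Ico (0 : ℤ) l := by simpa only [mem_Ico, zero_mul, zero_add] using hx
    unfold Dc Dp
    have e1 : φ (GFF.ev ((0 + 1) * K) x) = ψ (GFF.ev ((0 + 1) * K) x) := by
      refine h _ ?_
      rw [hB, Finset.mem_union]
      left
      rw [Finset.mem_image]
      exact ⟨x, hx', by simp⟩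
    have e2 : φ (GFF.ev (0 * K) x) = ψ (GFF.ev (0 * K) x) := by
      refine h _ ?_
      rw [hB, Finset.mem_union]
      right
      rw [Finset.mem_image]
      exact ⟨x, hx', by simp⟩
    rw [e1, e2]
  have hWe : ∀ φ, W (-φ) = W φ := by
    intro φ
    have hDc : ∀ i x, Dc K i x (-φ) = -Dc K i x φ := by
      intro i x
      have hDp : Dp K i x (-φ) = -Dp K i x φ := by
        unfold Dp
        simp only [Pi.neg_apply]
        push_cast
        ring
      unfold Dc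
      rw [hDp]
      exact clamp_neg (by positivity) _
    rw [hW]
    simp only
    unfold blk
    simp only [hDc, Finset.sum_neg_distrib, neg_sq]
  have hmix := hP.mix B W W hWm hWm hWb hWb hWe hWe hWB hWB
  have hinj : Function.Injective fun d : ℤ => GFF.ev 0 (d * l) := by
    intro a b hab
    unfold GFF.ev at hab
    simp only [Prod.mk.injEq] at hab
    have h1 : a * (l : ℤ) = b * l := by linarith only [hab]
    exact mul_right_cancel₀ (by exact_mod_cast hl.ne') h1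
  have h2 := hmix.comp hinj.tendsto_cofinite
  have hwW : ∫ φ, W φ ∂P = wKl P K l := plane_w hP K l 0 0
  rw [hwW] at h2
  have h3 : ∀ᶠ d : ℤ in cofinite,
      ∫ φ, W φ * W (GFF.shift (GFF.ev 0 (d * l)) φ) ∂P < wKl P K l * wKl P K l + ε :=
    h2.eventually (gt_mem_nhds (by linarith only [hε]))
  rw [Filter.eventually_cofinite] at h3
  obtain ⟨R, hR⟩ := (h3.image fun d : ℤ => |d|).bddAbove
  refine ⟨(R + 1).toNat, fun i c c' hcc => ?_⟩
  have h4 : R + 1 ≤ |c - c'| := (Int.self_le_toNat _).trans hcc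
  set d : ℤ := c' - c with hd
  have h5 : ∫ φ, W φ * W (GFF.shift (GFF.ev 0 (d * l)) φ) ∂P < wKl P K l * wKl P K l + ε := by
    by_contra h6
    have h7 : |d| ≤ R := hR ⟨d, h6, rfl⟩
    rw [hd, abs_sub_comm] at h7
    linarith only [h4, h7]
  have h8 : ∀ φ, (blk (Dc K) l i c φ) ^ 2 * (blk (Dc K) l i c' φ) ^ 2 =
      (fun ψ => W ψ * W (GFF.shift (GFF.ev 0 (d * l)) ψ))
        (GFF.shift (GFF.ev (i * K) (c * l)) φ) := by
    intro φ
    have e1 := blk_shift K l i 0 c 0 φ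
    rw [add_zero, add_zero] at e1
    have e2 := blk_shift K l i 0 c d φ
    rw [add_zero, show c + d = c' by rw [hd]; ring] at e2
    have e3 := blk_shift K l 0 0 d 0 (GFF.shift (GFF.ev (i * K) (c * l)) φ)
    rw [add_zero, add_zero, zero_mul] at e3
    simp only [hW]
    rw [e1, e2, e3]
  simp_rw [h8]
  rw [Plane.integral_shift hP _ (fun ψ => W ψ * W (GFF.shift (GFF.ev 0 (d * l)) ψ))
    (hWm.mul (hWm.comp (measurable_shift _)))]
  rw [sq]
  exact h5.le

/-- **Local squares under the plane measure.** -/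
theorem devLim (hP : GFF.Plane P) (l K : ℕ) (hl : 0 < l) (hK : 0 < K)
    (g : ℝ × ℝ → ℝ) (hg : Continuous g) (hgc : HasCompactSupport g)
    (L : ℕ → ℝ) (hL0 : ∀ n, 0 < L n) (hL : Tendsto L atTop atTop)
    (I C : ℕ → Finset ℤ) {M : ℝ} (hIM : ∀ n, ((I n).card : ℝ) ≤ M * L n)
    (hCM : ∀ n, ((C n).card : ℝ) ≤ M * L n)
    (hI : ∀ n, ∀ i : ℤ, i ∉ I n → ∀ y : ℝ, g ((i : ℝ) * K / L n, y) = 0)
    (hC : ∀ n, ∀ c : ℤ, c ∉ C n → ∀ t : ℝ, g (t, (c : ℝ) * l / L n) = 0)
    (p : ℕ → ℤ → ℤ → ℝ) (δ : ℕ → ℝ) (hδ : Tendsto δ atTop (𝓝 0))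
    (hp : ∀ n, ∀ i x : ℤ, |p n i x - (L n)⁻¹ * g ((i : ℝ) * K / L n, (x : ℝ) / L n)| ≤
      δ n / L n) :
    Tendsto (fun n => ∫ φ, |∑ i ∈ I n, ∑ c ∈ C n,
      (∑ x ∈ Finset.Ico (c * l) (c * l + l), p n i x *
        (((φ (GFF.ev ((i + 1) * K) x) : ℤ) : ℝ) - ((φ (GFF.ev (i * K) x) : ℤ) : ℝ))) ^ 2 -
        wKl P K l / (K * l) * ∫ z, g z ^ 2| ∂P) atTop (𝓝 0) := by
  have := hP.prob
  have h1 := local_squares (μ := P) (Dc K) (measurable_Dc K) (abs_Dc K) l K hl hK
    (plane_w hP K l) (plane_dec hP K l hl) g hg hgc L hL0 hL I C hIM hCM hI hC p δ hδ hp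
  refine h1.congr fun n => ?_
  refine integral_congr_ae ?_
  filter_upwards [blk_ae hP K] with φ hφ
  simp only [hφ]
  rfl

end Vale.Agent.P145W85.P153.CLT
end

section

/-!
# P153 GFF: the hat function of the triangular lattice

Partition of unity and the integral of the kernel of the affine interpolation.
-/

open MeasureTheory Filter Topology Set

namespace Vale.Agent.P145W85.P153.GFF

lemma aux (s t : ℝ) : min (1 / 2) (min (s + 1 / 2) (-t + 1 / 2)) - max (-(1 / 2)) (max (s - 1 / 2) (-t - 1 / 2))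
   = 1 - max |s| (max |t| |s + t|) := by
  rcases le_total 0 s with hs | hs <;> rcases le_total 0 t with ht | ht <;>
    rcases le_total 0 (s + t) with hst | hst <;>
    simp only [abs_of_nonneg, abs_of_nonpos, hs, ht, hst] <;> grind

lemma hat_four {a b : ℝ} (ha : 0 ≤ a) (ha1 : a ≤ 1) (hb : 0 ≤ b) (hb1 : b ≤ 1) :
    hat a b + hat (a - 1) b + hat a (b - 1) + hat (a - 1) (b - 1) = 1 := by
  have e1 : |a| = a := abs_of_nonneg ha
  have e2 : |b| = b := abs_of_nonneg hb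
  have e3 : |a - 1| = 1 - a := by rw [abs_of_nonpos (by linarith only [ha1])]; ring
  have e4 : |b - 1| = 1 - b := by rw [abs_of_nonpos (by linarith)]; ring
  have e5 : |a + b| = a + b := abs_of_nonneg (by linarith only [ha, hb])
  have e6 : |a - 1 + (b - 1)| = 2 - a - b := by rw [abs_of_nonpos (by linarith)]; ring
  rcases le_total 1 (a + b) with h | h
  · have e7 : |a - 1 + b| = a + b - 1 := by rw [abs_of_nonneg (by linarith)]; ring
    have e8 : |a + (b - 1)| = a + b - 1 := by rw [abs_of_nonneg (by linarith)]; ring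
    have h1 : hat a b = 0 := by
      unfold hat
      rw [e1, e2, e5, max_eq_right (by linarith : b ≤ a + b), max_eq_right (by linarith : a ≤ a + b),
        max_eq_left (by linarith)]
    have h2 : hat (a - 1) b = 1 - b := by
      unfold hat
      rw [e3, e2, e7, max_eq_left (by linarith : a + b - 1 ≤ b), max_eq_right (by linarith : 1 - a ≤ b),
        max_eq_right (by linarith only [hb1])]
    have h3 : hat a (b - 1) = 1 - a := by
      unfold hat
      rw [e1, e4, e8, max_eq_left (max_le (by linarith only [h]) (by linarith) : max (1 - b) (a + b - 1) ≤ a),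
        max_eq_right (by linarith only [ha1])]
    have h4 : hat (a - 1) (b - 1) = a + b - 1 := by
      unfold hat
      rw [e3, e4, e6, max_eq_right (by linarith only [ha1] : 1 - b ≤ 2 - a - b),
        max_eq_right (by linarith only [hb1] : 1 - a ≤ 2 - a - b), max_eq_right (by linarith only [h])]
      ring
    linarith only [h1, h2, h3, h4]
  · have e7 : |a - 1 + b| = 1 - a - b := by rw [abs_of_nonpos (by linarith only [h])]; ring
    have e8 : |a + (b - 1)| = 1 - a - b := by rw [abs_of_nonpos (by linarith only [h])]; ring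
    have h1 : hat a b = 1 - a - b := by
      unfold hat
      rw [e1, e2, e5, max_eq_right (by linarith only [ha] : b ≤ a + b), max_eq_right (by linarith only [hb] : a ≤ a + b),
        max_eq_right (by linarith only [h])]
      ring
    have h2 : hat (a - 1) b = a := by
      unfold hat
      rw [e3, e2, e7, max_eq_left (max_le (by linarith only [h]) (by linarith only [hb]) : max b (1 - a - b) ≤ 1 - a),
        max_eq_right (by linarith only [ha])]
      ring
    have h3 : hat a (b - 1) = b := by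
      unfold hat
      rw [e1, e4, e8, max_eq_left (by linarith only [ha] : 1 - a - b ≤ 1 - b),
        max_eq_right (by linarith only [h] : a ≤ 1 - b), max_eq_right (by linarith only [hb])]
      ring
    have h4 : hat (a - 1) (b - 1) = 0 := by
      unfold hat
      rw [e3, e4, e6, max_eq_right (by linarith only [ha1] : 1 - b ≤ 2 - a - b),
        max_eq_right (by linarith : 1 - a ≤ 2 - a - b), max_eq_left (by linarith)]
    linarith only [h1, h2, h3, h4]

lemma hat_eq_zero_left {s t : ℝ} (h : 1 ≤ |s|) : hat s t = 0 := by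
  unfold hat
  exact max_eq_left (by linarith only [h, le_max_left |s| (max |t| |s + t|)])

lemma hat_eq_zero_right {s t : ℝ} (h : 1 ≤ |t|) : hat s t = 0 := by
  unfold hat
  have h1 : |t| ≤ max |s| (max |t| |s + t|) :=
    le_trans (le_max_left |t| |s + t|) (le_max_right _ _)
  exact max_eq_left (by linarith)

lemma mem_of_abs_lt_one {s : ℝ} {v : ℤ} (h : |s - v| < 1) : v ∈ ({⌊s⌋, ⌊s⌋ + 1} : Finset ℤ) := by
  rw [abs_lt] at h
  have h1 : (⌊s⌋ : ℝ) ≤ s := Int.floor_le s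
  have h2 : s < ⌊s⌋ + 1 := Int.lt_floor_add_one s
  have h3 : (v : ℝ) < (⌊s⌋ : ℝ) + 2 := by linarith
  have h4 : (⌊s⌋ : ℝ) - 1 < v := by linarith
  have h5 : v < ⌊s⌋ + 2 := by exact_mod_cast h3
  have h6 : ⌊s⌋ - 1 < v := by exact_mod_cast h4
  simp only [Finset.mem_insert, Finset.mem_singleton]
  omega

lemma support_hat (s t : ℝ) : (Function.support fun v : ℤ × ℤ => hat (s - v.1) (t - v.2)) ⊆
    (({⌊s⌋, ⌊s⌋ + 1} : Finset ℤ) ×ˢ ({⌊t⌋, ⌊t⌋ + 1} : Finset ℤ) : Finset (ℤ × ℤ)) := by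
  intro v hv
  rw [Function.mem_support] at hv
  rw [Finset.mem_coe, Finset.mem_product]
  constructor
  · apply mem_of_abs_lt_one
    by_contra h
    exact hv (hat_eq_zero_left (not_lt.1 h))
  · apply mem_of_abs_lt_one
    by_contra h
    exact hv (hat_eq_zero_right (not_lt.1 h))

/-- Partition of unity. -/
theorem hat_sum (s t : ℝ) : ∑ᶠ v : ℤ × ℤ, hat (s - v.1) (t - v.2) = 1 := by
  rw [finsum_eq_sum_of_support_subset _ (support_hat s t), Finset.sum_product]
  rw [Finset.sum_pair (by omega), Finset.sum_pair (by omega), Finset.sum_pair (by omega)]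
  have h1 : 0 ≤ s - ⌊s⌋ := by linarith only [Int.floor_le s]
  have h2 : s - ⌊s⌋ ≤ 1 := by linarith only [Int.lt_floor_add_one s]
  have h3 : 0 ≤ t - ⌊t⌋ := by linarith only [Int.floor_le t]
  have h4 : t - ⌊t⌋ ≤ 1 := by linarith [Int.lt_floor_add_one t]
  have h5 := hat_four h1 h2 h3 h4
  push_cast
  rw [show s - (⌊s⌋ + 1) = s - ⌊s⌋ - 1 by ring, show t - (⌊t⌋ + 1) = t - ⌊t⌋ - 1 by ring]
  linarith only [h5]

lemma hat_eq_volume (s t : ℝ) :
    ENNReal.ofReal (hat s t) = volume {r : ℝ | |r| ≤ 1 / 2 ∧ |s - r| ≤ 1 / 2 ∧ |t + r| ≤ 1 / 2} := by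
  have h1 : {r : ℝ | |r| ≤ 1 / 2 ∧ |s - r| ≤ 1 / 2 ∧ |t + r| ≤ 1 / 2} =
      Icc (max (-(1 / 2)) (max (s - 1 / 2) (-t - 1 / 2)))
        (min (1 / 2) (min (s + 1 / 2) (-t + 1 / 2))) := by
    ext r
    simp only [Set.mem_ofPred_eq, Set.mem_Icc, abs_le, max_le_iff, le_min_iff]
    constructor
    · rintro ⟨⟨a, b⟩, ⟨c, d⟩, e, f⟩
      refine ⟨⟨a, by linarith only [d], by linarith only [e]⟩, b, by linarith only [c], by linarith only [f]⟩
    · rintro ⟨⟨a, b, c⟩, d, e, f⟩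
      refine ⟨⟨a, d⟩, ⟨by linarith only [e], by linarith only [b]⟩, by linarith only [c], by linarith only [f]⟩
  rw [h1, Real.volume_Icc, aux]
  unfold hat
  rcases le_total 0 (1 - max |s| (max |t| |s + t|)) with h | h
  · rw [max_eq_right h]
  · rw [max_eq_left h, ENNReal.ofReal_zero, ENNReal.ofReal_of_nonpos h]

/-- indicator of `[-1/2, 1/2]` -/
noncomputable def bx (r : ℝ) : ENNReal := (Icc (-(1 / 2) : ℝ) (1 / 2)).indicator 1 r

@[fun_prop] lemma bx_meas : Measurable bx := measurable_one.indicator measurableSet_Icc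

lemma bx_of {r : ℝ} (h : |r| ≤ 1 / 2) : bx r = 1 := by
  unfold bx
  rw [Set.indicator_of_mem (Set.mem_Icc.2 (abs_le.1 h)), Pi.one_apply]

lemma bx_not {r : ℝ} (h : ¬|r| ≤ 1 / 2) : bx r = 0 := by
  unfold bx
  rw [Set.indicator_of_notMem (fun h' => h (abs_le.2 (Set.mem_Icc.1 h')))]

lemma lint_bx : ∫⁻ r, bx r = 1 := by
  unfold bx
  rw [lintegral_indicator_one measurableSet_Icc, Real.volume_Icc]
  norm_num

lemma ofReal_hat (s t : ℝ) : ENNReal.ofReal (hat s t) = ∫⁻ r, bx r * bx (s - r) * bx (t + r) := by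
  rw [hat_eq_volume]
  have hm : MeasurableSet {r : ℝ | |r| ≤ 1 / 2 ∧ |s - r| ≤ 1 / 2 ∧ |t + r| ≤ 1 / 2} := by
    apply IsClosed.measurableSet
    apply IsClosed.inter
    · exact isClosed_le (f := fun r : ℝ => |r|) (g := fun _ => 1 / 2) (by fun_prop) (by fun_prop)
    · apply IsClosed.inter
      · exact isClosed_le (f := fun r : ℝ => |s - r|) (g := fun _ => 1 / 2) (by fun_prop)
          (by fun_prop)
      · exact isClosed_le (f := fun r : ℝ => |t + r|) (g := fun _ => 1 / 2) (by fun_prop)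
          (by fun_prop)
  rw [← lintegral_indicator_one hm]
  congr 1
  ext r
  by_cases h1 : |r| ≤ 1 / 2
  · by_cases h2 : |s - r| ≤ 1 / 2
    · by_cases h3 : |t + r| ≤ 1 / 2
      · rw [Set.indicator_of_mem (show r ∈ {r : ℝ | |r| ≤ 1 / 2 ∧ |s - r| ≤ 1 / 2 ∧ |t + r| ≤ 1 / 2}
          from ⟨h1, h2, h3⟩), bx_of h1, bx_of h2, bx_of h3]
        simp
      · rw [Set.indicator_of_notMem (fun h => h3 h.2.2), bx_not h3, mul_zero]
    · rw [Set.indicator_of_notMem (fun h => h2 h.2.1), bx_not h2, mul_zero, zero_mul]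
  · rw [Set.indicator_of_notMem (fun h => h1 h.1), bx_not h1, zero_mul, zero_mul]

lemma lint_hat_fst (t c : ℝ) : ∫⁻ s, ENNReal.ofReal (hat (s - c) t) = ∫⁻ r, bx r * bx (t + r) := by
  simp_rw [ofReal_hat]
  rw [lintegral_lintegral_swap]
  · congr 1
    ext r
    have h1 : ∀ s, bx r * bx (s - c - r) * bx (t + r) = (bx r * bx (t + r)) * bx (s - (c + r)) := by
      intro s
      rw [show s - c - r = s - (c + r) by ring]
      ring
    simp_rw [h1]
    rw [lintegral_const_mul _ (by fun_prop),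
      lintegral_sub_right_eq_self (fun s => bx s) (c + r), lint_bx, mul_one]
  · apply Measurable.aemeasurable
    unfold Function.uncurry
    fun_prop

/-- the kernel of the affine interpolation at mesh one, in the plane -/
noncomputable def ker (z : ℝ × ℝ) : ℝ := hat (z.1 - z.2 / √3) (2 * z.2 / √3)

lemma continuous_hat : Continuous (fun p : ℝ × ℝ => hat p.1 p.2) := by
  unfold hat
  fun_prop

lemma continuous_ker : Continuous ker := by
  unfold ker
  exact continuous_hat.comp (by fun_prop : Continuous fun z : ℝ × ℝ => (z.1 - z.2 / √3, 2 * z.2 / √3))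

lemma lint_ker : ∫⁻ z : ℝ × ℝ, ENNReal.ofReal (ker z) = ENNReal.ofReal (√3 / 2) := by
  have h3 : (0 : ℝ) < √3 := by positivity
  rw [Measure.volume_eq_prod, lintegral_prod_symm _ (continuous_ker.measurable.ennreal_ofReal.aemeasurable)]
  unfold ker
  simp_rw [lint_hat_fst]
  rw [lintegral_lintegral_swap]
  · have h1 : ∀ r, ∫⁻ y, bx r * bx (2 * y / √3 + r) = bx r * ENNReal.ofReal (√3 / 2) := by
      intro r
      rw [lintegral_const_mul _ (by fun_prop)]
      congr 1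
      have h2 : ∫⁻ y, bx (2 * y / √3 + r) = ∫⁻ y, (fun u => bx (u + r)) ((2 / √3) * y) := by
        congr 1
        ext y
        simp only []
        congr 2
        ring
      rw [h2, ← lintegral_map (f := fun u => bx (u + r)) (by fun_prop) (by fun_prop),
        Real.map_volume_mul_left (by positivity), lintegral_smul_measure,
        lintegral_add_right_eq_self (fun s => bx s) r, lint_bx, smul_eq_mul, mul_one]
      congr 1
      rw [abs_of_pos (by positivity)]
      field_simp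
    simp_rw [h1]
    rw [lintegral_mul_const _ bx_meas, lint_bx, one_mul]
  · apply Measurable.aemeasurable
    unfold Function.uncurry
    fun_prop

lemma ker_nonneg (z : ℝ × ℝ) : 0 ≤ ker z := by
  unfold ker hat
  exact le_max_left _ _

lemma integrable_ker : Integrable ker := by
  refine ⟨continuous_ker.aestronglyMeasurable, ?_⟩
  rw [hasFiniteIntegral_iff_ofReal (ae_of_all _ ker_nonneg), lint_ker]
  exact ENNReal.ofReal_lt_top

lemma integral_ker : ∫ z, ker z = √3 / 2 := by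
  rw [integral_eq_lintegral_of_nonneg_ae (ae_of_all _ ker_nonneg)
    continuous_ker.aestronglyMeasurable, lint_ker, ENNReal.toReal_ofReal (by positivity)]

lemma ker_eq_zero {z : ℝ × ℝ} (h : 2 < |z.1| ∨ 1 < |z.2|) : ker z = 0 := by
  have h3 : (0 : ℝ) < √3 := by positivity
  have h4 : √3 < 2 := by
    rw [Real.sqrt_lt' (by norm_num)]
    norm_num
  unfold ker
  by_cases h2 : 1 ≤ |2 * z.2 / √3|
  · exact hat_eq_zero_right h2
  · have h5 : |2 * z.2 / √3| = 2 * |z.2| / √3 := by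
      rw [abs_div, abs_mul, abs_of_pos h3]
      norm_num
    have h6 : 2 * |z.2| / √3 < 1 := by
      rw [← h5]
      exact not_le.1 h2
    rw [div_lt_one h3] at h6
    have h7 : |z.2| < 1 := by linarith only [h4, h6]
    rcases h with h | h
    · apply hat_eq_zero_left
      have h8 : |z.1| - |z.2 / √3| ≤ |z.1 - z.2 / √3| := abs_sub_abs_le_abs_sub _ _
      have h9 : |z.2 / √3| ≤ 1 := by
        rw [abs_div, abs_of_pos h3, div_le_one h3]
        linarith only [h3, h6]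
      linarith only [h, h8, h9]
    · linarith only [h4, h6, h]

end Vale.Agent.P145W85.P153.GFF
end

section

/-!
# P153, two-point part: the discrete Fourier transform of the weights
-/

open MeasureTheory ProbabilityTheory Filter Topology Set
open scoped ENNReal Real

namespace Vale.Agent.P145W85.P153.TwoPt

/-- the character `e^{i(θ j + k x)}`. -/
noncomputable def chr (θ k : ℝ) (p : ℤ × ℤ) : ℂ :=
  Complex.exp (Complex.I * ((θ * p.1 + k * p.2 : ℝ) : ℂ))

theorem norm_chr (θ k : ℝ) (p : ℤ × ℤ) : ‖chr θ k p‖ = 1 := by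
  unfold chr
  rw [mul_comm, Complex.norm_exp_ofReal_mul_I]

/-- discrete Fourier transform. -/
noncomputable def hat (a : ℤ → ℤ → ℝ) (θ k : ℝ) : ℂ := ∑' p : ℤ × ℤ, (a p.1 p.2 : ℂ) * chr θ k p

/-- `a` vanishes outside the finite set `s`. -/
def Sup (a : ℤ → ℤ → ℝ) (s : Finset (ℤ × ℤ)) : Prop := ∀ p : ℤ × ℤ, p ∉ s → a p.1 p.2 = 0

theorem hat_eq {a : ℤ → ℤ → ℝ} {s : Finset (ℤ × ℤ)} (hs : Sup a s) (θ k : ℝ) :
    hat a θ k = ∑ p ∈ s, (a p.1 p.2 : ℂ) * chr θ k p :=
  tsum_eq_sum fun p hp => by rw [hs p hp]; simp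

theorem summable_hat {a : ℤ → ℤ → ℝ} {s : Finset (ℤ × ℤ)} (hs : Sup a s) (u : ℤ × ℤ → ℂ) :
    Summable fun p : ℤ × ℤ => (a p.1 p.2 : ℂ) * u p :=
  summable_of_ne_finset_zero (s := s) fun p hp => by rw [hs p hp]; simp

theorem Sup.shift1 {a : ℤ → ℤ → ℝ} {s : Finset (ℤ × ℤ)} (hs : Sup a s) (c : ℤ) :
    Sup (fun j x => a (j + c) x) (s.image fun p => (p.1 - c, p.2)) := by
  intro p hp
  refine hs (p.1 + c, p.2) fun h => hp ?_
  exact Finset.mem_image.2 ⟨_, h, by simp⟩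

theorem Sup.shift2 {a : ℤ → ℤ → ℝ} {s : Finset (ℤ × ℤ)} (hs : Sup a s) (c : ℤ) :
    Sup (fun j x => a j (x + c)) (s.image fun p => (p.1, p.2 - c)) := by
  intro p hp
  refine hs (p.1, p.2 + c) fun h => hp ?_
  exact Finset.mem_image.2 ⟨_, h, by simp⟩

theorem hat_shift1 (a : ℤ → ℤ → ℝ) (c : ℤ) (θ k : ℝ) :
    hat (fun j x => a (j + c) x) θ k = Complex.exp (-(Complex.I * ((θ * c : ℝ) : ℂ))) * hat a θ k := by
  unfold hat
  rw [← tsum_mul_left, ← Equiv.tsum_eq (Equiv.addRight ((c, 0) : ℤ × ℤ))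
    (fun p : ℤ × ℤ => Complex.exp (-(Complex.I * ((θ * c : ℝ) : ℂ))) * ((a p.1 p.2 : ℂ) * chr θ k p))]
  refine tsum_congr fun p => ?_
  simp only [Equiv.coe_addRight, Prod.fst_add, Prod.snd_add, add_zero]
  have : chr θ k p = Complex.exp (-(Complex.I * ((θ * c : ℝ) : ℂ))) * chr θ k (p + (c, 0)) := by
    unfold chr
    rw [← Complex.exp_add]
    congr 1
    push_cast
    simp only [Prod.fst_add, Int.cast_add, Prod.snd_add, add_zero]
    ring
  rw [this]
  ring

theorem hat_shift2 (a : ℤ → ℤ → ℝ) (c : ℤ) (θ k : ℝ) :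
    hat (fun j x => a j (x + c)) θ k = Complex.exp (-(Complex.I * ((k * c : ℝ) : ℂ))) * hat a θ k := by
  unfold hat
  rw [← tsum_mul_left, ← Equiv.tsum_eq (Equiv.addRight ((0, c) : ℤ × ℤ))
    (fun p : ℤ × ℤ => Complex.exp (-(Complex.I * ((k * c : ℝ) : ℂ))) * ((a p.1 p.2 : ℂ) * chr θ k p))]
  refine tsum_congr fun p => ?_
  simp only [Equiv.coe_addRight, Prod.fst_add, Prod.snd_add, add_zero]
  have : chr θ k p = Complex.exp (-(Complex.I * ((k * c : ℝ) : ℂ))) * chr θ k (p + (0, c)) := by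
    unfold chr
    rw [← Complex.exp_add]
    congr 1
    push_cast
    simp only [Prod.fst_add, add_zero, Prod.snd_add, Int.cast_add]
    ring
  rw [this]
  ring

theorem exp_add_exp (t : ℝ) :
    Complex.exp (-(Complex.I * ((t * (1 : ℤ) : ℝ) : ℂ))) +
      Complex.exp (-(Complex.I * ((t * (-1 : ℤ) : ℝ) : ℂ))) = ((2 * Real.cos t : ℝ) : ℂ) := by
  push_cast
  rw [Complex.cos]
  rw [show -(Complex.I * ((t : ℂ) * 1)) = -(t : ℂ) * Complex.I by ring,
    show -(Complex.I * ((t : ℂ) * -1)) = (t : ℂ) * Complex.I by ring]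
  ring

theorem hat_diff1 {a : ℤ → ℤ → ℝ} {s : Finset (ℤ × ℤ)} (hs : Sup a s) (θ k : ℝ) :
    hat (fun j x => a (j + 1) x - 2 * a j x + a (j - 1) x) θ k =
      -((2 - 2 * Real.cos θ : ℝ) : ℂ) * hat a θ k := by
  have h1 := hat_shift1 a 1 θ k
  have h2 := hat_shift1 a (-1) θ k
  have h3 : hat (fun j x => a (j + 1) x - 2 * a j x + a (j - 1) x) θ k =
      hat (fun j x => a (j + 1) x) θ k - 2 * hat a θ k + hat (fun j x => a (j + (-1)) x) θ k := by
    unfold hat
    rw [← tsum_mul_left, ← Summable.tsum_sub (summable_hat (hs.shift1 1) _)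
      ((summable_hat hs _).mul_left 2), ← Summable.tsum_add
      ((summable_hat (hs.shift1 1) _).sub ((summable_hat hs _).mul_left 2))
      (summable_hat (hs.shift1 (-1)) _)]
    refine tsum_congr fun p => ?_
    push_cast
    rw [← sub_eq_add_neg]
    ring
  rw [h3, h1, h2]
  have h4 := exp_add_exp θ
  have h5 : (-((2 - 2 * Real.cos θ : ℝ) : ℂ)) = ((2 * Real.cos θ : ℝ) : ℂ) - 2 := by
    push_cast
    ring
  rw [h5, ← h4]
  ring

theorem hat_diff2 {a : ℤ → ℤ → ℝ} {s : Finset (ℤ × ℤ)} (hs : Sup a s) (θ k : ℝ) :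
    hat (fun j x => a j (x + 1) - 2 * a j x + a j (x - 1)) θ k =
      -((2 - 2 * Real.cos k : ℝ) : ℂ) * hat a θ k := by
  have h1 := hat_shift2 a 1 θ k
  have h2 := hat_shift2 a (-1) θ k
  have h3 : hat (fun j x => a j (x + 1) - 2 * a j x + a j (x - 1)) θ k =
      hat (fun j x => a j (x + 1)) θ k - 2 * hat a θ k + hat (fun j x => a j (x + (-1))) θ k := by
    unfold hat
    rw [← tsum_mul_left, ← Summable.tsum_sub (summable_hat (hs.shift2 1) _)
      ((summable_hat hs _).mul_left 2), ← Summable.tsum_add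
      ((summable_hat (hs.shift2 1) _).sub ((summable_hat hs _).mul_left 2))
      (summable_hat (hs.shift2 (-1)) _)]
    refine tsum_congr fun p => ?_
    push_cast
    rw [← sub_eq_add_neg]
    ring
  rw [h3, h1, h2]
  have h4 := exp_add_exp k
  have h5 : (-((2 - 2 * Real.cos k : ℝ) : ℂ)) = ((2 * Real.cos k : ℝ) : ℂ) - 2 := by
    push_cast
    ring
  rw [h5, ← h4]
  ring

theorem norm_hat_le {a : ℤ → ℤ → ℝ} {s : Finset (ℤ × ℤ)} (hs : Sup a s) {B : ℝ}
    (hB : ∀ j x, |a j x| ≤ B) (θ k : ℝ) : ‖hat a θ k‖ ≤ s.card * B := by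
  rw [hat_eq hs]
  refine (norm_sum_le _ _).trans ?_
  rw [← nsmul_eq_mul]
  refine Finset.sum_le_card_nsmul _ _ _ fun p _ => ?_
  rw [norm_mul, norm_chr, mul_one, Complex.norm_real, Real.norm_eq_abs]
  exact hB _ _

theorem norm_exp_sub_one (x : ℝ) : ‖Complex.exp (Complex.I * (x : ℂ)) - 1‖ ≤ |x| := by
  have h := Real.norm_exp_I_mul_ofReal_sub_one_le (x := x)
  simpa only [ge_iff_le, Real.norm_eq_abs] using h

theorem norm_hat_le' {a : ℤ → ℤ → ℝ} {s : Finset (ℤ × ℤ)} (hs : Sup a s) {B N : ℝ}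
    (hB : ∀ j x, |a j x| ≤ B) (h0 : ∑ p ∈ s, a p.1 p.2 = 0)
    (hN : ∀ p ∈ s, |(p.1 : ℝ)| ≤ N ∧ |(p.2 : ℝ)| ≤ N) (θ k : ℝ) :
    ‖hat a θ k‖ ≤ s.card * B * N * (|θ| + |k|) := by
  have h1 : hat a θ k = ∑ p ∈ s, (a p.1 p.2 : ℂ) * (chr θ k p - 1) := by
    rw [hat_eq hs]
    simp_rw [mul_sub, mul_one]
    rw [Finset.sum_sub_distrib]
    have : ∑ p ∈ s, (a p.1 p.2 : ℂ) = 0 := by
      rw [← Complex.ofReal_sum, h0, Complex.ofReal_zero]
    rw [this, sub_zero]
  have hB0 : 0 ≤ B := (abs_nonneg _).trans (hB 0 0)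
  rw [h1]
  refine (norm_sum_le _ _).trans ?_
  have h2 : ∀ p ∈ s, ‖(a p.1 p.2 : ℂ) * (chr θ k p - 1)‖ ≤ B * N * (|θ| + |k|) := by
    intro p hp
    rw [norm_mul, Complex.norm_real, Real.norm_eq_abs, mul_assoc]
    refine mul_le_mul (hB _ _) ?_ (norm_nonneg _) hB0
    unfold chr
    refine (norm_exp_sub_one _).trans ?_
    refine (abs_add_le _ _).trans ?_
    rw [abs_mul, abs_mul]
    have h3 := hN p hp
    nlinarith only [h3, abs_nonneg θ, abs_nonneg k]
  refine (Finset.sum_le_card_nsmul _ _ _ h2).trans ?_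
  rw [nsmul_eq_mul]
  exact le_of_eq (by ring)

theorem two_sub_cos_ge (x : ℝ) (hx : |x| ≤ π) : 4 / π ^ 2 * x ^ 2 ≤ 2 - 2 * Real.cos x := by
  have h := Real.cos_le_one_sub_mul_cos_sq hx
  have h4 : 4 / π ^ 2 * x ^ 2 = 2 * (2 / π ^ 2 * x ^ 2) := by ring
  rw [h4]
  linarith

end Vale.Agent.P145W85.P153.TwoPt
end

section

/-!
# P153, two-point part: bounds and limit of the discrete Fourier transform of the weights
-/

open MeasureTheory ProbabilityTheory Filter Topology Set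
open scoped ENNReal Real

namespace Vale.Agent.P145W85.P153.TwoPt

/-- the box of lattice points with coordinates at most `T`. -/
noncomputable def bx (T : ℝ) : Finset (ℤ × ℤ) := Finset.Icc (-⌊T⌋) ⌊T⌋ ×ˢ Finset.Icc (-⌊T⌋) ⌊T⌋

theorem mem_bx {T : ℝ} {p : ℤ × ℤ} : p ∈ bx T ↔ |(p.1 : ℝ)| ≤ T ∧ |(p.2 : ℝ)| ≤ T := by
  unfold bx
  rw [Finset.mem_product, Finset.mem_Icc, Finset.mem_Icc, abs_le, abs_le]
  have key : ∀ x : ℤ, (-⌊T⌋ ≤ x ∧ x ≤ ⌊T⌋) ↔ (-T ≤ (x : ℝ) ∧ (x : ℝ) ≤ T) := by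
    intro x
    rw [Int.le_floor, neg_le, Int.le_floor, Int.cast_neg, neg_le]
  rw [key, key]

theorem card_bx {T : ℝ} (hT : 0 ≤ T) : ((bx T).card : ℝ) ≤ (2 * T + 1) ^ 2 := by
  unfold bx
  rw [Finset.card_product, Int.card_Icc]
  have h1 : 0 ≤ ⌊T⌋ := Int.floor_nonneg.2 hT
  have h2 : ((⌊T⌋ + 1 - -⌊T⌋).toNat : ℝ) = 2 * ⌊T⌋ + 1 := by
    have : ((⌊T⌋ + 1 - -⌊T⌋).toNat : ℤ) = 2 * ⌊T⌋ + 1 := by omega
    exact_mod_cast this
  push_cast
  rw [h2, ← sq]
  have h3 := Int.floor_le T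
  have h4 : (0 : ℝ) ≤ ⌊T⌋ := by exact_mod_cast h1
  gcongr

theorem card_bx' {A L : ℝ} (hA : 0 ≤ A) (hL : 1 ≤ L) :
    ((bx (A * L)).card : ℝ) ≤ (2 * A + 1) ^ 2 * L ^ 2 := by
  refine (card_bx (by positivity)).trans ?_
  rw [← mul_pow]
  refine pow_le_pow_left₀ (by (clear * - hA hL; positivity)) ?_ 2
  linarith

section
variable {f : ℝ × ℝ → ℝ} {L : ℕ → ℝ} {a : ℕ → ℤ → ℤ → ℝ} {M : ℝ}

theorem Disc.sup (h : Disc f L a M) {A : ℝ} (hA : M ≤ A) (n : ℕ) : Sup (a n) (bx (A * L n)) := by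
  intro p hp
  rw [mem_bx, not_and_or, not_le, not_le] at hp
  have hL := h.L_pos n
  refine h.supp n p.1 p.2 ?_
  rcases hp with hp | hp
  · left
    exact lt_of_le_of_lt (by (clear * - hA hL; gcongr)) hp
  · right
    exact lt_of_le_of_lt (by gcongr) hp

theorem Disc.sum_zero' (h : Disc f L a M) {A : ℝ} (hA : M ≤ A) (n : ℕ) :
    ∑ p ∈ bx (A * L n), a n p.1 p.2 = 0 := by
  rw [← h.sum_zero n]
  refine (finsum_eq_sum_of_support_subset _ ?_).symm
  intro p hp
  by_contra h2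
  exact hp (h.sup hA n p h2)

theorem Disc.bound (h : Disc f L a M) : ∃ B > 0, ∀ᶠ n in atTop, ∀ j x, |a n j x| ≤ B / L n ^ 2 := by
  obtain ⟨Cf, hCf⟩ := h.f_supp.exists_bound_of_continuous h.f_cont
  have hC0 : 0 ≤ Cf := (norm_nonneg _).trans (hCf 0)
  refine ⟨Cf + 1, by positivity, ?_⟩
  filter_upwards [h.close 1 one_pos] with n hn j x
  have hL : 0 < L n := by linarith [h.L_pos n]
  rw [le_div_iff₀ (by positivity)]
  have h1 := hn j x
  have h2 := hCf (j / L n, x / L n)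
  rw [Real.norm_eq_abs] at h2
  have h3 : |L n ^ 2 * a n j x| ≤ Cf + 1 := by
    have := abs_sub_abs_le_abs_sub (L n ^ 2 * a n j x) (f (j / L n, x / L n))
    linarith
  rw [abs_mul, abs_of_pos (by positivity)] at h3
  linarith only [h3]

theorem Disc.hat_bounds (h : Disc f L a M) : ∃ C1 > 0, ∀ᶠ n in atTop, ∀ θ k : ℝ, |θ| ≤ π →
    |k| ≤ π → ‖hat (a n) θ k‖ ≤ C1 * L n * (|θ| + |k|) ∧
    ‖hat (a n) θ k‖ * (L n ^ 2 * θ ^ 2) ≤ C1 ∧ ‖hat (a n) θ k‖ * (L n ^ 2 * k ^ 2) ≤ C1 := by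
  obtain ⟨B, hB, hb⟩ := h.bound
  have hM := h.M_pos
  have hpi := Real.pi_pos
  set C1 : ℝ := (2 * M + 1) ^ 2 * B * M + π ^ 2 / 4 * ((2 * (M + 1) + 1) ^ 2 * M) with hC1
  refine ⟨C1, by (clear * - hM hB; positivity), ?_⟩
  filter_upwards [hb] with n hn θ k hθ hk
  have hL1 := h.L_pos n
  have hL : 0 < L n := by linarith only [hL1]
  have hdiff : ∀ (x : ℝ), |x| ≤ π → ∀ b : ℤ → ℤ → ℝ, (∀ j x, |b j x| ≤ M / L n ^ 4) →
      Sup b (bx ((M + 1) * L n)) → hat b θ k = -((2 - 2 * Real.cos x : ℝ) : ℂ) * hat (a n) θ k →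
      ‖hat (a n) θ k‖ * (L n ^ 2 * x ^ 2) ≤ C1 := by
    intro x hx b hb1 hb2 hb3
    have h1 := norm_hat_le hb2 hb1 θ k
    have h2 := card_bx' (A := M + 1) (by positivity) hL1
    have h3 : ‖hat b θ k‖ ≤ (2 * (M + 1) + 1) ^ 2 * M / L n ^ 2 := by
      refine h1.trans ?_
      calc ((bx ((M + 1) * L n)).card : ℝ) * (M / L n ^ 4)
          ≤ ((2 * (M + 1) + 1) ^ 2 * L n ^ 2) * (M / L n ^ 4) := by (clear * - h2 hM hL1; gcongr)
        _ = _ := by
          (clear * - hL1 hM; field_simp)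
    have h4 := two_sub_cos_ge x hx
    have h5 : 0 ≤ 2 - 2 * Real.cos x := by linarith only [Real.cos_le_one x]
    rw [hb3, norm_mul, norm_neg, Complex.norm_real, Real.norm_of_nonneg h5,
      le_div_iff₀ (by positivity)] at h3
    have h6 : ‖hat (a n) θ k‖ * (L n ^ 2 * x ^ 2) ≤ π ^ 2 / 4 * ((2 * (M + 1) + 1) ^ 2 * M) := by
      calc ‖hat (a n) θ k‖ * (L n ^ 2 * x ^ 2)
          = π ^ 2 / 4 * ((4 / π ^ 2 * x ^ 2) * ‖hat (a n) θ k‖ * L n ^ 2) := by
            (clear * - hL1; field_simp)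
        _ ≤ π ^ 2 / 4 * ((2 - 2 * Real.cos x) * ‖hat (a n) θ k‖ * L n ^ 2) := by (clear * - h4 hL1; gcongr)
        _ ≤ _ := by (clear * - h3; gcongr)
    have h7 : 0 ≤ (2 * M + 1) ^ 2 * B * M := by positivity
    rw [hC1]
    linarith only [h6, h7]
  have hsup := h.sup (le_refl M) n
  have hsup1 : Sup (fun j x => a n (j + 1) x - 2 * a n j x + a n (j - 1) x) (bx ((M + 1) * L n)) := by
    intro p hp
    have hout : ∀ q : ℤ × ℤ, |q.1 - p.1| ≤ 1 → q.2 = p.2 → a n q.1 q.2 = 0 := by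
      intro q hq1 hq2
      refine h.supp n _ _ ?_
      rw [mem_bx, not_and_or, not_le, not_le] at hp
      have hq3 : |(q.1 : ℝ) - p.1| ≤ 1 := by exact_mod_cast hq1
      rcases hp with hp | hp
      · left
        have := abs_sub_abs_le_abs_sub (p.1 : ℝ) (q.1 : ℝ)
        rw [abs_sub_comm] at this
        nlinarith only [hL1, hq3, hp, this]
      · right
        rw [hq2]
        nlinarith only [hL1, hp]
    have h1 := hout (p.1 + 1, p.2) (by simp) rfl
    have h2 := hout (p.1, p.2) (by simp) rfl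
    have h3 := hout (p.1 - 1, p.2) (by simp) rfl
    simp only at h1 h2 h3
    simp only [h1, h2, h3]
    ring
  have hsup2 : Sup (fun j x => a n j (x + 1) - 2 * a n j x + a n j (x - 1)) (bx ((M + 1) * L n)) := by
    intro p hp
    have hout : ∀ q : ℤ × ℤ, |q.2 - p.2| ≤ 1 → q.1 = p.1 → a n q.1 q.2 = 0 := by
      intro q hq1 hq2
      refine h.supp n _ _ ?_
      rw [mem_bx, not_and_or, not_le, not_le] at hp
      have hq3 : |(q.2 : ℝ) - p.2| ≤ 1 := by exact_mod_cast hq1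
      rcases hp with hp | hp
      · left
        rw [hq2]
        nlinarith only [hL1, hp]
      · right
        have := abs_sub_abs_le_abs_sub (p.2 : ℝ) (q.2 : ℝ)
        rw [abs_sub_comm] at this
        linarith
    have h1 := hout (p.1, p.2 + 1) (by simp) rfl
    have h2 := hout (p.1, p.2) (by simp) rfl
    have h3 := hout (p.1, p.2 - 1) (by simp) rfl
    simp only at h1 h2 h3
    simp only [h1, h2, h3]
    ring
  refine ⟨?_, ?_, ?_⟩
  · have h1 := norm_hat_le' hsup hn (h.sum_zero' (le_refl M) n)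
      (fun p hp => mem_bx.1 hp) θ k
    refine h1.trans ?_
    have h2 := card_bx' (A := M) hM.le hL1
    calc ((bx (M * L n)).card : ℝ) * (B / L n ^ 2) * (M * L n) * (|θ| + |k|)
        ≤ ((2 * M + 1) ^ 2 * L n ^ 2) * (B / L n ^ 2) * (M * L n) * (|θ| + |k|) := by gcongr
      _ = ((2 * M + 1) ^ 2 * B * M) * L n * (|θ| + |k|) := by
        (clear * - hB hL1 hM; field_simp)
      _ ≤ C1 * L n * (|θ| + |k|) := by
        have : (2 * M + 1) ^ 2 * B * M ≤ C1 := by
          rw [hC1]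
          have : 0 ≤ π ^ 2 / 4 * ((2 * (M + 1) + 1) ^ 2 * M) := by positivity
          linarith only [this]
        (clear * - this hL1; gcongr)
  · exact hdiff θ hθ _ (h.diff1 n) hsup1 (hat_diff1 hsup θ k)
  · exact hdiff k hk _ (h.diff2 n) hsup2 (hat_diff2 hsup θ k)

/-- elementary decay. -/
theorem decay {b w q C1 : ℝ} (hb : 0 ≤ b) (h1 : b ≤ C1 * (|w| + |q|))
    (h2 : b * w ^ 2 ≤ C1) (h3 : b * q ^ 2 ≤ C1) :
    b ^ 2 * (1 + (w ^ 2 + q ^ 2)) ^ 3 ≤ 24 * C1 ^ 2 * (w ^ 2 + q ^ 2) := by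
  set s := w ^ 2 + q ^ 2 with hs
  have hs0 : 0 ≤ s := by positivity
  have h4 : b * s ≤ 2 * C1 := by rw [hs]; linarith
  have h5 : b ^ 2 ≤ 2 * C1 ^ 2 * s := by
    have h6 : b ^ 2 ≤ (C1 * (|w| + |q|)) ^ 2 := pow_le_pow_left₀ hb h1 2
    have h7 : (|w| + |q|) ^ 2 ≤ 2 * s := by
      rw [hs, ← sq_abs w, ← sq_abs q]
      nlinarith only [sq_nonneg (|w| - |q|)]
    calc b ^ 2 ≤ (C1 * (|w| + |q|)) ^ 2 := h6
      _ = C1 ^ 2 * (|w| + |q|) ^ 2 := by ring
      _ ≤ C1 ^ 2 * (2 * s) := by (clear * - h7; gcongr)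
      _ = _ := by ring
  have h8 : (b * s) ^ 2 ≤ (2 * C1) ^ 2 := pow_le_pow_left₀ (by (clear * - hb; positivity)) h4 2
  have h9 : (1 + s) ^ 3 ≤ 4 * (1 + s ^ 3) := by nlinarith only [hs0, sq_nonneg (s - 1)]
  calc b ^ 2 * (1 + s) ^ 3 ≤ b ^ 2 * (4 * (1 + s ^ 3)) := by (clear * - h9; gcongr)
    _ = 4 * b ^ 2 + 4 * ((b * s) ^ 2 * s) := by ring
    _ ≤ 4 * (2 * C1 ^ 2 * s) + 4 * ((2 * C1) ^ 2 * s) := by gcongr
    _ = _ := by ring

theorem norm_sq_le (z : ℝ × ℝ) : ‖z‖ ^ 2 ≤ z.1 ^ 2 + z.2 ^ 2 := by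
  rw [Prod.norm_def]
  rcases max_cases ‖z.1‖ ‖z.2‖ with h | h
  · rw [h.1, Real.norm_eq_abs, sq_abs]
    nlinarith only []
  · rw [h.1, Real.norm_eq_abs, sq_abs]
    nlinarith only []

theorem integrable_dom : Integrable fun z : ℝ × ℝ => (1 + ‖z‖ ^ 2) ^ (-(3 : ℝ) / 2) := by
  refine integrable_rpow_neg_one_add_norm_sq ?_
  rw [Module.finrank_prod, Module.finrank_self]
  norm_num

theorem hat_lim (h : Disc f L a M) (w q : ℝ) :
    Tendsto (fun n => hat (a n) (w / L n) (q / L n)) atTop (𝓝 (FT f w q)) := by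
  set F : ℝ × ℝ → ℂ := fun z => (f z : ℂ) * Complex.exp (Complex.I * ((w * z.1 + q * z.2 : ℝ) : ℂ))
    with hF
  have hFc : Continuous F := by
    have := h.f_cont
    rw [hF]
    fun_prop
  have hFs : HasCompactSupport F := by
    rw [hF]
    exact (h.f_supp.comp_left (g := fun x : ℝ => (x : ℂ)) (by simp)).mul_right
  obtain ⟨R, hR⟩ := h.f_supp.isCompact.isBounded.subset_closedBall (0 : ℝ × ℝ)
  have hM := h.M_pos
  set A : ℝ := max M R with hA
  have hMA : M ≤ A := le_max_left _ _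
  have hRA : R ≤ A := le_max_right _ _
  have hA0 : 0 < A := by linarith only [hM, hMA]
  have hout : ∀ n, ∀ p : ℤ × ℤ, p ∉ bx (A * L n) → f (p.1 / L n, p.2 / L n) = 0 := by
    intro n p hp
    have hL : 0 < L n := by linarith only [h.L_pos n]
    by_contra hne
    have h1 := hR (subset_tsupport _ (Function.mem_support.2 hne))
    rw [mem_closedBall_zero_iff, Prod.norm_def] at h1
    refine hp (mem_bx.2 ?_)
    have h2 := (le_max_left _ _).trans h1
    have h3 := (le_max_right _ _).trans h1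
    simp only [Real.norm_eq_abs, abs_div, abs_of_pos hL] at h2 h3
    rw [div_le_iff₀ hL] at h2 h3
    exact ⟨h2.trans (by (clear * - hRA hL; gcongr)), h3.trans (by gcongr)⟩
  have hLi : Tendsto (fun n => 1 / L n) atTop (𝓝 0) := by
    simp_rw [one_div]
    exact h.L_top.inv_tendsto_atTop
  have hr := riemann2 F hFc hFs (fun n => 1 / L n) (fun n => 1 / L n)
    (fun n => by have := h.L_pos n; positivity) (fun n => by have := h.L_pos n; positivity) hLi hLi
    (fun n => bx (A * L n)) (fun n p hp => by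
      rw [hF]
      simp only [mul_one_div]
      rw [hout n p hp]
      simp only [Complex.ofReal_zero, Complex.ofReal_add, Complex.ofReal_mul, Complex.ofReal_div, Complex.ofReal_intCast, zero_mul])
  have hFT : ∫ z, F z = FT f w q := rfl
  rw [hFT] at hr
  refine tendsto_of_tendsto_of_dist hr ?_
  rw [Metric.tendsto_atTop]
  intro ε hε
  set D : ℝ := (2 * A + 1) ^ 2 with hD
  have hD0 : 0 < D := by positivity
  obtain ⟨n0, hn0⟩ := eventually_atTop.1 (h.close (ε / (2 * D)) (by positivity))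
  refine ⟨n0, fun n hn => ?_⟩
  have hL1 := h.L_pos n
  have hL : 0 < L n := by linarith only [hL1]
  rw [Real.dist_eq, sub_zero, abs_of_nonneg dist_nonneg, dist_comm, dist_eq_norm,
    hat_eq (h.sup hMA n), Finset.smul_sum, ← Finset.sum_sub_distrib]
  have hterm : ∀ p ∈ bx (A * L n), ‖(a n p.1 p.2 : ℂ) * chr (w / L n) (q / L n) p -
      (1 / L n * (1 / L n)) • F (p.1 * (1 / L n), p.2 * (1 / L n))‖ ≤ ε / (2 * D) / L n ^ 2 := by
    intro p _
    have h1 : F (p.1 * (1 / L n), p.2 * (1 / L n)) =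
        (f (p.1 / L n, p.2 / L n) : ℂ) * chr (w / L n) (q / L n) p := by
      rw [hF]
      unfold chr
      simp only [mul_one_div]
      congr 4
      ring
    rw [h1, Complex.real_smul, ← mul_assoc, ← sub_mul, norm_mul, norm_chr, mul_one,
      ← Complex.ofReal_mul, ← Complex.ofReal_sub, Complex.norm_real, Real.norm_eq_abs]
    have h2 := hn0 n hn p.1 p.2
    have h3 : a n p.1 p.2 - 1 / L n * (1 / L n) * f (p.1 / L n, p.2 / L n) =
        (L n ^ 2 * a n p.1 p.2 - f (p.1 / L n, p.2 / L n)) / L n ^ 2 := by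
      (clear * - hL1; field_simp)
    rw [h3, abs_div, abs_of_pos (by positivity : 0 < L n ^ 2)]
    (clear * - h2 hL1; gcongr)
  refine lt_of_le_of_lt (norm_sum_le_of_le _ hterm) ?_
  rw [Finset.sum_const, nsmul_eq_mul]
  have h4 := card_bx' hA0.le hL1
  calc ((bx (A * L n)).card : ℝ) * (ε / (2 * D) / L n ^ 2)
      ≤ (D * L n ^ 2) * (ε / (2 * D) / L n ^ 2) := by gcongr
    _ = ε / 2 := by
      (clear * - hD0 hL1 hε; field_simp)
    _ < ε := by linarith only [hε]

end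

end Vale.Agent.P145W85.P153.TwoPt
end

section

/-!
P145, X-level: the four outer regions of the pinwheel of a cell, and the partition of a test
function along the corridors.
-/

set_option autoImplicit false

namespace Vale.Agent.P145W85.P145.X

open Filter Topology Set MeasureTheory
open Vale.Agent.P145W85.P145.PT

/-- Smooth step. -/
noncomputable def T (t : ℝ) : ℝ := Real.smoothTransition t

theorem T_nonneg (t : ℝ) : 0 ≤ T t := Real.smoothTransition.nonneg t
theorem T_le (t : ℝ) : T t ≤ 1 := Real.smoothTransition.le_one t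
theorem T_zero {t : ℝ} (h : t ≤ 0) : T t = 0 := Real.smoothTransition.zero_of_nonpos h
theorem T_one {t : ℝ} (h : 1 ≤ t) : T t = 1 := Real.smoothTransition.one_of_one_le h
theorem T_pos {t : ℝ} (h : T t ≠ 0) : 0 < t := by
  by_contra h0
  exact h (T_zero (not_lt.1 h0))
theorem T_sm : ContDiff ℝ ((⊤ : ℕ∞) : WithTop ℕ∞) T := Real.smoothTransition.contDiff

section

variable {a b a' b' e : ℝ}

theorem mul_T_le {x y : ℝ} (_hx0 : 0 ≤ x) (hx : x ≤ 1) (hy0 : 0 ≤ y) (hy : y ≤ 1) : x * y ≤ 1 :=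
  mul_le_one₀ hx hy0 hy

end

/-- lines are null sets -/
theorem line_null (p : ℝ × ℝ → ℝ) (hp : Continuous p) (h : ∀ x y y', p (x, y) = p (x, y') → y = y')
    (c : ℝ) : ∀ᵐ z : ℝ × ℝ, p z ≠ c := by
  have hm : MeasurableSet {z : ℝ × ℝ | p z = c} :=
    (isClosed_eq hp continuous_const).measurableSet
  rw [ae_iff]
  have e : {z : ℝ × ℝ | ¬ p z ≠ c} = {z | p z = c} := by ext z; simp
  rw [e, Measure.volume_eq_prod, Measure.measure_prod_null hm]
  refine Eventually.of_forall fun x => ?_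
  have hsub : (Prod.mk x ⁻¹' {z : ℝ × ℝ | p z = c}).Subsingleton := by
    intro y hy y' hy'
    have h1 : p (x, y) = c := hy
    have h2 : p (x, y') = c := hy'
    exact h x y y' (h1.trans h2.symm)
  exact hsub.measure_zero volume

end Vale.Agent.P145W85.P145.X
end
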