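import Mathlib
import Vale.Agent.P145W85.Bd.B2
import Vale.Agent.P145W85.Bd.B1

set_option linter.all false

section

/-!
The Burton–Keane counting lemma in abstract form: in a connected finite structure with boundary
points `S` and disjoint trifurcation points `T` one has `#T ≤ #S`.
-/

namespace Vale.Agent.P145W85.P153.BK

open Finset

variable {X : Type*} [DecidableEq X]

/-- Abstract trifurcation count.  `r t` is the relation of being joined after removal of `t`. -/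
theorem trif_count (r : X → X → X → Prop) (hr : ∀ t, Equivalence (r t)) :
    ∀ (m : ℕ) (T S : Finset X), T.card = m → Disjoint T S →
      (∀ t ∈ T, ∀ t' ∈ T, t ≠ t' → ∀ y ∈ T ∪ S, y ≠ t → y ≠ t' → ¬ r t y t' → r t' y t) →
      (∀ t ∈ T, ∃ a ∈ S, ∃ b ∈ S, ∃ c ∈ S, ¬ r t a b ∧ ¬ r t b c ∧ ¬ r t a c) →
      T.card ≤ S.card := by
  classical
  intro m
  induction m with
  | zero => intro T S h _ _ _; omega
  | succ m ih =>
    intro T S hm hTS hc h3
    have hTne : T.Nonempty := by rw [← Finset.card_pos]; omega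
    -- a pair `(t, c)` maximising the number of points of `T` in the class of `c`
    obtain ⟨t0, ht0⟩ := hTne
    obtain ⟨a0, ha0, -⟩ := h3 t0 ht0
    have hne : (T ×ˢ (T ∪ S)).Nonempty := ⟨(t0, a0), by simp [ht0, ha0]⟩
    obtain ⟨⟨t, c⟩, htc, hmax⟩ := Finset.exists_max_image
      ((T ×ˢ (T ∪ S)).filter (fun p => p.2 ≠ p.1))
      (fun p => ((T.erase p.1).filter (fun y => r p.1 p.2 y)).card)
      ⟨(t0, a0), by
        simp only [Finset.mem_filter, Finset.mem_product, Finset.mem_union]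
        exact ⟨⟨ht0, Or.inr ha0⟩, fun h => Finset.disjoint_left.1 hTS ht0 (h ▸ ha0)⟩⟩
    simp only [Finset.mem_filter, Finset.mem_product, Finset.mem_union] at htc hmax
    obtain ⟨⟨ht, hcX⟩, hct⟩ := htc
    have hall : ∀ t' ∈ T, t' ≠ t → r t c t' := by
      intro t' ht' htt'
      by_contra hcon
      have hle := hmax (t', t) ⟨⟨ht', Or.inl ht⟩, fun h => htt' h.symm⟩
      have hsub : insert t ((T.erase t).filter (fun y => r t c y)) ⊆
          (T.erase t').filter (fun y => r t' t y) := by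
        intro y hy
        rw [Finset.mem_insert] at hy
        rcases hy with rfl | hy
        · simp only [Finset.mem_filter, Finset.mem_erase]
          exact ⟨⟨fun h => htt' h.symm, ht⟩, (hr _).refl _⟩
        · simp only [Finset.mem_filter, Finset.mem_erase] at hy ⊢
          obtain ⟨⟨hyt, hyT⟩, hcy⟩ := hy
          have hyt' : y ≠ t' := by rintro rfl; exact hcon hcy
          refine ⟨⟨hyt', hyT⟩, ?_⟩
          refine (hr _).symm (hc t ht t' ht' (fun h => htt' h.symm) y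
            (Finset.mem_union_left _ hyT) hyt hyt' ?_)
          intro h
          exact hcon ((hr _).trans hcy h)
      have h1 := Finset.card_le_card hsub
      rw [Finset.card_insert_of_notMem (by simp)] at h1
      simp only at hle
      omega
    -- two boundary points in other classes
    obtain ⟨s1, hs1, s2, hs2, hcs1, hcs2, hs12⟩ : ∃ s1 ∈ S, ∃ s2 ∈ S, ¬ r t c s1 ∧ ¬ r t c s2 ∧
        ¬ r t s1 s2 := by
      obtain ⟨a, ha, b, hb, d, hd, hab, hbd, had⟩ := h3 t ht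
      by_cases h1 : r t c a
      · refine ⟨b, hb, d, hd, ?_, ?_, hbd⟩
        · intro h; exact hab ((hr _).trans ((hr _).symm h1) h)
        · intro h; exact had ((hr _).trans ((hr _).symm h1) h)
      · by_cases h2 : r t c b
        · refine ⟨a, ha, d, hd, h1, ?_, had⟩
          intro h; exact hbd ((hr _).trans ((hr _).symm h2) h)
        · exact ⟨a, ha, b, hb, h1, h2, hab⟩
    have hne12 : s1 ≠ s2 := by rintro rfl; exact hs12 ((hr _).refl _)
    have htS : t ∉ S := Finset.disjoint_left.1 hTS ht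
    -- the reduced structure
    set S' := insert t ((S.erase s1).erase s2) with hS'
    have hcardS : S'.card + 1 = S.card := by
      rw [hS', Finset.card_insert_of_notMem (by
        intro h; exact htS (Finset.mem_of_mem_erase (Finset.mem_of_mem_erase h)))]
      rw [Finset.card_erase_of_mem (by simp [hs2, hne12.symm]), Finset.card_erase_of_mem hs1]
      have : 2 ≤ S.card := by
        have : ({s1, s2} : Finset X) ⊆ S := by
          intro x hx; simp only [Finset.mem_insert, Finset.mem_singleton] at hx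
          rcases hx with rfl | rfl <;> assumption
        have := Finset.card_le_card this
        rwa [Finset.card_pair hne12] at this
      omega
    have hcardT : (T.erase t).card = m := by rw [Finset.card_erase_of_mem ht]; omega
    have hsub' : T.erase t ∪ S' ⊆ T ∪ S := by
      intro y hy
      simp only [hS', Finset.mem_union, Finset.mem_erase, Finset.mem_insert] at hy ⊢
      rcases hy with ⟨_, h⟩ | rfl | ⟨_, _, h⟩
      · exact Or.inl h
      · exact Or.inl ht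
      · exact Or.inr h
    have key := ih (T.erase t) S' hcardT ?_ ?_ ?_
    · rw [Finset.card_erase_of_mem ht] at key
      omega
    · rw [Finset.disjoint_left]
      intro y hy hy'
      simp only [hS', Finset.mem_erase, Finset.mem_insert] at hy hy'
      rcases hy' with rfl | ⟨_, _, h⟩
      · exact hy.1 rfl
      · exact Finset.disjoint_left.1 hTS hy.2 h
    · intro u hu u' hu' huu' y hy
      exact hc u (Finset.mem_of_mem_erase hu) u' (Finset.mem_of_mem_erase hu') huu' y (hsub' hy)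
    · intro u hu
      have huT := Finset.mem_of_mem_erase hu
      have hut : u ≠ t := Finset.ne_of_mem_erase hu
      have move : ∀ s ∈ S, ¬ r t c s → r u s t := by
        intro s hs hcs
        refine hc t ht u huT (fun h => hut h.symm) s (Finset.mem_union_right _ hs) ?_ ?_ ?_
        · rintro rfl; exact htS hs
        · rintro rfl; exact Finset.disjoint_left.1 hTS huT hs
        · intro h
          exact hcs ((hr _).trans (hall u huT hut) ((hr _).symm h))
      have rep : ∀ s ∈ S, ∃ s' ∈ S', r u s s' := by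
        intro s hs
        by_cases h1 : s = s1
        · exact ⟨t, by simp [hS'], h1 ▸ move s1 hs1 hcs1⟩
        · by_cases h2 : s = s2
          · exact ⟨t, by simp [hS'], h2 ▸ move s2 hs2 hcs2⟩
          · exact ⟨s, by simp [hS', h1, h2, hs], (hr _).refl _⟩
      obtain ⟨a, ha, b, hb, d, hd, hab, hbd, had⟩ := h3 u huT
      obtain ⟨a', ha', haa⟩ := rep a ha
      obtain ⟨b', hb', hbb⟩ := rep b hb
      obtain ⟨d', hd', hdd⟩ := rep d hd
      refine ⟨a', ha', b', hb', d', hd', ?_, ?_, ?_⟩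
      · intro h; exact hab ((hr _).trans haa ((hr _).trans h ((hr _).symm hbb)))
      · intro h; exact hbd ((hr _).trans hbb ((hr _).trans h ((hr _).symm hdd)))
      · intro h; exact had ((hr _).trans haa ((hr _).trans h ((hr _).symm hdd)))

end Vale.Agent.P145W85.P153.BK
end

section

/-!
Counting trifurcation boxes in a large hexagon.
-/

namespace Vale.Agent.P145W85.P153.BK

open Relation Finset

/-- Translate of a configuration. -/
def sh (c : ℤ × ℤ) (τ : ℤ × ℤ → Bool) : ℤ × ℤ → Bool := fun x => τ (x + c)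

theorem step_add {x y c : ℤ × ℤ} : Step (x + c) (y + c) ↔ Step x y := by
  obtain ⟨x1, x2⟩ := x; obtain ⟨y1, y2⟩ := y; obtain ⟨c1, c2⟩ := c
  simp only [Step, Prod.mk_add_mk]; constructor <;> intro h <;> rcases h with h | h | h | h | h | h <;> omega

theorem bi_sh {c : ℤ × ℤ} {τ : ℤ × ℤ → Bool} {x y : ℤ × ℤ} :
    Bi (sh c τ) x y ↔ Bi τ (x + c) (y + c) := by
  unfold Bi sh; rw [step_add]

theorem con_sh_mp {c : ℤ × ℤ} {τ : ℤ × ℤ → Bool} {A : Set (ℤ × ℤ)} {x y : ℤ × ℤ}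
    (h : Con (sh c τ) A x y) : Con τ {z | z - c ∈ A} (x + c) (y + c) := by
  induction h with
  | refl => exact Con.refl _ _ _
  | tail _ hbc ih =>
    exact ih.trans (Con.single (bi_sh.1 hbc.1) (by simpa using hbc.2.1) (by simpa using hbc.2.2))

theorem con_sh_mpr {c : ℤ × ℤ} {τ : ℤ × ℤ → Bool} {A : Set (ℤ × ℤ)} {x y : ℤ × ℤ}
    (h : Con τ {z | z - c ∈ A} (x + c) (y + c)) : Con (sh c τ) A x y := by
  have key : ∀ u v, Con τ {z | z - c ∈ A} u v → Con (sh c τ) A (u - c) (v - c) := by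
    intro u v h
    induction h with
    | refl => exact Con.refl _ _ _
    | tail _ hbc ih =>
      refine ih.trans (Con.single (bi_sh.2 ?_) hbc.2.1 hbc.2.2)
      simpa using hbc.1
  simpa using key _ _ h

/-- The vertices at hexagonal distance exactly `R`. -/
def Bd (R : ℤ) : Set (ℤ × ℤ) := {x | x ∈ H R ∧ x ∉ H (R - 1)}

/-- The hexagon of radius `n` is a trifurcation at scale `R`. -/
def Tri (n R : ℤ) (τ : ℤ × ℤ → Bool) : Prop :=
  (∀ x ∈ H n, Con τ (H n) x (0, 0)) ∧ ∃ a : Fin 3 → ℤ × ℤ, (∀ i, a i ∈ H R \ H n) ∧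
    (∀ i, ∃ b ∈ H n, Bi τ (a i) b) ∧ (∀ i, ∃ s ∈ Bd R, Con τ (H R \ H n) (a i) s) ∧
    ∀ i j, i ≠ j → ¬ Con τ (H R \ H n) (a i) (a j)

theorem step_H {n : ℤ} {x y : ℤ × ℤ} (hx : x ∈ H n) (h : Step x y) : y ∈ H (n + 1) := by
  obtain ⟨x1, x2⟩ := x; obtain ⟨y1, y2⟩ := y
  simp only [mem_H, Step] at *; rcases h with h | h | h | h | h | h <;> omega

/-- Boxes around the points of `C`. -/
def Bx (n : ℤ) (c : ℤ × ℤ) : Set (ℤ × ℤ) := {x | x - c ∈ H n}

theorem mem_Bx_self {n : ℤ} (hn : 0 ≤ n) (c : ℤ × ℤ) : c ∈ Bx n c := by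
  change c - c ∈ H n
  simp only [sub_self, mem_H, Prod.fst_zero, Prod.snd_zero]; omega

/-- **Counting.** -/
theorem tri_card {n N R : ℤ} (hn : 0 ≤ n) (C S : Finset (ℤ × ℤ)) (τ : ℤ × ℤ → Bool)
    (hS : ∀ x, x ∈ S ↔ x ∈ Bd N) (hC : ∀ c ∈ C, ∀ x ∈ Bx n c, x ∈ H (N - 1))
    (hdis : ∀ c ∈ C, ∀ c' ∈ C, c ≠ c' → ∀ x ∈ Bx n c, x ∉ Bx n c')
    (hR : ∀ c ∈ C, ∀ x ∈ H N, x - c ∈ H (R - 1)) (T : Finset (ℤ × ℤ)) (hT : T ⊆ C)
    (hTri : ∀ t ∈ T, Tri n R (sh t τ)) : T.card ≤ S.card := by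
  classical
  -- basic inclusions
  have HN : ∀ {x}, x ∈ H (N - 1) → x ∈ H N := by
    intro x hx; rw [mem_H] at hx ⊢; omega
  have HR : ∀ {x}, x ∈ H (R - 1) → x ∈ H R := by
    intro x hx; rw [mem_H] at hx ⊢; omega
  have inside : ∀ t ∈ T, ∀ x ∈ Bx n t, Con τ (Bx n t) x t := by
    intro t ht x hx
    have := con_sh_mp ((hTri t ht).1 (x - t) hx)
    rw [show ((0, 0) : ℤ × ℤ) + t = t from zero_add t, sub_add_cancel] at this
    exact this
  -- the relations
  set r : ℤ × ℤ → ℤ × ℤ → ℤ × ℤ → Prop := fun t x y => Con τ (H N \ Bx n t) x y with hrdef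
  have hr : ∀ t, Equivalence (r t) := fun t => con_equivalence τ _
  let st : Setoid (ℤ × ℤ) := ⟨Con τ (H N), con_equivalence τ _⟩
  let cl : ℤ × ℤ → Quotient st := fun x => Quotient.mk st x
  have hcl : ∀ x y, cl x = cl y ↔ Con τ (H N) x y := fun x y => Quotient.eq (r := st)
  have main : ∀ q : Quotient st, (T.filter (fun x => cl x = q)).card ≤
      (S.filter (fun x => cl x = q)).card := by
    intro q
    refine trif_count r hr _ _ _ rfl ?_ ?_ ?_
    · rw [Finset.disjoint_left]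
      intro x hx hx'
      have h1 := hC x (hT (Finset.mem_filter.1 hx).1) x (mem_Bx_self hn x)
      exact ((hS x).1 (Finset.mem_filter.1 hx').1).2 h1
    · intro t ht t' ht' htt' y hy hyt hyt' hnot
      obtain ⟨htT, htq⟩ := Finset.mem_filter.1 ht
      obtain ⟨ht'T, ht'q⟩ := Finset.mem_filter.1 ht'
      have hyq : cl y = q := by
        rcases Finset.mem_union.1 hy with h | h <;> exact (Finset.mem_filter.1 h).2
      have hyN : y ∈ H N := by
        rcases Finset.mem_union.1 hy with h | h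
        · exact HN (hC y (hT (Finset.mem_filter.1 h).1) y (mem_Bx_self hn y))
        · exact ((hS y).1 (Finset.mem_filter.1 h).1).1
      have hyout : ∀ u ∈ T, y ≠ u → y ∉ Bx n u := by
        intro u hu hyu hyB
        rcases Finset.mem_union.1 hy with h | h
        · exact hdis y (hT (Finset.mem_filter.1 h).1) u (hT hu) hyu y (mem_Bx_self hn y) hyB
        · exact ((hS y).1 (Finset.mem_filter.1 h).1).2 (hC u (hT hu) y hyB)
      have hcon : Con τ (H N) y t := (hcl _ _).1 (hyq.trans htq.symm)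
      have tN : ∀ x ∈ Bx n t, x ∈ H N \ Bx n t' := fun x hx =>
        ⟨HN (hC t (hT htT) x hx), hdis t (hT htT) t' (hT ht'T) htt' x hx⟩
      have t'N : ∀ x ∈ Bx n t', x ∈ H N \ Bx n t := fun x hx =>
        ⟨HN (hC t' (hT ht'T) x hx), hdis t' (hT ht'T) t (hT htT) htt'.symm x hx⟩
      rcases hcon.exit (B := (Bx n t)ᶜ) (hyout t htT hyt) with h | ⟨u, v, h1, h2, h3, h4, h5, h6⟩
      · exact absurd (h.right_mem ⟨hyN, hyout t htT hyt⟩).2 (fun h => h (mem_Bx_self hn t))
      · have h1' : Con τ (H N \ Bx n t) y u := h1.mono (fun z hz => hz)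
        have hv : v ∈ Bx n t := by
          by_contra hcon; exact h4 hcon
        have hvt : Con τ (H N \ Bx n t') v t := (inside t htT v hv).mono tN
        rcases h1'.exit (B := (Bx n t')ᶜ) (hyout t' ht'T hyt') with h | ⟨u', v', g1, g2, g3, g4, g5, g6⟩
        · have hu : u ∈ H N \ Bx n t' := by
            have := h.right_mem ⟨⟨hyN, hyout t htT hyt⟩, hyout t' ht'T hyt'⟩
            exact ⟨this.1.1, this.2⟩
          have e1 : Con τ (H N \ Bx n t') y u := h.mono (fun z hz => ⟨hz.1.1, hz.2⟩)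
          exact e1.trans ((Con.single h3 hu (tN v hv)).trans hvt)
        · exfalso
          apply hnot
          have hv' : v' ∈ Bx n t' := by
            by_contra hcon; exact g4 hcon
          have e1 : Con τ (H N \ Bx n t) y u' := g1.mono (fun z hz => hz.1)
          exact e1.trans ((Con.single g3 g5 g6).trans ((inside t' ht'T v' hv').mono t'N))
    · intro t ht
      obtain ⟨htT, htq⟩ := Finset.mem_filter.1 ht
      obtain ⟨-, a, ha, hab, has, hsep⟩ := hTri t htT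
      -- exit vertices
      have hex : ∀ i, ∃ s ∈ S, cl s = q ∧ Con τ (H N \ Bx n t) (a i + t) s := by
        intro i
        obtain ⟨b, hb, hbi⟩ := hab i
        obtain ⟨s, hs, hcon⟩ := has i
        have hb' : b + t ∈ Bx n t := by simpa [Bx] using hb
        have hbi' : Bi τ (a i + t) (b + t) := bi_sh.1 hbi
        have haN : a i + t ∈ H N := by
          have := step_H (hC t (hT htT) _ hb') hbi'.symm.1
          rwa [sub_add_cancel] at this
        have haB : a i + t ∉ Bx n t := by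
          intro h; exact (ha i).2 (by simpa [Bx] using h)
        have hcon' := con_sh_mp hcon
        have key : ∃ s ∈ S, Con τ (H N \ Bx n t) (a i + t) s := by
          rcases hcon'.exit (B := H N) haN with h | ⟨u, v, h1, h2, h3, h4, h5, h6⟩
          · exfalso
            have hmem := h.right_mem ⟨by simpa using ha i, haN⟩
            have := hR t (hT htT) _ hmem.2
            rw [add_sub_cancel_right] at this
            exact hs.2 this
          · refine ⟨u, (hS u).2 ⟨h2, fun hu => h4 ?_⟩, h1.mono ?_⟩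
            · have := step_H hu h3.1
              rwa [sub_add_cancel] at this
            · rintro z ⟨⟨hz1, hz2⟩, hz3⟩
              exact ⟨hz3, hz2⟩
        obtain ⟨s', hs', hc'⟩ := key
        refine ⟨s', hs', ?_, hc'⟩
        rw [← htq, hcl]
        have e1 : Con τ (H N) s' (a i + t) := (hc'.mono (fun z hz => hz.1)).symm
        have e2 : Con τ (H N) (a i + t) (b + t) :=
          Con.single hbi' haN (HN (hC t (hT htT) _ hb'))
        have e3 : Con τ (H N) (b + t) t :=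
          (inside t htT _ hb').mono (fun z hz => HN (hC t (hT htT) z hz))
        exact e1.trans (e2.trans e3)
      choose s hsS hsq hsc using hex
      have hne : ∀ i j, i ≠ j → ¬ r t (s i) (s j) := by
        intro i j hij hcon
        refine hsep i j hij (con_sh_mpr ?_)
        have : Con τ (H N \ Bx n t) (a i + t) (a j + t) :=
          (hsc i).trans (Con.trans hcon (hsc j).symm)
        exact this.mono (fun z hz => ⟨HR (hR t (hT htT) z hz.1), hz.2⟩)
      exact ⟨s 0, Finset.mem_filter.2 ⟨hsS 0, hsq 0⟩, s 1, Finset.mem_filter.2 ⟨hsS 1, hsq 1⟩,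
        s 2, Finset.mem_filter.2 ⟨hsS 2, hsq 2⟩, hne 0 1 (by decide), hne 1 2 (by decide),
        hne 0 2 (by decide)⟩
  have hTsum : T.card = ∑ q ∈ (T ∪ S).image cl, (T.filter (fun x => cl x = q)).card :=
    Finset.card_eq_sum_card_fiberwise (fun x hx => by
      simp only [Finset.coe_image, Set.mem_image]
      exact ⟨x, Finset.mem_coe.2 (Finset.mem_union_left _ hx), rfl⟩)
  have hSsum : S.card = ∑ q ∈ (T ∪ S).image cl, (S.filter (fun x => cl x = q)).card :=
    Finset.card_eq_sum_card_fiberwise (fun x hx => by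
      simp only [Finset.coe_image, Set.mem_image]
      exact ⟨x, Finset.mem_coe.2 (Finset.mem_union_right _ hx), rfl⟩)
  rw [hTsum, hSsum]
  exact Finset.sum_le_sum (fun q _ => main q)

end Vale.Agent.P145W85.P153.BK
end

section

/-!
Three outer vertices in different outer components can be attached to a connected colouring of the
hexagon.
-/

namespace Vale.Agent.P145W85.P153.BK

open Relation

theorem out_cases {n b1 b2 : ℤ} {x : ℤ × ℤ} (hb : ((b1, b2) : ℤ × ℤ) ∈ H n)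
    (hx : x ∉ H n) (h : Step x (b1, b2)) :
    (x = (b1 + 1, b2) ∧ (b1 = n ∨ b1 + b2 = n)) ∨
    (x = (b1, b2 + 1) ∧ (b2 = n ∨ b1 + b2 = n)) ∨
    (x = (b1 - 1, b2 + 1) ∧ (b1 = -n ∨ b2 = n)) ∨
    (x = (b1 - 1, b2) ∧ (b1 = -n ∨ b1 + b2 = -n)) ∨
    (x = (b1, b2 - 1) ∧ (b2 = -n ∨ b1 + b2 = -n)) ∨
    (x = (b1 + 1, b2 - 1) ∧ (b1 = n ∨ b2 = -n)) := by
  obtain ⟨x1, x2⟩ := x
  simp only [mem_H] at hb hx
  simp only [Step] at h
  rcases h with ⟨h1, h2⟩ | ⟨h1, h2⟩ | ⟨h1, h2⟩ | ⟨h1, h2⟩ | ⟨h1, h2⟩ | ⟨h1, h2⟩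
  · right; right; right; left
    exact ⟨Prod.ext (by simp only; omega) (by simp only; omega), by omega⟩
  · left
    exact ⟨Prod.ext (by simp only; omega) (by simp only; omega), by omega⟩
  · right; right; right; right; left
    exact ⟨Prod.ext (by simp only; omega) (by simp only; omega), by omega⟩
  · right; left
    exact ⟨Prod.ext (by simp only; omega) (by simp only; omega), by omega⟩
  · right; right; left
    exact ⟨Prod.ext (by simp only; omega) (by simp only; omega), by omega⟩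
  · right; right; right; right; right
    exact ⟨Prod.ext (by simp only; omega) (by simp only; omega), by omega⟩

/-- Two outer neighbours of a vertex of the hexagon are adjacent or have a common outer neighbour
next to the vertex. -/
theorem outer_pair {n : ℤ} (hn : 1 ≤ n) {b x y : ℤ × ℤ} (hb : b ∈ H n) (hx : x ∉ H n)
    (hy : y ∉ H n) (hxb : Step x b) (hyb : Step y b) (hxy : x ≠ y) :
    Step x y ∨ ∃ w, w ∉ H n ∧ Step w b ∧ Step w x ∧ Step w y := by
  obtain ⟨b1, b2⟩ := b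
  have hb' := hb
  rw [mem_H] at hb'
  simp only at hb'
  have e1 : b1 = n ∨ b1 + b2 = n → ((b1 + 1, b2) : ℤ × ℤ) ∉ H n := by
    rw [mem_H]; simp only; omega
  have e2 : b2 = n ∨ b1 + b2 = n → ((b1, b2 + 1) : ℤ × ℤ) ∉ H n := by
    rw [mem_H]; simp only; omega
  have e3 : b1 = -n ∨ b2 = n → ((b1 - 1, b2 + 1) : ℤ × ℤ) ∉ H n := by
    rw [mem_H]; simp only; omega
  have e4 : b1 = -n ∨ b1 + b2 = -n → ((b1 - 1, b2) : ℤ × ℤ) ∉ H n := by
    rw [mem_H]; simp only; omega
  have e5 : b2 = -n ∨ b1 + b2 = -n → ((b1, b2 - 1) : ℤ × ℤ) ∉ H n := by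
    rw [mem_H]; simp only; omega
  have e6 : b1 = n ∨ b2 = -n → ((b1 + 1, b2 - 1) : ℤ × ℤ) ∉ H n := by
    rw [mem_H]; simp only; omega
  rcases out_cases hb hx hxb with ⟨rfl, h1⟩ | ⟨rfl, h1⟩ | ⟨rfl, h1⟩ | ⟨rfl, h1⟩ | ⟨rfl, h1⟩ |
    ⟨rfl, h1⟩ <;>
  rcases out_cases hb hy hyb with ⟨rfl, h2⟩ | ⟨rfl, h2⟩ | ⟨rfl, h2⟩ | ⟨rfl, h2⟩ | ⟨rfl, h2⟩ |
    ⟨rfl, h2⟩ <;>
  first
  | exact absurd rfl hxy
  | (left; simp [Step]; done)
  | (exfalso; clear e1 e2 e3 e4 e5 e6 hx hy hxb hyb hxy hb; omega)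
  | (right; refine ⟨(b1 + 1, b2), e1 ?_, ?_, ?_, ?_⟩
     · omega
     · simp [Step]
     · simp [Step]
     · simp [Step])
  | (right; refine ⟨(b1, b2 + 1), e2 ?_, ?_, ?_, ?_⟩
     · omega
     · simp [Step]
     · simp [Step]
     · simp [Step])
  | (right; refine ⟨(b1 - 1, b2 + 1), e3 ?_, ?_, ?_, ?_⟩
     · omega
     · simp [Step]
     · simp [Step]
     · simp [Step])
  | (right; refine ⟨(b1 - 1, b2), e4 ?_, ?_, ?_, ?_⟩
     · omega
     · simp [Step]
     · simp [Step]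
     · simp [Step])
  | (right; refine ⟨(b1, b2 - 1), e5 ?_, ?_, ?_, ?_⟩
     · omega
     · simp [Step]
     · simp [Step]
     · simp [Step])
  | (right; refine ⟨(b1 + 1, b2 - 1), e6 ?_, ?_, ?_, ?_⟩
     · omega
     · simp [Step]
     · simp [Step]
     · simp [Step])

/-- At most two pairwise non-adjacent outer neighbours. -/
theorem outer_triple {n : ℤ} (hn : 1 ≤ n) {b x y z : ℤ × ℤ} (hb : b ∈ H n) (hx : x ∉ H n)
    (hy : y ∉ H n) (hz : z ∉ H n) (hxb : Step x b) (hyb : Step y b) (hzb : Step z b)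
    (hxy : ¬ Step x y) (hzy : ¬ Step z y) (nxy : x ≠ y) (nzy : z ≠ y) : x = z := by
  obtain ⟨b1, b2⟩ := b
  have hb' := hb
  rw [mem_H] at hb'
  simp only at hb'
  rcases out_cases hb hy hyb with ⟨rfl, h1⟩ | ⟨rfl, h1⟩ | ⟨rfl, h1⟩ | ⟨rfl, h1⟩ | ⟨rfl, h1⟩ |
    ⟨rfl, h1⟩ <;>
  rcases out_cases hb hx hxb with ⟨rfl, h2⟩ | ⟨rfl, h2⟩ | ⟨rfl, h2⟩ | ⟨rfl, h2⟩ | ⟨rfl, h2⟩ |
    ⟨rfl, h2⟩ <;>
  first
  | exact absurd rfl nxy
  | (exfalso; apply hxy; simp [Step]; done)
  | (exfalso; clear hxy hzy nxy nzy hx hy hz hxb hyb hzb hb; omega)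
  | (rcases out_cases hb hz hzb with ⟨rfl, h3⟩ | ⟨rfl, h3⟩ | ⟨rfl, h3⟩ | ⟨rfl, h3⟩ | ⟨rfl, h3⟩ |
      ⟨rfl, h3⟩ <;>
     first
     | rfl
     | exact absurd rfl nzy
     | (exfalso; apply hzy; simp [Step]; done)
     | (exfalso; clear hxy hzy nxy nzy hx hy hz hxb hyb hzb hb; omega))

section

variable {n : ℤ} {τ : ℤ × ℤ → Bool} {A : Set (ℤ × ℤ)}

theorem consistent_at (hn : 1 ≤ n)
    (hA : ∀ x, x ∉ H n → (∃ b ∈ H n, Step x b) → x ∈ A)
    (a b : Fin 3 → ℤ × ℤ) (ha : ∀ i, a i ∉ H n) (hbH : ∀ i, b i ∈ H n)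
    (hab : ∀ i, Step (a i) (b i)) (hsep : ∀ i j, a i = a j ∨ ¬ Con τ A (a i) (a j))
    (b0 : ℤ × ℤ) : ∃ σ : Bool, ∀ i, b i = b0 →
      ∃ w, w ∉ H n ∧ Con τ A (a i) w ∧ Step w b0 ∧ τ w = σ := by
  have haA : ∀ i, a i ∈ A := fun i => hA _ (ha i) ⟨b i, hbH i, hab i⟩
  have hns : ∀ i j, τ (a i) ≠ τ (a j) → a i ≠ a j ∧ ¬ Step (a i) (a j) := by
    intro i j h
    refine ⟨fun h' => h (by rw [h']), fun hst => ?_⟩
    rcases hsep i j with h' | h'
    · exact h (by rw [h'])
    · exact h' (Con.single ⟨hst, h⟩ (haA i) (haA j))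
  -- one conflict
  have main : ∀ i j w, b i = b0 → b j = b0 → τ (a i) ≠ τ (a j) → w ∉ H n → Step w b0 →
      Step w (a i) → τ w = τ (a j) → ∃ σ : Bool, ∀ k, b k = b0 →
      ∃ w, w ∉ H n ∧ Con τ A (a k) w ∧ Step w b0 ∧ τ w = σ := by
    intro i j w hi hj hij hw hwb hwi hτw
    have hwA : w ∈ A := hA _ hw ⟨b i, hbH i, hi ▸ hwb⟩
    have hiw : Con τ A (a i) w :=
      (Con.single (A := A) (show Bi τ w (a i) from ⟨hwi, by rw [hτw]; exact hij.symm⟩) hwA
        (haA i)).symm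
    refine ⟨τ (a j), fun k hk => ?_⟩
    by_cases hkj : τ (a k) = τ (a j)
    · exact ⟨a k, ha k, Con.refl _ _ _, hk ▸ hab k, hkj⟩
    · obtain ⟨n1, n2⟩ := hns i j hij
      obtain ⟨n3, n4⟩ := hns k j hkj
      have : a i = a k := outer_triple hn (hi ▸ hbH i) (ha i) (ha j) (ha k) (hi ▸ hab i)
        (hj ▸ hab j) (hk ▸ hab k) n2 n4 n1 n3
      exact ⟨w, hw, this ▸ hiw, hwb, hτw⟩
  by_cases h : ∃ i j, b i = b0 ∧ b j = b0 ∧ τ (a i) ≠ τ (a j)
  · obtain ⟨i, j, hi, hj, hij⟩ := h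
    obtain ⟨n1, n2⟩ := hns i j hij
    rcases outer_pair hn (hi ▸ hbH i) (ha i) (ha j) (hi ▸ hab i) (hj ▸ hab j) n1 with h | h
    · exact absurd h n2
    · obtain ⟨w, hw, hwb, hwi, hwj⟩ := h
      by_cases hτ : τ w = τ (a j)
      · exact main i j w hi hj hij hw hwb hwi hτ
      · refine main j i w hj hi hij.symm hw hwb hwj ?_
        revert hτ hij
        cases τ w <;> cases τ (a j) <;> cases τ (a i) <;> simp
  · by_cases h' : ∃ i, b i = b0
    · obtain ⟨i, hi⟩ := h'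
      refine ⟨τ (a i), fun k hk => ⟨a k, ha k, Con.refl _ _ _, hk ▸ hab k, ?_⟩⟩
      by_contra hcon
      exact h ⟨k, i, hk, hi, hcon⟩
    · exact ⟨true, fun k hk => absurd ⟨k, hk⟩ h'⟩

theorem exists_consistent (hn : 1 ≤ n)
    (hA : ∀ x, x ∉ H n → (∃ b ∈ H n, Step x b) → x ∈ A)
    (a b : Fin 3 → ℤ × ℤ) (ha : ∀ i, a i ∉ H n) (hbH : ∀ i, b i ∈ H n)
    (hab : ∀ i, Step (a i) (b i)) (hsep : ∀ i j, a i = a j ∨ ¬ Con τ A (a i) (a j)) :
    ∃ a' : Fin 3 → ℤ × ℤ, (∀ i, a' i ∉ H n) ∧ (∀ i, Con τ A (a i) (a' i)) ∧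
      (∀ i, Step (a' i) (b i)) ∧ ∀ i j, b i = b j → τ (a' i) = τ (a' j) := by
  choose σ hσ using consistent_at hn hA a b ha hbH hab hsep
  choose a' h1 h2 h3 h4 using fun i => hσ (b i) i rfl
  exact ⟨a', h1, h2, h3, fun i j hij => by rw [h4 i, h4 j, hij]⟩

theorem exists_pat (b : Fin 3 → ℤ × ℤ) (hb : ∀ i, b i ∈ H n) (s : Fin 3 → Bool)
    (hs : ∀ i j, b i = b j → s i = s j) : ∃ ε v, ∀ i, pat ε v (b i) = !(s i) := by
  set m : Fin 3 → Bool := fun i => xor (!(s i)) (decide ((b i).2 % 2 = 1)) with hm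
  have hmeq : ∀ i j, b i = b j → m i = m j := by
    intro i j h; simp only [hm, h, hs i j h]
  have hmaj : ∀ m : Fin 3 → Bool, ∃ k ε, ∀ i, i ≠ k → m i = ε := by decide
  obtain ⟨k, ε, hk⟩ := hmaj m
  have key : ∀ i v, pat ε v (b i) = !(s i) ↔ xor ε (decide (b i = v)) = m i := by
    intro i v
    simp only [pat, hm]
    cases ε <;> cases decide (b i = v) <;> cases s i <;> cases decide ((b i).2 % 2 = 1) <;> simp
  by_cases hke : m k = ε
  · refine ⟨ε, (n + 1, 0), fun i => ?_⟩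
    rw [key]
    have : b i ≠ (n + 1, 0) := by
      intro h
      have := hb i
      rw [h, mem_H] at this
      simp only at this
      omega
    simp only [this, decide_false, Bool.xor_false]
    by_cases hik : i = k
    · rw [hik, hke]
    · exact (hk i hik).symm
  · refine ⟨ε, b k, fun i => ?_⟩
    rw [key]
    by_cases hik : b i = b k
    · rw [hmeq i k hik]
      simp only [hik, decide_true]
      revert hke
      cases m k <;> cases ε <;> simp
    · simp only [hik, decide_false, Bool.xor_false]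
      exact (hk i (fun h => hik (by rw [h]))).symm

end

/-- Replace the colours of `τ` in the hexagon by a pattern. -/
def recol (n : ℤ) (η τ : ℤ × ℤ → Bool) (x : ℤ × ℤ) : Bool :=
  if -n ≤ x.1 ∧ x.1 ≤ n ∧ -n ≤ x.2 ∧ x.2 ≤ n ∧ -n ≤ x.1 + x.2 ∧ x.1 + x.2 ≤ n then η x else τ x

theorem recol_in {n : ℤ} {η τ : ℤ × ℤ → Bool} {x : ℤ × ℤ} (h : x ∈ H n) :
    recol n η τ x = η x := if_pos h

theorem recol_out {n : ℤ} {η τ : ℤ × ℤ → Bool} {x : ℤ × ℤ} (h : x ∉ H n) :
    recol n η τ x = τ x := if_neg h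

/-- **Attachment.** Three outer vertices in different outer components (or equal) can be attached
to a connected recolouring of the hexagon. -/
theorem exists_attach {n : ℤ} {τ : ℤ × ℤ → Bool} {A : Set (ℤ × ℤ)} (hn : 2 ≤ n)
    (hA : ∀ x, x ∉ H n → (∃ b ∈ H n, Step x b) → x ∈ A) (hAH : ∀ x ∈ A, x ∉ H n)
    (a : Fin 3 → ℤ × ℤ) (ha : ∀ i, a i ∉ H n) (hb : ∀ i, ∃ b ∈ H n, Step (a i) b)
    (hsep : ∀ i j, a i = a j ∨ ¬ Con τ A (a i) (a j)) :
    ∃ ε v, (∀ x ∈ H n, Con (recol n (pat ε v) τ) (H n) x (0, 0)) ∧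
      ∃ a' : Fin 3 → ℤ × ℤ, (∀ i, a' i ∉ H n) ∧
        (∀ i, Con (recol n (pat ε v) τ) A (a i) (a' i)) ∧
        ∀ i, ∃ b ∈ H n, Bi (recol n (pat ε v) τ) (a' i) b := by
  choose b hbH hab using hb
  obtain ⟨a', h1, h2, h3, h4⟩ := exists_consistent (by omega) hA a b ha hbH hab hsep
  obtain ⟨ε, v, hpat⟩ := exists_pat b hbH (fun i => τ (a' i)) h4
  refine ⟨ε, v, fun x hx => pat_con hn (fun y hy => recol_in hy) hx, a', h1, fun i => ?_,
    fun i => ⟨b i, hbH i, h3 i, ?_⟩⟩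
  · exact (h2 i).congr (fun z hz => (recol_out (hAH z hz)).symm)
  · rw [recol_out (h1 i), recol_in (hbH i), hpat i]
    cases τ (a' i) <;> simp

end Vale.Agent.P145W85.P153.BK
end

section

/-!
Local events of `±` configurations and the hypotheses of the Burton–Keane theorem.
-/

namespace Vale.Agent.P145W85.P153.BK

open Relation MeasureTheory Filter Topology Set
open scoped ENNReal symmDiff

/-- Configurations. -/
abbrev Om : Type := ℤ × ℤ → Bool

/-- `A` depends only on the colours in `B`. -/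
def Loc (B : Finset (ℤ × ℤ)) (A : Set Om) : Prop :=
  ∀ τ τ' : Om, (∀ x ∈ B, τ x = τ' x) → (τ ∈ A ↔ τ' ∈ A)

theorem Loc.meas {B : Finset (ℤ × ℤ)} {A : Set Om} (h : Loc B A) : MeasurableSet A := by
  let f : Om → (B → Bool) := fun τ x => τ x
  have hf : Measurable f := measurable_pi_lambda _ (fun x => measurable_pi_apply _)
  have : A = f ⁻¹' (f '' A) := by
    apply Set.Subset.antisymm (Set.subset_preimage_image f A)
    rintro τ ⟨τ', hτ', he⟩
    refine (h τ' τ (fun x hx => ?_)).1 hτ'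
    exact congrFun he ⟨x, hx⟩
  rw [this]
  exact hf (Set.toFinite _).measurableSet

theorem loc_of_cylinder {t : Set Om} (ht : t ∈ measurableCylinders (fun _ : ℤ × ℤ => Bool)) :
    ∃ B, Loc B t := by
  obtain ⟨B, S, -, rfl⟩ := (mem_measurableCylinders t).1 ht
  refine ⟨B, fun τ τ' h => ?_⟩
  have : B.restrict τ = B.restrict τ' := by
    funext x; exact h x x.2
  simp only [mem_cylinder, this]

theorem exists_loc_approx (μ : Measure Om) [IsFiniteMeasure μ] {E : Set Om} (hE : MeasurableSet E)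
    {ε : ℝ≥0∞} (hε : 0 < ε) : ∃ B t, Loc B t ∧ μ (t ∆ E) < ε := by
  obtain ⟨t, ht, h⟩ := exists_measure_symmDiff_lt_of_generateFrom_isSetRing (μ := μ)
    (C := measurableCylinders (fun _ : ℤ × ℤ => Bool)) isSetRing_measurableCylinders
    ⟨{Set.univ}, Set.countable_singleton _, by
      simpa using univ_mem_measurableCylinders (fun _ : ℤ × ℤ => Bool), by simp⟩
    (generateFrom_measurableCylinders).symm hE hε
  obtain ⟨B, hB⟩ := loc_of_cylinder ht
  exact ⟨B, t, hB, h⟩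

/-- Hypotheses: translation invariance, finite energy and mixing for local events. -/
structure Hyp (P : Measure Om) : Prop where
  prob : IsProbabilityMeasure P
  inv : ∀ (c : ℤ × ℤ) (B : Finset (ℤ × ℤ)) (A : Set Om), Loc B A → P (sh c ⁻¹' A) = P A
  fe : ∀ n : ℤ, ∃ C : ℝ≥0∞, C ≠ ⊤ ∧ ∀ (η : Om) (B : Finset (ℤ × ℤ)) (A : Set Om), Loc B A →
    P (recol n η ⁻¹' A) ≤ C * P A
  mix : ∃ z : ℕ → ℤ × ℤ, ∀ (B : Finset (ℤ × ℤ)) (A A' : Set Om), Loc B A → Loc B A' →
    Tendsto (fun k => P (A ∩ sh (z k) ⁻¹' A')) atTop (𝓝 (P A * P A'))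

theorem measurable_sh (c : ℤ × ℤ) : Measurable (sh c) :=
  measurable_pi_lambda _ (fun x => measurable_pi_apply _)

theorem measurable_recol (n : ℤ) (η : Om) : Measurable (recol n η) := by
  refine measurable_pi_lambda _ (fun x => ?_)
  unfold recol
  by_cases h : -n ≤ x.1 ∧ x.1 ≤ n ∧ -n ≤ x.2 ∧ x.2 ≤ n ∧ -n ≤ x.1 + x.2 ∧ x.1 + x.2 ≤ n
  · simp only [h, and_self, if_true]; exact measurable_const
  · simp only [h, if_false]; exact measurable_pi_apply _

theorem Hyp.inv' {P : Measure Om} (h : Hyp P) (c : ℤ × ℤ) {E : Set Om} (hE : MeasurableSet E) :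
    P (sh c ⁻¹' E) = P E := by
  have := h.prob
  have e : P.map (sh c) = P := by
    have : IsProbabilityMeasure (P.map (sh c)) :=
      Measure.isProbabilityMeasure_map (measurable_sh c).aemeasurable
    refine ext_of_generate_finite (measurableCylinders (fun _ : ℤ × ℤ => Bool))
      (generateFrom_measurableCylinders).symm isPiSystem_measurableCylinders (fun t ht => ?_)
      (by simp)
    obtain ⟨B, hB⟩ := loc_of_cylinder ht
    rw [Measure.map_apply (measurable_sh c) hB.meas]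
    exact h.inv c B t hB
  conv_rhs => rw [← e]
  rw [Measure.map_apply (measurable_sh c) hE]

theorem Hyp.fe' {P : Measure Om} (h : Hyp P) (n : ℤ) : ∃ C : ℝ≥0∞, C ≠ ⊤ ∧
    ∀ (η : Om) (E : Set Om), MeasurableSet E → P (recol n η ⁻¹' E) ≤ C * P E := by
  have := h.prob
  obtain ⟨C, hC, hfe⟩ := h.fe n
  refine ⟨C, hC, fun η E hE => ?_⟩
  set ν := P.map (recol n η) with hν
  have : IsProbabilityMeasure ν := Measure.isProbabilityMeasure_map (measurable_recol n η).aemeasurable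
  have key : ∀ ε : ℝ≥0∞, 0 < ε → ν E ≤ C * (P E + ε) + ε := by
    intro ε hε
    obtain ⟨B, t, hB, ht⟩ := exists_loc_approx (P + ν) hE hε
    have h1 : P (t ∆ E) ≤ ε := le_trans (by simp) ht.le
    have h2 : ν (t ∆ E) ≤ ε := le_trans (by simp) ht.le
    have e1 : ν E ≤ ν t + ν (t ∆ E) := by
      refine (measure_mono ?_).trans (measure_union_le t (t ∆ E))
      intro x hx
      by_cases hxt : x ∈ t
      · exact Or.inl hxt
      · exact Or.inr (Or.inr ⟨hx, hxt⟩)
    have e2 : P t ≤ P E + P (t ∆ E) := by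
      refine (measure_mono ?_).trans (measure_union_le E (t ∆ E))
      intro x hx
      by_cases hxE : x ∈ E
      · exact Or.inl hxE
      · exact Or.inr (Or.inl ⟨hx, hxE⟩)
    have e3 : ν t ≤ C * P t := by
      rw [hν, Measure.map_apply (measurable_recol n η) hB.meas]
      exact hfe η B t hB
    calc ν E ≤ ν t + ν (t ∆ E) := e1
      _ ≤ C * P t + ε := add_le_add e3 h2
      _ ≤ C * (P E + ε) + ε := by
        gcongr
        exact e2.trans (add_le_add le_rfl h1)
  have hlim : Tendsto (fun ε : ℝ≥0∞ => C * (P E + ε) + ε) (𝓝[>] 0) (𝓝 (C * (P E + 0) + 0)) := by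
    refine tendsto_nhdsWithin_of_tendsto_nhds ?_
    refine Tendsto.add ?_ tendsto_id
    refine ENNReal.Tendsto.const_mul (Tendsto.add tendsto_const_nhds tendsto_id) (Or.inr hC)
  have := ge_of_tendsto hlim (eventually_nhdsWithin_of_forall (fun ε hε => key ε hε))
  rw [add_zero, add_zero] at this
  rwa [hν, Measure.map_apply (measurable_recol n η) hE] at this

end Vale.Agent.P145W85.P153.BK
end

section

/-!
P153, G1, one-variable integrals: subordination of `1/a`, Frullani's integral, Gaussian transform.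
-/

namespace Vale.Agent.P145W85.P153.GFF.G1pf

open MeasureTheory Filter Topology Set

/-! ### `1/a` as an integral -/

/-- Antiderivative. -/
noncomputable def ant (a s : ℝ) : ℝ := if s ≤ 0 then 0 else Real.exp (-(a / (4 * s))) / a

lemma ant_cont {a : ℝ} (ha : 0 < a) : ContinuousWithinAt (ant a) (Ici 0) 0 := by
  have h1 : Tendsto (fun s : ℝ => Real.exp (-(a / (4 * s))) / a) (𝓝[>] 0) (𝓝 0) := by
    have h2 : Tendsto (fun s : ℝ => a / (4 * s)) (𝓝[>] 0) atTop := by
      have h3 : Tendsto (fun s : ℝ => a / 4 * s⁻¹) (𝓝[>] 0) atTop :=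
        Tendsto.const_mul_atTop (by positivity) tendsto_inv_nhdsGT_zero
      refine h3.congr' ?_
      filter_upwards [self_mem_nhdsWithin] with s hs
      have : s ≠ 0 := ne_of_gt hs
      field_simp
    have h4 := (Real.tendsto_exp_neg_atTop_nhds_zero.comp h2).div_const a
    simpa only [Function.comp_apply, zero_div] using h4
  have h5 : Tendsto (ant a) (𝓝[>] 0) (𝓝 0) := by
    refine h1.congr' ?_
    filter_upwards [self_mem_nhdsWithin] with s hs
    rw [ant, if_neg (not_le.2 hs)]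
  have h6 : ant a 0 = 0 := by rw [ant, if_pos le_rfl]
  have h7 : ContinuousWithinAt (ant a) (Ioi 0) 0 := by
    rw [ContinuousWithinAt, h6]
    exact h5
  exact continuousWithinAt_Ioi_iff_Ici.1 h7

lemma ant_deriv {a s : ℝ} (ha : 0 < a) (hs : s ∈ Ioi (0 : ℝ)) :
    HasDerivAt (ant a) (Real.exp (-(a / (4 * s))) / (4 * s ^ 2)) s := by
  have hs0 : (0 : ℝ) < s := hs
  have h1 : HasDerivAt (fun s : ℝ => Real.exp (-(a / (4 * s))) / a)
      (Real.exp (-(a / (4 * s))) / (4 * s ^ 2)) s := by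
    have h2 : HasDerivAt (fun s : ℝ => a / (4 * s)) ((0 * (4 * s) - a * (4 * 1)) / (4 * s) ^ 2) s :=
      (hasDerivAt_const s a).div ((hasDerivAt_id s).const_mul 4) (by positivity)
    refine (h2.fun_neg.exp.div_const a).congr_deriv ?_
    field_simp
    ring
  refine h1.congr_of_eventuallyEq ?_
  filter_upwards [lt_mem_nhds hs0] with t ht
  rw [ant, if_neg (not_le.2 ht)]

lemma ant_lim {a : ℝ} : Tendsto (ant a) atTop (𝓝 (1 / a)) := by
  have h2 : Tendsto (fun s : ℝ => -(a / (4 * s))) atTop (𝓝 0) := by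
    have h3 : Tendsto (fun s : ℝ => -(a / 4 * s⁻¹)) atTop (𝓝 (-(a / 4 * 0))) :=
      (tendsto_inv_atTop_zero.const_mul _).neg
    rw [mul_zero, neg_zero] at h3
    refine h3.congr' ?_
    filter_upwards [eventually_gt_atTop 0] with s hs
    field_simp
  have h4 : Tendsto (fun s : ℝ => Real.exp (-(a / (4 * s))) / a) atTop (𝓝 (1 / a)) := by
    have := ((Real.continuous_exp.tendsto 0).comp h2).div_const a
    simpa only [one_div, Function.comp_apply, Real.exp_zero] using this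
  refine h4.congr' ?_
  filter_upwards [eventually_gt_atTop 0] with s hs
  rw [ant, if_neg (not_le.2 hs)]

lemma sub_int {a : ℝ} (ha : 0 < a) :
    IntegrableOn (fun s : ℝ => Real.exp (-(a / (4 * s))) / (4 * s ^ 2)) (Ioi 0) :=
  integrableOn_Ioi_deriv_of_nonneg (ant_cont ha) (fun _ hs => ant_deriv ha hs)
    (fun s _ => by (clear * -; positivity)) ant_lim

lemma sub_eq {a : ℝ} (ha : 0 < a) :
    ∫ s in Ioi (0 : ℝ), Real.exp (-(a / (4 * s))) / (4 * s ^ 2) = 1 / a := by
  rw [integral_Ioi_of_hasDerivAt_of_nonneg (ant_cont ha) (fun _ hs => ant_deriv ha hs)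
    (fun s _ => by (clear * -; positivity)) ant_lim, ant, if_pos le_rfl, sub_zero]

lemma sub_lint {a : ℝ} (ha : 0 < a) :
    ∫⁻ s in Ioi (0 : ℝ), ENNReal.ofReal (Real.exp (-(a / (4 * s))) / (4 * s ^ 2)) =
      ENNReal.ofReal (1 / a) := by
  rw [← sub_eq ha, ofReal_integral_eq_lintegral_ofReal (sub_int ha)]
  exact Eventually.of_forall fun s => by (clear * -; positivity)

/-! ### Frullani -/

/-- The kernel `(4 π s)⁻¹ (e^{-rs} - e^{-s})`. -/
noncomputable def ker (r s : ℝ) : ℝ :=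
  (4 * Real.pi)⁻¹ * (s⁻¹ * (Real.exp (-(r * s)) - Real.exp (-s)))

lemma exp_diff {a b s : ℝ} :
    Real.exp (-(a * s)) - Real.exp (-(b * s)) ≤ (b - a) * s * Real.exp (-(a * s)) := by
  have h1 : 1 - (b - a) * s ≤ Real.exp (-((b - a) * s)) := by
    have := Real.add_one_le_exp (-((b - a) * s))
    linarith only [this]
  have h2 : Real.exp (-(b * s)) = Real.exp (-(a * s)) * Real.exp (-((b - a) * s)) := by
    rw [← Real.exp_add]
    ring_nf
  rw [h2]
  nlinarith only [h1, Real.exp_pos (-(a * s))]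

lemma ker_abs {r s : ℝ} (hs : 0 < s) :
    |s⁻¹ * (Real.exp (-(r * s)) - Real.exp (-s))| ≤ |r - 1| * Real.exp (-(min r 1 * s)) := by
  rw [abs_mul, abs_of_pos (inv_pos.2 hs)]
  rcases le_total r 1 with h | h
  · rw [min_eq_left h, abs_of_nonpos (by linarith : r - 1 ≤ 0)]
    have h1 := exp_diff (a := r) (b := 1) (s := s)
    rw [one_mul] at h1
    have h2 : 0 ≤ Real.exp (-(r * s)) - Real.exp (-s) := by
      have : Real.exp (-s) ≤ Real.exp (-(r * s)) := Real.exp_le_exp.2 (by nlinarith only [hs, h])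
      linarith
    rw [abs_of_nonneg h2, inv_mul_le_iff₀ hs]
    linarith
  · rw [min_eq_right h, abs_of_nonneg (by linarith : 0 ≤ r - 1)]
    have h1 := exp_diff (a := 1) (b := r) (s := s)
    rw [one_mul] at h1
    have h2 : Real.exp (-(r * s)) - Real.exp (-s) ≤ 0 := by
      have : Real.exp (-(r * s)) ≤ Real.exp (-s) := Real.exp_le_exp.2 (by nlinarith only [hs, h])
      linarith
    rw [abs_of_nonpos h2, inv_mul_le_iff₀ hs, one_mul]
    linarith

lemma fr_int {r : ℝ} (hr : 0 < r) :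
    IntegrableOn (fun s : ℝ => s⁻¹ * (Real.exp (-(r * s)) - Real.exp (-s))) (Ioi 0) := by
  have hm : 0 < min r 1 := lt_min hr one_pos
  have h1 : IntegrableOn (fun s : ℝ => |r - 1| * Real.exp (-(min r 1 * s))) (Ioi 0) := by
    have := (exp_neg_integrableOn_Ioi 0 hm).const_mul |r - 1|
    simp only [neg_mul] at this
    exact this
  refine Integrable.mono' h1 ?_ ?_
  · exact (by fun_prop : Measurable fun s : ℝ =>
      s⁻¹ * (Real.exp (-(r * s)) - Real.exp (-s))).aestronglyMeasurable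
  · filter_upwards [ae_restrict_mem measurableSet_Ioi] with s hs
    exact ker_abs hs

lemma ker_int {r : ℝ} (hr : 0 < r) : IntegrableOn (ker r) (Ioi 0) := (fr_int hr).const_mul _

lemma ker_eq {r : ℝ} (hr : 0 < r) : ∫ s in Ioi (0 : ℝ), ker r s = -((4 * Real.pi)⁻¹ * Real.log r) := by
  have h := Frullani.integral_Ioi_eq (f := fun x : ℝ => Real.exp (-x)) (a := r) (b := 1) (L := 1)
    (R := 0) ?_ hr one_pos ?_ ?_ ?_
  · unfold ker
    rw [integral_const_mul]
    simp only [smul_eq_mul, one_mul, sub_zero, mul_one] at h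
    rw [h, one_div, Real.log_inv]
    ring
  · exact (by fun_prop : Continuous fun x : ℝ => Real.exp (-x)).locallyIntegrable.locallyIntegrableOn _
  · have : Tendsto (fun x : ℝ => Real.exp (-x)) (𝓝 0) (𝓝 1) := by
      have h := (by fun_prop : Continuous fun x : ℝ => Real.exp (-x)).tendsto 0
      simpa only [neg_zero, Real.exp_zero] using h
    exact this.mono_left nhdsWithin_le_nhds
  · exact Real.tendsto_exp_neg_atTop_nhds_zero
  · simpa only [one_mul, smul_eq_mul] using fr_int hr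

lemma ker_norm {r : ℝ} (hr : 0 < r) :
    ∫ s in Ioi (0 : ℝ), ‖ker r s‖ = |(4 * Real.pi)⁻¹ * Real.log r| := by
  have hpi : 0 < (4 * Real.pi)⁻¹ := by positivity
  rcases le_total r 1 with h | h
  · have h1 : ∫ s in Ioi (0 : ℝ), ‖ker r s‖ = ∫ s in Ioi (0 : ℝ), ker r s := by
      refine setIntegral_congr_fun measurableSet_Ioi fun s hs => ?_
      have hs0 : (0 : ℝ) < s := hs
      have : Real.exp (-s) ≤ Real.exp (-(r * s)) := Real.exp_le_exp.2 (by nlinarith only [h, hs0])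
      have h2 : 0 ≤ ker r s :=
        mul_nonneg hpi.le (mul_nonneg (inv_pos.2 hs0).le (by linarith only [this]))
      exact Real.norm_of_nonneg h2
    rw [h1, ker_eq hr, abs_of_nonpos]
    exact mul_nonpos_of_nonneg_of_nonpos hpi.le (Real.log_nonpos hr.le h)
  · have h1 : ∫ s in Ioi (0 : ℝ), ‖ker r s‖ = ∫ s in Ioi (0 : ℝ), -ker r s := by
      refine setIntegral_congr_fun measurableSet_Ioi fun s hs => ?_
      have hs0 : (0 : ℝ) < s := hs
      have : Real.exp (-(r * s)) ≤ Real.exp (-s) := Real.exp_le_exp.2 (by nlinarith only [h, hs0])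
      have h2 : ker r s ≤ 0 :=
        mul_nonpos_of_nonneg_of_nonpos hpi.le
          (mul_nonpos_of_nonneg_of_nonpos (inv_pos.2 hs0).le (by linarith only [this]))
      exact Real.norm_of_nonpos h2
    rw [h1, integral_neg, ker_eq hr, neg_neg, abs_of_nonneg]
    exact mul_nonneg hpi.le (Real.log_nonneg h)

/-! ### The Gaussian transform in the plane -/

lemma g1_int {s : ℝ} (hs : 0 < s) (c : ℝ) : Integrable (fun x : ℝ =>
    Complex.exp (Complex.I * c * x) * Complex.exp (-((1 / (4 * s) : ℝ) : ℂ) * x ^ 2)) := by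
  have hb : 0 < (((1 / (4 * s) : ℝ) : ℂ)).re := by
    rw [Complex.ofReal_re]
    positivity
  have h := integrable_cexp_quadratic hb (Complex.I * c) 0
  refine h.congr (Eventually.of_forall fun x => ?_)
  simp only
  rw [← Complex.exp_add]
  ring_nf

lemma gauss2 {s : ℝ} (hs : 0 < s) (z : ℝ × ℝ) :
    Integrable (fun p : ℝ × ℝ => Real.cos (p.1 * z.1 + p.2 * z.2) *
      Real.exp (-((p.1 ^ 2 + p.2 ^ 2) / (4 * s)))) ∧
    ∫ p : ℝ × ℝ, Real.cos (p.1 * z.1 + p.2 * z.2) *
      Real.exp (-((p.1 ^ 2 + p.2 ^ 2) / (4 * s))) =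
      4 * Real.pi * s * Real.exp (-(s * (z.1 ^ 2 + z.2 ^ 2))) := by
  have hb : 0 < (((1 / (4 * s) : ℝ) : ℂ)).re := by
    rw [Complex.ofReal_re]
    positivity
  have h1 := Integrable.mul_prod (g1_int hs z.1) (g1_int hs z.2)
  have h2 : (fun p : ℝ × ℝ => Real.cos (p.1 * z.1 + p.2 * z.2) *
      Real.exp (-((p.1 ^ 2 + p.2 ^ 2) / (4 * s)))) = fun p : ℝ × ℝ => RCLike.re
      ((Complex.exp (Complex.I * z.1 * p.1) * Complex.exp (-((1 / (4 * s) : ℝ) : ℂ) * p.1 ^ 2)) *
       (Complex.exp (Complex.I * z.2 * p.2) *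
        Complex.exp (-((1 / (4 * s) : ℝ) : ℂ) * p.2 ^ 2))) := by
    funext p
    rw [← Complex.exp_add, ← Complex.exp_add, ← Complex.exp_add]
    have e1 : Complex.I * z.1 * p.1 + -((1 / (4 * s) : ℝ) : ℂ) * p.1 ^ 2 +
        (Complex.I * z.2 * p.2 + -((1 / (4 * s) : ℝ) : ℂ) * p.2 ^ 2) =
        ((-((p.1 ^ 2 + p.2 ^ 2) / (4 * s)) : ℝ) : ℂ) +
          ((p.1 * z.1 + p.2 * z.2 : ℝ) : ℂ) * Complex.I := by
      push_cast
      ring
    rw [e1]
    have e2 := Complex.exp_re (((-((p.1 ^ 2 + p.2 ^ 2) / (4 * s)) : ℝ) : ℂ) +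
          ((p.1 * z.1 + p.2 * z.2 : ℝ) : ℂ) * Complex.I)
    rw [show RCLike.re (Complex.exp (((-((p.1 ^ 2 + p.2 ^ 2) / (4 * s)) : ℝ) : ℂ) +
          ((p.1 * z.1 + p.2 * z.2 : ℝ) : ℂ) * Complex.I)) =
          (Complex.exp (((-((p.1 ^ 2 + p.2 ^ 2) / (4 * s)) : ℝ) : ℂ) +
          ((p.1 * z.1 + p.2 * z.2 : ℝ) : ℂ) * Complex.I)).re from rfl, e2]
    simp only [Complex.add_re, Complex.ofReal_re, Complex.mul_re, Complex.I_re, mul_zero,
      Complex.ofReal_im, Complex.I_im, sub_zero, add_zero, Complex.add_im,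
      Complex.mul_im, mul_one, zero_add]
    ring
  have h3 : Integrable (fun p : ℝ × ℝ =>
      ((Complex.exp (Complex.I * z.1 * p.1) * Complex.exp (-((1 / (4 * s) : ℝ) : ℂ) * p.1 ^ 2)) *
       (Complex.exp (Complex.I * z.2 * p.2) *
        Complex.exp (-((1 / (4 * s) : ℝ) : ℂ) * p.2 ^ 2)))) := h1
  refine ⟨by rw [h2]; exact h3.re, ?_⟩
  rw [h2, integral_re h3, Measure.volume_eq_prod,
    integral_prod_mul (μ := (volume : Measure ℝ)) (ν := (volume : Measure ℝ))
    (fun x : ℝ => Complex.exp (Complex.I * z.1 * x) *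
      Complex.exp (-((1 / (4 * s) : ℝ) : ℂ) * x ^ 2))
    (fun x : ℝ => Complex.exp (Complex.I * z.2 * x) *
      Complex.exp (-((1 / (4 * s) : ℝ) : ℂ) * x ^ 2)),
    fourierIntegral_gaussian hb, fourierIntegral_gaussian hb]
  have e3 : ((Real.pi : ℂ) / ((1 / (4 * s) : ℝ) : ℂ)) = ((4 * Real.pi * s : ℝ) : ℂ) := by
    push_cast
    have : (s : ℂ) ≠ 0 := by exact_mod_cast hs.ne'
    field_simp
  have e4 : ((Real.pi : ℂ) / ((1 / (4 * s) : ℝ) : ℂ)) ^ (1 / 2 : ℂ) *
      ((Real.pi : ℂ) / ((1 / (4 * s) : ℝ) : ℂ)) ^ (1 / 2 : ℂ) = ((4 * Real.pi * s : ℝ) : ℂ) := by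
    rw [e3, ← Complex.cpow_add _ _ (by
      have : (4 * Real.pi * s : ℝ) ≠ 0 := by positivity
      exact_mod_cast this)]
    norm_num
  have e5 : ∀ c : ℝ, Complex.exp (-(c : ℂ) ^ 2 / (4 * ((1 / (4 * s) : ℝ) : ℂ))) =
      ((Real.exp (-(s * c ^ 2)) : ℝ) : ℂ) := by
    intro c
    rw [Complex.ofReal_exp]
    congr 1
    push_cast
    have : (s : ℂ) ≠ 0 := by exact_mod_cast hs.ne'
    field_simp
  rw [e5, e5, mul_mul_mul_comm, e4, ← Complex.ofReal_mul, ← Complex.ofReal_mul]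
  rw [show RCLike.re (((4 * Real.pi * s * (Real.exp (-(s * z.1 ^ 2)) *
    Real.exp (-(s * z.2 ^ 2))) : ℝ)) : ℂ) = 4 * Real.pi * s * (Real.exp (-(s * z.1 ^ 2)) *
    Real.exp (-(s * z.2 ^ 2))) from Complex.ofReal_re _, ← Real.exp_add]
  ring_nf

end Vale.Agent.P145W85.P153.GFF.G1pf
end

section

/-!
P153, G1: the Fourier energy of a mean-zero test function is its logarithmic energy.
-/

namespace Vale.Agent.P145W85.P153.GFF.G1pf

open MeasureTheory Filter Topology Set

/-- Squared distance. -/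
def r2 (z : (ℝ × ℝ) × (ℝ × ℝ)) : ℝ := (z.1.1 - z.2.1) ^ 2 + (z.1.2 - z.2.2) ^ 2

lemma r2_nonneg (z : (ℝ × ℝ) × (ℝ × ℝ)) : 0 ≤ r2 z := by
  unfold r2
  positivity

lemma r2_cont : Continuous r2 := by
  unfold r2
  fun_prop

/-! ### The logarithm is locally integrable -/

/-- The logarithm of the squared norm cut off at radius `M`. -/
noncomputable def phi (M : ℝ) (z : ℝ × ℝ) : ℝ :=
  if |z.1| ≤ M ∧ |z.2| ≤ M then |Real.log (z.1 ^ 2 + z.2 ^ 2)| else 0

lemma log_bound {M : ℝ} (hM : 1 ≤ M) {z : ℝ × ℝ} (h0 : z.1 ≠ 0) (h1 : |z.1| ≤ M)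
    (h2 : |z.2| ≤ M) :
    |Real.log (z.1 ^ 2 + z.2 ^ 2)| ≤ 2 * |Real.log z.1| + Real.log (2 * M ^ 2) := by
  have ha : 0 < z.1 ^ 2 := by positivity
  have hr0 : 0 < z.1 ^ 2 + z.2 ^ 2 := by positivity
  have e1 : z.1 ^ 2 ≤ M ^ 2 := by
    rw [← sq_abs z.1]
    exact pow_le_pow_left₀ (abs_nonneg _) h1 2
  have e2 : z.2 ^ 2 ≤ M ^ 2 := by
    rw [← sq_abs z.2]
    exact pow_le_pow_left₀ (abs_nonneg _) h2 2
  have hr2 : z.1 ^ 2 + z.2 ^ 2 ≤ 2 * M ^ 2 := by (clear * - e1 e2; linarith)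
  have hlM : 0 ≤ Real.log (2 * M ^ 2) := Real.log_nonneg (by nlinarith only [hM])
  have hl : Real.log (z.1 ^ 2) = 2 * Real.log z.1 := by
    rw [Real.log_pow]
    norm_num
  rcases le_total 1 (z.1 ^ 2 + z.2 ^ 2) with h | h
  · rw [abs_of_nonneg (Real.log_nonneg h)]
    have := Real.log_le_log hr0 hr2
    have := abs_nonneg (Real.log z.1)
    (clear hM ha hlM hl h; linarith)
  · rw [abs_of_nonpos (Real.log_nonpos hr0.le h)]
    have e3 : Real.log (z.1 ^ 2) ≤ Real.log (z.1 ^ 2 + z.2 ^ 2) :=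
      Real.log_le_log ha (by nlinarith only [])
    have e4 : -Real.log z.1 ≤ |Real.log z.1| := neg_le_abs _
    rw [hl] at e3
    linarith only [hlM, e3, e4]

lemma phi_integrable {M : ℝ} (hM : 1 ≤ M) : Integrable (phi M) := by
  have hset : {t : ℝ | |t| ≤ M} = Set.Icc (-M) M := by
    ext t
    simp only [Set.mem_ofPred_eq, Set.mem_Icc, abs_le]
  have hI : MeasurableSet {t : ℝ | |t| ≤ M} :=
    measurableSet_le continuous_abs.measurable measurable_const
  have hlog : IntegrableOn (fun t : ℝ => 2 * |Real.log t| + Real.log (2 * M ^ 2))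
      {t : ℝ | |t| ≤ M} := by
    rw [hset]
    have h1 : IntegrableOn Real.log (Set.Icc (-M) M) := by
      have h2 : IntervalIntegrable Real.log volume (-M) M := intervalIntegral.intervalIntegrable_log'
      rwa [intervalIntegrable_iff_integrableOn_Icc_of_le (by linarith only [hM])] at h2
    exact (h1.abs.const_mul 2).add
      (integrableOn_const (by rw [Real.volume_Icc]; exact ENNReal.ofReal_ne_top))
  have hone : IntegrableOn (fun _ : ℝ => (1 : ℝ)) {t : ℝ | |t| ≤ M} := by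
    rw [hset]
    exact integrableOn_const (by rw [Real.volume_Icc]; exact ENNReal.ofReal_ne_top)
  have hprod : Integrable (fun z : ℝ × ℝ =>
      {t : ℝ | |t| ≤ M}.indicator (fun t : ℝ => 2 * |Real.log t| + Real.log (2 * M ^ 2)) z.1 *
        {t : ℝ | |t| ≤ M}.indicator (fun _ : ℝ => (1 : ℝ)) z.2) (volume.prod volume) :=
    (hlog.integrable_indicator hI).mul_prod (hone.integrable_indicator hI)
  have hmeas : Measurable (phi M) := by
    unfold phi
    refine Measurable.ite ?_ ?_ measurable_const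
    · exact (measurableSet_le (continuous_abs.measurable.comp measurable_fst)
        measurable_const).inter (measurableSet_le (continuous_abs.measurable.comp measurable_snd)
        measurable_const)
    · fun_prop
  refine Integrable.mono' hprod hmeas.aestronglyMeasurable ?_
  have hne : ∀ᵐ z : ℝ × ℝ, z.1 ≠ 0 := by
    have h0 : (volume : Measure (ℝ × ℝ)) ({(0 : ℝ)} ×ˢ Set.univ) = 0 := by
      rw [Measure.volume_eq_prod, Measure.prod_prod]
      simp
    refine measure_mono_null (fun z hz => ?_) h0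
    simp only [Set.mem_compl_iff, Set.mem_ofPred_eq, not_not] at hz
    exact ⟨hz, Set.mem_univ _⟩
  filter_upwards [hne] with z hz
  unfold phi
  by_cases h : |z.1| ≤ M ∧ |z.2| ≤ M
  · rw [if_pos h, Set.indicator_of_mem (show z.1 ∈ {t : ℝ | |t| ≤ M} from h.1),
      Set.indicator_of_mem (show z.2 ∈ {t : ℝ | |t| ≤ M} from h.2), mul_one, Real.norm_eq_abs,
      abs_abs]
    exact log_bound hM hz h.1 h.2
  · rw [if_neg h, norm_zero]
    have hlM : 0 ≤ Real.log (2 * M ^ 2) := Real.log_nonneg (by nlinarith only [hM])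
    refine mul_nonneg (Set.indicator_nonneg (fun t _ => ?_) _)
      (Set.indicator_nonneg (fun t _ => zero_le_one) _)
    (clear * - hlM; positivity)

theorem log_integrable {f : ℝ × ℝ → ℝ} (hf : Continuous f) (cf : HasCompactSupport f) :
    Integrable (fun p : (ℝ × ℝ) × (ℝ × ℝ) => |f p.1 * f p.2| * |Real.log (r2 p)|) := by
  obtain ⟨Cf, hCf⟩ := cf.exists_bound_of_continuous hf
  obtain ⟨Rf, hRf⟩ := (Metric.isBounded_iff_subset_closedBall 0).mp cf.isCompact.isBounded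
  set M : ℝ := max 1 (Rf + Rf) with hM
  have hM1 : 1 ≤ M := le_max_left _ _
  have hM2 : Rf + Rf ≤ M := le_max_right _ _
  have hCf0 : 0 ≤ Cf := (norm_nonneg _).trans (hCf 0)
  have hgi : Integrable (fun y => |f y|) := (hf.integrable_of_hasCompactSupport cf).abs
  have : (volume : Measure (ℝ × ℝ)).IsAddHaarMeasure :=
    Measure.prod.instIsAddHaarMeasure volume volume
  have hconv : Integrable (fun p : (ℝ × ℝ) × (ℝ × ℝ) => |f p.2| * phi M (p.1 - p.2))
      (volume.prod volume) :=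
    hgi.convolution_integrand (ContinuousLinearMap.mul ℝ ℝ) (phi_integrable hM1)
  have hdom := hconv.const_mul Cf
  refine Integrable.mono' hdom ?_ (Filter.Eventually.of_forall fun p => ?_)
  · have hl : Measurable fun p : (ℝ × ℝ) × (ℝ × ℝ) => |Real.log (r2 p)| := by
      have := r2_cont.measurable
      fun_prop
    have h2 : Continuous fun p : (ℝ × ℝ) × (ℝ × ℝ) => |f p.1 * f p.2| := by fun_prop
    exact (h2.measurable.mul hl).aestronglyMeasurable
  · have hphi0 : 0 ≤ phi M (p.1 - p.2) := by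
      unfold phi
      split_ifs
      · exact abs_nonneg _
      · exact le_refl _
    rw [Real.norm_of_nonneg (by (clear * -; positivity))]
    by_cases hfz : f p.1 = 0
    · rw [hfz, zero_mul, abs_zero, zero_mul]
      (clear * - hCf0 hphi0; positivity)
    by_cases hgz : f p.2 = 0
    · rw [hgz, mul_zero, abs_zero, zero_mul]
      (clear * - hCf0 hphi0; positivity)
    have hx : p.1 ∈ tsupport f := subset_tsupport f hfz
    have hy : p.2 ∈ tsupport f := subset_tsupport f hgz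
    have hx' : ‖p.1‖ ≤ Rf := by
      have := hRf hx
      rwa [Metric.mem_closedBall, dist_zero_right] at this
    have hy' : ‖p.2‖ ≤ Rf := by
      have := hRf hy
      rwa [Metric.mem_closedBall, dist_zero_right] at this
    have hd : ‖p.1 - p.2‖ ≤ M := (norm_sub_le _ _).trans (by linarith only [hM2, hx', hy'])
    have hd1 : |(p.1 - p.2).1| ≤ M := (norm_fst_le (p.1 - p.2)).trans hd
    have hd2 : |(p.1 - p.2).2| ≤ M := (norm_snd_le (p.1 - p.2)).trans hd
    have e1 : phi M (p.1 - p.2) = |Real.log (r2 p)| := by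
      unfold phi
      rw [if_pos ⟨hd1, hd2⟩]
      rfl
    rw [e1, abs_mul]
    have h3 : |f p.1| ≤ Cf := hCf _
    nlinarith only [h3, mul_nonneg (abs_nonneg (f p.2)) (abs_nonneg (Real.log (r2 p)))]

lemma r2_pos_ae : ∀ᵐ p : (ℝ × ℝ) × (ℝ × ℝ), 0 < r2 p := by
  have h : ∀ᵐ p : (ℝ × ℝ) × (ℝ × ℝ), p.1 - p.2 ≠ 0 := by
    rw [Measure.volume_eq_prod]
    have : (volume : Measure (ℝ × ℝ)).IsAddHaarMeasure :=
      Measure.prod.instIsAddHaarMeasure volume volume
    have h1 : MeasurableSet {p : (ℝ × ℝ) × (ℝ × ℝ) | p.1 - p.2 ≠ 0} := by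
      have : {p : (ℝ × ℝ) × (ℝ × ℝ) | p.1 - p.2 ≠ 0} =
          (fun p : (ℝ × ℝ) × (ℝ × ℝ) => p.1 - p.2) ⁻¹' {0}ᶜ := rfl
      rw [this]
      exact (measurable_fst.sub measurable_snd) (measurableSet_singleton 0).compl
    rw [Measure.ae_prod_iff_ae_ae h1]
    refine Eventually.of_forall fun x => ?_
    have h2 : ∀ᵐ y : ℝ × ℝ, y ≠ x := by
      refine measure_mono_null (t := {x}) (fun y hy => ?_) (measure_singleton x)
      simpa using hy
    filter_upwards [h2] with y hy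
    exact sub_ne_zero.2 hy.symm
  filter_upwards [h] with p hp
  rcases (r2_nonneg p).lt_or_eq with h1 | h1
  · exact h1
  · exfalso
    apply hp
    unfold r2 at h1
    have e1 : p.1.1 - p.2.1 = 0 := by nlinarith only [h1]
    have e2 : p.1.2 - p.2.2 = 0 := by nlinarith only [h1]
    exact Prod.ext e1 e2

/-! ### The squared modulus of the transform -/

lemma sq_ft {f : ℝ × ℝ → ℝ} (hf : Continuous f) (cf : HasCompactSupport f) (p : ℝ × ℝ) :
    ‖ftR f p‖ ^ 2 = ∫ z : (ℝ × ℝ) × (ℝ × ℝ), f z.1 * f z.2 *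
      Real.cos (p.1 * (z.1.1 - z.2.1) + p.2 * (z.1.2 - z.2.2)) := by
  set u : ℝ × ℝ → ℝ := fun x => f x * Real.cos (p.1 * x.1 + p.2 * x.2) with hu
  set v : ℝ × ℝ → ℝ := fun x => f x * Real.sin (p.1 * x.1 + p.2 * x.2) with hv
  have iu : Integrable u :=
    (by fun_prop : Continuous u).integrable_of_hasCompactSupport cf.mul_right
  have iv : Integrable v :=
    (by fun_prop : Continuous v).integrable_of_hasCompactSupport cf.mul_right
  have h1 : ftR f p = ((∫ x, u x : ℝ) : ℂ) + ((∫ x, v x : ℝ) : ℂ) * Complex.I := by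
    rw [← integral_complex_ofReal, ← integral_complex_ofReal, ← integral_mul_const,
      ← integral_add]
    · unfold ftR
      refine integral_congr_ae (Eventually.of_forall fun x => ?_)
      simp only [hu, hv]
      rw [mul_comm Complex.I, Complex.exp_mul_I]
      push_cast
      ring
    · exact iu.ofReal
    · exact iv.ofReal.mul_const _
  rw [h1, Complex.sq_norm, Complex.normSq_add_mul_I, sq, sq, ← integral_prod_mul,
    ← integral_prod_mul, ← integral_add (iu.mul_prod iu) (iv.mul_prod iv),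
    ← Measure.volume_eq_prod]
  refine integral_congr_ae (Eventually.of_forall fun z => ?_)
  simp only [hu, hv]
  rw [show p.1 * (z.1.1 - z.2.1) + p.2 * (z.1.2 - z.2.2) =
    (p.1 * z.1.1 + p.2 * z.1.2) - (p.1 * z.2.1 + p.2 * z.2.2) by ring, Real.cos_sub]
  ring

lemma ff_int {f : ℝ × ℝ → ℝ} (hf : Continuous f) (cf : HasCompactSupport f) :
    Integrable (fun z : (ℝ × ℝ) × (ℝ × ℝ) => f z.1 * f z.2) :=
  (hf.integrable_of_hasCompactSupport cf).mul_prod (hf.integrable_of_hasCompactSupport cf)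

lemma ff_zero {f : ℝ × ℝ → ℝ} (h0 : ∫ x, f x = 0) :
    ∫ z : (ℝ × ℝ) × (ℝ × ℝ), f z.1 * f z.2 = 0 := by
  rw [Measure.volume_eq_prod, integral_prod_mul, h0, zero_mul]

lemma exp_int {s : ℝ} (hs : 0 < s) : Integrable (fun p : ℝ × ℝ =>
    Real.exp (-((p.1 ^ 2 + p.2 ^ 2) / (4 * s)))) := by
  have h := (gauss2 hs (0, 0)).1
  refine h.congr (Eventually.of_forall fun p => ?_)
  simp

lemma ft_gauss {f : ℝ × ℝ → ℝ} (hf : Continuous f) (cf : HasCompactSupport f) {s : ℝ}
    (hs : 0 < s) :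
    Integrable (fun p : ℝ × ℝ => ‖ftR f p‖ ^ 2 * Real.exp (-((p.1 ^ 2 + p.2 ^ 2) / (4 * s)))) ∧
    ∫ p : ℝ × ℝ, ‖ftR f p‖ ^ 2 * Real.exp (-((p.1 ^ 2 + p.2 ^ 2) / (4 * s))) =
      4 * Real.pi * s * ∫ z : (ℝ × ℝ) × (ℝ × ℝ), f z.1 * f z.2 * Real.exp (-(s * r2 z)) := by
  have h1 : Integrable (fun w : (ℝ × ℝ) × ((ℝ × ℝ) × (ℝ × ℝ)) =>
      (f w.2.1 * f w.2.2 *
      Real.cos (w.1.1 * (w.2.1.1 - w.2.2.1) + w.1.2 * (w.2.1.2 - w.2.2.2))) *
      Real.exp (-((w.1.1 ^ 2 + w.1.2 ^ 2) / (4 * s))))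
      ((volume : Measure (ℝ × ℝ)).prod (volume : Measure ((ℝ × ℝ) × (ℝ × ℝ)))) := by
    have h2 := Integrable.mul_prod (exp_int hs) (ff_int hf cf)
    have h3 : Continuous fun w : (ℝ × ℝ) × ((ℝ × ℝ) × (ℝ × ℝ)) =>
      Real.cos (w.1.1 * (w.2.1.1 - w.2.2.1) + w.1.2 * (w.2.1.2 - w.2.2.2)) := by fun_prop
    refine (Integrable.bdd_mul (c := 1) h2 h3.aestronglyMeasurable ?_).congr ?_
    · exact Eventually.of_forall fun w => Real.abs_cos_le_one _
    · exact Eventually.of_forall fun w => by simp only; ring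
  have h4 : ∀ p : ℝ × ℝ, ‖ftR f p‖ ^ 2 * Real.exp (-((p.1 ^ 2 + p.2 ^ 2) / (4 * s))) =
      ∫ z : (ℝ × ℝ) × (ℝ × ℝ), (f z.1 * f z.2 *
        Real.cos (p.1 * (z.1.1 - z.2.1) + p.2 * (z.1.2 - z.2.2))) *
        Real.exp (-((p.1 ^ 2 + p.2 ^ 2) / (4 * s))) := by
    intro p
    rw [sq_ft hf cf, integral_mul_const]
  constructor
  · simp only [h4]
    exact h1.integral_prod_left
  · simp only [h4]
    rw [integral_integral_swap (μ := (volume : Measure (ℝ × ℝ)))
      (ν := (volume : Measure ((ℝ × ℝ) × (ℝ × ℝ))))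
      (f := fun (p : ℝ × ℝ) (z : (ℝ × ℝ) × (ℝ × ℝ)) => (f z.1 * f z.2 *
        Real.cos (p.1 * (z.1.1 - z.2.1) + p.2 * (z.1.2 - z.2.2))) *
        Real.exp (-((p.1 ^ 2 + p.2 ^ 2) / (4 * s)))) h1, ← integral_const_mul]
    refine integral_congr_ae (Eventually.of_forall fun z => ?_)
    simp only [mul_assoc (f z.1 * f z.2)]
    rw [integral_const_mul, (gauss2 hs (z.1.1 - z.2.1, z.1.2 - z.2.2)).2]
    simp only [r2]
    ring

/-! ### Integration in `s` -/

/-- The energy density in the parameter `s`. -/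
noncomputable def psi (f : ℝ × ℝ → ℝ) (s : ℝ) : ℝ :=
  ∫ z : (ℝ × ℝ) × (ℝ × ℝ), f z.1 * f z.2 * ker (r2 z) s

lemma e_int {f : ℝ × ℝ → ℝ} (hf : Continuous f) (cf : HasCompactSupport f) {s : ℝ}
    (hs : 0 < s) : Integrable (fun z : (ℝ × ℝ) × (ℝ × ℝ) =>
      f z.1 * f z.2 * Real.exp (-(s * r2 z))) := by
  have hc : Continuous fun z : (ℝ × ℝ) × (ℝ × ℝ) => Real.exp (-(s * r2 z)) := by
    have := r2_cont
    fun_prop
  refine Integrable.mul_bdd (c := 1) (ff_int hf cf) hc.aestronglyMeasurable ?_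
  refine Eventually.of_forall fun z => ?_
  rw [Real.norm_of_nonneg (Real.exp_pos _).le, Real.exp_le_one_iff]
  have := mul_nonneg hs.le (r2_nonneg z)
  linarith

lemma psi_eq {f : ℝ × ℝ → ℝ} (hf : Continuous f) (cf : HasCompactSupport f)
    (h0 : ∫ x, f x = 0) {s : ℝ} (hs : 0 < s) :
    psi f s = (4 * Real.pi * s)⁻¹ *
      ∫ z : (ℝ × ℝ) × (ℝ × ℝ), f z.1 * f z.2 * Real.exp (-(s * r2 z)) := by
  have h1 : ∀ z : (ℝ × ℝ) × (ℝ × ℝ), f z.1 * f z.2 * ker (r2 z) s =
      (4 * Real.pi * s)⁻¹ * (f z.1 * f z.2 * Real.exp (-(s * r2 z))) -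
      (4 * Real.pi * s)⁻¹ * Real.exp (-s) * (f z.1 * f z.2) := by
    intro z
    rw [ker, mul_comm (r2 z) s]
    (clear * - hs; field_simp)
  unfold psi
  simp only [h1]
  rw [integral_sub ((e_int hf cf hs).const_mul _) ((ff_int hf cf).const_mul _),
    integral_const_mul, integral_const_mul, ff_zero h0, mul_zero, sub_zero]

lemma psi_four {f : ℝ × ℝ → ℝ} (hf : Continuous f) (cf : HasCompactSupport f)
    (h0 : ∫ x, f x = 0) {s : ℝ} (hs : 0 < s) :
    ∫ p : ℝ × ℝ, ‖ftR f p‖ ^ 2 * (Real.exp (-((p.1 ^ 2 + p.2 ^ 2) / (4 * s))) / (4 * s ^ 2)) =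
      4 * Real.pi ^ 2 * psi f s := by
  have h1 : ∀ p : ℝ × ℝ, ‖ftR f p‖ ^ 2 *
      (Real.exp (-((p.1 ^ 2 + p.2 ^ 2) / (4 * s))) / (4 * s ^ 2)) =
      (4 * s ^ 2)⁻¹ * (‖ftR f p‖ ^ 2 * Real.exp (-((p.1 ^ 2 + p.2 ^ 2) / (4 * s)))) := by
    intro p
    ring
  simp only [h1]
  rw [integral_const_mul, (ft_gauss hf cf hs).2, psi_eq hf cf h0 hs]
  have := Real.pi_pos
  (clear * - hs; field_simp)

lemma psi_nonneg {f : ℝ × ℝ → ℝ} (hf : Continuous f) (cf : HasCompactSupport f)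
    (h0 : ∫ x, f x = 0) {s : ℝ} (hs : 0 < s) : 0 ≤ psi f s := by
  have h1 := psi_four hf cf h0 hs
  have h2 : 0 ≤ ∫ p : ℝ × ℝ, ‖ftR f p‖ ^ 2 *
      (Real.exp (-((p.1 ^ 2 + p.2 ^ 2) / (4 * s))) / (4 * s ^ 2)) :=
    integral_nonneg fun p => by positivity
  rw [h1] at h2
  have h3 : 0 < 4 * Real.pi ^ 2 := by positivity
  exact nonneg_of_mul_nonneg_right h2 h3

lemma big_int {f : ℝ × ℝ → ℝ} (hf : Continuous f) (cf : HasCompactSupport f) :
    Integrable (fun w : ℝ × ((ℝ × ℝ) × (ℝ × ℝ)) => f w.2.1 * f w.2.2 * ker (r2 w.2) w.1)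
      ((volume.restrict (Ioi (0 : ℝ))).prod (volume : Measure ((ℝ × ℝ) × (ℝ × ℝ)))) := by
  have hr := r2_cont
  have hm : Measurable (fun w : ℝ × ((ℝ × ℝ) × (ℝ × ℝ)) =>
      f w.2.1 * f w.2.2 * ker (r2 w.2) w.1) := by
    have h1 : Measurable (fun w : ℝ × ((ℝ × ℝ) × (ℝ × ℝ)) => f w.2.1 * f w.2.2) :=
      (by fun_prop : Continuous fun w : ℝ × ((ℝ × ℝ) × (ℝ × ℝ)) => f w.2.1 * f w.2.2).measurable
    refine h1.mul ?_
    unfold ker
    have h2 : Measurable fun w : ℝ × ((ℝ × ℝ) × (ℝ × ℝ)) => r2 w.2 := by (clear * - hr; fun_prop)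
    fun_prop
  rw [integrable_prod_iff' hm.aestronglyMeasurable]
  constructor
  · filter_upwards [r2_pos_ae] with z hz
    exact (ker_int hz).const_mul _
  · have h2 : Integrable (fun z : (ℝ × ℝ) × (ℝ × ℝ) =>
        (4 * Real.pi)⁻¹ * (|f z.1 * f z.2| * |Real.log (r2 z)|)) :=
      (log_integrable hf cf).const_mul _
    refine h2.congr ?_
    filter_upwards [r2_pos_ae] with z hz
    simp only [norm_mul]
    rw [integral_const_mul, ker_norm hz, abs_mul (4 * Real.pi)⁻¹,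
      abs_of_pos (by positivity : 0 < (4 * Real.pi)⁻¹), abs_mul (f z.1), Real.norm_eq_abs,
      Real.norm_eq_abs]
    ring

lemma green_r2 (x y : ℝ × ℝ) : green x y = -((4 * Real.pi)⁻¹ * Real.log (r2 (x, y))) := by
  unfold green
  rw [Real.log_sqrt (by positivity)]
  unfold r2
  have := Real.pi_pos
  field_simp
  ring

lemma psi_total {f : ℝ × ℝ → ℝ} (hf : Continuous f) (cf : HasCompactSupport f) :
    IntegrableOn (psi f) (Ioi 0) ∧ ∫ s in Ioi (0 : ℝ), psi f s = gffCov f f := by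
  have hb := big_int hf cf
  refine ⟨hb.integral_prod_left, ?_⟩
  unfold psi
  rw [integral_integral_swap (μ := volume.restrict (Ioi (0 : ℝ)))
    (ν := (volume : Measure ((ℝ × ℝ) × (ℝ × ℝ))))
    (f := fun (s : ℝ) (z : (ℝ × ℝ) × (ℝ × ℝ)) => f z.1 * f z.2 * ker (r2 z) s) hb]
  have hg : Integrable (fun p : (ℝ × ℝ) × (ℝ × ℝ) => green p.1 p.2 * f p.1 * f p.2)
      (volume.prod volume) := by
    have h2 : Integrable (fun z : (ℝ × ℝ) × (ℝ × ℝ) =>
        (4 * Real.pi)⁻¹ * (|f z.1 * f z.2| * |Real.log (r2 z)|)) :=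
      (log_integrable hf cf).const_mul _
    refine Integrable.mono' h2 ?_ (Eventually.of_forall fun p => ?_)
    · have hgr : Measurable fun p : (ℝ × ℝ) × (ℝ × ℝ) => green p.1 p.2 := by
        unfold green
        fun_prop
      exact ((hgr.mul (hf.measurable.comp measurable_fst)).mul
        (hf.measurable.comp measurable_snd)).aestronglyMeasurable
    · rw [green_r2, norm_mul, norm_mul, norm_neg, norm_mul, Real.norm_eq_abs, Real.norm_eq_abs,
        Real.norm_eq_abs, Real.norm_eq_abs, abs_of_pos (by positivity : 0 < (4 * Real.pi)⁻¹),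
        abs_mul]
      refine le_of_eq ?_
      ring
  unfold gffCov
  rw [← integral_prod (μ := (volume : Measure (ℝ × ℝ))) (ν := (volume : Measure (ℝ × ℝ)))
    (fun p : (ℝ × ℝ) × (ℝ × ℝ) => green p.1 p.2 * f p.1 * f p.2) hg, ← Measure.volume_eq_prod]
  refine integral_congr_ae ?_
  filter_upwards [r2_pos_ae] with z hz
  rw [integral_const_mul, ker_eq hz, green_r2]
  ring

/-! ### Conclusion -/

lemma ft_meas {f : ℝ × ℝ → ℝ} (hf : Continuous f) (cf : HasCompactSupport f) :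
    Measurable fun p : ℝ × ℝ => ‖ftR f p‖ ^ 2 := by
  have h1 : StronglyMeasurable fun p : ℝ × ℝ => ∫ z : (ℝ × ℝ) × (ℝ × ℝ), f z.1 * f z.2 *
      Real.cos (p.1 * (z.1.1 - z.2.1) + p.2 * (z.1.2 - z.2.2)) := by
    refine StronglyMeasurable.integral_prod_right' (f := fun w : (ℝ × ℝ) × ((ℝ × ℝ) × (ℝ × ℝ)) =>
      f w.2.1 * f w.2.2 *
      Real.cos (w.1.1 * (w.2.1.1 - w.2.2.1) + w.1.2 * (w.2.1.2 - w.2.2.2))) ?_
    exact (by fun_prop : Continuous fun w : (ℝ × ℝ) × ((ℝ × ℝ) × (ℝ × ℝ)) =>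
      f w.2.1 * f w.2.2 *
      Real.cos (w.1.1 * (w.2.1.1 - w.2.2.1) + w.1.2 * (w.2.1.2 - w.2.2.2))).stronglyMeasurable
  have h2 : (fun p : ℝ × ℝ => ‖ftR f p‖ ^ 2) = fun p : ℝ × ℝ =>
      ∫ z : (ℝ × ℝ) × (ℝ × ℝ), f z.1 * f z.2 *
      Real.cos (p.1 * (z.1.1 - z.2.1) + p.2 * (z.1.2 - z.2.2)) := funext fun p => sq_ft hf cf p
  rw [h2]
  exact h1.measurable

lemma norm_pos_ae : ∀ᵐ p : ℝ × ℝ, 0 < p.1 ^ 2 + p.2 ^ 2 := by
  have h2 : ∀ᵐ y : ℝ × ℝ, y ≠ 0 := by
    refine measure_mono_null (t := {0}) (fun y hy => ?_) (measure_singleton 0)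
    simpa only [mem_singleton_iff, ne_eq, compl_ne_eq_singleton] using hy
  filter_upwards [h2] with p hp
  by_contra hcon
  apply hp
  have e1 : p.1 = 0 := by nlinarith only [hcon]
  have e2 : p.2 = 0 := by nlinarith only [hcon]
  exact Prod.ext e1 e2

lemma lint_main {f : ℝ × ℝ → ℝ} (hf : Continuous f) (cf : HasCompactSupport f)
    (h0 : ∫ x, f x = 0) :
    ∫⁻ p : ℝ × ℝ, ENNReal.ofReal (‖ftR f p‖ ^ 2 / (p.1 ^ 2 + p.2 ^ 2)) =
      ENNReal.ofReal (4 * Real.pi ^ 2 * gffCov f f) := by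
  have hF := ft_meas hf cf
  have h1 : ∫⁻ p : ℝ × ℝ, ENNReal.ofReal (‖ftR f p‖ ^ 2 / (p.1 ^ 2 + p.2 ^ 2)) =
      ∫⁻ p : ℝ × ℝ, ∫⁻ s in Ioi (0 : ℝ), ENNReal.ofReal (‖ftR f p‖ ^ 2 *
        (Real.exp (-((p.1 ^ 2 + p.2 ^ 2) / (4 * s))) / (4 * s ^ 2))) := by
    refine lintegral_congr_ae ?_
    filter_upwards [norm_pos_ae] with p hp
    have e1 : ∀ s : ℝ, ENNReal.ofReal (‖ftR f p‖ ^ 2 *
        (Real.exp (-((p.1 ^ 2 + p.2 ^ 2) / (4 * s))) / (4 * s ^ 2))) =
        ENNReal.ofReal (‖ftR f p‖ ^ 2) * ENNReal.ofReal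
          (Real.exp (-((p.1 ^ 2 + p.2 ^ 2) / (4 * s))) / (4 * s ^ 2)) := fun s =>
      ENNReal.ofReal_mul (by (clear * -; positivity))
    simp only [e1]
    rw [lintegral_const_mul, sub_lint hp, ← ENNReal.ofReal_mul (by (clear * -; positivity))]
    · rw [mul_one_div]
    · exact (by fun_prop : Measurable fun s : ℝ =>
        Real.exp (-((p.1 ^ 2 + p.2 ^ 2) / (4 * s))) / (4 * s ^ 2)).ennreal_ofReal
  have hm : Measurable (fun w : (ℝ × ℝ) × ℝ => ENNReal.ofReal (‖ftR f w.1‖ ^ 2 *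
        (Real.exp (-((w.1.1 ^ 2 + w.1.2 ^ 2) / (4 * w.2))) / (4 * w.2 ^ 2)))) := by
    refine Measurable.ennreal_ofReal ?_
    exact (hF.comp measurable_fst).mul (by fun_prop)
  rw [h1, lintegral_lintegral_swap hm.aemeasurable]
  have h2 : ∫⁻ s in Ioi (0 : ℝ), ∫⁻ p : ℝ × ℝ, ENNReal.ofReal (‖ftR f p‖ ^ 2 *
        (Real.exp (-((p.1 ^ 2 + p.2 ^ 2) / (4 * s))) / (4 * s ^ 2))) =
      ∫⁻ s in Ioi (0 : ℝ), ENNReal.ofReal (4 * Real.pi ^ 2 * psi f s) := by
    refine setLIntegral_congr_fun measurableSet_Ioi fun s hs => ?_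
    have hs0 : (0 : ℝ) < s := hs
    rw [← psi_four hf cf h0 hs0, ofReal_integral_eq_lintegral_ofReal]
    · have := ((ft_gauss hf cf hs0).1).const_mul (4 * s ^ 2)⁻¹
      refine this.congr (Eventually.of_forall fun p => ?_)
      simp only
      ring
    · exact Eventually.of_forall fun p => by (clear * - hs0; positivity)
  have h3 := psi_total hf cf
  rw [h2, ← h3.2, ← integral_const_mul, ofReal_integral_eq_lintegral_ofReal]
  · exact h3.1.const_mul _
  · filter_upwards [ae_restrict_mem measurableSet_Ioi] with s hs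
    exact mul_nonneg (by positivity) (psi_nonneg hf cf h0 hs)

theorem main {f : ℝ × ℝ → ℝ} (hf : Test f) :
    Integrable (fun p : ℝ × ℝ => ‖ftR f p‖ ^ 2 / (p.1 ^ 2 + p.2 ^ 2)) ∧
    (4 * Real.pi ^ 2)⁻¹ * ∫ p : ℝ × ℝ, ‖ftR f p‖ ^ 2 / (p.1 ^ 2 + p.2 ^ 2) = gffCov f f := by
  obtain ⟨h1, cf, h0⟩ := hf
  have hc : Continuous f := h1.continuous
  have hl := lint_main hc cf h0
  have hm : Measurable (fun p : ℝ × ℝ => ‖ftR f p‖ ^ 2 / (p.1 ^ 2 + p.2 ^ 2)) :=
    (ft_meas hc cf).div (by fun_prop)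
  have hnn : ∀ p : ℝ × ℝ, 0 ≤ ‖ftR f p‖ ^ 2 / (p.1 ^ 2 + p.2 ^ 2) := fun p => by (clear * -; positivity)
  have hg : 0 ≤ gffCov f f := by
    rw [← (psi_total hc cf).2]
    exact setIntegral_nonneg measurableSet_Ioi fun s hs => psi_nonneg hc cf h0 hs
  have hi : Integrable (fun p : ℝ × ℝ => ‖ftR f p‖ ^ 2 / (p.1 ^ 2 + p.2 ^ 2)) := by
    refine ⟨hm.aestronglyMeasurable, ?_⟩
    rw [hasFiniteIntegral_iff_ofReal (Eventually.of_forall hnn), hl]
    exact ENNReal.ofReal_lt_top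
  refine ⟨hi, ?_⟩
  rw [integral_eq_lintegral_of_nonneg_ae (Eventually.of_forall hnn) hm.aestronglyMeasurable, hl,
    ENNReal.toReal_ofReal (by positivity)]
  have := Real.pi_pos
  (clear * -; field_simp)

end Vale.Agent.P145W85.P153.GFF.G1pf

namespace Vale.Agent.P145W85.P153.GFF

/-- (G1) Fourier energy = logarithmic energy. -/
theorem g1 : G1 := fun _ hf => G1pf.main hf

end Vale.Agent.P145W85.P153.GFF
end

section

/-!
# P153, block F: exploration and the domain Markov property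

Odd heights on the triangular lattice, steps at most two (`Lip`). An edge is closed if the height
is `± 1` at both ends. If the union of the clusters of `A` (for the other edges) is `κ`, the
heights off `κ` are distributed according to the free `± 1` boundary law of the complement.
-/

namespace Vale.Agent.P145W85.P153.F

open Finset Relation Vale.Agent.P145W85.P153

/-- A vertex. -/
abbrev Pt : Type := ℤ × ℤ

/-- A configuration. -/
abbrev Hg : Type := Pt → ℤ

/-- Step along an open edge. -/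
def Op (h : Hg) (x y : Pt) : Prop := Adj x y ∧ ¬ (|h x| = 1 ∧ |h y| = 1)

/-- The union of the clusters which meet `A`. -/
def Clu (A : Set Pt) (h : Hg) : Set Pt := {y | ∃ x ∈ A, ReflTransGen (Op h) x y}

/-- Heights on `T` with free boundary values `± 1`; the dummy value `1` off `T`. -/
def Fre (T : Set Pt) : Set Hg :=
  {h | Lip h ∧ (∀ x, x ∉ T → h x = 1) ∧ ∀ x ∈ T, (∃ y, Adj x y ∧ y ∉ T) → |h x| = 1}

open Classical in
/-- `y` on `T` and `z` off `T`. -/
noncomputable def comb (T : Set Pt) (y z : Hg) : Hg := fun x => if x ∈ T then y x else z x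

variable {A T κ : Set Pt} {h y z : Hg}

theorem comb_in {x : Pt} (hx : x ∈ T) : comb T y z x = y x := if_pos hx

theorem comb_out {x : Pt} (hx : x ∉ T) : comb T y z x = z x := if_neg hx

theorem subset_clu : A ⊆ Clu A h := fun x hx => ⟨x, hx, ReflTransGen.refl⟩

theorem clu_step {x y : Pt} (hx : x ∈ Clu A h) (hxy : Op h x y) : y ∈ Clu A h := by
  obtain ⟨a, ha, h1⟩ := hx
  exact ⟨a, ha, h1.tail hxy⟩

theorem closed_of_cross {x y : Pt} (hx : x ∈ Clu A h) (hy : y ∉ Clu A h) (hxy : Adj x y) :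
    |h x| = 1 ∧ |h y| = 1 := by
  by_contra hcon
  exact hy (clu_step hx ⟨hxy, hcon⟩)

/-- Off a union of clusters there are free boundary values. -/
theorem comb_mem_left (hh : Lip h) (hT : ∀ x y, x ∈ T → y ∉ T → Adj x y → |h x| = 1 ∧ |h y| = 1) :
    comb T h (fun _ => 1) ∈ Fre T := by
  refine ⟨⟨fun x => ?_, fun x y hxy => ?_⟩, fun x hx => comb_out hx, fun x hx h1 => ?_⟩
  · by_cases hx : x ∈ T
    · rw [comb_in hx]; exact hh.1 x
    · rw [comb_out hx]; exact odd_one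
  · by_cases hx : x ∈ T <;> by_cases hy : y ∈ T
    · rw [comb_in hx, comb_in hy]; exact hh.2 x y hxy
    · rw [comb_in hx, comb_out hy]
      rcases abs_eq (zero_le_one' ℤ) |>.1 (hT x y hx hy hxy).1 with h1 | h1 <;> simp [h1]
    · rw [comb_out hx, comb_in hy]
      rcases abs_eq (zero_le_one' ℤ) |>.1 (hT y x hy hx hxy.symm).1 with h1 | h1 <;> simp [h1]
    · rw [comb_out hx, comb_out hy]; simp only [sub_self, abs_zero, Nat.ofNat_nonneg]
  · obtain ⟨y, hxy, hy⟩ := h1
    rw [comb_in hx]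
    exact (hT x y hx hy hxy).1

theorem comb_compl (T : Set Pt) (y z : Hg) : comb Tᶜ y z = comb T z y := by
  funext x
  by_cases hx : x ∈ T
  · have hx' : x ∉ Tᶜ := fun h => h hx
    rw [comb_in hx, comb_out hx']
  · rw [comb_out hx, comb_in (show x ∈ Tᶜ from hx)]

theorem comb_mem_right (hh : Lip h)
    (hT : ∀ x y, x ∈ T → y ∉ T → Adj x y → |h x| = 1 ∧ |h y| = 1) :
    comb T (fun _ => 1) h ∈ Fre Tᶜ := by
  rw [← comb_compl]
  refine comb_mem_left hh fun x y hx hy hxy => ?_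
  have hy' : y ∈ T := by simpa using hy
  exact (hT y x hy' hx hxy.symm).symm

/-- Superposition. -/
theorem lip_comb (hy : y ∈ Fre T) (hz : z ∈ Fre Tᶜ) : Lip (comb T y z) := by
  refine ⟨fun x => ?_, fun x x' hxx => ?_⟩
  · by_cases hx : x ∈ T
    · rw [comb_in hx]; exact hy.1.1 x
    · rw [comb_out hx]; exact hz.1.1 x
  · have key : ∀ x x', Adj x x' → x ∈ T → x' ∉ T → |y x - z x'| ≤ 2 := by
      intro x x' hxx hx hx'
      have h1 := hy.2.2 x hx ⟨x', hxx, hx'⟩
      have h2 := hz.2.2 x' hx' ⟨x, hxx.symm, fun h => h hx⟩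
      rcases abs_eq (zero_le_one' ℤ) |>.1 h1 with h1 | h1 <;>
        rcases abs_eq (zero_le_one' ℤ) |>.1 h2 with h2 | h2 <;> simp [h1, h2]
    by_cases hx : x ∈ T <;> by_cases hx' : x' ∈ T
    · rw [comb_in hx, comb_in hx']; exact hy.1.2 x x' hxx
    · rw [comb_in hx, comb_out hx']; exact key x x' hxx hx hx'
    · rw [comb_out hx, comb_in hx', abs_sub_comm]; exact key x' x hxx.symm hx' hx
    · rw [comb_out hx, comb_out hx']; exact hz.1.2 x x' hxx

theorem closed_comb (hy : y ∈ Fre T) (hz : z ∈ Fre Tᶜ) {x x' : Pt} (hx : x ∈ T) (hx' : x' ∉ T)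
    (hxx : Adj x x') : |comb T y z x| = 1 ∧ |comb T y z x'| = 1 := by
  rw [comb_in hx, comb_out hx']
  exact ⟨hy.2.2 x hx ⟨x', hxx, hx'⟩, hz.2.2 x' hx' ⟨x, hxx.symm, fun h => h hx⟩⟩

theorem comb_self_left (hy : y ∈ Fre T) : comb T (comb T y z) (fun _ => 1) = y := by
  funext x
  by_cases hx : x ∈ T
  · rw [comb_in hx, comb_in hx]
  · rw [comb_out hx, hy.2.1 x hx]

theorem comb_self_right (hz : z ∈ Fre Tᶜ) : comb T (fun _ => 1) (comb T y z) = z := by
  funext x
  by_cases hx : x ∈ T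
  · rw [comb_in hx, hz.2.1 x fun h => h hx]
  · rw [comb_out hx, comb_out hx]

theorem comb_comb : comb T (comb T h (fun _ => 1)) (comb T (fun _ => 1) h) = h := by
  funext x
  by_cases hx : x ∈ T
  · rw [comb_in hx, comb_in hx]
  · rw [comb_out hx, comb_out hx]

/-- The clusters are a function of the heights on the explored set. -/
theorem clu_comb_left (hκ : Clu A h = κ) : Clu A (comb κ h (fun _ => 1)) = κ := by
  apply subset_antisymm
  · rintro y ⟨x, hx, hxy⟩
    have hxκ : x ∈ κ := by rw [← hκ]; exact subset_clu hx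
    clear hx
    induction hxy with
    | refl => exact hxκ
    | @tail b c _ h3 ih =>
      obtain ⟨h4, h5⟩ := h3
      rw [comb_in ih] at h5
      by_cases hc : c ∈ κ
      · exact hc
      · exfalso
        rw [comb_out hc] at h5
        have h6 := closed_of_cross (A := A) (h := h) (x := b) (y := c) (by rw [hκ]; exact ih)
          (by rw [hκ]; exact hc) h4
        exact h5 ⟨h6.1, abs_one⟩
  · intro y hy
    rw [← hκ] at hy
    obtain ⟨x, hx, hxy⟩ := hy
    refine ⟨x, hx, ?_⟩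
    have key : ∀ y, ReflTransGen (Op h) x y →
        ReflTransGen (Op (comb κ h (fun _ => 1))) x y ∧ y ∈ κ := by
      intro y hy
      induction hy with
      | refl => exact ⟨ReflTransGen.refl, by rw [← hκ]; exact subset_clu hx⟩
      | @tail b c _ h3 ih =>
        obtain ⟨i1, i2⟩ := ih
        have hc : c ∈ κ := by
          rw [← hκ] at i2 ⊢
          exact clu_step i2 h3
        refine ⟨i1.tail ⟨h3.1, ?_⟩, hc⟩
        rw [comb_in i2, comb_in hc]
        exact h3.2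
    exact (key y hxy).1

theorem clu_comb (hy : y ∈ Fre κ) (hyκ : Clu A y = κ) (hz : z ∈ Fre κᶜ) :
    Clu A (comb κ y z) = κ := by
  apply subset_antisymm
  · rintro w ⟨x, hx, hxw⟩
    have hxκ : x ∈ κ := by rw [← hyκ]; exact subset_clu hx
    clear hx
    induction hxw with
    | refl => exact hxκ
    | @tail b c _ h3 ih =>
      by_contra hc
      exact h3.2 (closed_comb hy hz ih hc h3.1)
  · intro w hw
    rw [← hyκ] at hw
    obtain ⟨x, hx, hxw⟩ := hw
    refine ⟨x, hx, ?_⟩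
    have key : ∀ w, ReflTransGen (Op y) x w →
        ReflTransGen (Op (comb κ y z)) x w ∧ w ∈ κ := by
      intro w hw
      induction hw with
      | refl => exact ⟨ReflTransGen.refl, by rw [← hyκ]; exact subset_clu hx⟩
      | @tail b c _ h3 ih =>
        obtain ⟨i1, i2⟩ := ih
        have hc : c ∈ κ := by
          rw [← hyκ] at i2 ⊢
          exact clu_step i2 h3
        refine ⟨i1.tail ⟨h3.1, ?_⟩, hc⟩
        rw [comb_in i2, comb_in hc]
        exact h3.2
    exact (key w hxw).1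

/-- The explored part. -/
def Exp (A κ : Set Pt) : Set Hg := {y | y ∈ Fre κ ∧ Clu A y = κ}

/-- Domain Markov property: the configurations with explored set `κ`. -/
theorem bijOn_comb (A κ : Set Pt) :
    Set.BijOn (fun p : Hg × Hg => comb κ p.1 p.2) (Exp A κ ×ˢ Fre κᶜ)
      {h | Lip h ∧ Clu A h = κ} := by
  refine ⟨?_, ?_, ?_⟩
  · rintro ⟨y, z⟩ ⟨hy, hz⟩
    exact ⟨lip_comb hy.1 hz, clu_comb hy.1 hy.2 hz⟩
  · rintro ⟨y, z⟩ ⟨hy, hz⟩ ⟨y', z'⟩ ⟨hy', hz'⟩ h
    have h1 : comb κ y z = comb κ y' z' := h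
    change y ∈ Exp A κ at hy
    change y' ∈ Exp A κ at hy'
    change z ∈ Fre κᶜ at hz
    change z' ∈ Fre κᶜ at hz'
    apply Prod.ext
    · show y = y'
      rw [← comb_self_left (z := z) hy.1, h1, comb_self_left hy'.1]
    · show z = z'
      rw [← comb_self_right (y := y) hz, h1, comb_self_right hz']
  · rintro h ⟨hh, hκ⟩
    have hT : ∀ x y, x ∈ κ → y ∉ κ → Adj x y → |h x| = 1 ∧ |h y| = 1 := by
      intro x y hx hy hxy
      rw [← hκ] at hx hy
      exact closed_of_cross hx hy hxy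
    exact ⟨(comb κ h (fun _ => 1), comb κ (fun _ => 1) h),
      ⟨⟨comb_mem_left hh hT, clu_comb_left hκ⟩, comb_mem_right hh hT⟩, comb_comb⟩

/-- The explored set increases with the absolute value. -/
theorem clu_mono {h h' : Hg} (hA : ∀ x, |h x| = 1 → |h' x| = 1) : Clu A h' ⊆ Clu A h := by
  rintro y ⟨x, hx, hxy⟩
  exact ⟨x, hx, hxy.lift id fun a b hab => ⟨hab.1, fun h => hab.2 ⟨hA a h.1, hA b h.2⟩⟩⟩

end Vale.Agent.P145W85.P153.F
end

section

/-!
# P153, block F: moments of the free ensembles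

Association of the absolute value with products of nonnegative linear functionals of the heights,
for odd heights with free boundary values `± 1`.
-/

namespace Vale.Agent.P145W85.P153.F

open Finset Vale.Agent.P145W85.P153

/-- Product of linear functionals. -/
noncomputable def pl {k : ℕ} (I : Finset Pt) (φ : Fin k → Pt → ℝ) (h : Hg) : ℝ :=
  ∏ i, ∑ x ∈ I, φ i x * (h x : ℝ)

open Classical in
/-- Moments of signs given the absolute value. -/
theorem sum_SGF_prod {k : ℕ} (U : Finset Pt) (a : Hg) (f : Fin k → Pt) :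
    ∑ s ∈ SGF U a, ∏ i, (((s (f i) : ℤˣ) : ℤ) : ℝ)
      = if (∀ s ∈ SG U a, ∏ i, s (f i) = 1) then (nSG U a : ℝ) else 0 := by
  have hprod : ∀ s : Pt → ℤˣ, ∏ i, (((s (f i) : ℤˣ) : ℤ) : ℝ) =
      (((∏ i, s (f i) : ℤˣ) : ℤ) : ℝ) := by
    intro s
    push_cast
    rfl
  split_ifs with h
  · rw [← card_SGF, Finset.card_eq_sum_ones, Nat.cast_sum]
    apply Finset.sum_congr rfl
    intro s hs
    rw [hprod, h s (mem_SGF.1 hs)]
    simp
  · push Not at h
    obtain ⟨t, ht, hxy⟩ := h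
    have ht1 : ∏ i, t (f i) = -1 := by
      rcases Int.units_eq_one_or (∏ i, t (f i)) with h1 | h1
      · exact absurd h1 hxy
      · exact h1
    have key : ∑ s ∈ SGF U a, ∏ i, (((s (f i) : ℤˣ) : ℤ) : ℝ)
        = ∑ s ∈ SGF U a, ∏ i, ((((t * s) (f i) : ℤˣ) : ℤ) : ℝ) := by
      symm
      apply Finset.sum_nbij' (fun s => t * s) (fun s => t⁻¹ * s)
      · intro s hs
        exact mem_SGF.2 (mul_mem ht (mem_SGF.1 hs))
      · intro s hs
        exact mem_SGF.2 (mul_mem (inv_mem ht) (mem_SGF.1 hs))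
      · intro s _; simp
      · intro s _; simp
      · intro s _; rfl
    have key2 : ∀ s ∈ SGF U a, ∏ i, ((((t * s) (f i) : ℤˣ) : ℤ) : ℝ)
        = - ∏ i, (((s (f i) : ℤˣ) : ℤ) : ℝ) := by
      intro s _
      rw [hprod, hprod]
      have : ∏ i, (t * s) (f i) = - ∏ i, s (f i) := by
        simp only [Pi.mul_apply, Finset.prod_mul_distrib, ht1]
        simp only [neg_mul, one_mul]
      rw [this]
      push_cast
      ring
    rw [Finset.sum_congr rfl key2, Finset.sum_neg_distrib] at key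
    linarith only [key]

open Classical in
/-- The conditional expectation of `pl` given the absolute value. -/
noncomputable def Fk {k : ℕ} (U I : Finset Pt) (φ : Fin k → Pt → ℝ) (a : Hg) : ℝ :=
  ∑ f ∈ Fintype.piFinset (fun _ : Fin k => I),
    (∏ i, φ i (f i) * ((max (a (f i)) 1 : ℤ) : ℝ)) *
      (if ∀ s ∈ SG U a, ∏ i, s (f i) = 1 then 1 else 0)

variable {k : ℕ} {D D' U I : Finset Pt} {φ : Fin k → Pt → ℝ}

theorem term_nonneg (hφ : ∀ i, ∀ x ∈ I, 0 ≤ φ i x) (a : Hg) {f : Fin k → Pt}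
    (hf : f ∈ Fintype.piFinset (fun _ : Fin k => I)) :
    0 ≤ ∏ i, φ i (f i) * ((max (a (f i)) 1 : ℤ) : ℝ) := by
  refine Finset.prod_nonneg fun i _ => mul_nonneg (hφ i _ (Fintype.mem_piFinset.1 hf i)) ?_
  exact_mod_cast (zero_le_one.trans (le_max_right (a (f i)) 1))

theorem Fk_nonneg (hφ : ∀ i, ∀ x ∈ I, 0 ≤ φ i x) (a : Hg) : 0 ≤ Fk U I φ a := by
  classical
  refine Finset.sum_nonneg fun f hf => mul_nonneg (term_nonneg hφ a hf) ?_
  split_ifs <;> norm_num

theorem Fk_mono (hφ : ∀ i, ∀ x ∈ I, 0 ≤ φ i x) : Monotone (Fk U I φ) := by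
  classical
  intro a b hab
  refine Finset.sum_le_sum fun f hf => ?_
  have h1 : ∏ i, φ i (f i) * ((max (a (f i)) 1 : ℤ) : ℝ) ≤
      ∏ i, φ i (f i) * ((max (b (f i)) 1 : ℤ) : ℝ) := by
    refine Finset.prod_le_prod (fun i _ => mul_nonneg (hφ i _ (Fintype.mem_piFinset.1 hf i)) ?_)
      fun i _ => mul_le_mul_of_nonneg_left ?_ (hφ i _ (Fintype.mem_piFinset.1 hf i))
    · exact_mod_cast (zero_le_one.trans (le_max_right (a (f i)) 1))
    · exact_mod_cast max_le_max (hab (f i)) le_rfl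
  by_cases h : ∀ s ∈ SG U a, ∏ i, s (f i) = 1
  · have h' : ∀ s ∈ SG U b, ∏ i, s (f i) = 1 := fun s hs => h s (SG_anti U hab hs)
    rw [if_pos h, if_pos h', mul_one, mul_one]
    exact h1
  · rw [if_neg h, mul_zero]
    refine mul_nonneg (term_nonneg hφ b hf) ?_
    split_ifs <;> norm_num

theorem sum_signs (a : Hg) (ha : ∀ x, 1 ≤ a x) :
    ∑ s ∈ SGF U a, pl I φ (fun x => (s x : ℤ) * a x) = (nSG U a : ℝ) * Fk U I φ a := by
  classical
  have h1 : ∀ s : Pt → ℤˣ, pl I φ (fun x => (s x : ℤ) * a x) =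
      ∑ f ∈ Fintype.piFinset (fun _ : Fin k => I),
        (∏ i, φ i (f i) * ((max (a (f i)) 1 : ℤ) : ℝ)) * ∏ i, (((s (f i) : ℤˣ) : ℤ) : ℝ) := by
    intro s
    unfold pl
    rw [Finset.prod_univ_sum]
    refine Finset.sum_congr rfl fun f _ => ?_
    rw [← Finset.prod_mul_distrib]
    refine Finset.prod_congr rfl fun i _ => ?_
    rw [max_eq_left (ha (f i))]
    push_cast
    ring
  rw [Finset.sum_congr rfl fun s _ => h1 s, Finset.sum_comm]
  unfold Fk
  rw [Finset.mul_sum]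
  refine Finset.sum_congr rfl fun f _ => ?_
  rw [← Finset.mul_sum, sum_SGF_prod]
  split_ifs <;> ring

/-- Absolute value. -/
def ab (h : Hg) : Hg := fun x => |h x|

theorem ab_signs {s : Pt → ℤˣ} {a : Hg} (ha : ∀ x, 1 ≤ a x) :
    ab (fun x => (s x : ℤ) * a x) = a := by
  funext x
  exact abs_units_mul (s x) (ha x)

theorem sum_free_pl (hDU : ∀ x ∈ D, x ∈ U) (X : Hg → ℝ) :
    ∑ h ∈ FreeF D U, X (ab h) * pl I φ h =
      ∑ a ∈ AbsF D, (nSG U a : ℝ) * X a * Fk U I φ a := by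
  rw [sum_free hDU fun h => X (ab h) * pl I φ h]
  refine Finset.sum_congr rfl fun a ha => ?_
  have ha1 := (mem_AbsF.1 ha).2.1
  have h1 : ∀ s ∈ SGF U a, X (ab fun x => (s x : ℤ) * a x) * pl I φ (fun x => (s x : ℤ) * a x) =
      X a * pl I φ (fun x => (s x : ℤ) * a x) := by
    intro s _
    rw [ab_signs ha1]
  rw [Finset.sum_congr rfl h1, ← Finset.mul_sum, sum_signs a ha1]
  ring

theorem sum_free_ab (hDU : ∀ x ∈ D, x ∈ U) (X : Hg → ℝ) :
    ∑ h ∈ FreeF D U, X (ab h) = ∑ a ∈ AbsF D, (nSG U a : ℝ) * X a := by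
  rw [sum_free hDU fun h => X (ab h)]
  refine Finset.sum_congr rfl fun a ha => ?_
  have ha1 := (mem_AbsF.1 ha).2.1
  have h1 : ∀ s ∈ SGF U a, X (ab fun x => (s x : ℤ) * a x) = X a := by
    intro s _
    rw [ab_signs ha1]
  rw [Finset.sum_congr rfl h1, Finset.sum_const, card_SGF, nsmul_eq_mul]

/-- Master inequality. -/
theorem master (hD : D' ⊆ D) (hDU : ∀ x ∈ D, x ∈ U) (X₁ X₂ : Hg → ℝ) (h1 : ∀ a, 0 ≤ X₁ a)
    (h2 : ∀ a, 0 ≤ X₂ a)
    (hX : ∀ a ∈ AbsConf D', ∀ b ∈ AbsConf D, X₁ a * X₂ b ≤ X₁ (a ⊓ b) * X₂ (a ⊔ b))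
    (hφ : ∀ i, ∀ x ∈ I, 0 ≤ φ i x) :
    (∑ h ∈ FreeF D' U, X₁ (ab h) * pl I φ h) * (∑ h ∈ FreeF D U, X₂ (ab h)) ≤
      (∑ h ∈ FreeF D' U, X₁ (ab h)) * ∑ h ∈ FreeF D U, X₂ (ab h) * pl I φ h := by
  classical
  have hD'U : ∀ x ∈ D', x ∈ U := fun x hx => hDU x (hD hx)
  rw [sum_free_pl hD'U, sum_free_pl hDU, sum_free_ab hD'U, sum_free_ab hDU]
  let w₁ : Hg → ℝ := fun a => if a ∈ AbsF D' then (nSG U a : ℝ) * X₁ a else 0
  let w₂ : Hg → ℝ := fun a => if a ∈ AbsF D then (nSG U a : ℝ) * X₂ a else 0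
  have hw₁ : ∀ a, 0 ≤ w₁ a := fun a => by
    dsimp [w₁]
    split_ifs
    · exact mul_nonneg (by positivity) (h1 a)
    · exact le_rfl
  have hw₂ : ∀ a, 0 ≤ w₂ a := fun a => by
    dsimp [w₂]
    split_ifs
    · exact mul_nonneg (by (clear * -; positivity)) (h2 a)
    · exact le_rfl
  have key := holley_weighted w₁ w₂ (Fk U I φ) (AbsF D') (AbsF D) hw₁ hw₂
    (Fk_nonneg hφ) (Fk_mono hφ)
    (fun a ha => by simp only [ha, ↓reduceIte, w₁]) (fun a ha => by simp [w₂, ha])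
    (by
      intro a b
      by_cases ha : a ∈ AbsF D'
      · by_cases hb : b ∈ AbsF D
        · have hinf : a ⊓ b ∈ AbsF D' := by
            rw [mem_AbsF] at *
            refine ⟨ha.1.inf hb.1, fun z => ?_, fun z hz => ?_⟩
            · exact le_min (ha.2.1 z) (hb.2.1 z)
            · have := ha.2.2 z hz
              have h2 := hb.2.1 z
              simp only [Pi.inf_apply]
              rw [this]
              exact min_eq_left h2
          have hsup : a ⊔ b ∈ AbsF D := by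
            rw [mem_AbsF] at *
            refine ⟨ha.1.sup hb.1, fun z => ?_, fun z hz => ?_⟩
            · exact (ha.2.1 z).trans (le_max_left _ _)
            · have h1 := ha.2.2 z (fun hz' => hz (hD hz'))
              have h2 := hb.2.2 z hz
              simp [h1, h2]
          simp only [w₁, w₂, ha, hb, hinf, hsup, if_true]
          have e1 : (nSG U a : ℝ) * nSG U b ≤ nSG U (a ⊓ b) * nSG U (a ⊔ b) := by
            exact_mod_cast nSG_mul U a b
          have e2 := hX a (mem_AbsF.1 ha) b (mem_AbsF.1 hb)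
          calc (nSG U a : ℝ) * X₁ a * ((nSG U b : ℝ) * X₂ b)
              = ((nSG U a : ℝ) * nSG U b) * (X₁ a * X₂ b) := by ring
            _ ≤ ((nSG U (a ⊓ b) : ℝ) * nSG U (a ⊔ b)) * (X₁ (a ⊓ b) * X₂ (a ⊔ b)) :=
                mul_le_mul e1 e2 (mul_nonneg (h1 _) (h2 _)) (by (clear * -; positivity))
            _ = _ := by ring
        · have : w₁ a * w₂ b = 0 := by simp only [hb, ↓reduceIte, mul_zero, w₂]
          rw [this]
          exact mul_nonneg (hw₁ _) (hw₂ _)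
      · have : w₁ a * w₂ b = 0 := by simp [w₁, ha]
        rw [this]
        exact mul_nonneg (hw₁ _) (hw₂ _))
  have e1 : ∑ a ∈ AbsF D', w₁ a * Fk U I φ a =
      ∑ a ∈ AbsF D', (nSG U a : ℝ) * X₁ a * Fk U I φ a :=
    Finset.sum_congr rfl fun a ha => by simp [w₁, ha]
  have e2 : ∑ a ∈ AbsF D, w₂ a * Fk U I φ a =
      ∑ a ∈ AbsF D, (nSG U a : ℝ) * X₂ a * Fk U I φ a :=
    Finset.sum_congr rfl fun a ha => by simp [w₂, ha]
  have e3 : ∑ a ∈ AbsF D', w₁ a = ∑ a ∈ AbsF D', (nSG U a : ℝ) * X₁ a :=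
    Finset.sum_congr rfl fun a ha => by simp [w₁, ha]
  have e4 : ∑ a ∈ AbsF D, w₂ a = ∑ a ∈ AbsF D, (nSG U a : ℝ) * X₂ a :=
    Finset.sum_congr rfl fun a ha => by simp [w₂, ha]
  rw [e1, e2, e3, e4] at key
  exact key

/-! ### Change of the window -/

/-- Additional free signs do not change averages. -/
theorem sum_window {U' : Finset Pt} (hU : U ⊆ U') (hDU : D ⊆ U)
    (hN : ∀ x ∈ D, ∀ y, Adj x y → y ∈ U) (F : Hg → ℝ)
    (hF : ∀ h h' : Hg, (∀ x ∈ U, h x = h' x) → F h = F h') :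
    ∃ c : ℝ, 0 < c ∧ (∑ h ∈ FreeF D U', F h) = c * ∑ h ∈ FreeF D U, F h ∧
      ((#(FreeF D U') : ℕ) : ℝ) = c * #(FreeF D U) := by
  classical
  set T : Finset Hg := (FreeF ∅ U').filter fun t => ∀ x ∈ U, t x = 1 with hT
  have hT0 : (fun _ => 1 : Hg) ∈ T := by
    rw [hT, Finset.mem_filter, mem_FreeF]
    exact ⟨⟨⟨fun _ => odd_one, fun x y _ => by simp only [sub_self, abs_zero, Nat.ofNat_nonneg]⟩, fun x _ => by simp, fun x _ => rfl⟩,
      fun x _ => rfl⟩
  have key : ∀ G : Hg → ℝ, (∀ h h' : Hg, (∀ x ∈ U, h x = h' x) → G h = G h') →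
      ∑ h ∈ FreeF D U', G h = (#T : ℝ) * ∑ h ∈ FreeF D U, G h := by
    intro G hG
    have h1 : (#T : ℝ) * ∑ h ∈ FreeF D U, G h = ∑ p ∈ FreeF D U ×ˢ T, G p.1 := by
      rw [Finset.sum_product, Finset.mul_sum]
      refine Finset.sum_congr rfl fun g _ => ?_
      show (#T : ℝ) * G g = ∑ _t ∈ T, G g
      rw [Finset.sum_const, nsmul_eq_mul]
    rw [h1]
    symm
    refine Finset.sum_nbij' (i := fun p => comb (U : Set Pt) p.1 p.2)
      (j := fun h => (comb (U : Set Pt) h (fun _ => 1), comb (U : Set Pt) (fun _ => 1) h))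
      ?_ ?_ ?_ ?_ ?_
    · rintro ⟨g, t⟩ hp
      obtain ⟨hg, ht⟩ := Finset.mem_product.1 hp
      simp only at hg ht
      rw [mem_FreeF] at hg ⊢
      rw [hT, Finset.mem_filter, mem_FreeF] at ht
      obtain ⟨ht, ht2⟩ := ht
      have habs : ∀ x, x ∉ D → |comb (U : Set Pt) g t x| = 1 := by
        intro x hx
        by_cases hxU : x ∈ (U : Set Pt)
        · rw [comb_in hxU]; exact hg.2.1 x hx
        · rw [comb_out hxU]; exact ht.2.1 x (by simp)
      refine ⟨⟨fun x => ?_, fun x y hxy => ?_⟩, habs, fun x hx => ?_⟩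
      · by_cases hxU : x ∈ (U : Set Pt)
        · rw [comb_in hxU]; exact hg.1.1 x
        · rw [comb_out hxU]; exact ht.1.1 x
      · have hcase : ∀ x y, Adj x y → x ∈ D →
            |comb (U : Set Pt) g t x - comb (U : Set Pt) g t y| ≤ 2 := by
          intro x y hxy hx
          have hxU : x ∈ (U : Set Pt) := hDU hx
          have hyU : y ∈ (U : Set Pt) := hN x hx y hxy
          rw [comb_in hxU, comb_in hyU]
          exact hg.1.2 x y hxy
        by_cases hx : x ∈ D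
        · exact hcase x y hxy hx
        · by_cases hy : y ∈ D
          · rw [abs_sub_comm]; exact hcase y x hxy.symm hy
          · have e1 := habs x hx
            have e2 := habs y hy
            rcases abs_eq (zero_le_one' ℤ) |>.1 e1 with e1 | e1 <;>
              rcases abs_eq (zero_le_one' ℤ) |>.1 e2 with e2 | e2 <;> simp [e1, e2]
      · have hxU : x ∉ (U : Set Pt) := fun h => hx (hU h)
        rw [comb_out hxU]
        exact ht.2.2 x hx
    · intro h hh
      rw [mem_FreeF] at hh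
      have hUU : ∀ x ∈ U, ∀ y, y ∉ U → Adj x y → |h x| = 1 ∧ |h y| = 1 := by
        intro x hx y hy hxy
        exact ⟨hh.2.1 x fun hxD => hy (hN x hxD y hxy), hh.2.1 y fun hyD => hy (hDU hyD)⟩
      refine Finset.mem_product.2 ⟨?_, ?_⟩
      · simp only
        rw [mem_FreeF]
        have h1 := comb_mem_left (T := (U : Set Pt)) hh.1
          (fun x y hx hy hxy => hUU x hx y hy hxy)
        refine ⟨h1.1, fun x hx => ?_, fun x hx => comb_out hx⟩
        by_cases hxU : x ∈ (U : Set Pt)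
        · rw [comb_in hxU]; exact hh.2.1 x hx
        · rw [comb_out hxU]; exact abs_one
      · simp only
        rw [hT, Finset.mem_filter, mem_FreeF]
        have h1 := comb_mem_right (T := (U : Set Pt)) hh.1
          (fun x y hx hy hxy => hUU x hx y hy hxy)
        refine ⟨⟨h1.1, fun x _ => ?_, fun x hx => ?_⟩, fun x hx => comb_in hx⟩
        · by_cases hxU : x ∈ (U : Set Pt)
          · rw [comb_in hxU]; exact abs_one
          · rw [comb_out hxU]; exact hh.2.1 x fun hxD => hxU (hDU hxD)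
        · have hxU : x ∉ (U : Set Pt) := fun h => hx (hU h)
          rw [comb_out hxU]
          exact hh.2.2 x hx
    · rintro ⟨g, t⟩ hp
      obtain ⟨hg, ht⟩ := Finset.mem_product.1 hp
      simp only at hg ht
      rw [mem_FreeF] at hg
      rw [hT, Finset.mem_filter, mem_FreeF] at ht
      apply Prod.ext
      · funext x
        by_cases hxU : x ∈ (U : Set Pt)
        · simp only [comb_in hxU]
        · simp only [comb_out hxU]
          exact (hg.2.2 x hxU).symm
      · funext x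
        by_cases hxU : x ∈ (U : Set Pt)
        · simp only [comb_in hxU]
          exact (ht.2 x hxU).symm
        · simp only [comb_out hxU]
    · intro h _
      exact comb_comb
    · rintro ⟨g, t⟩ _
      exact hG _ _ fun x hx => (comb_in (T := (U : Set Pt)) hx).symm
  refine ⟨#T, by exact_mod_cast Finset.card_pos.2 ⟨_, hT0⟩, key F hF, ?_⟩
  have h1 := key (fun _ => 1) fun _ _ _ => rfl
  simpa only [sum_const, nsmul_eq_mul, mul_one] using h1

theorem ev_window {U' : Finset Pt} (hU : U ⊆ U') (hDU : D ⊆ U)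
    (hN : ∀ x ∈ D, ∀ y, Adj x y → y ∈ U) (F : Hg → ℝ)
    (hF : ∀ h h' : Hg, (∀ x ∈ U, h x = h' x) → F h = F h') :
    ev (FreeF D U') F = ev (FreeF D U) F := by
  obtain ⟨c, hc, h1, h2⟩ := sum_window hU hDU hN F hF
  unfold ev
  rw [h1, h2, mul_div_mul_left _ _ hc.ne']

open Classical in
/-- The interior of a finite set. -/
noncomputable def innF (S : Finset Pt) : Finset Pt := S.filter fun x => ∀ y, Adj x y → y ∈ S

theorem mem_innF {S : Finset Pt} {x : Pt} : x ∈ innF S ↔ x ∈ S ∧ ∀ y, Adj x y → y ∈ S := by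
  classical
  simp only [innF, Prod.forall, mem_filter]

/-- The free ensemble on `S`. -/
theorem mem_free_inn {S : Finset Pt} {h : Hg} : h ∈ FreeF (innF S) S ↔ h ∈ Fre (S : Set Pt) := by
  rw [mem_FreeF]
  constructor
  · rintro ⟨h1, h2, h3⟩
    refine ⟨h1, fun x hx => h3 x hx, fun x _ hxy => h2 x fun hx => ?_⟩
    obtain ⟨y, hxy, hy⟩ := hxy
    exact hy ((mem_innF.1 hx).2 y hxy)
  · rintro ⟨h1, h2, h3⟩
    refine ⟨h1, fun x hx => ?_, fun x hx => h2 x hx⟩
    by_cases hxS : x ∈ S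
    · refine h3 x hxS ?_
      by_contra hcon
      push Not at hcon
      exact hx (mem_innF.2 ⟨hxS, hcon⟩)
    · rw [h2 x hxS, abs_one]

/-- Moments of the free ensemble on `S`. -/
noncomputable def Mo (S I : Finset Pt) (φ : Fin k → Pt → ℝ) : ℝ :=
  ev (FreeF (innF S) S) (pl I φ)

theorem pl_congr {h h' : Hg} (hh : ∀ x ∈ I, h x = h' x) : pl I φ h = pl I φ h' := by
  unfold pl
  refine Finset.prod_congr rfl fun i _ => Finset.sum_congr rfl fun x hx => ?_
  rw [hh x hx]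

theorem innF_mono {S S' : Finset Pt} (h : S ⊆ S') : innF S ⊆ innF S' := fun x hx =>
  mem_innF.2 ⟨h (mem_innF.1 hx).1, fun y hy => h ((mem_innF.1 hx).2 y hy)⟩

theorem innF_subset (S : Finset Pt) : innF S ⊆ S := fun _ hx => (mem_innF.1 hx).1

theorem Mo_window {S S' : Finset Pt} (h : S ⊆ S') (hI : I ⊆ S) :
    ev (FreeF (innF S) S') (pl I φ) = Mo S I φ :=
  ev_window h (innF_subset S) (fun _ hx => (mem_innF.1 hx).2) _
    fun _ _ hh => pl_congr fun x hx => hh x (hI hx)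

/-- Domain monotonicity of the moments. -/
theorem Mo_mono {S S' : Finset Pt} (h : S ⊆ S') (hI : I ⊆ S) (hφ : ∀ i, ∀ x ∈ I, 0 ≤ φ i x) :
    Mo S I φ ≤ Mo S' I φ := by
  rw [← Mo_window h hI]
  have h1 := master (D' := innF S) (D := innF S') (U := S') (I := I) (φ := φ) (innF_mono h)
    (fun x hx => innF_subset S' hx) (fun _ => 1) (fun _ => 1) (fun _ => zero_le_one)
    (fun _ => zero_le_one) (fun _ _ _ _ => le_rfl) hφ
  simp only [one_mul, Finset.sum_const, nsmul_eq_mul, mul_one] at h1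
  have c1 : (0 : ℝ) < #(FreeF (innF S) S') := by exact_mod_cast (nonempty_free _ _).card_pos
  have c2 : (0 : ℝ) < #(FreeF (innF S') S') := by exact_mod_cast (nonempty_free _ _).card_pos
  unfold Mo ev
  rw [div_le_div_iff₀ c1 c2]
  linarith only [h1]

/-- Upper bound: association. -/
theorem upper {S S' : Finset Pt} (h : S ⊆ S') (hI : I ⊆ S) (hφ : ∀ i, ∀ x ∈ I, 0 ≤ φ i x)
    (X : Hg → ℝ) (h0 : ∀ a, 0 ≤ X a)
    (hX : ∀ a b : Hg, (∀ x, 1 ≤ a x) → a ≤ b → X b ≤ X a) :
    ∑ h ∈ FreeF (innF S) S, X (ab h) * pl I φ h ≤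
      Mo S' I φ * ∑ h ∈ FreeF (innF S) S, X (ab h) := by
  have h1 := master (D' := innF S) (D := innF S) (U := S) (I := I) (φ := φ) Subset.rfl
    (fun x hx => innF_subset S hx) X (fun _ => 1) h0 (fun _ => zero_le_one)
    (fun a ha b hb => by
      rw [mul_one, mul_one]
      exact hX _ _ (fun x => le_min (ha.2.1 x) (hb.2.1 x)) inf_le_left) hφ
  simp only [one_mul, Finset.sum_const, nsmul_eq_mul, mul_one] at h1
  have c1 : (0 : ℝ) < #(FreeF (innF S) S) := by exact_mod_cast (nonempty_free _ _).card_pos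
  have h2 : ∑ h ∈ FreeF (innF S) S, X (ab h) * pl I φ h ≤
      Mo S I φ * ∑ h ∈ FreeF (innF S) S, X (ab h) := by
    unfold Mo ev
    rw [div_mul_eq_mul_div, le_div_iff₀ c1]
    linarith only [h1]
  exact h2.trans (mul_le_mul_of_nonneg_right (Mo_mono h hI hφ)
    (Finset.sum_nonneg fun _ _ => h0 _))

/-- Lower bound. -/
theorem lower {S S' : Finset Pt} (h : S' ⊆ S) (hI : I ⊆ S') (hφ : ∀ i, ∀ x ∈ I, 0 ≤ φ i x)
    (X : Hg → ℝ) (h0 : ∀ a, 0 ≤ X a)
    (hX : ∀ a b : Hg, (∀ x, x ∉ S' → a x = b x) → X a = X b) :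
    Mo S' I φ * ∑ h ∈ FreeF (innF S) S, X (ab h) ≤
      ∑ h ∈ FreeF (innF S) S, X (ab h) * pl I φ h := by
  have h1 := master (D' := innF S') (D := innF S) (U := S) (I := I) (φ := φ) (innF_mono h)
    (fun x hx => innF_subset S hx) (fun _ => 1) X (fun _ => zero_le_one) h0
    (fun a ha b hb => by
      rw [one_mul, one_mul]
      refine (hX b (a ⊔ b) fun x hx => ?_).le
      have e1 := ha.2.2 x fun h => hx (innF_subset S' h)
      have e2 := hb.2.1 x
      rw [Pi.sup_apply, e1]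
      exact (sup_eq_right.2 e2).symm) hφ
  simp only [one_mul, Finset.sum_const, nsmul_eq_mul, mul_one] at h1
  have c1 : (0 : ℝ) < #(FreeF (innF S') S) := by exact_mod_cast (nonempty_free _ _).card_pos
  rw [← Mo_window h hI]
  unfold ev
  rw [div_mul_eq_mul_div, div_le_iff₀ c1]
  linarith only [h1]

end Vale.Agent.P145W85.P153.F
end
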