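import Mathlib
import Vale.Agent.P145W85.Bd.B1
import Vale.Agent.P145W85.Bd.B2

set_option linter.all false

section

/-!
# P153, finite volume: the model with free `{0,1}` boundary values on the triangular lattice

`reg Λ` is the finite set of Lipschitz functions on `ℤ × ℤ` which vanish off `Λ` and take a value
in `{0, 1}` at every vertex of `Λ` with a neighbour outside `Λ`.
-/

namespace Vale.Agent.P145W85.P153.Fv

open Finset

/-- the vertices of `Λ` all whose neighbours are in `Λ` -/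
def inner (Λ : Finset (ℤ × ℤ)) : Set (ℤ × ℤ) := {v | v ∈ Λ ∧ ∀ w, Adj v w → w ∈ Λ}

open Classical in
/-- the boundary condition: `0` outside, `{0, 1}` on the boundary, free inside -/
noncomputable def bc (Λ : Finset (ℤ × ℤ)) (v : ℤ × ℤ) : Set ℤ :=
  if v ∉ Λ then {0} else if v ∈ inner Λ then Set.univ else {0, 1}

theorem bc_out {Λ : Finset (ℤ × ℤ)} {v : ℤ × ℤ} (h : v ∉ Λ) : bc Λ v = {0} := by
  simp [bc, h]

theorem bc_inner {Λ : Finset (ℤ × ℤ)} {v : ℤ × ℤ} (h : v ∈ inner Λ) : bc Λ v = Set.univ := by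
  simp [bc, h, h.1]

theorem bc_bd {Λ : Finset (ℤ × ℤ)} {v : ℤ × ℤ} (h : v ∈ Λ) (h' : v ∉ inner Λ) :
    bc Λ v = {0, 1} := by
  simp only [bc, h, not_true_eq_false, ↓reduceIte, h']

theorem zero_mem_bc (Λ : Finset (ℤ × ℤ)) (v : ℤ × ℤ) : (0 : ℤ) ∈ bc Λ v := by
  unfold bc
  split_ifs <;> simp

theorem adj_iff {x y : ℤ × ℤ} : Adj x y ↔ (y.1 = x.1 + 1 ∧ y.2 = x.2) ∨
    (y.1 = x.1 - 1 ∧ y.2 = x.2) ∨ (y.1 = x.1 ∧ y.2 = x.2 + 1) ∨ (y.1 = x.1 ∧ y.2 = x.2 - 1) ∨
    (y.1 = x.1 + 1 ∧ y.2 = x.2 - 1) ∨ (y.1 = x.1 - 1 ∧ y.2 = x.2 + 1) := by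
  unfold Adj
  simp only [Set.mem_insert_iff, Set.mem_singleton_iff, Prod.mk.injEq]
  constructor <;> intro h <;> rcases h with h | h | h | h | h | h <;> omega

theorem adj_comm' {x y : ℤ × ℤ} : Adj x y ↔ Adj y x := by
  rw [adj_iff, adj_iff]
  constructor <;> intro h <;> rcases h with h | h | h | h | h | h <;> omega

/-- every vertex is joined to the outside of a finite set by a horizontal path -/
theorem exists_out (Λ : Finset (ℤ × ℤ)) (v : ℤ × ℤ) : ∃ n ≤ #Λ, (v.1 + (n : ℤ), v.2) ∉ Λ := by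
  classical
  by_contra hcon
  push Not at hcon
  have h1 : (Finset.range (#Λ + 1)).image (fun n : ℕ => (v.1 + (n : ℤ), v.2)) ⊆ Λ := by
    intro w hw
    obtain ⟨n, hn, rfl⟩ := Finset.mem_image.1 hw
    exact hcon n (by simpa only [mem_range, Order.lt_add_one_iff] using hn)
  have h2 := Finset.card_le_card h1
  rw [Finset.card_image_of_injective, Finset.card_range] at h2
  · omega
  · intro a b hab
    simpa only [Prod.mk.injEq, add_right_inj, Nat.cast_inj, and_true] using hab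

theorem finite_reg (Λ : Finset (ℤ × ℤ)) : (Lp Adj (bc Λ)).Finite := by
  refine finite_Lp Λ (fun v hv => ?_) 0 (fun v hv a ha => ?_) (#Λ) (fun v _ => ?_)
  · rw [bc_out hv]
    exact Set.subsingleton_singleton
  · rw [bc_out hv] at ha
    simp [Set.mem_singleton_iff.1 ha]
  · obtain ⟨n, hn, hn'⟩ := exists_out Λ v
    refine ⟨n, hn, fun i => (v.1 + ((n : ℤ) - i), v.2), fun i hi => ?_, ?_, fun a ha => ?_⟩
    · rw [adj_iff]
      right; left
      constructor
      · push_cast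
        ring
      · rfl
    · simp
    · simp only [Nat.cast_zero, sub_zero] at ha
      rw [bc_out hn'] at ha
      simp [Set.mem_singleton_iff.1 ha]

/-- the height functions of the region `Λ` with free `{0,1}` boundary values -/
noncomputable def reg (Λ : Finset (ℤ × ℤ)) : Finset (ℤ × ℤ → ℤ) := (finite_reg Λ).toFinset

theorem reg_isLp (Λ : Finset (ℤ × ℤ)) : IsLp Adj (bc Λ) (reg Λ) := fun h => by simp [reg]

theorem zero_mem_reg (Λ : Finset (ℤ × ℤ)) : (fun _ => 0) ∈ reg Λ :=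
  (reg_isLp Λ _).2 ⟨fun v => zero_mem_bc Λ v, fun _ _ _ => by simp only [sub_self, abs_zero, zero_le_one]⟩

theorem reg_nonempty (Λ : Finset (ℤ × ℤ)) : (reg Λ).Nonempty := ⟨_, zero_mem_reg Λ⟩

theorem mem_reg {Λ : Finset (ℤ × ℤ)} {h : ℤ × ℤ → ℤ} : h ∈ reg Λ ↔
    (∀ v, v ∉ Λ → h v = 0) ∧ (∀ v ∈ Λ, v ∉ inner Λ → h v = 0 ∨ h v = 1) ∧
      ∀ v w, Adj v w → |h v - h w| ≤ 1 := by
  rw [reg_isLp Λ h]
  constructor
  · rintro ⟨h1, h2⟩
    refine ⟨fun v hv => ?_, fun v hv hv' => ?_, h2⟩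
    · have := h1 v
      rw [bc_out hv] at this
      exact this
    · have := h1 v
      rw [bc_bd hv hv'] at this
      exact this
  · rintro ⟨h1, h2, h3⟩
    refine ⟨fun v => ?_, h3⟩
    by_cases hv : v ∈ Λ
    · by_cases hv' : v ∈ inner Λ
      · rw [bc_inner hv']
        trivial
      · rw [bc_bd hv hv']
        exact h2 v hv hv'
    · rw [bc_out hv]
      exact h1 v hv

/-! ### symmetries -/

/-- an automorphism of the triangular lattice -/
def Aut (θ : (ℤ × ℤ) ≃ (ℤ × ℤ)) : Prop := ∀ v w, Adj v w ↔ Adj (θ v) (θ w)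

theorem bc_aut {θ : (ℤ × ℤ) ≃ (ℤ × ℤ)} (hθ : Aut θ) {Λ Λ' : Finset (ℤ × ℤ)}
    (h : ∀ v, θ v ∈ Λ' ↔ v ∈ Λ) (v : ℤ × ℤ) : bc Λ' (θ v) = bc Λ v := by
  have h2 : θ v ∈ inner Λ' ↔ v ∈ inner Λ := by
    constructor
    · rintro ⟨h3, h4⟩
      exact ⟨(h v).1 h3, fun w hw => (h w).1 (h4 _ ((hθ v w).1 hw))⟩
    · rintro ⟨h3, h4⟩
      refine ⟨(h v).2 h3, fun w hw => ?_⟩
      have h5 : Adj v (θ.symm w) := (hθ v (θ.symm w)).2 (by simpa using hw)
      have := (h (θ.symm w)).2 (h4 _ h5)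
      simpa using this
  by_cases h3 : v ∈ Λ
  · by_cases h4 : v ∈ inner Λ
    · rw [bc_inner h4, bc_inner (h2.2 h4)]
    · rw [bc_bd h3 h4, bc_bd ((h v).2 h3) fun h5 => h4 (h2.1 h5)]
  · rw [bc_out h3, bc_out fun h5 => h3 ((h v).1 h5)]

/-- the reflection in row `l` -/
def th (l : ℤ) (v : ℤ × ℤ) : ℤ × ℤ := (v.1 + (v.2 - l), 2 * l - v.2)

theorem th_th (l : ℤ) (v : ℤ × ℤ) : th l (th l v) = v := by
  unfold th
  ext <;> simp <;> ring

theorem th_adj (l : ℤ) {v w : ℤ × ℤ} (h : Adj v w) : Adj (th l v) (th l w) := by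
  rw [adj_iff] at *
  unfold th
  simp only
  rcases h with h | h | h | h | h | h <;> omega

/-- the reflection as an equivalence -/
def thE (l : ℤ) : (ℤ × ℤ) ≃ (ℤ × ℤ) := ⟨th l, th l, th_th l, th_th l⟩

theorem thE_aut (l : ℤ) : Aut (thE l) := fun v w => ⟨fun h => th_adj l h, fun h => by
  have := th_adj l h
  simpa [thE, th_th] using this⟩

/-- the rows `≥ l` -/
def up (l : ℤ) : Set (ℤ × ℤ) := {v | l ≤ v.2}

/-- the rows `≤ l` -/
def dn (l : ℤ) : Set (ℤ × ℤ) := {v | v.2 ≤ l}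

/-- the row `l` -/
def row (l : ℤ) : Set (ℤ × ℤ) := {v | v.2 = l}

theorem up_inter_dn (l : ℤ) : up l ∩ dn l = row l := by
  ext v
  simp only [up, dn, row, Set.mem_inter_iff, Set.mem_ofPred_eq]
  (clear * -; omega)

theorem sep_up_dn (l : ℤ) : Sep Adj (up l) (dn l) := by
  constructor
  · ext v
    simp only [up, dn, Set.mem_union, Set.mem_ofPred_eq, Set.mem_univ, iff_true]
    omega
  · intro v hv w hw
    simp only [up, dn, Set.mem_ofPred_eq] at hv hw
    rw [adj_iff, adj_iff]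
    omega

theorem th_up (l : ℤ) : ∀ v ∈ up l, th l v ∈ dn l := by
  intro v hv
  simp only [up, dn, th, Set.mem_ofPred_eq] at *
  omega

theorem th_row (l : ℤ) : ∀ v ∈ row l, th l v = v := by
  intro v hv
  simp only [row, th, Set.mem_ofPred_eq] at *
  ext <;> simp only [add_eq_left] <;> omega

/-- `Λ` is symmetric with respect to row `l` -/
def SymRow (Λ : Finset (ℤ × ℤ)) (l : ℤ) : Prop := ∀ v, th l v ∈ Λ ↔ v ∈ Λ

theorem bc_th {Λ : Finset (ℤ × ℤ)} {l : ℤ} (h : SymRow Λ l) (v : ℤ × ℤ) :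
    bc Λ (th l v) ⊆ bc Λ v := (bc_aut (thE_aut l) (θ := thE l) h v).le

/-- Markov property in the rows -/
theorem reg_markov (Λ : Finset (ℤ × ℤ)) (l : ℤ) {F : (ℤ × ℤ → ℤ) → ℝ} (hF : Dep (up l) F)
    {h : ℤ × ℤ → ℤ} (hh : h ∈ reg Λ) : cE (reg Λ) (dn l) F h = cE (reg Λ) (row l) F h := by
  have := (reg_isLp Λ).markov (sep_up_dn l) hF hh
  rwa [up_inter_dn] at this

/-- reflection identity in a region symmetric with respect to row `l` -/
theorem reg_reflect {Λ : Finset (ℤ × ℤ)} {l : ℤ} (hΛ : SymRow Λ l)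
    {F G : (ℤ × ℤ → ℤ) → ℝ} (hF : Dep (up l) F) (hG : Dep (up l) G) :
    ev (reg Λ) (fun h => F h * G (h ∘ th l))
      = ev (reg Λ) (fun h => cE (reg Λ) (dn l) F h * cE (reg Λ) (dn l) G h) := by
  have := (reg_isLp Λ).reflect (th_th l) (fun v w h => th_adj l h) (bc_th hΛ) (sep_up_dn l)
    (th_up l) (by rw [up_inter_dn]; exact th_row l) hF hG
  rw [this, up_inter_dn]
  apply ev_congr
  intro h hh
  rw [reg_markov Λ l hF hh, reg_markov Λ l hG hh]

/-- reflection positivity -/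
theorem reg_rp {Λ : Finset (ℤ × ℤ)} {l : ℤ} (hΛ : SymRow Λ l)
    {F : (ℤ × ℤ → ℤ) → ℝ} (hF : Dep (up l) F) :
    0 ≤ ev (reg Λ) (fun h => F h * F (h ∘ th l)) := by
  rw [reg_reflect hΛ hF hF]
  exact ev_nonneg _ _ fun h _ => mul_self_nonneg _

/-- the hexagon of radius `n` -/
noncomputable def hex (n : ℕ) : Finset (ℤ × ℤ) :=
  ((Finset.Icc (-(n : ℤ)) n) ×ˢ (Finset.Icc (-(n : ℤ)) n)).filter
    (fun v => |v.1 + v.2| ≤ n)

theorem mem_hex {n : ℕ} {v : ℤ × ℤ} : v ∈ hex n ↔ |v.1| ≤ n ∧ |v.2| ≤ n ∧ |v.1 + v.2| ≤ n := by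
  simp only [hex, Finset.mem_filter, Finset.mem_product, Finset.mem_Icc, abs_le]
  tauto

theorem hex_sym (n : ℕ) : SymRow (hex n) 0 := by
  intro v
  rw [mem_hex, mem_hex]
  simp only [th, sub_zero, mul_zero, zero_sub, abs_neg]
  rw [show v.1 + v.2 + -v.2 = v.1 by ring]
  tauto

/-- the rectangle: rows `-H ≤ j ≤ H'` of the vertical strip `|2 a + j| ≤ 2 N` -/
noncomputable def rect (N H H' : ℕ) : Finset (ℤ × ℤ) :=
  ((Finset.Icc (-((N : ℤ) + H + H')) (N + H + H')) ×ˢ (Finset.Icc (-(H : ℤ)) H')).filter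
    (fun v => |2 * v.1 + v.2| ≤ 2 * N)

theorem mem_rect {N H H' : ℕ} {v : ℤ × ℤ} :
    v ∈ rect N H H' ↔ (-(H : ℤ) ≤ v.2 ∧ v.2 ≤ H') ∧ |2 * v.1 + v.2| ≤ 2 * N := by
  simp only [rect, Finset.mem_filter, Finset.mem_product, Finset.mem_Icc]
  constructor
  · rintro ⟨⟨_, h2⟩, h3⟩
    exact ⟨h2, h3⟩
  · rintro ⟨h1, h2⟩
    refine ⟨⟨?_, h1⟩, h2⟩
    rw [abs_le] at h2
    constructor <;> omega

end Vale.Agent.P145W85.P153.Fv
end

section

/-!
P153, block A3: statements of the steps. Each `S_x` is proved as `theorem s_x : S_x` in its own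
file (hypotheses: earlier steps, if any, as arguments).
-/

namespace Vale.Agent.P145W85.P153.A

open MeasureTheory Filter Topology Relation
open Vale.Agent.P145W85.P153.GFF (Adj Ht Pat LocLim hexa Plane)
open Vale.Agent.P145W85.P153.Topo (Conn)

/-- (1) supermodularity. -/
def S_super : Prop := ∀ (D : Finset Pt) (τ τ' : Sp), τ ∈ Adm D → τ' ∈ Adm D →
  w D τ * w D τ' ≤ w D (τ ⊔ τ') * w D (τ ⊓ τ')

/-- (2) the law of tau. -/
def S_e1 : Prop := ∀ (D : Finset Pt), (Adm D).Finite ∧ (Cf D).Finite ∧ (Cf D).Nonempty ∧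
  ∀ F : Om → ℝ, E2 D F = (∑ᶠ τ ∈ Adm D, ∑ᶠ s ∈ (G D τ : Set Sp), F (pr τ s)) /
    ∑ᶠ τ ∈ Adm D, (w D τ : ℝ)

/-- (3) association. -/
def S_fkg : Prop := ∀ (D : Finset Pt) (f g : Sp → ℝ), Monotone f → Monotone g →
  E1 D f * E1 D g ≤ E1 D fun τ => f τ * g τ

/-- (4) smaller domains have larger tau. -/
def S_dom : Prop := ∀ (D D' : Finset Pt), D ⊆ D' → ∀ f : Sp → ℝ, Monotone f → E1 D' f ≤ E1 D f

/-- (5) product structure of separated domains. -/
def S_prod : Prop := ∀ (D D' : Finset Pt), (∀ x ∈ D, ∀ y ∈ D', x ≠ y ∧ ¬ Adj x y) →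
  ∀ f g : Sp → ℝ, Loc D f → Loc D' g → E1 (D ∪ D') (fun τ => f τ * g τ) = E1 D f * E1 D' g

/-- (6) local limits are measures (compactness). -/
def S_comp : Prop := ∀ (X : Type) [Fintype X] [TopologicalSpace X] [DiscreteTopology X]
  [MeasurableSpace X] [BorelSpace X] (ν : Finset Pt → Measure (Pt → X)),
  (∀ D, IsProbabilityMeasure (ν D)) →
  (∀ (B : Finset Pt) (F : (Pt → X) → ℝ), Loc B F → ∃ l : ℝ, Tendsto (fun D => ∫ ω, F ω ∂(ν D))
    atTop (𝓝 l)) →
  ∃ μ : Measure (Pt → X), IsProbabilityMeasure μ ∧ ∀ (B : Finset Pt) (F : (Pt → X) → ℝ), Loc B F →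
    Tendsto (fun D => ∫ ω, F ω ∂(ν D)) atTop (𝓝 (∫ ω, F ω ∂μ))

/-- (7) the limit law of tau exists. -/
def S_mu : Prop := ∃ μ, IsMu μ

/-- (8) it is translation invariant. -/
def S_muInv : Prop := ∀ μ, IsMu μ → ∀ z, μ.map (tr z) = μ

/-- (9) it is mixing. -/
def S_muMix : Prop := ∀ μ, IsMu μ → ∀ (B : Finset Pt) (f g : Sp → ℝ), Loc B f → Loc B g →
  Tendsto (fun z => ∫ τ, f τ * g (tr z τ) ∂μ) cofinite (𝓝 ((∫ τ, f τ ∂μ) * ∫ τ, g τ ∂μ))

/-- (10) finite energy. -/
def S_muFlip : Prop := ∀ μ, IsMu μ → ∀ (x : Pt) (S : Set Sp), MeasurableSet S →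
  μ (flipAt x ⁻¹' S) ≤ 64 * μ S

/-- Two distinct infinite bichromatic clusters. -/
def TwoInf : Set Sp := {τ | ∃ x y, {u | Bich Set.univ τ x u}.Infinite ∧
  {u | Bich Set.univ τ y u}.Infinite ∧ ¬ Bich Set.univ τ x y}

/-- (11) Burton-Keane. -/
def S_bk : Prop := ∀ μ : Measure Sp, IsProbabilityMeasure μ → (∀ z, μ.map (tr z) = μ) →
  (∀ (B : Finset Pt) (f g : Sp → ℝ), Loc B f → Loc B g →
    Tendsto (fun z => ∫ τ, f τ * g (tr z τ) ∂μ) cofinite (𝓝 ((∫ τ, f τ ∂μ) * ∫ τ, g τ ∂μ))) →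
  (∀ (x : Pt) (S : Set Sp), MeasurableSet S → μ (flipAt x ⁻¹' S) ≤ 64 * μ S) → μ TwoInf = 0

/-- The output of (11) used below. -/
def FarLim (μ : Measure Sp) : Prop := ∀ x y, Tendsto (fun R => μ.real (Far R x y)) atTop (𝓝 0)

/-- (12) local form. -/
def S_far : Prop := ∀ μ : Measure Sp, IsProbabilityMeasure μ → μ TwoInf = 0 → FarLim μ

/-- (13) given tau, sigma is given by coins on the bichromatic clusters. -/
def S_coin : Prop := ∀ (D B : Finset Pt) (F : Om → ℝ) (τ : Sp), B ⊆ D → Loc B F → τ ∈ Adm D →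
  (∑ᶠ s ∈ (G D τ : Set Sp), F (pr τ s)) / (w D τ : ℝ) = coin B (Bich Set.univ τ) F τ

/-- (14) localisation of the coin average. -/
def S_coin2 : Prop := ∀ (R : ℕ) (B : Finset Pt) (F : Om → ℝ), B ⊆ bx R → Loc B F →
  Loc (bx (R + 1)) (fun τ => coin B (Bich (bx (R + 1)) τ) F τ) ∧
  ∀ τ : Sp, (∀ x ∈ B, ∀ y ∈ B, τ ∉ Far R x y) →
    coin B (Bich Set.univ τ) F τ = coin B (Bich (bx (R + 1)) τ) F τ

/-- (15) the limit law of (tau, sigma) exists. -/
def S_q : Prop := (∃ μ, IsMu μ ∧ FarLim μ) → ∃ Q, IsQ Q ∧ FarLim (Q.map tau)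

/-- (16) two distant even functions: the coin average factorises. -/
def S_coin3 : Prop := ∀ (R : ℕ) (B : Finset Pt) (F F' : Om → ℝ), B ⊆ bx R → Loc B F → Loc B F' →
  (∀ ω, F (neg ω) = F ω) → (∀ ω, F' (neg ω) = F' ω) → ∀ z : Pt, (2 * (R : ℤ) + 4 < |z.1| ∨
    2 * (R : ℤ) + 4 < |z.2|) → ∀ τ : Sp, (∀ x ∈ B, ∀ y ∈ B, τ ∉ Far R x y) →
    (∀ x ∈ B, ∀ y ∈ B, tr z τ ∉ Far R x y) →
    coin (B ∪ B.image (· + z)) (Bich Set.univ τ) (fun ω => F ω * F' (tr z ω)) τ =
      coin B (Bich (bx (R + 1)) τ) F τ * coin B (Bich (bx (R + 1)) (tr z τ)) F' (tr z τ)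

/-- (17) mixing of even functions. -/
def S_mixQ : Prop := ∀ Q, IsQ Q → FarLim (Q.map tau) → ∀ (B : Finset Pt) (F F' : Om → ℝ),
  Loc B F → Loc B F' → (∀ ω, F (neg ω) = F ω) → (∀ ω, F' (neg ω) = F' ω) →
  Tendsto (fun z => ∫ ω, F ω * F' (tr z ω) ∂Q) cofinite (𝓝 ((∫ ω, F ω ∂Q) * ∫ ω, F' ω ∂Q))

/-- (18) symmetries. -/
def S_sym : Prop := ∀ Q, IsQ Q → (∀ θ : Pt ≃ Pt, (∀ v u, Adj v u ↔ Adj (θ v) (θ u)) →
  Q.map (fun ω x => ω (θ x)) = Q) ∧ Q.map neg = Q ∧ ∀ᵐ ω ∂Q, Comp ω

/-- (19) heights and pairs. -/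
def S_rc : Prop :=
  (∀ ω, Comp ω → ∀ x y, Adj x y → rc ω y - rc ω x = inc (ω x) (ω y)) ∧
  (∀ ω, Comp ω → ∀ x, (rc ω x + cd (ω 0) - cd (ω x)) % 4 = 0) ∧
  (∀ φ : Pt → ℤ, (∀ x y, Adj x y → |φ x - φ y| ≤ 1) → Comp (fun x => enc (φ x)) ∧
    ∀ x, rc (fun x => enc (φ x)) x = φ x - φ 0) ∧
  (∀ ω x, rc (neg ω) x = - rc ω x) ∧
  (∀ ω, Comp ω → ∀ z x, rc (tr z ω) x = rc ω (x + z) - rc ω z) ∧
  Measurable rc ∧ ∀ B : Finset Pt, ∃ B' : Finset Pt, ∀ ω ω' : Om, (∀ x ∈ B', ω x = ω' x) →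
    ∀ x ∈ B, rc ω x = rc ω' x

/-- (20) bijection between heights and pairs. -/
def S_bij : Prop := ∀ D : Finset Pt, Cc D → Set.BijOn (fun φ x => enc (φ x)) (Ht D) (Cf D)

/-- (21) local limits along all exhausting sequences with connected complements. -/
def S_loc : Prop := ∀ Q, IsQ Q → ∀ (B : Finset Pt) (a : Pt → ℤ), Tendsto
  (fun D : Finset Pt => ((Ht D ∩ Pat B a).ncard : ℝ) / (Ht D).ncard) (atTop ⊓ 𝓟 {D | Cc D})
    (𝓝 ((Q.map rc).real (Pat B a)))

/-- (22) domains used. -/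
def S_cc : Prop := (∀ n, Cc (hexa n)) ∧ (∀ N H H', Cc (Fv.rect N H H')) ∧
  ∀ B : Finset Pt, ∃ n : ℕ, (∀ m, n ≤ m → B ⊆ hexa m) ∧ ∀ N H H', n ≤ N → n ≤ H → n ≤ H' →
    B ⊆ Fv.rect N H H'

/-- (23) finite volume reflection positivity, local functions of the recentred heights. -/
def S_rp0 : Prop := ∀ (n : ℕ) (F : (Pt → ℤ) → ℝ),
  (∀ φ ψ, (∀ x : Pt, 0 ≤ x.2 → φ x = ψ x) → F φ = F ψ) →
  0 ≤ ∑ᶠ φ ∈ Ht (hexa n), F (fun x => φ x - φ 0) * F (fun x => φ (GFF.th x) - φ 0)

/-- (24) reflection positivity of the limit. -/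
def S_rp : Prop := ∀ Q, IsQ Q → ∀ F : (Pt → ℤ) → ℝ, Measurable F → (∃ M, ∀ φ, |F φ| ≤ M) →
    (∀ φ ψ, (∀ x, 0 ≤ x.2 → φ x = ψ x) → F φ = F ψ) →
    0 ≤ ∫ φ, F φ * F (fun x => φ (GFF.th x)) ∂(Q.map rc)

/-- (25) gradient Gibbs property. -/
def S_gibbs : Prop := ∀ P : Measure (Pt → ℤ), IsProbabilityMeasure P → LocLim P hexa → GFF.Gibbs P

/-- (26) mixing of even functions of the heights. -/
def S_mixP : Prop := ∀ Q, IsQ Q → FarLim (Q.map tau) → ∀ (B : Finset Pt) (W W' : (Pt → ℤ) → ℝ),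
  (∃ M, ∀ φ, |W φ| ≤ M) → (∃ M, ∀ φ, |W' φ| ≤ M) →
  (∀ φ ψ, (∀ x ∈ B, φ x = ψ x) → W φ = W ψ) → (∀ φ ψ, (∀ x ∈ B, φ x = ψ x) → W' φ = W' ψ) →
  (∀ φ, W (fun x => - φ x) = W φ) → (∀ φ, W' (fun x => - φ x) = W' φ) →
  Tendsto (fun t => ∫ φ, W φ * W' (GFF.shift t φ) ∂(Q.map rc)) cofinite
    (𝓝 ((∫ φ, W φ ∂(Q.map rc)) * ∫ φ, W' φ ∂(Q.map rc)))

end Vale.Agent.P145W85.P153.A
end

section

/-!
Paths in the triangular lattice `ℤ × ℤ` (adjacency `Step`), and the primitive of a
`ZMod 2`-valued cochain with zero sum around every triangle.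
-/

namespace Vale.Agent.P145W85.P153.Topo

open Relation

theorem step_symm {x y : ℤ × ℤ} (h : Step x y) : Step y x := by
  unfold Step at h ⊢; rcases h with h | h | h | h | h | h <;> omega

instance (x y : ℤ × ℤ) : Decidable (Step x y) := by unfold Step; infer_instance

variable {S T : Set (ℤ × ℤ)} {x y z : ℤ × ℤ}

end Vale.Agent.P145W85.P153.Topo
end

section

set_option linter.all false

/-!
P153, block A3, step (15): the limit law of (tau, sigma).
-/

namespace Vale.Agent.P145W85.P153.A.QLim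

open MeasureTheory Filter Topology Relation
open Vale.Agent.P145W85.P153.GFF (Adj Ht Pat LocLim hexa)
open Vale.Agent.P145W85.P153.A

section loc

variable {X : Type}

/-- the restriction to `B` -/
def res (B : Finset Pt) (ω : Pt → X) : B → X := fun b => ω b

theorem loc_factor {B : Finset Pt} {F : (Pt → X) → ℝ} (h : Loc B F) :
    ∃ g : (B → X) → ℝ, F = g ∘ res B := by
  classical
  refine ⟨Function.extend (res B) F (fun _ => 0), ?_⟩
  have hf : Function.FactorsThrough F (res B) := by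
    intro ω ω' hω
    exact h ω ω' fun x hx => congrFun hω ⟨x, hx⟩
  exact (hf.extend_comp (fun _ => 0)).symm

theorem loc_bdd [Finite X] {B : Finset Pt} {F : (Pt → X) → ℝ} (h : Loc B F) :
    ∃ M : ℝ, 0 ≤ M ∧ ∀ ω, |F ω| ≤ M := by
  obtain ⟨g, hg⟩ := loc_factor h
  have : (Set.range fun v => |g v|).Finite := Set.finite_range _
  obtain ⟨M, hM⟩ := this.bddAbove
  refine ⟨max M 0, le_max_right _ _, fun ω => ?_⟩
  rw [hg]
  exact (hM ⟨res B ω, rfl⟩).trans (le_max_left _ _)

theorem loc_meas [Finite X] [MeasurableSpace X] [MeasurableSingletonClass X] {B : Finset Pt}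
    {F : (Pt → X) → ℝ} (h : Loc B F) : Measurable F := by
  obtain ⟨g, hg⟩ := loc_factor h
  rw [hg]
  refine Measurable.comp (Measurable.of_discrete) ?_
  exact measurable_pi_lambda _ fun b => measurable_pi_apply _

end loc

/-- functions on `B` extended by `false` -/
theorem fin_ext (B : Finset Pt) : {t : Sp | ∀ x, x ∉ B → t x = false}.Finite := by
  classical
  refine Set.Finite.of_finite_image (f := res B) (Set.toFinite _) ?_
  intro t ht t' ht' h
  funext x
  by_cases hx : x ∈ B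
  · exact congrFun h ⟨x, hx⟩
  · rw [ht x hx, ht' x hx]

theorem G_fin (D : Finset Pt) (τ : Sp) : (G D τ : Set Sp).Finite :=
  (fin_ext D).subset fun s hs => hs.1

theorem w_pos (D : Finset Pt) (τ : Sp) : 0 < w D τ := by
  have : Finite (G D τ) := (G_fin D τ).to_subtype
  exact Nat.card_pos

theorem coin_bdd {B : Finset Pt} {r : Pt → Pt → Prop} {F : Om → ℝ} {τ : Sp} {M : ℝ}
    (hM : 0 ≤ M) (hF : ∀ ω, |F ω| ≤ M) : |coin B r F τ| ≤ M := by
  unfold coin
  have hfin : {t : Sp | (∀ x, x ∉ B → t x = false) ∧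
      ∀ x ∈ B, ∀ y ∈ B, r x y → t x = t y}.Finite := (fin_ext B).subset fun t ht => ht.1
  rw [finsum_mem_eq_finite_toFinset_sum _ hfin, Set.ncard_eq_toFinset_card _ hfin, abs_div]
  have h1 : |∑ t ∈ hfin.toFinset, F (pr τ t)| ≤ hfin.toFinset.card * M := by
    refine (Finset.abs_sum_le_sum_abs _ _).trans ?_
    refine (Finset.sum_le_sum fun t _ => hF (pr τ t)).trans (le_of_eq ?_)
    rw [Finset.sum_const, nsmul_eq_mul]
  rw [Nat.abs_cast]
  rcases Nat.eq_zero_or_pos hfin.toFinset.card with h0 | h0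
  · rw [h0, Nat.cast_zero, div_zero]; exact hM
  · rw [div_le_iff₀ (by exact_mod_cast h0)]
    linarith

/-! ### expectations as finite sums -/

theorem E2_sum (h1 : S_e1) (D : Finset Pt) :
    ∃ S : Finset Om, S.Nonempty ∧ ∀ F : Om → ℝ, E2 D F = (∑ ω ∈ S, F ω) / S.card := by
  obtain ⟨-, hfin, hne, -⟩ := h1 D
  refine ⟨hfin.toFinset, ?_, fun F => ?_⟩
  · rw [Set.Finite.toFinset_nonempty]; exact hne
  · unfold E2
    rw [finsum_mem_eq_finite_toFinset_sum _ hfin, Set.ncard_eq_toFinset_card _ hfin]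

theorem E1_abs (h1 : S_e1) (D : Finset Pt) {f g k : Sp → ℝ} (h : ∀ τ, |f τ - g τ| ≤ k τ) :
    |E1 D f - E1 D g| ≤ E1 D k := by
  obtain ⟨S, hS, hE⟩ := E2_sum h1 D
  unfold E1
  rw [hE, hE, hE, ← sub_div, ← Finset.sum_sub_distrib, abs_div, Nat.abs_cast]
  refine div_le_div_of_nonneg_right ?_ (by positivity)
  exact (Finset.abs_sum_le_sum_abs _ _).trans (Finset.sum_le_sum fun ω _ => h _)

theorem E1_lin (h1 : S_e1) (D : Finset Pt) {ι : Type} (s : Finset ι) (c : ℝ)
    (f : ι → Sp → ℝ) : E1 D (fun τ => c * ∑ i ∈ s, f i τ) = c * ∑ i ∈ s, E1 D (f i) := by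
  obtain ⟨S, hS, hE⟩ := E2_sum h1 D
  unfold E1
  rw [hE]
  simp only [hE]
  rw [← Finset.mul_sum, Finset.sum_comm, ← Finset.sum_div, mul_div_assoc]

theorem nu_exists (h1 : S_e1) (D : Finset Pt) :
    ∃ ν : Measure Om, IsProbabilityMeasure ν ∧ ∀ F : Om → ℝ, ∫ ω, F ω ∂ν = E2 D F := by
  obtain ⟨S, hS, hE⟩ := E2_sum h1 D
  have hc : (0 : ℝ) < S.card := by exact_mod_cast hS.card_pos
  have hc' : (S.card : ENNReal) ≠ 0 := by
    rw [Nat.cast_ne_zero]; exact hS.card_pos.ne'
  refine ⟨(S.card : ENNReal)⁻¹ • ∑ ω ∈ S, Measure.dirac ω, ⟨?_⟩, fun F => ?_⟩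
  · rw [Measure.smul_apply, Measure.finsetSum_apply]
    simp only [measure_univ, Finset.sum_const, smul_eq_mul, nsmul_eq_mul, mul_one]
    exact ENNReal.inv_mul_cancel hc' (ENNReal.natCast_ne_top _)
  · rw [hE, integral_smul_measure, integral_finset_sum_measure]
    · simp only [integral_dirac]
      rw [ENNReal.toReal_inv, ENNReal.toReal_natCast, smul_eq_mul, div_eq_inv_mul]
    · intro ω _
      exact integrable_dirac (by simp)

/-! ### the coin average -/

/-- the coin average along the bichromatic clusters -/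
noncomputable def cu (B : Finset Pt) (F : Om → ℝ) (τ : Sp) : ℝ := coin B (Bich Set.univ τ) F τ

theorem E2_coin (h1 : S_e1) (h2 : S_coin) {D B : Finset Pt} (hB : B ⊆ D) {F : Om → ℝ}
    (hF : Loc B F) : E2 D F = E1 D (cu B F) := by
  obtain ⟨hA, -, -, hE⟩ := h1 D
  unfold E1
  rw [hE, hE]
  congr 1
  refine finsum_mem_congr rfl fun τ hτ => ?_
  have hw : (w D τ : ℝ) ≠ 0 := by exact_mod_cast (w_pos D τ).ne'
  have h3 := h2 D B F τ hB hF hτ
  rw [div_eq_iff hw] at h3
  rw [h3]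
  have h4 : ∀ s, cu B F (tau (pr τ s)) = cu B F τ := fun s => rfl
  simp only [h4]
  rw [finsum_mem_eq_finite_toFinset_sum _ (G_fin D τ), Finset.sum_const, nsmul_eq_mul,
    mul_comm]
  congr 1
  unfold w
  rw [← Set.ncard_eq_toFinset_card _ (G_fin D τ)]
  rfl

/-! ### the event Far -/

theorem bich_loc {S : Set Pt} {τ τ' : Sp} (h : ∀ x ∈ S, τ x = τ' x) {x y : Pt}
    (hb : Bich S τ x y) : Bich S τ' x y := by
  refine ReflTransGen.mono (r := fun u v => Adj u v ∧ τ u ≠ τ v ∧ u ∈ S ∧ v ∈ S) ?_ _ _ hb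
  rintro u v ⟨h1, h2, h3, h4⟩
  exact ⟨h1, by rw [← h u h3, ← h v h4]; exact h2, h3, h4⟩

theorem far_loc {R : ℕ} {x y : Pt} {τ τ' : Sp} (h : ∀ x ∈ bx (R + 1), τ x = τ' x)
    (hf : τ ∈ Far R x y) : τ' ∈ Far R x y := by
  have h1 : ∀ x ∈ ((bx (R + 1) : Finset Pt) : Set Pt), τ x = τ' x := fun x hx => h x hx
  have h2 : ∀ x ∈ ((bx (R + 1) : Finset Pt) : Set Pt), τ' x = τ x := fun x hx => (h x hx).symm
  obtain ⟨a, ⟨u, hu, hu'⟩, ⟨v, hv, hv'⟩⟩ := hf
  exact ⟨fun hb => a (bich_loc h2 hb), ⟨u, hu, bich_loc h1 hu'⟩, ⟨v, hv, bich_loc h1 hv'⟩⟩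

/-- the indicator of Far -/
noncomputable def fi (R : ℕ) (x y : Pt) : Sp → ℝ := Set.indicator (Far R x y) 1

theorem fi_loc (R : ℕ) (x y : Pt) : Loc (bx (R + 1)) (fi R x y) := by
  classical
  intro τ τ' h
  unfold fi
  by_cases hf : τ ∈ Far R x y
  · rw [Set.indicator_of_mem hf, Set.indicator_of_mem (far_loc h hf)]
    rfl
  · rw [Set.indicator_of_notMem hf, Set.indicator_of_notMem]
    intro hf'
    exact hf (far_loc (fun x hx => (h x hx).symm) hf')

theorem far_meas (R : ℕ) (x y : Pt) : MeasurableSet (Far R x y) := by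
  classical
  have h := loc_meas (fi_loc R x y)
  have e : Far R x y = fi R x y ⁻¹' {1} := by
    ext τ
    unfold fi
    by_cases hf : τ ∈ Far R x y
    · simp [hf]
    · simp [hf]
  rw [e]
  exact h (measurableSet_singleton _)

theorem tau_meas : Measurable tau :=
  measurable_pi_lambda _ fun x => measurable_fst.comp (measurable_pi_apply x)

theorem int_fi (μ : Measure Sp) (R : ℕ) (x y : Pt) : ∫ τ, fi R x y τ ∂μ = μ.real (Far R x y) := by
  unfold fi
  rw [integral_indicator_one (far_meas R x y)]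

/-! ### the limit -/

theorem cu_close (h3 : S_coin2) {R : ℕ} {B : Finset Pt} {F : Om → ℝ} (hB : B ⊆ bx R)
    (hF : Loc B F) {M : ℝ} (hM : 0 ≤ M) (hFM : ∀ ω, |F ω| ≤ M) (τ : Sp) :
    |cu B F τ - coin B (Bich (bx (R + 1)) τ) F τ| ≤
      (2 * M) * ∑ p ∈ B ×ˢ B, fi R p.1 p.2 τ := by
  classical
  have hnn : ∀ p : Pt × Pt, 0 ≤ fi R p.1 p.2 τ := fun p => by
    unfold fi
    exact Set.indicator_nonneg (fun _ _ => zero_le_one) _
  by_cases h : ∀ x ∈ B, ∀ y ∈ B, τ ∉ Far R x y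
  · have : cu B F τ = coin B (Bich (bx (R + 1)) τ) F τ := (h3 R B F hB hF).2 τ h
    rw [this, sub_self, abs_zero]
    exact mul_nonneg (by positivity) (Finset.sum_nonneg fun p _ => hnn p)
  · push Not at h
    obtain ⟨x, hx, y, hy, hxy⟩ := h
    have h4 : (1 : ℝ) ≤ ∑ p ∈ B ×ˢ B, fi R p.1 p.2 τ := by
      calc (1 : ℝ) = fi R x y τ := by
            unfold fi
            rw [Set.indicator_of_mem hxy]; rfl
        _ ≤ _ := Finset.single_le_sum (f := fun p : Pt × Pt => fi R p.1 p.2 τ)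
            (fun p _ => hnn p) (Finset.mk_mem_product hx hy)
    have h5 : |cu B F τ| ≤ M := coin_bdd hM hFM
    have h6 : |coin B (Bich (bx (R + 1)) τ) F τ| ≤ M := coin_bdd hM hFM
    calc |cu B F τ - coin B (Bich (bx (R + 1)) τ) F τ| ≤
          |cu B F τ| + |coin B (Bich (bx (R + 1)) τ) F τ| := abs_sub _ _
      _ ≤ 2 * M * 1 := by linarith
      _ ≤ _ := mul_le_mul_of_nonneg_left h4 (by positivity)

theorem sub_bx (B : Finset Pt) : ∃ R0 : ℕ, ∀ R, R0 ≤ R → B ⊆ bx R := by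
  classical
  refine ⟨∑ p ∈ B, (p.1.natAbs + p.2.natAbs), fun R hR p hp => ?_⟩
  have h1 : p.1.natAbs + p.2.natAbs ≤ ∑ p ∈ B, (p.1.natAbs + p.2.natAbs) :=
    Finset.single_le_sum (f := fun p : Pt => p.1.natAbs + p.2.natAbs) (fun _ _ => Nat.zero_le _) hp
  unfold bx
  rw [Finset.mem_product, Finset.mem_Icc, Finset.mem_Icc]
  omega

theorem lim_exists (h1 : S_e1) (h2 : S_coin) (h3 : S_coin2) {μ : Measure Sp} (hμ : IsMu μ)
    (hfar : FarLim μ) {B : Finset Pt} {F : Om → ℝ} (hF : Loc B F) :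
    ∃ l : ℝ, Tendsto (fun D => E2 D F) atTop (𝓝 l) := by
  classical
  obtain ⟨M, hM, hFM⟩ := loc_bdd hF
  refine cauchySeq_tendsto_of_complete ?_
  rw [Metric.cauchySeq_iff']
  intro ε hε
  obtain ⟨R0, hR0⟩ := sub_bx B
  -- choose R
  have hlim : Tendsto (fun R => (2 * M) * ∑ p ∈ B ×ˢ B, μ.real (Far R p.1 p.2)) atTop (𝓝 0) := by
    have : Tendsto (fun R => (2 * M) * ∑ p ∈ B ×ˢ B, μ.real (Far R p.1 p.2)) atTop
        (𝓝 ((2 * M) * ∑ p ∈ B ×ˢ B, (0 : ℝ))) :=
      (tendsto_finset_sum _ fun p _ => hfar p.1 p.2).const_mul _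
    simpa using this
  obtain ⟨R, hR, hRε⟩ : ∃ R, R0 ≤ R ∧
      (2 * M) * ∑ p ∈ B ×ˢ B, μ.real (Far R p.1 p.2) < ε / 4 := by
    have := ((tendsto_order.1 hlim).2 (ε / 4) (by positivity)).and (eventually_ge_atTop R0)
    obtain ⟨R, h⟩ := this.exists
    exact ⟨R, h.2, h.1⟩
  have hBR := hR0 R hR
  set L : ℝ := ∫ τ, coin B (Bich (bx (R + 1)) τ) F τ ∂μ with hL
  have t1 : Tendsto (fun D => E1 D fun τ => coin B (Bich (bx (R + 1)) τ) F τ) atTop (𝓝 L) :=
    hμ.lim _ _ (h3 R B F hBR hF).1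
  have t2 : Tendsto (fun D => (2 * M) * ∑ p ∈ B ×ˢ B, E1 D (fi R p.1 p.2)) atTop
      (𝓝 ((2 * M) * ∑ p ∈ B ×ˢ B, μ.real (Far R p.1 p.2))) := by
    refine (tendsto_finset_sum _ fun p _ => ?_).const_mul _
    rw [← int_fi]
    exact hμ.lim _ _ (fi_loc R p.1 p.2)
  have ev : ∀ᶠ D : Finset Pt in atTop, dist (E2 D F) L < ε / 2 := by
    have e1 := (Metric.tendsto_nhds.1 t1) (ε / 4) (by positivity)
    have e2 := (tendsto_order.1 t2).2 (ε / 4) hRε
    filter_upwards [e1, e2, eventually_ge_atTop B] with D d1 d2 hBD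
    have hBD' : B ⊆ D := hBD
    rw [E2_coin h1 h2 hBD' hF]
    have d3 := E1_abs h1 D (fun τ => cu_close h3 hBR hF hM hFM τ)
    rw [E1_lin h1 D (B ×ˢ B) (2 * M) (fun p => fi R p.1 p.2)] at d3
    rw [Real.dist_eq] at d1 ⊢
    calc |E1 D (cu B F) - L| ≤ |E1 D (cu B F) - E1 D fun τ => coin B (Bich (bx (R + 1)) τ) F τ| +
          |(E1 D fun τ => coin B (Bich (bx (R + 1)) τ) F τ) - L| := abs_sub_le _ _ _
      _ < ε / 4 + ε / 4 := by linarith
      _ = ε / 2 := by ring
  obtain ⟨N, hN⟩ := eventually_atTop.1 ev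
  refine ⟨N, fun n hn => ?_⟩
  calc dist (E2 n F) (E2 N F) ≤ dist (E2 n F) L + dist (E2 N F) L := dist_triangle_right _ _ _
    _ < ε / 2 + ε / 2 := add_lt_add (hN n hn) (hN N le_rfl)
    _ = ε := by ring

theorem s_q (h_e1 : S_e1) (h_comp : S_comp) (h_coin : S_coin) (h_coin2 : S_coin2) : S_q := by
  classical
  rintro ⟨μ, hμ, hfar⟩
  choose ν hν1 hν2 using nu_exists h_e1
  obtain ⟨Q, hQ1, hQ2⟩ := h_comp (Bool × Bool) ν hν1 (fun B F hF => by
    obtain ⟨l, hl⟩ := lim_exists h_e1 h_coin h_coin2 hμ hfar hF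
    exact ⟨l, by simpa only [hν2] using hl⟩)
  have hQ : IsQ Q := ⟨hQ1, fun B F hF => by simpa only [hν2] using hQ2 B F hF⟩
  refine ⟨Q, hQ, fun x y => ?_⟩
  have key : ∀ R, (Q.map tau).real (Far R x y) = μ.real (Far R x y) := by
    intro R
    have a1 := hμ.lim _ _ (fi_loc R x y)
    have hl : Loc (bx (R + 1)) (fun ω : Om => fi R x y (tau ω)) := by
      intro ω ω' h
      exact fi_loc R x y _ _ fun x hx => congrArg Prod.fst (h x hx)
    have a2 := hQ.lim _ _ hl
    have a3 := tendsto_nhds_unique a1 a2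
    rw [int_fi] at a3
    rw [a3, ← int_fi, integral_map tau_meas.aemeasurable
      (loc_meas (fi_loc R x y)).aestronglyMeasurable]
  simp only [key]
  exact hfar x y

end Vale.Agent.P145W85.P153.A.QLim

namespace Vale.Agent.P145W85.P153.A

/-- (15) the limit law of (tau, sigma) exists. -/
theorem s_q (h_e1 : S_e1) (h_comp : S_comp) (h_coin : S_coin) (h_coin2 : S_coin2) : S_q :=
  QLim.s_q h_e1 h_comp h_coin h_coin2

end Vale.Agent.P145W85.P153.A
end

section

/-!
P153, block A3, leaf (3): association of the law of tau.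
-/

namespace Vale.Agent.P145W85.P153.A

open MeasureTheory Filter Topology Relation

private theorem fkg_sumG (D : Finset Pt) (τ : Sp) (c : ℝ) :
    (∑ᶠ s ∈ (G D τ : Set Sp), c) = (w D τ : ℝ) * c := by
  by_cases hfin : (G D τ : Set Sp).Finite
  · rw [finsum_mem_eq_finite_toFinset_sum _ hfin, Finset.sum_const, nsmul_eq_mul, w,
      ← Set.ncard_eq_toFinset_card _ hfin]
    rfl
  · by_cases hc : c = 0
    · subst hc
      simp only [SetLike.mem_coe, finsum_zero, mul_zero]
    · have h0 : w D τ = 0 := by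
        unfold w
        rw [Nat.card_eq_zero]
        right
        exact Set.infinite_coe_iff.2 hfin
      rw [h0, Nat.cast_zero, zero_mul]
      apply finsum_mem_eq_zero_of_infinite
      convert (show (G D τ : Set Sp).Infinite from hfin) using 1
      ext x
      simp [hc]

/-- `E1` as a weighted average over the admissible tau. -/
theorem fkg_E1_eq (h2 : S_e1) (D : Finset Pt) (f : Sp → ℝ) :
    E1 D f = (∑ τ ∈ (h2 D).1.toFinset, (w D τ : ℝ) * f τ) /
      ∑ τ ∈ (h2 D).1.toFinset, (w D τ : ℝ) := by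
  have h1 := (h2 D).1
  have h := (h2 D).2.2.2 fun ω => f (tau ω)
  rw [E1, h]
  congr 1
  · rw [finsum_mem_eq_finite_toFinset_sum _ h1]
    apply Finset.sum_congr rfl
    intro τ _
    exact fkg_sumG D τ (f τ)
  · exact finsum_mem_eq_finite_toFinset_sum _ h1

/-- The partition function is positive. -/
theorem fkg_Z_pos (h2 : S_e1) (D : Finset Pt) : 0 < ∑ τ ∈ (h2 D).1.toFinset, (w D τ : ℝ) := by
  have h0 : 0 ≤ ∑ τ ∈ (h2 D).1.toFinset, (w D τ : ℝ) := Finset.sum_nonneg fun _ _ => Nat.cast_nonneg _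
  refine lt_of_le_of_ne h0 fun h => ?_
  have h3 := fkg_E1_eq h2 D fun _ => 1
  rw [← h, div_zero] at h3
  obtain ⟨-, hf, hn, -⟩ := h2 D
  unfold E1 E2 at h3
  rw [finsum_mem_eq_finite_toFinset_sum _ hf, Finset.sum_const, nsmul_eq_mul, mul_one,
    ← Set.ncard_eq_toFinset_card _ hf, div_self] at h3
  · exact one_ne_zero h3
  · have := (Set.ncard_pos hf).2 hn
    exact_mod_cast this.ne'

private theorem fkg_adm_sup {D : Finset Pt} {a b : Sp} (ha : a ∈ Adm D) : a ⊔ b ∈ Adm D := by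
  intro x hx
  rw [Pi.sup_apply, ha x hx]
  rfl

private theorem fkg_adm_inf {D : Finset Pt} {a b : Sp} (ha : a ∈ Adm D) (hb : b ∈ Adm D) :
    a ⊓ b ∈ Adm D := by
  intro x hx
  rw [Pi.inf_apply, ha x hx, hb x hx]
  rfl

open scoped FinsetFamily in
private theorem fkg_nonneg (h1 : S_super) (h2 : S_e1) (D : Finset Pt) (f g : Sp → ℝ)
    (hf : Monotone f) (hg : Monotone g) (hf0 : ∀ x, 0 ≤ f x) (hg0 : ∀ x, 0 ≤ g x) :
    (∑ τ ∈ (h2 D).1.toFinset, (w D τ : ℝ) * f τ) * (∑ τ ∈ (h2 D).1.toFinset, (w D τ : ℝ) * g τ) ≤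
      (∑ τ ∈ (h2 D).1.toFinset, (w D τ : ℝ)) *
        ∑ τ ∈ (h2 D).1.toFinset, (w D τ : ℝ) * (f τ * g τ) := by
  classical
  set A := (h2 D).1.toFinset with hA
  have hmem : ∀ {a}, a ∈ A ↔ a ∈ Adm D := by
    intro a
    rw [hA, Set.Finite.mem_toFinset]
  have hinf : A ⊼ A = A := by
    apply Finset.Subset.antisymm
    · intro x hx
      obtain ⟨a, ha, b, hb, rfl⟩ := Finset.mem_infs.1 hx
      exact hmem.2 (fkg_adm_inf (hmem.1 ha) (hmem.1 hb))
    · exact Finset.subset_infs_self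
  have hsup : A ⊻ A = A := by
    apply Finset.Subset.antisymm
    · intro x hx
      obtain ⟨a, ha, b, hb, rfl⟩ := Finset.mem_sups.1 hx
      exact hmem.2 (fkg_adm_sup (hmem.1 ha))
    · exact Finset.subset_sups_self
  have key := four_functions_theorem (α := Sp) (β := ℝ)
    (f₁ := fun τ => if τ ∈ A then (w D τ : ℝ) * f τ else 0)
    (f₂ := fun τ => if τ ∈ A then (w D τ : ℝ) * g τ else 0)
    (f₃ := fun τ => if τ ∈ A then (w D τ : ℝ) else 0)
    (f₄ := fun τ => if τ ∈ A then (w D τ : ℝ) * (f τ * g τ) else 0)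
    (fun τ => by
      simp only [Pi.zero_apply]
      split_ifs
      · exact mul_nonneg (Nat.cast_nonneg _) (hf0 _)
      · exact le_rfl)
    (fun τ => by
      simp only [Pi.zero_apply]
      split_ifs
      · exact mul_nonneg (Nat.cast_nonneg _) (hg0 _)
      · exact le_rfl)
    (fun τ => by
      simp only [Pi.zero_apply]
      split_ifs
      · exact Nat.cast_nonneg _
      · exact le_rfl)
    (fun τ => by
      simp only [Pi.zero_apply]
      split_ifs
      · exact mul_nonneg (Nat.cast_nonneg _) (mul_nonneg (hf0 _) (hg0 _))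
      · exact le_rfl)
    (fun a b => by
      by_cases ha : a ∈ A
      · by_cases hb : b ∈ A
        · have hs : a ⊔ b ∈ A := hmem.2 (fkg_adm_sup (hmem.1 ha))
          have hi : a ⊓ b ∈ A := hmem.2 (fkg_adm_inf (hmem.1 ha) (hmem.1 hb))
          simp only [if_pos ha, if_pos hb, if_pos hs, if_pos hi]
          have h3 : (w D a : ℝ) * w D b ≤ w D (a ⊔ b) * w D (a ⊓ b) := by
            exact_mod_cast h1 D a b (hmem.1 ha) (hmem.1 hb)
          have h4 : f a * g b ≤ f (a ⊔ b) * g (a ⊔ b) :=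
            mul_le_mul (hf le_sup_left) (hg le_sup_right) (hg0 _) (hf0 _)
          calc (w D a : ℝ) * f a * (w D b * g b) = (w D a * w D b) * (f a * g b) := by ring
            _ ≤ (w D (a ⊔ b) * w D (a ⊓ b)) * (f (a ⊔ b) * g (a ⊔ b)) :=
              mul_le_mul h3 h4 (mul_nonneg (hf0 _) (hg0 _)) (by (clear * -; positivity))
            _ = w D (a ⊓ b) * (w D (a ⊔ b) * (f (a ⊔ b) * g (a ⊔ b))) := by ring
        · simp only [if_neg hb, mul_zero]
          apply mul_nonneg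
          · split_ifs
            · exact Nat.cast_nonneg _
            · exact le_rfl
          · split_ifs
            · exact mul_nonneg (Nat.cast_nonneg _) (mul_nonneg (hf0 _) (hg0 _))
            · exact le_rfl
      · simp only [if_neg ha, zero_mul]
        apply mul_nonneg
        · split_ifs
          · exact Nat.cast_nonneg _
          · exact le_rfl
        · split_ifs
          · exact mul_nonneg (Nat.cast_nonneg _) (mul_nonneg (hf0 _) (hg0 _))
          · exact le_rfl)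
    A A
  rw [hinf, hsup] at key
  simpa only [Finset.sum_ite_mem, Finset.inter_self] using key

/-- (3) association. -/
theorem s_fkg (h1 : S_super) (h2 : S_e1) : S_fkg := by
  intro D f g hf hg
  rw [fkg_E1_eq h2, fkg_E1_eq h2, fkg_E1_eq h2]
  have hZ := fkg_Z_pos h2 D
  have key := fkg_nonneg h1 h2 D (fun τ => f τ - f ⊥) (fun τ => g τ - g ⊥)
    (fun a b h => sub_le_sub_right (hf h) _) (fun a b h => sub_le_sub_right (hg h) _)
    (fun x => sub_nonneg.2 (hf bot_le)) (fun x => sub_nonneg.2 (hg bot_le))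
  set A := (h2 D).1.toFinset
  set Z := ∑ τ ∈ A, (w D τ : ℝ) with hZdef
  have e1 : ∀ (u : Sp → ℝ) (c : ℝ), (∑ τ ∈ A, (w D τ : ℝ) * (u τ - c)) =
      (∑ τ ∈ A, (w D τ : ℝ) * u τ) - c * Z := by
    intro u c
    rw [hZdef, Finset.mul_sum, ← Finset.sum_sub_distrib]
    exact Finset.sum_congr rfl fun _ _ => by ring
  have e2 : (∑ τ ∈ A, (w D τ : ℝ) * ((f τ - f ⊥) * (g τ - g ⊥))) =
      (∑ τ ∈ A, (w D τ : ℝ) * (f τ * g τ)) - g ⊥ * (∑ τ ∈ A, (w D τ : ℝ) * f τ) -
        f ⊥ * (∑ τ ∈ A, (w D τ : ℝ) * g τ) + f ⊥ * g ⊥ * Z := by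
    rw [hZdef, Finset.mul_sum, Finset.mul_sum, Finset.mul_sum, ← Finset.sum_sub_distrib,
      ← Finset.sum_sub_distrib, ← Finset.sum_add_distrib]
    exact Finset.sum_congr rfl fun _ _ => by ring
  rw [e1, e1, e2] at key
  rw [div_mul_div_comm, div_le_div_iff₀ (by (clear * - hZ; positivity)) hZ]
  nlinarith only [key, hZ]

end Vale.Agent.P145W85.P153.A
end

section

/-!
P153, block A3, step (2): the law of tau.
-/

namespace Vale.Agent.P145W85.P153.A

namespace E1f

theorem finite_const (D : Set Pt) (hD : D.Finite) (c : Bool) :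
    {s : Sp | ∀ x, x ∉ D → s x = c}.Finite := by
  classical
  have := hD.to_subtype
  refine (Set.finite_range (fun (g : D → Bool) (x : Pt) =>
    if h : x ∈ D then g ⟨x, h⟩ else c)).subset ?_
  intro s hs
  refine ⟨fun x => s x, ?_⟩
  funext x
  by_cases h : x ∈ D
  · simp [h]
  · simp [h, hs x h]

theorem inn_finite (D : Finset Pt) : (inn D).Finite :=
  D.finite_toSet.subset fun _ hx => hx.1

theorem adm_finite (D : Finset Pt) : (Adm D).Finite := finite_const (inn D) (inn_finite D) true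

theorem g_finite (D : Finset Pt) (τ : Sp) : (G D τ : Set Sp).Finite := by
  refine (finite_const (D : Set Pt) D.finite_toSet false).subset ?_
  intro s hs x hx
  exact hs.1 x hx

theorem mem_cf {D : Finset Pt} {τ σ : Sp} : pr τ σ ∈ Cf D ↔ τ ∈ Adm D ∧ σ ∈ G D τ := by
  constructor
  · rintro ⟨h1, h2, h3⟩
    refine ⟨h2, h3, fun x y hxy hne => ?_⟩
    rcases h1 x y hxy with h | h
    · exact absurd h hne
    · exact h
  · rintro ⟨h1, h2, h3⟩
    refine ⟨fun x y hxy => ?_, h1, h2⟩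
    by_cases h : τ x = τ y
    · exact Or.inl h
    · exact Or.inr (h3 x y hxy h)

theorem cf_finite (D : Finset Pt) : (Cf D).Finite := by
  refine (Set.Finite.image2 pr (adm_finite D)
    (finite_const (D : Set Pt) D.finite_toSet false)).subset ?_
  intro ω hω
  exact ⟨tau ω, hω.2.1, fun x => (ω x).2, fun x hx => hω.2.2 x hx, rfl⟩

theorem cf_nonempty (D : Finset Pt) : (Cf D).Nonempty :=
  ⟨pr (fun _ => true) (fun _ => false), fun _ _ _ => Or.inl rfl, fun _ _ => rfl, fun _ _ => rfl⟩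

theorem sum_cf (D : Finset Pt) (F : Om → ℝ) :
    ∑ᶠ ω ∈ Cf D, F ω = ∑ᶠ τ ∈ Adm D, ∑ᶠ s ∈ (G D τ : Set Sp), F (pr τ s) := by
  classical
  rw [finsum_mem_eq_finite_toFinset_sum _ (cf_finite D),
    finsum_mem_eq_finite_toFinset_sum _ (adm_finite D)]
  rw [← Finset.sum_fiberwise_of_maps_to (t := (adm_finite D).toFinset) (g := tau)
    (fun ω hω => by
      rw [Set.Finite.mem_toFinset] at hω ⊢
      exact hω.2.1)]
  refine Finset.sum_congr rfl fun τ hτ => ?_
  rw [Set.Finite.mem_toFinset] at hτ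
  rw [finsum_mem_eq_finite_toFinset_sum _ (g_finite D τ)]
  symm
  refine Finset.sum_bij (fun s _ => pr τ s) ?_ ?_ ?_ ?_
  · intro s hs
    rw [Set.Finite.mem_toFinset] at hs
    rw [Finset.mem_filter, Set.Finite.mem_toFinset]
    exact ⟨mem_cf.2 ⟨hτ, hs⟩, rfl⟩
  · intro s _ s' _ h
    funext x
    exact congrArg Prod.snd (congrFun h x)
  · intro ω hω
    rw [Finset.mem_filter, Set.Finite.mem_toFinset] at hω
    obtain ⟨h1, h2⟩ := hω
    subst h2
    refine ⟨fun x => (ω x).2, ?_, rfl⟩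
    rw [Set.Finite.mem_toFinset]
    exact (mem_cf.1 (show pr (tau ω) (fun x => (ω x).2) ∈ Cf D from h1)).2
  · intro s _
    rfl

theorem ncard_cf (D : Finset Pt) : ((Cf D).ncard : ℝ) = ∑ᶠ τ ∈ Adm D, (w D τ : ℝ) := by
  have h1 := sum_cf D (fun _ => 1)
  have h2 : ∑ᶠ ω ∈ Cf D, (1 : ℝ) = ((Cf D).ncard : ℝ) := by
    rw [finsum_mem_eq_finite_toFinset_sum _ (cf_finite D), Finset.sum_const, nsmul_eq_mul, mul_one,
      ← Set.ncard_eq_toFinset_card _ (cf_finite D)]
  rw [h2] at h1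
  rw [h1]
  refine finsum_mem_congr rfl fun τ _ => ?_
  rw [finsum_mem_eq_finite_toFinset_sum _ (g_finite D τ), Finset.sum_const, nsmul_eq_mul, mul_one,
    ← Set.ncard_eq_toFinset_card _ (g_finite D τ)]
  unfold w
  rw [← Nat.card_coe_set_eq]
  rfl

end E1f

theorem s_e1 : S_e1 := by
  intro D
  refine ⟨E1f.adm_finite D, E1f.cf_finite D, E1f.cf_nonempty D, fun F => ?_⟩
  unfold E2
  rw [E1f.sum_cf, E1f.ncard_cf]

end Vale.Agent.P145W85.P153.A
end

section

/-!
P153, block A3, leaf (21): local limits along all exhausting families with connected complements.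
-/

namespace Vale.Agent.P145W85.P153.A

open MeasureTheory Filter Topology Relation
open Vale.Agent.P145W85.P153.GFF (Adj Ht Pat LocLim hexa Plane)
open Vale.Agent.P145W85.P153.Topo (Conn)

namespace LocAll

theorem meas_pat (B : Finset Pt) (a : Pt → ℤ) : MeasurableSet (Pat B a) := by
  have h : Pat B a = ⋂ x ∈ B, ⋂ y ∈ B, {φ : Pt → ℤ | φ x - φ y = a x - a y} := by
    ext φ
    simp only [Pat, Prod.forall, Set.mem_ofPred_eq, Set.mem_iInter]
  rw [h]
  refine Finset.measurableSet_biInter _ fun x _ => Finset.measurableSet_biInter _ fun y _ => ?_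
  exact measurableSet_eq_fun ((measurable_pi_apply x).sub (measurable_pi_apply y))
    measurable_const

theorem finsum_ind {X : Type} (A S : Set X) :
    (∑ᶠ x ∈ A, S.indicator (fun _ => (1 : ℝ)) x) = ((A ∩ S).ncard : ℝ) := by
  classical
  have h1 : (∑ᶠ x ∈ A, S.indicator (fun _ => (1 : ℝ)) x) = ∑ᶠ x ∈ A ∩ S, (1 : ℝ) := by
    refine finsum_congr fun x => ?_
    by_cases hA : x ∈ A <;> by_cases hS : x ∈ S <;> simp [hA, hS]
  rw [h1]
  by_cases hf : (A ∩ S).Finite
  · rw [finsum_mem_eq_finite_toFinset_sum _ hf, Set.ncard_eq_toFinset_card _ hf]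
    simp only [Finset.sum_const, nsmul_eq_mul, mul_one]
  · rw [Set.Infinite.ncard hf]
    rw [finsum_mem_eq_zero_of_infinite]
    · simp
    · rw [Function.support_const one_ne_zero, Set.inter_univ]
      exact hf

theorem lip {D : Finset Pt} {φ : Pt → ℤ} (h : φ ∈ Ht D) : ∀ x y, Adj x y → |φ x - φ y| ≤ 1 := by
  intro x y hxy
  exact h.2 x y hxy

end LocAll

open LocAll

theorem s_loc (hrc : S_rc) (hbij : S_bij) : S_loc := by
  intro Q hQ B a
  obtain ⟨-, -, hφ, -, -, hmeas, hloc⟩ := hrc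
  have : IsProbabilityMeasure Q := hQ.prob
  obtain ⟨B', hB'⟩ := hloc B
  set F : Om → ℝ := (rc ⁻¹' Pat B a).indicator (fun _ => (1 : ℝ)) with hF
  have hmem : ∀ ω ω' : Om, (∀ x ∈ B', ω x = ω' x) → (rc ω ∈ Pat B a ↔ rc ω' ∈ Pat B a) := by
    intro ω ω' h
    have h' := hB' ω ω' h
    constructor
    · intro hp x hx y hy
      rw [← h' x hx, ← h' y hy]
      exact hp x hx y hy
    · intro hp x hx y hy
      rw [h' x hx, h' y hy]
      exact hp x hx y hy
  have hL : Loc B' F := by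
    intro ω ω' h
    by_cases hp : rc ω ∈ Pat B a
    · have hp' := (hmem ω ω' h).1 hp
      rw [hF, Set.indicator_of_mem (show ω ∈ rc ⁻¹' Pat B a from hp),
        Set.indicator_of_mem (show ω' ∈ rc ⁻¹' Pat B a from hp')]
    · have hp' : rc ω' ∉ Pat B a := fun hh => hp ((hmem ω ω' h).2 hh)
      rw [hF, Set.indicator_of_notMem (show ω ∉ rc ⁻¹' Pat B a from hp),
        Set.indicator_of_notMem (show ω' ∉ rc ⁻¹' Pat B a from hp')]
  have hlim := (hQ.lim B' F hL).mono_left (inf_le_left : atTop ⊓ 𝓟 {D | Cc D} ≤ atTop)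
  have hint : ∫ ω, F ω ∂Q = (Q.map rc).real (Pat B a) := by
    rw [map_measureReal_apply hmeas (meas_pat B a), hF]
    exact integral_indicator_one (hmeas (meas_pat B a))
  rw [hint] at hlim
  refine hlim.congr' ?_
  filter_upwards [mem_inf_of_right (mem_principal_self {D : Finset Pt | Cc D})] with D hD
  have hb := hbij D hD
  have hpat : ∀ φ ∈ Ht D, (rc (fun x => enc (φ x)) ∈ Pat B a ↔ φ ∈ Pat B a) := by
    intro φ hφ'
    have h1 := (hφ φ (lip hφ')).2
    constructor
    · intro hp x hx y hy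
      have := hp x hx y hy
      rw [h1 x, h1 y] at this
      linarith only [this]
    · intro hp x hx y hy
      have := hp x hx y hy
      rw [h1 x, h1 y]
      linarith only [this]
  have hc1 : (Cf D).ncard = (Ht D).ncard := by
    rw [← hb.image_eq, hb.injOn.ncard_image]
  have hc2 : (Cf D ∩ rc ⁻¹' Pat B a).ncard = (Ht D ∩ Pat B a).ncard := by
    have himg : (fun (φ : Pt → ℤ) x => enc (φ x)) '' (Ht D ∩ Pat B a) =
        Cf D ∩ rc ⁻¹' Pat B a := by
      ext ω
      constructor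
      · rintro ⟨φ, ⟨h1, h2⟩, rfl⟩
        exact ⟨hb.mapsTo h1, (hpat φ h1).2 h2⟩
      · rintro ⟨h1, h2⟩
        obtain ⟨φ, h3, rfl⟩ := hb.surjOn h1
        exact ⟨φ, ⟨h3, (hpat φ h3).1 h2⟩, rfl⟩
    rw [← himg, (hb.injOn.mono Set.inter_subset_left).ncard_image]
  show E2 D F = _
  rw [E2, hc1, hF, finsum_ind, hc2]

end Vale.Agent.P145W85.P153.A
end

section

/-!
The primitive of an antisymmetric cochain on the triangular lattice whose sum around every
triangle is zero, with values in a commutative group.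
-/

namespace Vale.Agent.P145W85.P153.Topo

variable {G : Type*} [AddCommGroup G]

/-- Primitive of a function on the integers. -/
theorem exists_primG (f : ℤ → G) : ∃ F : ℤ → G, F 0 = 0 ∧ ∀ i, F (i + 1) = F i + f i := by
  refine ⟨fun i => ∑ k ∈ Finset.Ico 0 i, f k - ∑ k ∈ Finset.Ico i 0, f k, by simp, ?_⟩
  intro i
  rcases le_or_gt 0 i with h | h
  · have e1 : Finset.Ico 0 (i + 1) = insert i (Finset.Ico 0 i) := by
      ext k; simp only [Finset.mem_Ico, Finset.mem_insert]; omega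
    have e2 : Finset.Ico (i + 1) 0 = ∅ := Finset.Ico_eq_empty (by omega)
    have e3 : Finset.Ico i 0 = ∅ := Finset.Ico_eq_empty (by omega)
    simp only [e1, e2, e3, Finset.sum_empty]
    rw [Finset.sum_insert (by simp only [Finset.mem_Ico, lt_self_iff_false, and_false, not_false_eq_true])]
    abel
  · have e1 : Finset.Ico i 0 = insert i (Finset.Ico (i + 1) 0) := by
      ext k; simp only [Finset.mem_Ico, Finset.mem_insert]; omega
    have e2 : Finset.Ico 0 (i + 1) = ∅ := Finset.Ico_eq_empty (by omega)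
    have e3 : Finset.Ico 0 i = ∅ := Finset.Ico_eq_empty (by omega)
    simp only [e1, e2, e3, Finset.sum_empty]
    rw [Finset.sum_insert (by simp only [Finset.mem_Ico, add_le_iff_nonpos_right, Int.reduceLE, false_and, not_false_eq_true])]
    abel

theorem const_of_succG {g : ℤ → G} (h0 : g 0 = 0) (h : ∀ j, g (j + 1) = g j) (j : ℤ) :
    g j = 0 := by
  induction j using Int.induction_on with
  | zero => exact h0
  | succ n ih => rw [h, ih]
  | pred n ih =>
    have := h (-(n : ℤ) - 1)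
    rw [sub_add_cancel] at this
    rw [← this, ih]

/-- An antisymmetric cochain on the edges of the triangular lattice whose sum around every
triangle is zero is the coboundary of a function on the vertices. -/
theorem exists_cobG (c : ℤ × ℤ → ℤ × ℤ → G) (hs : ∀ x y, c x y = - c y x)
    (h1 : ∀ i j, c (i, j) (i + 1, j) + c (i + 1, j) (i, j + 1) + c (i, j + 1) (i, j) = 0)
    (h2 : ∀ i j, c (i + 1, j) (i + 1, j + 1) + c (i + 1, j + 1) (i, j + 1) +
      c (i, j + 1) (i + 1, j) = 0) :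
    ∃ U : ℤ × ℤ → G, ∀ x y, Step x y → c x y = U y - U x := by
  obtain ⟨A, hA0, hA⟩ := exists_primG (fun i => c (i, 0) (i + 1, 0))
  choose B hB0 hB using fun i => exists_primG (fun j => c (i, j) (i, j + 1))
  have hor : ∀ i j, c (i, j) (i + 1, j) = (A (i + 1) + B (i + 1) j) - (A i + B i j) := by
    intro i
    have key : ∀ j, (A (i + 1) + B (i + 1) j) - (A i + B i j) - c (i, j) (i + 1, j) = 0 := by
      apply const_of_succG
      · rw [hB0, hB0, hA]
        abel
      · intro j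
        rw [hB, hB]
        have e1 := h1 i j
        have e2 := h2 i j
        rw [hs (i, j + 1) (i, j)] at e1
        rw [hs (i + 1, j + 1) (i, j + 1), hs (i, j + 1) (i + 1, j)] at e2
        rw [← sub_eq_zero]
        have e3 : A (i + 1) + (B (i + 1) j + c (i + 1, j) (i + 1, j + 1)) -
            (A i + (B i j + c (i, j) (i, j + 1))) - c (i, j + 1) (i + 1, j + 1) -
            (A (i + 1) + B (i + 1) j - (A i + B i j) - c (i, j) (i + 1, j)) =
            (c (i, j) (i + 1, j) + c (i + 1, j) (i, j + 1) + -c (i, j) (i, j + 1)) +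
            (c (i + 1, j) (i + 1, j + 1) + -c (i, j + 1) (i + 1, j + 1) +
              -c (i + 1, j) (i, j + 1)) := by abel
        rw [e3, e1, e2, add_zero]
    intro j
    exact (sub_eq_zero.1 (key j)).symm
  have ver : ∀ i j, c (i, j) (i, j + 1) = (A i + B i (j + 1)) - (A i + B i j) := by
    intro i j
    rw [hB]
    abel
  have dia : ∀ i j, c (i + 1, j) (i, j + 1) =
      (A i + B i (j + 1)) - (A (i + 1) + B (i + 1) j) := by
    intro i j
    have e1 := h1 i j
    rw [hs (i, j + 1) (i, j), hor i j, ver i j] at e1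
    rw [← sub_eq_zero, ← e1]
    abel
  refine ⟨fun x => A x.1 + B x.1 x.2, ?_⟩
  rintro ⟨i, j⟩ ⟨k, l⟩ h
  unfold Step at h
  dsimp only at h ⊢
  rcases h with ⟨rfl, rfl⟩ | ⟨rfl, rfl⟩ | ⟨rfl, rfl⟩ | ⟨rfl, rfl⟩ | ⟨rfl, rfl⟩ | ⟨rfl, rfl⟩
  · exact hor i l
  · have := hor (i - 1) l
    rw [sub_add_cancel] at this
    rw [hs, this]; abel
  · exact ver k j
  · have := ver k (j - 1)
    rw [sub_add_cancel] at this
    rw [hs, this]; abel
  · have := dia i (j - 1)
    rw [sub_add_cancel] at this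
    rw [hs, this]; abel
  · have := dia (i - 1) j
    rw [sub_add_cancel] at this
    rw [this]

/-- The same, with one hypothesis for all oriented triangles. -/
theorem exists_pot (c : ℤ × ℤ → ℤ × ℤ → G) (hs : ∀ x y, Step x y → c x y = - c y x)
    (h : ∀ x y z, Step x y → Step y z → Step z x → c x y + c y z + c z x = 0) :
    ∃ U : ℤ × ℤ → G, ∀ x y, Step x y → c x y = U y - U x := by
  classical
  obtain ⟨U, hU⟩ := exists_cobG (fun x y => if Step x y then c x y else 0)
    (fun x y => by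
      by_cases hxy : Step x y
      · simp only [hxy, step_symm hxy, if_true]
        exact hs x y hxy
      · have : ¬ Step y x := fun h' => hxy (step_symm h')
        simp only [hxy, this, if_false, neg_zero])
    (fun i j => by
      have a1 : Step (i, j) (i + 1, j) := by unfold Step; dsimp only; omega
      have a2 : Step (i + 1, j) (i, j + 1) := by unfold Step; dsimp only; omega
      have a3 : Step (i, j + 1) (i, j) := by unfold Step; dsimp only; omega
      simp only [a1, a2, a3, if_true]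
      exact h _ _ _ a1 a2 a3)
    (fun i j => by
      have a1 : Step (i + 1, j) (i + 1, j + 1) := by unfold Step; dsimp only; (clear * -; omega)
      have a2 : Step (i + 1, j + 1) (i, j + 1) := by unfold Step; dsimp only; omega
      have a3 : Step (i, j + 1) (i + 1, j) := by unfold Step; dsimp only; omega
      simp only [a1, a2, a3, if_true]
      exact h _ _ _ a1 a2 a3)
  refine ⟨U, fun x y hxy => ?_⟩
  rw [← hU x y hxy, if_pos hxy]

end Vale.Agent.P145W85.P153.Topo
end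

section

/-!
# Almost invariant functionals of a system whose even functionals mix
-/

open MeasureTheory Filter Topology

namespace Vale.Agent.P145W85.P153.RP

theorem abs_integral_le_sqrt {Ω : Type*} [MeasurableSpace Ω] (P : Measure Ω) [IsProbabilityMeasure P]
    {f : Ω → ℝ} (hf : Measurable f) {M : ℝ} (hM : ∀ ω, |f ω| ≤ M) {ε : ℝ} (h : ∫ ω, f ω ^ 2 ∂P ≤ ε) :
    ∫ ω, |f ω| ∂P ≤ √ε := by
  have hi : Integrable (fun ω => |f ω|) P :=
    Integrable.of_bound (C := M) hf.abs.aestronglyMeasurable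
      (Eventually.of_forall fun ω => by rw [Real.norm_eq_abs, abs_abs]; exact hM ω)
  have hi2 : Integrable (fun ω => f ω ^ 2) P :=
    Integrable.of_bound (C := M ^ 2) (hf.pow_const 2).aestronglyMeasurable
      (Eventually.of_forall fun ω => by
        rw [Real.norm_eq_abs, abs_pow]; exact pow_le_pow_left₀ (abs_nonneg _) (hM ω) 2)
  set m := ∫ ω, |f ω| ∂P with hm
  have hm0 : 0 ≤ m := integral_nonneg fun ω => abs_nonneg _
  have h1 : 0 ≤ ∫ ω, (|f ω| - m) ^ 2 ∂P := integral_nonneg fun ω => sq_nonneg _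
  have h2 : ∫ ω, (|f ω| - m) ^ 2 ∂P = ∫ ω, f ω ^ 2 ∂P - m ^ 2 := by
    have e : ∀ ω, (|f ω| - m) ^ 2 = f ω ^ 2 - 2 * m * |f ω| + m ^ 2 := by
      intro ω
      rw [sub_sq, sq_abs]; ring
    simp_rw [e]
    have i1 : Integrable (fun ω => 2 * m * |f ω|) P := hi.const_mul _
    have i2 : Integrable (fun ω => f ω ^ 2 - 2 * m * |f ω|) P := hi2.sub i1
    rw [integral_add i2 (integrable_const _), integral_sub hi2 i1,
      integral_const_mul, integral_const]
    simp only [probReal_univ, smul_eq_mul, one_mul]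
    rw [← hm]
    ring
  rw [h2] at h1
  apply Real.le_sqrt_of_sq_le
  linarith

/-- the product of two almost invariant functionals is almost constant -/
theorem prod_ineq {Ω : Type*} [MeasurableSpace Ω] (P : Measure Ω) [IsProbabilityMeasure P]
    (T : ℕ → Ω → Ω) (hT : ∀ n, Measurable (T n)) {X Y : Ω → ℝ} (hX : Measurable X) (hY : Measurable Y)
    {M ε : ℝ} (hM : 0 ≤ M) (hXM : ∀ ω, |X ω| ≤ M) (hYM : ∀ ω, |Y ω| ≤ M)
    (hDX : ∀ n, ∫ ω, (X (T n ω) - X ω) ^ 2 ∂P ≤ ε) (hDY : ∀ n, ∫ ω, (Y (T n ω) - Y ω) ^ 2 ∂P ≤ ε)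
    (hmix : Tendsto (fun n => ∫ ω, (X ω * Y ω) * (X (T n ω) * Y (T n ω)) ∂P) atTop
      (𝓝 ((∫ ω, X ω * Y ω ∂P) * ∫ ω, X ω * Y ω ∂P))) :
    ∫ ω, (X ω * Y ω) ^ 2 ∂P ≤ (∫ ω, X ω * Y ω ∂P) ^ 2 + 2 * M ^ 3 * √ε := by
  have hb : ∀ {f : Ω → ℝ} {K : ℝ}, Measurable f → (∀ ω, |f ω| ≤ K) → Integrable f P := by
    intro f K hf hK
    exact Integrable.of_bound (C := K) hf.aestronglyMeasurable
      (Eventually.of_forall fun ω => by rw [Real.norm_eq_abs]; exact hK ω)
  have key : ∀ n, ∫ ω, (X ω * Y ω) ^ 2 ∂P ≤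
      ∫ ω, (X ω * Y ω) * (X (T n ω) * Y (T n ω)) ∂P + 2 * M ^ 3 * √ε := by
    intro n
    have hXT : Measurable fun ω => X (T n ω) := hX.comp (hT n)
    have hYT : Measurable fun ω => Y (T n ω) := hY.comp (hT n)
    have hXD : Measurable fun ω => X (T n ω) - X ω := hXT.sub hX
    have hYD : Measurable fun ω => Y (T n ω) - Y ω := hYT.sub hY
    have h1 : ∫ ω, |X (T n ω) - X ω| ∂P ≤ √ε :=
      abs_integral_le_sqrt P hXD (M := 2 * M) (fun ω => by
        have := abs_sub (X (T n ω)) (X ω)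
        have a := hXM ω
        have b := hXM (T n ω)
        linarith) (hDX n)
    have h2 : ∫ ω, |Y (T n ω) - Y ω| ∂P ≤ √ε :=
      abs_integral_le_sqrt P hYD (M := 2 * M) (fun ω => by
        have := abs_sub (Y (T n ω)) (Y ω)
        have a := hYM ω
        have b := hYM (T n ω)
        linarith only [this, a, b]) (hDY n)
    have hpt : ∀ ω, (X ω * Y ω) ^ 2 ≤ (X ω * Y ω) * (X (T n ω) * Y (T n ω)) +
        M ^ 3 * (|X (T n ω) - X ω| + |Y (T n ω) - Y ω|) := by
      intro ω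
      have e : (X ω * Y ω) ^ 2 = (X ω * Y ω) * (X (T n ω) * Y (T n ω)) -
          (X ω * Y ω) * ((X (T n ω) - X ω) * Y (T n ω)) - (X ω * Y ω) * (X ω * (Y (T n ω) - Y ω)) := by
        ring
      have b1 : -((X ω * Y ω) * ((X (T n ω) - X ω) * Y (T n ω))) ≤ M ^ 3 * |X (T n ω) - X ω| := by
        refine (neg_le_abs _).trans ?_
        rw [abs_mul, abs_mul, abs_mul]
        calc |X ω| * |Y ω| * (|X (T n ω) - X ω| * |Y (T n ω)|) ≤ M * M * (|X (T n ω) - X ω| * M) := by
              gcongr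
              · exact hXM ω
              · exact hYM ω
              · exact hYM _
          _ = M ^ 3 * |X (T n ω) - X ω| := by ring
      have b2 : -((X ω * Y ω) * (X ω * (Y (T n ω) - Y ω))) ≤ M ^ 3 * |Y (T n ω) - Y ω| := by
        refine (neg_le_abs _).trans ?_
        rw [abs_mul, abs_mul, abs_mul]
        calc |X ω| * |Y ω| * (|X ω| * |Y (T n ω) - Y ω|) ≤ M * M * (M * |Y (T n ω) - Y ω|) := by
              gcongr
              · exact hXM ω
              · exact hYM ω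
              · exact hXM ω
          _ = M ^ 3 * |Y (T n ω) - Y ω| := by ring
      rw [e]
      linarith
    have hi1 : Integrable (fun ω => |X (T n ω) - X ω|) P := hb hXD.abs (K := 2 * M) (fun ω => by
        rw [abs_abs]
        have := abs_sub (X (T n ω)) (X ω)
        have a := hXM ω
        have b := hXM (T n ω)
        linarith)
    have hi2 : Integrable (fun ω => |Y (T n ω) - Y ω|) P := hb hYD.abs (K := 2 * M) (fun ω => by
        rw [abs_abs]
        have := abs_sub (Y (T n ω)) (Y ω)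
        have a := hYM ω
        have b := hYM (T n ω)
        linarith)
    have hi3 : Integrable (fun ω => (X ω * Y ω) * (X (T n ω) * Y (T n ω))) P :=
      hb ((hX.mul hY).mul (hXT.mul hYT)) (K := (M * M) * (M * M)) (fun ω => by
        rw [abs_mul, abs_mul, abs_mul]
        gcongr
        · exact hXM ω
        · exact hYM ω
        · exact hXM _
        · exact hYM _)
    have hi4 : Integrable (fun ω => (X ω * Y ω) ^ 2) P :=
      hb ((hX.mul hY).pow_const 2) (K := (M * M) ^ 2) (fun ω => by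
        rw [abs_pow, abs_mul]
        gcongr
        · exact hXM ω
        · exact hYM ω)
    have hi5 : Integrable (fun ω => |X (T n ω) - X ω| + |Y (T n ω) - Y ω|) P := hi1.add hi2
    have hi6 : Integrable (fun ω => M ^ 3 * (|X (T n ω) - X ω| + |Y (T n ω) - Y ω|)) P :=
      hi5.const_mul _
    calc ∫ ω, (X ω * Y ω) ^ 2 ∂P ≤ ∫ ω, ((X ω * Y ω) * (X (T n ω) * Y (T n ω)) +
        M ^ 3 * (|X (T n ω) - X ω| + |Y (T n ω) - Y ω|)) ∂P :=
          integral_mono hi4 (hi3.add hi6) hpt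
      _ = ∫ ω, (X ω * Y ω) * (X (T n ω) * Y (T n ω)) ∂P +
          M ^ 3 * (∫ ω, |X (T n ω) - X ω| ∂P + ∫ ω, |Y (T n ω) - Y ω| ∂P) := by
          rw [integral_add hi3 hi6, integral_const_mul, integral_add hi1 hi2]
      _ ≤ _ := by
          have : M ^ 3 * (∫ ω, |X (T n ω) - X ω| ∂P + ∫ ω, |Y (T n ω) - Y ω| ∂P) ≤ M ^ 3 * (√ε + √ε) := by
            (clear * - h1 h2 hM; gcongr)
          linarith
  refine le_of_tendsto_of_tendsto tendsto_const_nhds (hmix.add_const (2 * M ^ 3 * √ε)) ?_ |>.trans_eq ?_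
  · exact Eventually.of_forall key
  · ring

/-- **key inequality** -/
theorem sq_ineq {Ω : Type*} [MeasurableSpace Ω] (P : Measure Ω) [IsProbabilityMeasure P]
    (T : ℕ → Ω → Ω) (hT : ∀ n, Measurable (T n)) {X Y : Ω → ℝ} (hX : Measurable X) (hY : Measurable Y)
    {M ε : ℝ} (hM : 0 ≤ M) (hXM : ∀ ω, |X ω| ≤ M) (hYM : ∀ ω, |Y ω| ≤ M)
    (hDX : ∀ n, ∫ ω, (X (T n ω) - X ω) ^ 2 ∂P ≤ ε) (hDY : ∀ n, ∫ ω, (Y (T n ω) - Y ω) ^ 2 ∂P ≤ ε)
    (hXY : Tendsto (fun n => ∫ ω, (X ω * Y ω) * (X (T n ω) * Y (T n ω)) ∂P) atTop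
      (𝓝 ((∫ ω, X ω * Y ω ∂P) * ∫ ω, X ω * Y ω ∂P)))
    (hXX : Tendsto (fun n => ∫ ω, (X ω * X ω) * (X (T n ω) * X (T n ω)) ∂P) atTop
      (𝓝 ((∫ ω, X ω * X ω ∂P) * ∫ ω, X ω * X ω ∂P)))
    (hYY : Tendsto (fun n => ∫ ω, (Y ω * Y ω) * (Y (T n ω) * Y (T n ω)) ∂P) atTop
      (𝓝 ((∫ ω, Y ω * Y ω ∂P) * ∫ ω, Y ω * Y ω ∂P))) :
    (∫ ω, X ω * X ω ∂P) * (∫ ω, Y ω * Y ω ∂P) ≤ (∫ ω, X ω * Y ω ∂P) ^ 2 + 4 * M ^ 3 * √ε := by
  have h1 := prod_ineq P T hT hX hY hM hXM hYM hDX hDY hXY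
  have h2 := prod_ineq P T hT hX hX hM hXM hXM hDX hDX hXX
  have h3 := prod_ineq P T hT hY hY hM hYM hYM hDY hDY hYY
  have hb : ∀ {f : Ω → ℝ} {K : ℝ}, Measurable f → (∀ ω, |f ω| ≤ K) → Integrable f P := by
    intro f K hf hK
    exact Integrable.of_bound (C := K) hf.aestronglyMeasurable
      (Eventually.of_forall fun ω => by rw [Real.norm_eq_abs]; exact hK ω)
  set a := ∫ ω, X ω * X ω ∂P with ha
  set b := ∫ ω, Y ω * Y ω ∂P with hb'
  have hiX : Integrable (fun ω => X ω * X ω) P := hb (hX.mul hX) (K := M * M) (fun ω => by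
    rw [abs_mul]; gcongr <;> exact hXM ω)
  have hiY : Integrable (fun ω => Y ω * Y ω) P := hb (hY.mul hY) (K := M * M) (fun ω => by
    rw [abs_mul]; gcongr <;> exact hYM ω)
  have hiXX : Integrable (fun ω => (X ω * X ω) ^ 2) P := hb ((hX.mul hX).pow_const 2) (K := (M * M) ^ 2)
    (fun ω => by rw [abs_pow, abs_mul]; gcongr <;> exact hXM ω)
  have hiYY : Integrable (fun ω => (Y ω * Y ω) ^ 2) P := hb ((hY.mul hY).pow_const 2) (K := (M * M) ^ 2)
    (fun ω => by rw [abs_pow, abs_mul]; gcongr <;> exact hYM ω)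
  have hiXY : Integrable (fun ω => (X ω * Y ω) ^ 2) P := hb ((hX.mul hY).pow_const 2) (K := (M * M) ^ 2)
    (fun ω => by
      rw [abs_pow, abs_mul]
      gcongr
      · exact hXM ω
      · exact hYM ω)
  have h4 : 0 ≤ ∫ ω, ((X ω * X ω - a) + (Y ω * Y ω - b)) ^ 2 ∂P := integral_nonneg fun ω => sq_nonneg _
  have h5 : ∫ ω, ((X ω * X ω - a) + (Y ω * Y ω - b)) ^ 2 ∂P =
      ∫ ω, (X ω * X ω) ^ 2 ∂P + ∫ ω, (Y ω * Y ω) ^ 2 ∂P + 2 * ∫ ω, (X ω * Y ω) ^ 2 ∂P -
        2 * (a + b) * (a + b) + (a + b) ^ 2 := by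
    have e : ∀ ω, ((X ω * X ω - a) + (Y ω * Y ω - b)) ^ 2 = (X ω * X ω) ^ 2 + (Y ω * Y ω) ^ 2 +
        2 * (X ω * Y ω) ^ 2 - 2 * (a + b) * (X ω * X ω + Y ω * Y ω) + (a + b) ^ 2 := by
      intro ω; ring
    simp_rw [e]
    have i1 : Integrable (fun ω => (X ω * X ω) ^ 2 + (Y ω * Y ω) ^ 2) P := hiXX.add hiYY
    have i2 : Integrable (fun ω => 2 * (X ω * Y ω) ^ 2) P := hiXY.const_mul _
    have i3 : Integrable (fun ω => (X ω * X ω) ^ 2 + (Y ω * Y ω) ^ 2 + 2 * (X ω * Y ω) ^ 2) P :=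
      i1.add i2
    have i4 : Integrable (fun ω => X ω * X ω + Y ω * Y ω) P := hiX.add hiY
    have i5 : Integrable (fun ω => 2 * (a + b) * (X ω * X ω + Y ω * Y ω)) P := i4.const_mul _
    have i6 : Integrable (fun ω => (X ω * X ω) ^ 2 + (Y ω * Y ω) ^ 2 + 2 * (X ω * Y ω) ^ 2 -
      2 * (a + b) * (X ω * X ω + Y ω * Y ω)) P := i3.sub i5
    rw [integral_add i6 (integrable_const _), integral_sub i3 i5, integral_add i1 i2,
      integral_add hiXX hiYY, integral_const_mul, integral_const_mul, integral_add hiX hiY,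
      integral_const]
    simp only [probReal_univ, smul_eq_mul, one_mul]
    rw [← ha, ← hb']
  rw [h5] at h4
  linarith

end Vale.Agent.P145W85.P153.RP
end

section

/-!
# The dyadic monotonicity argument
-/

namespace Vale.Agent.P145W85.P153.Iso

/-- If `(a r - κ)^2 ≤ B (a r - a (2 r)) + η` for small `r` (every `η`) and `a` is bounded, then
`a r → κ`. -/
theorem dyadic {a : ℝ → ℝ} {κ B C ρ : ℝ} (hB : 0 < B) (hρ : 0 < ρ)
    (ha0 : ∀ r, 0 < r → r < ρ → 0 ≤ a r) (haC : ∀ r, 0 < r → r < ρ → a r ≤ C)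
    (h : ∀ η, 0 < η → ∃ r0, 0 < r0 ∧ ∀ r, 0 < r → r < r0 →
      (a r - κ) ^ 2 ≤ B * (a r - a (2 * r)) + η) :
    ∀ ε, 0 < ε → ∃ r0, 0 < r0 ∧ ∀ r, 0 < r → r < r0 → |a r - κ| ≤ ε := by
  intro ε hε
  -- choose `η`
  set η : ℝ := min (B * ε / 2) (ε ^ 2 / 8) with hη
  have hηpos : 0 < η := by rw [hη]; positivity
  have hη1 : η ≤ B * ε / 2 := min_le_left _ _
  have hη2 : η ≤ ε ^ 2 / 8 := min_le_right _ _
  obtain ⟨r1, hr1, hr⟩ := h η hηpos
  set r0 : ℝ := min r1 (ρ / 2) with hr0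
  have hr0pos : 0 < r0 := by rw [hr0]; (clear * - hr1 hρ; positivity)
  have hr01 : r0 ≤ r1 := min_le_left _ _
  have hr0ρ : r0 ≤ ρ / 2 := min_le_right _ _
  -- `C ≥ 0`
  have hC : 0 ≤ C := (ha0 (ρ / 2) (by linarith only [hr0pos, hr0ρ]) (by linarith only [hr0pos, hr0ρ])).trans
    (haC (ρ / 2) (by linarith only [hr0pos, hr0ρ]) (by linarith only [hr0pos, hr0ρ]))
  set δ : ℝ := ε ^ 2 / (8 * B) with hδ
  have hδpos : 0 < δ := by rw [hδ]; positivity
  have hδB : B * δ = ε ^ 2 / 8 := by rw [hδ]; field_simp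
  -- upper bound
  have hup : ∀ r, 0 < r → r < r0 → a r ≤ κ + ε := by
    intro r hrpos hrr0
    by_contra hcon
    push Not at hcon
    -- iterate downwards
    have step : ∀ n : ℕ, a r + n * δ ≤ a (r / 2 ^ n) := by
      intro n
      induction n with
      | zero => simp
      | succ n ih =>
        set u : ℝ := r / 2 ^ (n + 1) with hu
        have hu2 : 2 * u = r / 2 ^ n := by rw [hu, pow_succ]; (clear * - hrpos; field_simp)
        have hupos : 0 < u := by rw [hu]; positivity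
        have hule : u ≤ r := by
          rw [hu]; apply div_le_self hrpos.le
          exact one_le_pow₀ (by norm_num)
        have hineq := hr u hupos (by linarith only [hr01, hrr0, hule])
        rw [hu2] at hineq
        have hbase : κ + ε < a (r / 2 ^ n) := by
          have : 0 ≤ (n : ℝ) * δ := by (clear * - hε hB; positivity)
          linarith only [hcon, ih, this]
        -- first: a u ≥ a(2u) - η/B
        have h1 : a (r / 2 ^ n) - ε / 2 ≤ a u := by
          have : B * (a (r / 2 ^ n) - a u) ≤ B * (ε / 2) := by nlinarith only [hη1, hineq]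
          have := le_of_mul_le_mul_left this hB
          linarith only [this]
        have h2 : ε / 2 ≤ a u - κ := by linarith only [hbase, h1]
        have h3 : ε ^ 2 / 4 ≤ (a u - κ) ^ 2 := by nlinarith only [hε, hbase, h1]
        have h4 : B * δ ≤ B * (a u - a (r / 2 ^ n)) := by rw [hδB]; linarith only [hη2, hineq, h3]
        have h5 := le_of_mul_le_mul_left h4 hB
        push_cast
        linarith only [ih, h5]
    obtain ⟨n, hn⟩ := exists_nat_gt (C / δ)
    have h1 := step n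
    have h2 : a (r / 2 ^ n) ≤ C := by
      apply haC
      · positivity
      · have : r / 2 ^ n ≤ r := div_le_self hrpos.le (one_le_pow₀ (by norm_num))
        linarith only [hr0ρ, hrpos, hrr0, this]
    have h3 : 0 ≤ a r := ha0 r hrpos (by linarith only [hr0ρ, hrpos, hrr0])
    have h4 : C < n * δ := by
      rw [div_lt_iff₀ hδpos] at hn; exact hn
    linarith only [h1, h2, h3, h4]
  -- lower bound
  obtain ⟨N, hN⟩ := exists_nat_gt (κ / δ)
  have hlow : ∀ r, 0 < r → r < r0 / 2 ^ (N + 1) → κ - ε ≤ a r := by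
    intro r hrpos hrlt
    by_contra hcon
    push Not at hcon
    have step : ∀ n : ℕ, n ≤ N → a (2 ^ n * r) + n * δ ≤ a r := by
      intro n
      induction n with
      | zero => intro _; simp
      | succ n ih =>
        intro hn
        have ih' := ih (by (clear * - hn; omega))
        set u : ℝ := 2 ^ n * r with hu
        have hupos : 0 < u := by rw [hu]; (clear * - hrpos; positivity)
        have hult : u < r0 := by
          rw [lt_div_iff₀ (by positivity)] at hrlt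
          have : (2:ℝ) ^ n ≤ 2 ^ (N + 1) := pow_le_pow_right₀ (by norm_num) (by omega)
          calc u = r * 2 ^ n := by rw [hu]; ring
            _ ≤ r * 2 ^ (N + 1) := by
              exact mul_le_mul_of_nonneg_left this hrpos.le
            _ < r0 := hrlt
        have hineq := hr u hupos (by linarith only [hr01, hult])
        have hu2 : 2 ^ (n + 1) * r = 2 * u := by rw [hu, pow_succ]; ring
        rw [hu2]
        have h0 : 0 ≤ (n : ℝ) * δ := by (clear * - hε hB; positivity)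
        have h2 : ε ≤ κ - a u := by linarith only [hcon, ih', h0]
        have h3 : ε ^ 2 ≤ (a u - κ) ^ 2 := by nlinarith only [hε, hcon, ih', h0]
        have h4 : B * δ ≤ B * (a u - a (2 * u)) := by
          rw [hδB]; nlinarith only [hη2, hineq, h3]
        have h5 := le_of_mul_le_mul_left h4 hB
        push_cast
        linarith only [ih', h5]
    have h1 := step N le_rfl
    have hpos : 0 < (2:ℝ) ^ N * r := by (clear * - hrpos; positivity)
    have hlt : (2:ℝ) ^ N * r < ρ := by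
      rw [lt_div_iff₀ (by positivity)] at hrlt
      have : (2:ℝ) ^ N ≤ 2 ^ (N + 1) := pow_le_pow_right₀ (by norm_num) (by (clear * -; omega))
      calc (2:ℝ) ^ N * r = r * 2 ^ N := by ring
        _ ≤ r * 2 ^ (N + 1) := mul_le_mul_of_nonneg_left this hrpos.le
        _ < r0 := hrlt
        _ ≤ ρ := by linarith only [hr0pos, hr0ρ]
    have h2 := ha0 _ hpos hlt
    have h3 : κ < N * δ := by
      rw [div_lt_iff₀ hδpos] at hN; exact hN
    linarith only [hε, hcon, h1, h2, h3]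
  refine ⟨r0 / 2 ^ (N + 1), by positivity, ?_⟩
  intro r hrpos hrlt
  have hlt : r < r0 := lt_of_lt_of_le hrlt
    (div_le_self hr0pos.le (one_le_pow₀ (by norm_num)))
  rw [abs_le]
  constructor
  · linarith only [hlow r hrpos hrlt]
  · linarith only [hup r hrpos hlt]

end Vale.Agent.P145W85.P153.Iso
end

section

/-!
# Legs: continuation in the position of a group of observables, from reflection positivity

`leg_ineq`: for a positive semidefinite form with a symmetric positive bounded shift `T`,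
`|⟨x, p(T) y⟩| ≤ sup_{[0,1]} |p| ‖x‖ ‖y‖` for all real polynomials `p`.

`extrap`: a sequence `H` with this property is small at `m ≥ b / r` if it is small at the finitely
many positions `m + (j + k) b`, uniformly in `b`.

`leg_limit`: the form used for families of observables at scale `N`.
-/

open MeasureTheory Polynomial Filter Topology
open scoped NNReal unitInterval
open Vale.Agent.P145W85.P153.RP

namespace Vale.Agent.P145W85.P145.FA

/-- polynomial bound for a sequence: `|L_H p| ≤ sup_{[0,1]} |p| · C` -/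
def PolyBdd (H : ℕ → ℝ) (C : ℝ) : Prop :=
  ∀ (p : ℝ[X]) (M : ℝ), (∀ x ∈ Set.Icc (0 : ℝ) 1, |p.eval x| ≤ M) → |Lf H p| ≤ M * C

section form

variable {V : Type*} [AddCommGroup V] [Module ℝ V]

/-- data for a leg: a symmetric positive semidefinite form and a positive symmetric shift with
bounded diagonal correlations -/
structure LegForm (B : V →ₗ[ℝ] V →ₗ[ℝ] ℝ) (T : V →ₗ[ℝ] V) : Prop where
  symm : ∀ x y, B x y = B y x
  nonneg : ∀ x, 0 ≤ B x x
  shift : ∀ x y, B (T x) y = B x (T y)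
  shift_nonneg : ∀ x, 0 ≤ B x (T x)
  bdd : ∀ x, ∃ C : ℝ, ∀ n : ℕ, B x ((T ^ n) x) ≤ C

variable {B : V →ₗ[ℝ] V →ₗ[ℝ] ℝ} {T : V →ₗ[ℝ] V}

theorem LegForm.shift_pow (h : LegForm B T) (i : ℕ) (x y : V) :
    B ((T ^ i) x) y = B x ((T ^ i) y) := by
  induction i generalizing x y with
  | zero => simp only [pow_zero, Module.End.one_apply]
  | succ i ih =>
    rw [pow_succ, Module.End.mul_apply, ih, h.shift, ← Module.End.mul_apply, ← pow_succ',
      ← pow_succ]

theorem LegForm.cs (h : LegForm B T) (x y : V) : B x y ^ 2 ≤ B x x * B y y := by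
  have key : ∀ t : ℝ, 0 ≤ B y y * t ^ 2 + 2 * B x y * t + B x x := by
    intro t
    have := h.nonneg (x + t • y)
    simp only [map_add, map_smul, LinearMap.add_apply, LinearMap.smul_apply, h.symm y x, smul_eq_mul] at this
    linarith
  have := discrim_le_zero (a := B y y) (b := 2 * B x y) (c := B x x) (fun t => by
    have := key t
    linarith)
  unfold discrim at this
  nlinarith

theorem LegForm.abs_le (h : LegForm B T) (x y : V) :
    |B x y| ≤ √(B x x) * √(B y y) := by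
  rw [← Real.sqrt_mul (h.nonneg x)]
  exact Real.abs_le_sqrt (h.cs x y)

theorem LegForm.exists_measure (h : LegForm B T) (x : V) :
    ∃ μ : FiniteMeasure I, ∀ i : ℕ,
      ∫ t : I, (t : ℝ) ^ i ∂(μ : Measure I) = B x ((T ^ i) x) := by
  obtain ⟨C, hC⟩ := h.bdd x
  have hsum : ∀ (s : Finset ℕ) (a : ℕ → ℝ) (k : ℕ),
      ∑ i ∈ s, ∑ j ∈ s, a i * a j * B x ((T ^ (i + j + k)) x) =
      B (∑ i ∈ s, a i • (T ^ i) x) ((T ^ k) (∑ i ∈ s, a i • (T ^ i) x)) := by
    intro s a k
    simp only [map_sum, map_smul, LinearMap.sum_apply, LinearMap.smul_apply, smul_eq_mul,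
      Finset.mul_sum]
    rw [Finset.sum_comm]
    refine Finset.sum_congr rfl fun i _ => Finset.sum_congr rfl fun j _ => ?_
    rw [h.shift_pow, ← Module.End.mul_apply, ← Module.End.mul_apply, ← pow_add, ← pow_add]
    rw [show j + i + k = j + (k + i) by ring]
    ring_nf
  apply hausdorff _ C
  · intro n
    have h0 : 0 ≤ B x ((T ^ n) x) := by
      obtain ⟨m, hm⟩ := Nat.even_or_odd' n
      rcases hm with rfl | rfl
      · rw [two_mul, pow_add, Module.End.mul_apply, ← h.shift_pow]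
        exact h.nonneg _
      · rw [show 2 * m + 1 = m + (1 + m) by ring, pow_add, Module.End.mul_apply, ← h.shift_pow,
          pow_add, pow_one, Module.End.mul_apply]
        exact h.shift_nonneg _
    rw [abs_of_nonneg h0]
    exact hC n
  · intro s a
    have := hsum s a 0
    simp only [add_zero, pow_zero] at this
    rw [this]
    exact h.nonneg _
  · intro s a
    have := hsum s a 1
    simp only [pow_one] at this
    rw [this]
    exact h.shift_nonneg _

theorem LegForm.aeval_eq_Lf (x y : V) (p : ℝ[X]) :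
    B x (aeval T p y) = Lf (fun i => B x ((T ^ i) y)) p := by
  rw [Lf_apply, aeval_eq_sum_range, Polynomial.sum_over_range]
  · simp only [LinearMap.coe_sum, LinearMap.coe_smul, Finset.sum_apply, Pi.smul_apply, map_sum, map_smul, smul_eq_mul, mul_comm]
  · simp only [mul_zero, implies_true]

theorem LegForm.int_eq (x : V) (μ : FiniteMeasure I)
    (hμ : ∀ i : ℕ, ∫ t : I, (t : ℝ) ^ i ∂(μ : Measure I) = B x ((T ^ i) x)) (p : ℝ[X]) :
    B x (aeval T p x) = ∫ t : I, p.eval (t : ℝ) ∂(μ : Measure I) := by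
  rw [aeval_eq_sum_range]
  simp only [LinearMap.sum_apply, map_sum, LinearMap.smul_apply, map_smul, smul_eq_mul]
  simp_rw [eval_eq_sum_range]
  rw [integral_finsetSum]
  · refine Finset.sum_congr rfl fun i _ => ?_
    rw [← hμ i, integral_const_mul]
  · intro i _
    apply Integrable.const_mul
    apply Continuous.integrable_of_hasCompactSupport
    · fun_prop
    · exact HasCompactSupport.of_compactSpace _

/-- **leg inequality** -/
theorem LegForm.leg_ineq (h : LegForm B T) (x y : V) (p : ℝ[X]) (M : ℝ)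
    (hM : ∀ t ∈ Set.Icc (0 : ℝ) 1, |p.eval t| ≤ M) :
    |B x (aeval T p y)| ≤ M * (√(B x x) * √(B y y)) := by
  have hM0 : 0 ≤ M := (abs_nonneg _).trans (hM 0 (by simp only [Set.mem_Icc, Std.le_refl, zero_le_one, and_self]))
  obtain ⟨μ, hμ⟩ := h.exists_measure y
  have h1 : B (aeval T p y) (aeval T p y) ≤ M ^ 2 * B y y := by
    have e1 : B (aeval T p y) (aeval T p y) = B y (aeval T (p * p) y) := by
      rw [map_mul, Module.End.mul_apply]
      have : ∀ (q : ℝ[X]) (u v : V), B (aeval T q u) v = B u (aeval T q v) := by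
        intro q u v
        rw [aeval_eq_sum_range]
        simp only [LinearMap.sum_apply, LinearMap.smul_apply, map_sum, map_smul, h.shift_pow, smul_eq_mul]
      rw [this]
    rw [e1, LegForm.int_eq y μ hμ]
    have e2 : B y y = ∫ t : I, (1 : ℝ) ∂(μ : Measure I) := by
      have := hμ 0
      simpa only [integral_const, FiniteMeasure.measureReal_eq_coe_coeFn, FiniteMeasure.self_eq_mass_mul_normalize,     ProbabilityMeasure.coeFn_univ, mul_one, smul_eq_mul, pow_zero, Module.End.one_apply] using this.symm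
    rw [e2, ← integral_const_mul]
    apply integral_mono
    · apply Continuous.integrable_of_hasCompactSupport
      · fun_prop
      · exact HasCompactSupport.of_compactSpace _
    · exact integrable_const _
    · intro t
      simp only [eval_mul, mul_one]
      have := hM t t.2
      nlinarith only [this, abs_nonneg (p.eval (t : ℝ)), sq_abs (p.eval (t : ℝ))]
  calc |B x (aeval T p y)| ≤ √(B x x) * √(B (aeval T p y) (aeval T p y)) := h.abs_le _ _
    _ ≤ √(B x x) * √(M ^ 2 * B y y) := by gcongr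
    _ = M * (√(B x x) * √(B y y)) := by
      rw [Real.sqrt_mul (sq_nonneg M), Real.sqrt_sq hM0]; ring

/-- the off-diagonal correlations of a leg are `PolyBdd` -/
theorem LegForm.polyBdd (h : LegForm B T) (x y : V) {C : ℝ} (hC : √(B x x) * √(B y y) ≤ C) :
    PolyBdd (fun i => B x ((T ^ i) y)) C := by
  intro p M hM
  have hM0 : 0 ≤ M := (abs_nonneg _).trans (hM 0 (by simp only [Set.mem_Icc, Std.le_refl, zero_le_one, and_self]))
  rw [← LegForm.aeval_eq_Lf]
  exact (h.leg_ineq x y p M hM).trans (by (clear * - hC hM0; gcongr))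

end form

/-! ### extrapolation -/

theorem one_sub_pow_le {x : ℝ} (hx1 : x ≤ 1) (j : ℕ) :
    1 - (1 - x) ^ j ≤ j * x := by
  have := one_add_mul_le_pow (a := -x) (by linarith) j
  have e : (1 + -x) ^ j = (1 - x) ^ j := by ring
  rw [e] at this
  linarith

/-- choice of the exponent -/
theorem exists_exp (η : ℝ) (hη : 0 < η) (r : ℕ) :
    ∃ n : ℕ, ∀ u ∈ Set.Icc (0 : ℝ) 1, u * (1 - u ^ r) ^ n ≤ η := by
  rcases le_or_gt 1 η with h1 | h1
  · refine ⟨0, fun u hu => ?_⟩
    simpa only [pow_zero, mul_one] using hu.2.trans h1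
  obtain ⟨n, hn⟩ := exists_pow_lt_of_lt_one hη (show 1 - η ^ r < 1 by
    have := pow_pos hη r; linarith only [this])
  refine ⟨n, fun u hu => ?_⟩
  have hur : u ^ r ≤ 1 := pow_le_one₀ hu.1 hu.2
  have hur0 : 0 ≤ u ^ r := pow_nonneg hu.1 r
  rcases le_or_gt u η with h2 | h2
  · calc u * (1 - u ^ r) ^ n ≤ u * 1 := by
          gcongr
          · exact hu.1
          · exact pow_le_one₀ (by linarith only [hur]) (by linarith only [hur0])
      _ ≤ η := by linarith
  · calc u * (1 - u ^ r) ^ n ≤ 1 * (1 - η ^ r) ^ n := by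
          have : η ^ r ≤ u ^ r := by (clear * - hη h2; gcongr)
          apply mul_le_mul hu.2 _ (pow_nonneg (by linarith only [hur]) n) zero_le_one
          (clear * - hur this; gcongr)
      _ ≤ η := by linarith only [hn]

/-- **extrapolation**: uniform in the sequence `H`, in the unit `b` and in the position `m` -/
theorem extrap (r j : ℕ) (η : ℝ) (hη : 0 < η) :
    ∃ (D : ℕ) (K : ℝ), 0 ≤ K ∧ ∀ (H : ℕ → ℝ) (C ε : ℝ), 0 ≤ ε → PolyBdd H C →
      ∀ b m : ℕ, b ≤ r * m → (∀ k ≤ D, |H (m + (j + k) * b)| ≤ ε) →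
        |H m| ≤ η * C + K * ε := by
  classical
  obtain ⟨n, hn⟩ := exists_exp (η / (j + 1)) (by positivity) r
  -- `1 - (1 - Y)^n = Y * g`
  obtain ⟨g, hg⟩ : ∃ g : ℝ[X], 1 - (1 - X) ^ n = X * g := by
    have : (1 : ℝ[X]) - (1 - X) ∣ 1 ^ n - (1 - X) ^ n := sub_dvd_pow_sub_pow _ _ _
    rw [one_pow, sub_sub_cancel] at this
    exact this
  set q : ℝ[X] := g ^ j with hq
  refine ⟨q.natDegree, ∑ k ∈ Finset.range (q.natDegree + 1), |q.coeff k|,
    Finset.sum_nonneg fun _ _ => abs_nonneg _, ?_⟩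
  intro H C ε hε hH b m hbm hsmall
  set p : ℝ[X] := X ^ m - X ^ m * X ^ (j * b) * expand ℝ b q with hp
  have hC : 0 ≤ C := by
    have := hH 1 1 (by intro x _; simp)
    have h2 := abs_nonneg (Lf H 1)
    linarith only [this, h2]
  have hbd : ∀ x ∈ Set.Icc (0 : ℝ) 1, |p.eval x| ≤ η := by
    intro x hx
    set y : ℝ := x ^ b with hy
    have hy0 : 0 ≤ y := pow_nonneg hx.1 b
    have hy1 : y ≤ 1 := pow_le_one₀ hx.1 hx.2
    set u : ℝ := x ^ m with hu
    have hu0 : 0 ≤ u := pow_nonneg hx.1 m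
    have hu1 : u ≤ 1 := pow_le_one₀ hx.1 hx.2
    have hge : y * g.eval y = 1 - (1 - y) ^ n := by
      have := congrArg (eval y) hg
      simpa only [eval_mul, eval_X, eval_sub, eval_one, eval_pow] using this.symm
    have hpe : p.eval x = u * (1 - (1 - (1 - y) ^ n) ^ j) := by
      have hyj : x ^ (j * b) = y ^ j := by rw [hy, ← pow_mul, mul_comm]
      simp only [hp, eval_sub, eval_mul, eval_pow, eval_X, expand_eval, hq, hyj]
      rw [← hge, mul_pow]
      ring
    have hz0 : 0 ≤ (1 - y) ^ n := pow_nonneg (by linarith only [hy1]) n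
    have hz1 : (1 - y) ^ n ≤ 1 := pow_le_one₀ (by linarith only [hy1]) (by linarith only [hy0])
    have h1 : (1 - (1 - y) ^ n) ^ j ≤ 1 := pow_le_one₀ (by linarith only [hz1]) (by linarith only [hz0])
    have h2 : 1 - (1 - (1 - y) ^ n) ^ j ≤ j * (1 - y) ^ n := one_sub_pow_le hz1 j
    rw [hpe, abs_of_nonneg (mul_nonneg hu0 (by linarith only [h1]))]
    have h3 : u ^ r ≤ y := by
      rw [hu, hy, ← pow_mul, mul_comm m r]
      exact pow_le_pow_of_le_one hx.1 hx.2 hbm
    have h4 : (1 - y) ^ n ≤ (1 - u ^ r) ^ n := by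
      gcongr
    calc u * (1 - (1 - (1 - y) ^ n) ^ j) ≤ u * (j * (1 - u ^ r) ^ n) := by
          apply mul_le_mul_of_nonneg_left _ hu0
          exact h2.trans (mul_le_mul_of_nonneg_left h4 (by (clear * -; positivity)))
      _ = j * (u * (1 - u ^ r) ^ n) := by ring
      _ ≤ j * (η / (j + 1)) := by
          gcongr
          exact hn u ⟨hu0, hu1⟩
      _ ≤ η := by
          rw [mul_div_assoc', div_le_iff₀ (by (clear * -; positivity))]
          nlinarith only [hη]
  have hL : Lf H p = H m - ∑ k ∈ Finset.range (q.natDegree + 1),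
      q.coeff k * H (m + (j + k) * b) := by
    rw [hp, map_sub, Lf_X_pow]
    congr 1
    have e : expand ℝ b q = ∑ k ∈ Finset.range (q.natDegree + 1),
        q.coeff k • (X : ℝ[X]) ^ (b * k) := by
      conv_lhs => rw [q.as_sum_range_C_mul_X_pow]
      simp only [map_sum, map_mul, expand_C, map_pow, expand_X]
      refine Finset.sum_congr rfl fun k _ => ?_
      rw [← pow_mul, smul_eq_C_mul]
    rw [e, Finset.mul_sum, map_sum]
    refine Finset.sum_congr rfl fun k _ => ?_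
    rw [mul_smul_comm, map_smul, ← pow_add, ← pow_add, Lf_X_pow, smul_eq_mul]
    congr 2
    ring
  have h1 := hH p η hbd
  rw [hL] at h1
  have h2 : |∑ k ∈ Finset.range (q.natDegree + 1), q.coeff k * H (m + (j + k) * b)| ≤
      (∑ k ∈ Finset.range (q.natDegree + 1), |q.coeff k|) * ε := by
    rw [Finset.sum_mul]
    refine (Finset.abs_sum_le_sum_abs _ _).trans (Finset.sum_le_sum fun k hk => ?_)
    rw [abs_mul]
    apply mul_le_mul_of_nonneg_left _ (abs_nonneg _)
    exact hsmall k (Nat.lt_succ_iff.mp (Finset.mem_range.mp hk))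
  have h3 := abs_sub_abs_le_abs_sub (H m)
    (∑ k ∈ Finset.range (q.natDegree + 1), q.coeff k * H (m + (j + k) * b))
  linarith only [h1, h2, h3]

end Vale.Agent.P145W85.P145.FA
end

section

/-!
P145, block F-A: the product Schwinger-Dyson statement for a pinwheel in real coordinates.
-/

namespace Vale.Agent.P145W85.P145.FA.Use

open Finset Filter Topology MeasureTheory
open Vale.Agent.P145W85.P152
open Vale.Agent.P145W85.P152.GFF.S (Test gffCov)
open Vale.Agent.P145W85.P145.PT (Sm TestOn lap)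

/-- The central box, the width of the corridors and the radius of a pinwheel. -/
structure PW where
  x1 : ℝ
  x2 : ℝ
  y1 : ℝ
  y2 : ℝ
  e : ℝ
  R : ℝ

/-- The open box. -/
def PW.box (b : PW) : Set (ℝ × ℝ) := {z | b.x1 < z.1 ∧ z.1 < b.x2 ∧ b.y1 < z.2 ∧ z.2 < b.y2}

/-- The four arms. -/
def PW.K1 (b : PW) : Set (ℝ × ℝ) := {z | z.1 ≤ b.x1 - b.e ∧ |z.1| ≤ b.R ∧ |z.2| ≤ b.R}
def PW.K2 (b : PW) : Set (ℝ × ℝ) := {z | b.y2 + b.e ≤ z.2 ∧ b.x1 ≤ z.1 ∧ |z.1| ≤ b.R ∧ |z.2| ≤ b.R}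
def PW.K3 (b : PW) : Set (ℝ × ℝ) := {z | b.x2 + b.e ≤ z.1 ∧ z.2 ≤ b.y2 ∧ |z.1| ≤ b.R ∧ |z.2| ≤ b.R}
def PW.K4 (b : PW) : Set (ℝ × ℝ) := {z | z.2 ≤ b.y1 - b.e ∧ b.x1 ≤ z.1 ∧ z.1 ≤ b.x2 ∧
  |z.1| ≤ b.R ∧ |z.2| ≤ b.R}

/-- Lattice points of a set. -/
def lat (δ : ℝ) (K : Set (ℝ × ℝ)) : Set (ℤ × ℤ) := {q | (δ * (q.1 : ℝ), δ * (q.2 : ℝ)) ∈ K}

lemma zle {δ : ℝ} (hδ : 0 < δ) {x y : ℤ} (h : δ * (x : ℝ) < δ * ((y : ℝ) + 1)) : x ≤ y := by
  have h1 := lt_of_mul_lt_mul_left h hδ.le
  have h2 : x < y + 1 := by exact_mod_cast h1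
  omega

lemma zabs {δ : ℝ} (hδ : 0 < δ) {x : ℤ} {ρ N : ℕ} (h : |δ * (x : ℝ)| ≤ δ * (ρ * N)) :
    |x| ≤ ρ * N := by
  rw [abs_mul, abs_of_pos hδ] at h
  have h1 := le_of_mul_le_mul_left h hδ
  have h2 : ((|x| : ℤ) : ℝ) ≤ ((ρ * N : ℤ) : ℝ) := by push_cast; exact h1
  exact_mod_cast h2

/-! ### Translations -/

lemma lap_add (ψ : ℝ × ℝ → ℝ) (x0 z : ℝ × ℝ) : lap (fun x => ψ (x + x0)) z = lap ψ (z + x0) := by
  have e1 : PT.dx (fun x => ψ (x + x0)) = fun x => PT.dx ψ (x + x0) := by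
    funext w; unfold PT.dx; rw [fderiv_comp_add_right]
  have e2 : PT.dy (fun x => ψ (x + x0)) = fun x => PT.dy ψ (x + x0) := by
    funext w; unfold PT.dy; rw [fderiv_comp_add_right]
  unfold lap
  rw [e1, e2]
  congr 1
  · show fderiv ℝ (fun x => PT.dx ψ (x + x0)) z (1, 0) = fderiv ℝ (PT.dx ψ) (z + x0) (1, 0)
    rw [fderiv_comp_add_right]
  · show fderiv ℝ (fun x => PT.dy ψ (x + x0)) z (0, 1) = fderiv ℝ (PT.dy ψ) (z + x0) (0, 1)
    rw [fderiv_comp_add_right]

lemma sm_add {f : ℝ × ℝ → ℝ} (hf : Sm f) (x0 : ℝ × ℝ) : Sm (fun x => f (x + x0)) :=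
  hf.comp (contDiff_id.add contDiff_const)

lemma cs_addr {f : ℝ × ℝ → ℝ} (hf : HasCompactSupport f) (x0 : ℝ × ℝ) :
    HasCompactSupport (fun x => f (x + x0)) := hf.comp_homeomorph (Homeomorph.addRight x0)

lemma int_addr (f : ℝ × ℝ → ℝ) (x0 : ℝ × ℝ) : ∫ x, f (x + x0) = ∫ x, f x :=
  integral_add_right_eq_self f x0

lemma gffCov_smul (g : ℝ × ℝ → ℝ) (z : ℝ) :
    gffCov (fun x => z * g x) (fun x => z * g x) = z ^ 2 * gffCov g g := by
  unfold P152.GFF.S.gffCov
  rw [← integral_const_mul]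
  refine integral_congr_ae (Eventually.of_forall fun x => ?_)
  simp only
  rw [← integral_const_mul]
  refine integral_congr_ae (Eventually.of_forall fun y => ?_)
  simp only
  ring

end Vale.Agent.P145W85.P145.FA.Use
end

section

/-!
# P153, block F: free heights on a finite graph with even and odd sites

Integer heights on a finite graph, with prescribed parity and steps at most two; at most one end of
an edge is even. An edge is closed if both ends have modulus at most one. The modulus is positively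
associated, together with the products of heights.
-/

namespace Vale.Agent.P145W85.P153.F.Gh

open Finset Vale.Agent.P145W85.P153
open scoped Classical

/-- Sites with a parity (`b = 0` or `b = 1`) and a symmetric neighbour relation; two even sites are
not neighbours. -/
structure Gph (W : Type*) where
  R : W → W → Prop
  b : W → ℤ
  symm : ∀ {u v}, R u v → R v u
  b01 : ∀ u, b u = 0 ∨ b u = 1
  odd : ∀ {u v}, R u v → b u = 1 ∨ b v = 1

/-- Product of heights. -/
def mon {W : Type*} (l : List W) (H : W → ℤ) : ℝ := (l.map fun x => (H x : ℝ)).prod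

/-- Modulus. -/
def ab {W : Type*} (H : W → ℤ) : W → ℤ := fun u => |H u|

/-- Heights with given signs and modulus. -/
def sm {W : Type*} (s : W → ℤˣ) (a : W → ℤ) : W → ℤ := fun u => (s u : ℤ) * a u

/-- The sign of an integer as a unit. -/
def sn (n : ℤ) : ℤˣ := if n < 0 then -1 else 1

theorem sn_mul_abs (n : ℤ) : (sn n : ℤ) * |n| = n := by
  unfold sn
  split_ifs with h
  · simp [abs_of_neg h]
  · push Not at h
    simp [abs_of_nonneg h]

theorem sn_units_mul (u : ℤˣ) {n : ℤ} (hn : 1 ≤ n) : sn ((u : ℤ) * n) = u := by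
  unfold sn
  rcases Int.units_eq_one_or u with h1 | h1
  · subst h1
    have : ¬ n < 0 := by omega
    simp [this]
  · subst h1
    have : (0 : ℤ) < n := by omega
    simp [this]

theorem abs_units (u : ℤˣ) {n : ℤ} (hn : 0 ≤ n) : |(u : ℤ) * n| = n := by
  rcases Int.units_eq_one_or u with h1 | h1 <;> subst h1 <;> simp [abs_of_nonneg hn]

namespace Gph

variable {W : Type*} (N : Gph W) {M : ℤ}

/-- Given parity, steps at most two. -/
def Lp (H : W → ℤ) : Prop := (∀ u, Even (H u - N.b u)) ∧ ∀ u v, N.R u v → |H u - H v| ≤ 2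

theorem Lp.inf {N : Gph W} {a a' : W → ℤ} (h : N.Lp a) (h' : N.Lp a') : N.Lp (a ⊓ a') := by
  refine ⟨fun u => ?_, fun u v huv => ?_⟩
  · rcases min_choice (a u) (a' u) with h1 | h1
    · simpa [h1] using h.1 u
    · simpa [h1] using h'.1 u
  · exact (abs_min_sub_min_le_max (a u) (a' u) (a v) (a' v)).trans
      (max_le (h.2 u v huv) (h'.2 u v huv))

theorem Lp.sup {N : Gph W} {a a' : W → ℤ} (h : N.Lp a) (h' : N.Lp a') : N.Lp (a ⊔ a') := by
  refine ⟨fun u => ?_, fun u v huv => ?_⟩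
  · rcases max_choice (a u) (a' u) with h1 | h1
    · simpa [h1] using h.1 u
    · simpa [h1] using h'.1 u
  · exact (abs_max_sub_max_le_max (a u) (a' u) (a v) (a' v)).trans
      (max_le (h.2 u v huv) (h'.2 u v huv))

theorem b_nonneg (u : W) : 0 ≤ N.b u := by rcases N.b01 u with h | h <;> rw [h]; norm_num

theorem b_le (u : W) : N.b u ≤ 1 := by rcases N.b01 u with h | h <;> rw [h]; norm_num

theorem b_le_of {a : ℤ} {u : W} (h : Even (a - N.b u)) (h0 : 0 ≤ a) : N.b u ≤ a := by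
  rcases N.b01 u with h1 | h1
  · rw [h1]; exact h0
  · rw [h1] at h ⊢
    obtain ⟨m, hm⟩ := h
    omega

theorem eq_b_of {a : ℤ} {u : W} (h : Even (a - N.b u)) (h0 : 0 ≤ a) (h1 : a ≤ 1) : a = N.b u := by
  rcases N.b01 u with h2 | h2 <;> rw [h2] at h ⊢ <;> obtain ⟨m, hm⟩ := h <;> omega

theorem even_abs {n : ℤ} {u : W} (h : Even (n - N.b u)) : Even (|n| - N.b u) := by
  rcases abs_choice n with h1 | h1
  · rw [h1]; exact h
  · rw [h1]
    obtain ⟨m, hm⟩ := h
    exact ⟨-m - N.b u, by omega⟩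

/-- The signs compatible with the modulus. -/
def SG (a : W → ℤ) : Subgroup (W → ℤˣ) where
  carrier := {s | ∀ u v, N.R u v → ¬ (a u ≤ 1 ∧ a v ≤ 1) → s u = s v}
  mul_mem' := by
    rintro s t hs ht u v huv h
    simp [hs u v huv h, ht u v huv h]
  one_mem' := by
    intro u v _ _
    rfl
  inv_mem' := by
    rintro s hs u v huv h
    simp [hs u v huv h]

theorem mem_SG {a : W → ℤ} {s : W → ℤˣ} :
    s ∈ N.SG a ↔ ∀ u v, N.R u v → ¬ (a u ≤ 1 ∧ a v ≤ 1) → s u = s v := Iff.rfl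

theorem SG_sup (a a' : W → ℤ) : N.SG (a ⊔ a') = N.SG a ⊓ N.SG a' := by
  ext s
  rw [Subgroup.mem_inf, mem_SG, mem_SG, mem_SG]
  constructor
  · intro h2
    refine ⟨fun x y hxy h => h2 x y hxy ?_, fun x y hxy h => h2 x y hxy ?_⟩
    · rintro ⟨h3, h4⟩
      simp only [Pi.sup_apply, sup_le_iff] at h3 h4
      exact h ⟨h3.1, h4.1⟩
    · rintro ⟨h3, h4⟩
      simp only [Pi.sup_apply, sup_le_iff] at h3 h4
      exact h ⟨h3.2, h4.2⟩
  · rintro ⟨h2, h4⟩ x y hxy h
    by_cases h5 : a x ≤ 1 ∧ a y ≤ 1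
    · apply h4 x y hxy
      rintro ⟨h6, h7⟩
      apply h
      simp only [Pi.sup_apply, sup_le_iff]
      exact ⟨⟨h5.1, h6⟩, ⟨h5.2, h7⟩⟩
    · exact h2 x y hxy h5

theorem SG_anti {a a' : W → ℤ} (h : a ≤ a') : N.SG a' ≤ N.SG a := by
  intro s hs
  rw [mem_SG] at *
  intro x y hxy hne
  refine hs x y hxy ?_
  rintro ⟨h1, h2⟩
  exact hne ⟨(h x).trans h1, (h y).trans h2⟩

section fin

variable [Fintype W]

/-- The number of the compatible signs. -/
noncomputable def nSG (a : W → ℤ) : ℕ := Nat.card (N.SG a)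

theorem nSG_mul (a a' : W → ℤ) : N.nSG a * N.nSG a' ≤ N.nSG (a ⊓ a') * N.nSG (a ⊔ a') := by
  have h := card_mul_card_le (N.SG a) (N.SG a') (N.SG (a ⊓ a')) (N.SG_anti inf_le_left)
    (N.SG_anti inf_le_right)
  rw [← SG_sup] at h
  unfold nSG
  rw [mul_comm (Nat.card (N.SG (a ⊓ a')))]
  exact h

/-- Finset of the compatible signs. -/
noncomputable def SGF (a : W → ℤ) : Finset (W → ℤˣ) := Finset.univ.filter fun s => s ∈ N.SG a

theorem mem_SGF {a : W → ℤ} {s : W → ℤˣ} : s ∈ N.SGF a ↔ s ∈ N.SG a := by simp [SGF]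

theorem card_SGF (a : W → ℤ) : #(N.SGF a) = N.nSG a := by
  unfold SGF nSG
  rw [Nat.card_eq_fintype_card, Fintype.card_subtype]

/-- Heights with modulus at most `M`, minimal off `D`. -/
noncomputable def Om (M : ℤ) (D : Set W) : Finset (W → ℤ) :=
  (Fintype.piFinset fun _ => Finset.Icc (-M) M).filter fun H =>
    N.Lp H ∧ ∀ u, u ∉ D → |H u| = N.b u

theorem mem_Om {D : Set W} {H : W → ℤ} : H ∈ N.Om M D ↔ (∀ u, |H u| ≤ M) ∧ N.Lp H ∧
    ∀ u, u ∉ D → |H u| = N.b u := by
  unfold Om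
  rw [Finset.mem_filter, Fintype.mem_piFinset]
  simp only [Finset.mem_Icc, abs_le]

/-- Moduli at most `M`, minimal off `D`. -/
noncomputable def Ab (M : ℤ) (D : Set W) : Finset (W → ℤ) :=
  (Fintype.piFinset fun _ => Finset.Icc 0 M).filter fun a => N.Lp a ∧ ∀ u, u ∉ D → a u = N.b u

theorem mem_Ab {D : Set W} {a : W → ℤ} : a ∈ N.Ab M D ↔ (∀ u, 0 ≤ a u ∧ a u ≤ M) ∧ N.Lp a ∧
    ∀ u, u ∉ D → a u = N.b u := by
  unfold Ab
  rw [Finset.mem_filter, Fintype.mem_piFinset]
  simp only [Finset.mem_Icc]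

/-- The correction for the zeros. -/
noncomputable def cz (a : W → ℤ) : ℝ := ∏ u, if a u ≤ 0 then (1 / 2 : ℝ) else 1

theorem cz_pos (a : W → ℤ) : 0 < cz a := by
  refine Finset.prod_pos fun u _ => ?_
  split_ifs <;> norm_num

theorem cz_mul (a a' : W → ℤ) : cz a * cz a' = cz (a ⊓ a') * cz (a ⊔ a') := by
  unfold cz
  rw [← Finset.prod_mul_distrib, ← Finset.prod_mul_distrib]
  refine Finset.prod_congr rfl fun u _ => ?_
  simp only [Pi.inf_apply, Pi.sup_apply]
  rcases le_total (a u) (a' u) with h | h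
  · simp only [min_eq_left h, max_eq_right h]
  · simp only [min_eq_right h, max_eq_left h]
    rw [mul_comm]

/-- Decomposition into modulus and signs. -/
theorem sum_Om (D : Set W) (F : (W → ℤ) → ℝ) :
    ∑ H ∈ N.Om M D, F H = ∑ a ∈ N.Ab M D, cz a * ∑ s ∈ N.SGF a, F (sm s a) := by
  -- the signs of given heights
  set T : (W → ℤ) → Finset (W → ℤˣ) := fun H =>
    Fintype.piFinset fun u => if H u = 0 then Finset.univ else {sn (H u)} with hT
  have hTm : ∀ H s, s ∈ T H ↔ ∀ u, H u ≠ 0 → s u = sn (H u) := by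
    intro H s
    rw [hT, Fintype.mem_piFinset]
    refine forall_congr' fun u => ?_
    by_cases h : H u = 0
    · simp only [h, if_true, Finset.mem_univ, ne_eq, not_true_eq_false, false_imp_iff]
    · simp only [h, if_false, Finset.mem_singleton, ne_eq, not_false_eq_true, true_imp_iff]
  have hTc : ∀ H, cz (ab H) * (#(T H) : ℝ) = 1 := by
    intro H
    rw [hT, Fintype.card_piFinset]
    unfold cz
    push_cast
    rw [← Finset.prod_mul_distrib]
    refine Finset.prod_eq_one fun u _ => ?_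
    unfold ab
    by_cases h : H u = 0
    · simp [h]
    · have h1 : ¬ |H u| ≤ 0 := by
        rw [not_le]; exact abs_pos.2 h
      simp [h, h1]
  have h1 : ∑ H ∈ N.Om M D, F H = ∑ H ∈ N.Om M D, ∑ _s ∈ T H, cz (ab H) * F H := by
    refine Finset.sum_congr rfl fun H _ => ?_
    rw [Finset.sum_const, nsmul_eq_mul, ← mul_assoc, mul_comm (#(T H) : ℝ), hTc, one_mul]
  rw [h1, Finset.sum_sigma' (N.Om M D) T (fun H _ => cz (ab H) * F H)]
  have h2 : ∑ a ∈ N.Ab M D, cz a * ∑ s ∈ N.SGF a, F (sm s a) =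
      ∑ a ∈ N.Ab M D, ∑ s ∈ N.SGF a, cz a * F (sm s a) := by
    refine Finset.sum_congr rfl fun a _ => ?_
    rw [Finset.mul_sum]
  rw [h2, Finset.sum_sigma' (N.Ab M D) (fun a => N.SGF a) (fun a s => cz a * F (sm s a))]
  have hback : ∀ (H : W → ℤ) (s : W → ℤˣ), s ∈ T H → sm s (ab H) = H := by
    intro H s hs
    rw [hTm] at hs
    funext u
    unfold sm ab
    by_cases h : H u = 0
    · simp [h]
    · rw [hs u h]; exact sn_mul_abs _
  refine Finset.sum_nbij' (i := fun p => (⟨ab p.1, p.2⟩ : (_ : W → ℤ) × (W → ℤˣ)))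
    (j := fun p => (⟨sm p.2 p.1, p.2⟩ : (_ : W → ℤ) × (W → ℤˣ))) ?_ ?_ ?_ ?_ ?_
  · rintro ⟨H, s⟩ hp
    obtain ⟨hH, hs⟩ := Finset.mem_sigma.1 hp
    simp only at hH hs
    rw [mem_Om] at hH
    rw [hTm] at hs
    obtain ⟨hM, ⟨hpar, hlip⟩, hout⟩ := hH
    rw [Finset.mem_sigma]
    refine ⟨N.mem_Ab.2 ⟨fun u => ⟨abs_nonneg _, hM u⟩, ⟨fun u => N.even_abs (hpar u),
      fun u v huv => (abs_abs_sub_abs_le (H u) (H v)).trans (hlip u v huv)⟩, hout⟩,
      N.mem_SGF.2 (N.mem_SG.2 fun u v huv hne => ?_)⟩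
    have hd := abs_le.1 (hlip u v huv)
    have h3 : H u ≠ 0 := by
      intro h0
      apply hne
      have hv : H v ≤ 1 ∧ -1 ≤ H v := by
        have hb : N.b v = 1 := by
          rcases N.odd huv with h | h
          · exfalso
            have := hpar u
            rw [h0, h] at this
            obtain ⟨m, hm⟩ := this
            omega
          · exact h
        have := hpar v
        rw [hb] at this
        obtain ⟨m, hm⟩ := this
        omega
      simp only [ab]
      exact ⟨by rw [h0]; simp, abs_le.2 ⟨hv.2, hv.1⟩⟩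
    have h4 : H v ≠ 0 := by
      intro h0
      apply hne
      have hv : H u ≤ 1 ∧ -1 ≤ H u := by
        have hb : N.b u = 1 := by
          rcases N.odd huv with h | h
          · exact h
          · exfalso
            have := hpar v
            rw [h0, h] at this
            obtain ⟨m, hm⟩ := this
            omega
        have := hpar u
        rw [hb] at this
        obtain ⟨m, hm⟩ := this
        omega
      simp only [ab]
      exact ⟨abs_le.2 ⟨hv.2, hv.1⟩, by rw [h0]; simp⟩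
    show s u = s v
    rw [hs u h3, hs v h4]
    unfold sn
    by_cases h5 : H u < 0 <;> by_cases h6 : H v < 0
    · rw [if_pos h5, if_pos h6]
    · exfalso
      apply hne
      simp only [ab]
      rw [abs_of_neg h5, abs_of_nonneg (not_lt.1 h6)]
      omega
    · exfalso
      apply hne
      simp only [ab]
      rw [abs_of_neg h6, abs_of_nonneg (not_lt.1 h5)]
      omega
    · rw [if_neg h5, if_neg h6]
  · rintro ⟨a, s⟩ hp
    obtain ⟨ha, hs⟩ := Finset.mem_sigma.1 hp
    simp only at ha hs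
    rw [mem_Ab] at ha
    rw [mem_SGF, mem_SG] at hs
    obtain ⟨hM, ⟨hpar, hlip⟩, hout⟩ := ha
    have habs : ∀ u, |sm s a u| = a u := fun u => abs_units (s u) (hM u).1
    rw [Finset.mem_sigma]
    refine ⟨N.mem_Om.2 ⟨fun u => ?_, ⟨fun u => ?_, fun u v huv => ?_⟩, fun u hu => ?_⟩,
      (hTm _ _).2 fun u hu => ?_⟩
    · show |sm s a u| ≤ M
      rw [habs]; exact (hM u).2
    · show Even (sm s a u - N.b u)
      have h := hpar u
      rcases Int.units_eq_one_or (s u) with h3 | h3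
      · simpa [sm, h3] using h
      · obtain ⟨m, hm⟩ := h
        exact ⟨-m - N.b u, by simp only [sm, h3, Units.val_neg, Units.val_one]; omega⟩
    · show |sm s a u - sm s a v| ≤ 2
      have h0 := (hM u).1
      have h0' := (hM v).1
      by_cases hc : a u ≤ 1 ∧ a v ≤ 1
      · rcases Int.units_eq_one_or (s u) with h3 | h3 <;>
          rcases Int.units_eq_one_or (s v) with h4 | h4 <;>
          simp only [sm, h3, h4, Units.val_neg, Units.val_one] <;> rw [abs_le] <;> omega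
      · have h3 := hs u v huv hc
        have h4 := abs_le.1 (hlip u v huv)
        rcases Int.units_eq_one_or (s v) with h5 | h5 <;>
          simp only [sm, h3, h5, Units.val_neg, Units.val_one] <;> rw [abs_le] <;> omega
    · show |sm s a u| = N.b u
      rw [habs]; exact hout u hu
    · show s u = sn (sm s a u)
      have h0 : 1 ≤ a u := by
        have := (hM u).1
        by_contra hc
        have h1 : a u = 0 := by omega
        exact hu (by simp [sm, h1])
      exact (sn_units_mul (s u) h0).symm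
  · rintro ⟨H, s⟩ hp
    obtain ⟨-, hs⟩ := Finset.mem_sigma.1 hp
    have := hback H s hs
    simp only [this]
  · rintro ⟨a, s⟩ hp
    obtain ⟨ha, -⟩ := Finset.mem_sigma.1 hp
    have h3 : ab (sm s a) = a := by
      funext u
      exact abs_units (s u) ((N.mem_Ab.1 ha).1 u).1
    simp only [h3]
  · rintro ⟨H, s⟩ hp
    obtain ⟨-, hs⟩ := Finset.mem_sigma.1 hp
    simp only [hback H s hs]

omit [Fintype W] in
theorem ab_sm {a : W → ℤ} (s : W → ℤˣ) (ha : ∀ u, 0 ≤ a u) : ab (sm s a) = a := by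
  funext u
  exact abs_units (s u) (ha u)

/-- Moments of the signs. -/
theorem sum_SGF_prod (a : W → ℤ) (l : List W) :
    ∑ s ∈ N.SGF a, (((l.map s).prod : ℤˣ) : ℝ) =
      if ∀ s ∈ N.SG a, (l.map s).prod = 1 then (N.nSG a : ℝ) else 0 := by
  split_ifs with h
  · rw [← card_SGF, Finset.card_eq_sum_ones, Nat.cast_sum]
    refine Finset.sum_congr rfl fun s hs => ?_
    rw [h s (N.mem_SGF.1 hs)]
    simp
  · push Not at h
    obtain ⟨t, ht, hxy⟩ := h
    have ht1 : (l.map t).prod = -1 := by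
      rcases Int.units_eq_one_or (l.map t).prod with h1 | h1
      · exact absurd h1 hxy
      · exact h1
    have hmul : ∀ s : W → ℤˣ, (l.map (t * s)).prod = (l.map t).prod * (l.map s).prod := by
      intro s
      have : l.map (t * s) = l.map fun x => t x * s x := rfl
      rw [this, List.prod_map_mul]
    have key : ∑ s ∈ N.SGF a, (((l.map s).prod : ℤˣ) : ℝ) =
        ∑ s ∈ N.SGF a, (((l.map (t * s)).prod : ℤˣ) : ℝ) := by
      symm
      refine Finset.sum_nbij' (fun s => t * s) (fun s => t⁻¹ * s) ?_ ?_ ?_ ?_ ?_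
      · intro s hs
        exact N.mem_SGF.2 (mul_mem ht (N.mem_SGF.1 hs))
      · intro s hs
        exact N.mem_SGF.2 (mul_mem (inv_mem ht) (N.mem_SGF.1 hs))
      · intro s _; simp
      · intro s _; simp
      · intro s _; rfl
    have key2 : ∀ s ∈ N.SGF a, (((l.map (t * s)).prod : ℤˣ) : ℝ) =
        -(((l.map s).prod : ℤˣ) : ℝ) := by
      intro s _
      rw [hmul, ht1]
      simp
    rw [Finset.sum_congr rfl key2, Finset.sum_neg_distrib] at key
    linarith

/-- Conditional expectation of a product of heights given the modulus. -/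
noncomputable def Fk (l : List W) (a : W → ℤ) : ℝ :=
  (l.map fun x => ((max (a x) 0 : ℤ) : ℝ)).prod *
    if ∀ s ∈ N.SG a, (l.map s).prod = 1 then 1 else 0

omit [Fintype W] in
theorem prod_max_nonneg (l : List W) (a : W → ℤ) :
    0 ≤ (l.map fun x => ((max (a x) 0 : ℤ) : ℝ)).prod := by
  refine List.prod_nonneg fun y hy => ?_
  obtain ⟨x, -, rfl⟩ := List.mem_map.1 hy
  exact_mod_cast le_max_right (a x) 0

omit [Fintype W] in
theorem prod_max_mono (l : List W) {a a' : W → ℤ} (h : a ≤ a') :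
    (l.map fun x => ((max (a x) 0 : ℤ) : ℝ)).prod ≤
      (l.map fun x => ((max (a' x) 0 : ℤ) : ℝ)).prod := by
  induction l with
  | nil => simp
  | cons x l ih =>
    simp only [List.map_cons, List.prod_cons]
    refine mul_le_mul ?_ ih (prod_max_nonneg l a) ?_
    · exact_mod_cast max_le_max (h x) le_rfl
    · exact_mod_cast le_max_right (a' x) 0

theorem Fk_nonneg (l : List W) (a : W → ℤ) : 0 ≤ N.Fk l a := by
  unfold Fk
  refine mul_nonneg (prod_max_nonneg l a) ?_
  split_ifs <;> norm_num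

theorem Fk_mono (l : List W) : Monotone (N.Fk l) := by
  intro a a' h
  unfold Fk
  by_cases h1 : ∀ s ∈ N.SG a, (l.map s).prod = 1
  · have h2 : ∀ s ∈ N.SG a', (l.map s).prod = 1 := fun s hs => h1 s (N.SG_anti h hs)
    rw [if_pos h1, if_pos h2, mul_one, mul_one]
    exact prod_max_mono l h
  · rw [if_neg h1, mul_zero]
    exact mul_nonneg (prod_max_nonneg l a') (by split_ifs <;> norm_num)

theorem sum_signs {a : W → ℤ} (ha : ∀ u, 0 ≤ a u) (l : List W) :
    ∑ s ∈ N.SGF a, mon l (sm s a) = (N.nSG a : ℝ) * N.Fk l a := by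
  have h1 : ∀ s : W → ℤˣ, mon l (sm s a) =
      (l.map fun x => ((max (a x) 0 : ℤ) : ℝ)).prod * (((l.map s).prod : ℤˣ) : ℝ) := by
    intro s
    unfold mon sm
    induction l with
    | nil => simp
    | cons x l ih =>
      simp only [List.map_cons, List.prod_cons] at ih ⊢
      rw [ih, max_eq_left (ha x)]
      push_cast
      ring
  rw [Finset.sum_congr rfl fun s _ => h1 s, ← Finset.mul_sum, sum_SGF_prod]
  unfold Fk
  split_ifs <;> ring

theorem sum_Om_mon (D : Set W) (X : (W → ℤ) → ℝ) (l : List W) :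
    ∑ H ∈ N.Om M D, X (ab H) * mon l H =
      ∑ a ∈ N.Ab M D, (cz a * N.nSG a * X a) * N.Fk l a := by
  rw [N.sum_Om D fun H => X (ab H) * mon l H]
  refine Finset.sum_congr rfl fun a ha => ?_
  have h0 : ∀ u, 0 ≤ a u := fun u => ((N.mem_Ab.1 ha).1 u).1
  have h1 : ∀ s ∈ N.SGF a, X (ab (sm s a)) * mon l (sm s a) = X a * mon l (sm s a) := by
    intro s _
    rw [ab_sm s h0]
  rw [Finset.sum_congr rfl h1, ← Finset.mul_sum, N.sum_signs h0]
  ring

theorem sum_Om_ab (D : Set W) (X : (W → ℤ) → ℝ) :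
    ∑ H ∈ N.Om M D, X (ab H) = ∑ a ∈ N.Ab M D, cz a * N.nSG a * X a := by
  have h := N.sum_Om_mon (M := M) D X []
  have e1 : ∀ H : W → ℤ, mon [] H = 1 := fun H => rfl
  have e2 : ∀ a : W → ℤ, N.Fk [] a = 1 := by
    intro a
    unfold Fk
    simp
  simp only [e1, e2, mul_one] at h
  exact h

/-- Master inequality. -/
theorem master {D D' : Set W} (hD : D' ⊆ D) {X₁ X₂ : (W → ℤ) → ℝ} (h1 : ∀ a, 0 ≤ X₁ a)
    (h2 : ∀ a, 0 ≤ X₂ a)
    (hX : ∀ a ∈ N.Ab M D', ∀ a' ∈ N.Ab M D, X₁ a * X₂ a' ≤ X₁ (a ⊓ a') * X₂ (a ⊔ a'))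
    {B : (W → ℤ) → ℝ} (hB0 : ∀ a, 0 ≤ B a) (hB : Monotone B) (l : List W) :
    (∑ H ∈ N.Om M D', X₁ (ab H) * (B (ab H) * mon l H)) * (∑ H ∈ N.Om M D, X₂ (ab H)) ≤
      (∑ H ∈ N.Om M D', X₁ (ab H)) * ∑ H ∈ N.Om M D, X₂ (ab H) * (B (ab H) * mon l H) := by
  have r1 : ∀ (D : Set W) (X : (W → ℤ) → ℝ), ∑ H ∈ N.Om M D, X (ab H) * (B (ab H) * mon l H) =
      ∑ a ∈ N.Ab M D, (cz a * N.nSG a * X a) * (B a * N.Fk l a) := by
    intro D X
    have h := N.sum_Om_mon (M := M) D (fun a => X a * B a) l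
    have e : ∀ H : W → ℤ, X (ab H) * (B (ab H) * mon l H) = X (ab H) * B (ab H) * mon l H :=
      fun H => by ring
    rw [Finset.sum_congr rfl fun H _ => e H, h]
    exact Finset.sum_congr rfl fun a _ => by ring
  rw [r1, r1, N.sum_Om_ab, N.sum_Om_ab]
  let w₁ : (W → ℤ) → ℝ := fun a => if a ∈ N.Ab M D' then cz a * N.nSG a * X₁ a else 0
  let w₂ : (W → ℤ) → ℝ := fun a => if a ∈ N.Ab M D then cz a * N.nSG a * X₂ a else 0
  have hp : ∀ a : W → ℤ, 0 ≤ cz a * (N.nSG a : ℝ) := fun a =>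
    mul_nonneg (cz_pos a).le (Nat.cast_nonneg _)
  have hw₁ : ∀ a, 0 ≤ w₁ a := fun a => by
    dsimp only [w₁]
    split_ifs
    · exact mul_nonneg (hp a) (h1 a)
    · exact le_rfl
  have hw₂ : ∀ a, 0 ≤ w₂ a := fun a => by
    dsimp only [w₂]
    split_ifs
    · exact mul_nonneg (hp a) (h2 a)
    · exact le_rfl
  have key := holley_weighted w₁ w₂ (fun a => B a * N.Fk l a) (N.Ab M D') (N.Ab M D) hw₁ hw₂
    (fun a => mul_nonneg (hB0 a) (N.Fk_nonneg l a))
    (fun a a' h => mul_le_mul (hB h) (N.Fk_mono l h) (N.Fk_nonneg l a) (hB0 a'))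
    (fun a ha => if_neg ha) (fun a ha => if_neg ha)
    (by
      intro a a'
      by_cases ha : a ∈ N.Ab M D'
      · by_cases ha' : a' ∈ N.Ab M D
        · have i1 := N.mem_Ab.1 ha
          have i2 := N.mem_Ab.1 ha'
          have hinf : a ⊓ a' ∈ N.Ab M D' := by
            refine N.mem_Ab.2 ⟨fun u => ?_, i1.2.1.inf i2.2.1, fun u hu => ?_⟩
            · have j1 := i1.1 u
              have j2 := i2.1 u
              simp only [Pi.inf_apply]
              exact ⟨le_inf j1.1 j2.1, inf_le_left.trans j1.2⟩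
            · have j1 := i1.2.2 u hu
              have j2 := N.b_le_of (i2.2.1.1 u) (i2.1 u).1
              simp only [Pi.inf_apply]
              rw [j1]
              exact inf_eq_left.2 j2
          have hsup : a ⊔ a' ∈ N.Ab M D := by
            refine N.mem_Ab.2 ⟨fun u => ?_, i1.2.1.sup i2.2.1, fun u hu => ?_⟩
            · have j1 := i1.1 u
              have j2 := i2.1 u
              simp only [Pi.sup_apply]
              exact ⟨le_sup_of_le_left j1.1, sup_le j1.2 j2.2⟩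
            · have j1 := i1.2.2 u fun h => hu (hD h)
              have j2 := i2.2.2 u hu
              simp only [Pi.sup_apply]
              rw [j1, j2]
              exact sup_idem _
          dsimp only [w₁, w₂]
          rw [if_pos ha, if_pos ha', if_pos hinf, if_pos hsup]
          have e1 : (N.nSG a : ℝ) * N.nSG a' ≤ N.nSG (a ⊓ a') * N.nSG (a ⊔ a') := by
            exact_mod_cast N.nSG_mul a a'
          have e2 := hX a ha a' ha'
          have e3 := cz_mul a a'
          calc cz a * (N.nSG a : ℝ) * X₁ a * (cz a' * N.nSG a' * X₂ a')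
              = (cz a * cz a') * ((N.nSG a : ℝ) * N.nSG a') * (X₁ a * X₂ a') := by ring
            _ ≤ (cz a * cz a') * ((N.nSG (a ⊓ a') : ℝ) * N.nSG (a ⊔ a')) *
                (X₁ (a ⊓ a') * X₂ (a ⊔ a')) := by
                refine mul_le_mul (mul_le_mul_of_nonneg_left e1
                  (mul_nonneg (cz_pos a).le (cz_pos a').le)) e2 (mul_nonneg (h1 _) (h2 _)) ?_
                exact mul_nonneg (mul_nonneg (cz_pos a).le (cz_pos a').le) (by positivity)
            _ = _ := by rw [e3]; ring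
        · have : w₂ a' = 0 := if_neg ha'
          rw [this, mul_zero]
          exact mul_nonneg (hw₁ _) (hw₂ _)
      · have : w₁ a = 0 := if_neg ha
        rw [this, zero_mul]
        exact mul_nonneg (hw₁ _) (hw₂ _))
  have e1 : ∑ a ∈ N.Ab M D', w₁ a * (B a * N.Fk l a) =
      ∑ a ∈ N.Ab M D', cz a * (N.nSG a : ℝ) * X₁ a * (B a * N.Fk l a) :=
    Finset.sum_congr rfl fun a ha => by dsimp only [w₁]; rw [if_pos ha]
  have e2 : ∑ a ∈ N.Ab M D, w₂ a * (B a * N.Fk l a) =
      ∑ a ∈ N.Ab M D, cz a * (N.nSG a : ℝ) * X₂ a * (B a * N.Fk l a) :=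
    Finset.sum_congr rfl fun a ha => by dsimp only [w₂]; rw [if_pos ha]
  have e3 : ∑ a ∈ N.Ab M D', w₁ a = ∑ a ∈ N.Ab M D', cz a * (N.nSG a : ℝ) * X₁ a :=
    Finset.sum_congr rfl fun a ha => by dsimp only [w₁]; rw [if_pos ha]
  have e4 : ∑ a ∈ N.Ab M D, w₂ a = ∑ a ∈ N.Ab M D, cz a * (N.nSG a : ℝ) * X₂ a :=
    Finset.sum_congr rfl fun a ha => by dsimp only [w₂]; rw [if_pos ha]
  rw [e1, e2, e3, e4] at key
  exact key

end fin

end Gph

end Vale.Agent.P145W85.P153.F.Gh
end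

section

/-!
# Discrete Prékopa–Leindler inequality (Klartag–Lehec): all dimensions
-/

namespace Vale.Agent.P145W85.P153.F.PL

open Finset Function

variable {α : Type*} [DecidableEq α]

/-- The lower midpoint. -/
def fl (a b : α → ℤ) : α → ℤ := fun x => (a x + b x) / 2

/-- The upper midpoint. -/
def ce (a b : α → ℤ) : α → ℤ := fun x => (a x + b x + 1) / 2

/-- Sum over the coordinates of the list. -/
noncomputable def bs (N : ℕ) : List α → ((α → ℤ) → ℝ) → (α → ℤ) → ℝ
  | [], f, ξ => f ξ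
  | x :: l, f, ξ => ∑ t ∈ Icc (-(N : ℤ)) N, bs N l f (update ξ x t)

theorem bs_nonneg (N : ℕ) {f : (α → ℤ) → ℝ} (hf : ∀ a, 0 ≤ f a) :
    ∀ (l : List α) (ξ : α → ℤ), 0 ≤ bs N l f ξ
  | [], ξ => hf ξ
  | _ :: l, _ => sum_nonneg fun _ _ => bs_nonneg N hf l _

theorem fl_update (ξ ξ' : α → ℤ) (x : α) (t t' : ℤ) :
    fl (update ξ x t) (update ξ' x t') = update (fl ξ ξ') x ((t + t') / 2) := by
  funext y
  by_cases h : y = x
  · subst h
    simp [fl]
  · simp [fl, h]

theorem ce_update (ξ ξ' : α → ℤ) (x : α) (t t' : ℤ) :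
    ce (update ξ x t) (update ξ' x t') = update (ce ξ ξ') x ((t + t' + 1) / 2) := by
  funext y
  by_cases h : y = x
  · subst h
    simp [ce]
  · simp [ce, h]

theorem pl (N : ℕ) {f g h k : (α → ℤ) → ℝ} (hf : ∀ a, 0 ≤ f a) (hg : ∀ a, 0 ≤ g a)
    (hh : ∀ a, 0 ≤ h a) (hk : ∀ a, 0 ≤ k a) (H : ∀ a b, f a * g b ≤ h (fl a b) * k (ce a b)) :
    ∀ (l : List α) (ξ ξ' : α → ℤ), bs N l f ξ * bs N l g ξ' ≤
      bs N l h (fl ξ ξ') * bs N l k (ce ξ ξ')
  | [], ξ, ξ' => H ξ ξ'
  | x :: l, ξ, ξ' => by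
    refine dim1 N (f := fun t => bs N l f (update ξ x t)) (g := fun t => bs N l g (update ξ' x t))
      (h := fun t => bs N l h (update (fl ξ ξ') x t))
      (k := fun t => bs N l k (update (ce ξ ξ') x t)) (fun _ => bs_nonneg N hf _ _)
      (fun _ => bs_nonneg N hg _ _) (fun _ => bs_nonneg N hh _ _) (fun _ => bs_nonneg N hk _ _) ?_
    intro t t'
    have := pl N hf hg hh hk H l (update ξ x t) (update ξ' x t')
    rw [fl_update, ce_update] at this
    exact this

/-- The configurations which agree with `ξ` off the list, with values in `[-N, N]` on it. -/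
noncomputable def box (N : ℕ) : List α → (α → ℤ) → Set (α → ℤ) := fun l ξ =>
  {h | (∀ x, x ∉ l → h x = ξ x) ∧ ∀ x ∈ l, |h x| ≤ N}

theorem finite_box (N : ℕ) : ∀ (l : List α) (ξ : α → ℤ), (box N l ξ).Finite
  | [], ξ => by
    refine (Set.finite_singleton ξ).subset fun h hh => ?_
    rw [Set.mem_singleton_iff]
    funext x
    exact hh.1 x (by simp)
  | x :: l, ξ => by
    refine (Set.Finite.biUnion (Icc (-(N : ℤ)) N).finite_toSet
      fun t _ => finite_box N l (update ξ x t)).subset fun h hh => ?_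
    rw [Set.mem_iUnion₂]
    refine ⟨h x, ?_, fun y hy => ?_, fun y hy => hh.2 y (List.mem_cons_of_mem _ hy)⟩
    · have := hh.2 x (by simp)
      rw [abs_le] at this
      simp only [coe_Icc, Set.mem_Icc]
      exact this
    · by_cases hyx : y = x
      · subst hyx
        simp
      · rw [update_of_ne hyx]
        exact hh.1 y (by simp [hyx, hy])

open Classical in
theorem bs_eq (N : ℕ) (f : (α → ℤ) → ℝ) : ∀ (l : List α) (ξ : α → ℤ), l.Nodup →
    bs N l f ξ = ∑ h ∈ (finite_box N l ξ).toFinset, f h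
  | [], ξ, _ => by
    have : (finite_box N [] ξ).toFinset = {ξ} := by
      ext h
      rw [Set.Finite.mem_toFinset, mem_singleton]
      constructor
      · intro hh
        funext x
        exact hh.1 x (by simp)
      · rintro rfl
        exact ⟨fun _ _ => rfl, fun x hx => absurd hx (by simp)⟩
    rw [this, sum_singleton]
    rfl
  | x :: l, ξ, hl => by
    rw [List.nodup_cons] at hl
    have hU : (finite_box N (x :: l) ξ).toFinset =
        (Icc (-(N : ℤ)) N).biUnion fun t => (finite_box N l (update ξ x t)).toFinset := by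
      ext h
      rw [Set.Finite.mem_toFinset, mem_biUnion]
      constructor
      · intro hh
        refine ⟨h x, ?_, ?_⟩
        · have := hh.2 x (by simp)
          rw [abs_le] at this
          rw [mem_Icc]
          exact this
        · rw [Set.Finite.mem_toFinset]
          refine ⟨fun y hy => ?_, fun y hy => hh.2 y (List.mem_cons_of_mem _ hy)⟩
          by_cases hyx : y = x
          · subst hyx
            simp
          · rw [update_of_ne hyx]
            exact hh.1 y (by simp [hyx, hy])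
      · rintro ⟨t, ht, hh⟩
        rw [Set.Finite.mem_toFinset] at hh
        rw [mem_Icc] at ht
        have hx : h x = t := by
          rw [hh.1 x hl.1, update_self]
        refine ⟨fun y hy => ?_, fun y hy => ?_⟩
        · rw [List.mem_cons, not_or] at hy
          rw [hh.1 y hy.2, update_of_ne hy.1]
        · rcases List.mem_cons.1 hy with rfl | hy
          · rw [hx, abs_le]
            exact ht
          · exact hh.2 y hy
    have hb : bs N (x :: l) f ξ = ∑ t ∈ Icc (-(N : ℤ)) N, bs N l f (update ξ x t) := rfl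
    rw [hb, hU, sum_biUnion]
    · exact sum_congr rfl fun t _ => bs_eq N f l _ hl.2
    · intro t _ t' _ hne
      rw [Function.onFun, disjoint_left]
      intro h h1 h2
      rw [Set.Finite.mem_toFinset] at h1 h2
      apply hne
      have e1 := h1.1 x hl.1
      have e2 := h2.1 x hl.1
      rw [update_self] at e1 e2
      rw [← e1, ← e2]

/-- Klartag–Lehec for finite sets: `|A| |B| ≤ |⌊(A+B)/2⌋| |⌈(A+B)/2⌉|`. -/
theorem card_mid {D : Finset α} {A B C E : Set (α → ℤ)} (hA : A.Finite) (hB : B.Finite)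
    (hC : C.Finite) (hE : E.Finite) (h0 : ∀ h ∈ A ∪ B, ∀ x, x ∉ D → h x = 0)
    (h1 : ∀ a ∈ A, ∀ b ∈ B, fl a b ∈ C) (h2 : ∀ a ∈ A, ∀ b ∈ B, ce a b ∈ E) :
    (A.ncard : ℝ) * B.ncard ≤ C.ncard * E.ncard := by
  classical
  -- a bound for the values
  obtain ⟨N, hN⟩ : ∃ N : ℕ, ∀ h ∈ A ∪ B, ∀ x ∈ D, |h x| ≤ N := by
    have hfin : ((fun p : (α → ℤ) × α => |p.1 p.2|) '' ((A ∪ B) ×ˢ (D : Set α))).Finite :=
      ((hA.union hB).prod D.finite_toSet).image _
    obtain ⟨M, hM⟩ := hfin.bddAbove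
    refine ⟨M.toNat, fun h hh x hx => ?_⟩
    have := hM ⟨(h, x), ⟨hh, hx⟩, rfl⟩
    have h3 : |h x| ≤ M := this
    exact h3.trans (Int.self_le_toNat M)
  set l := D.toList with hl
  have hnd : l.Nodup := D.nodup_toList
  set z : α → ℤ := fun _ => 0 with hz
  have hfz : fl z z = z := by
    funext x
    simp [fl, hz]
  have hcz : ce z z = z := by
    funext x
    simp [ce, hz]
  have hmem : ∀ h ∈ A ∪ B, h ∈ (finite_box N l z).toFinset := by
    intro h hh
    rw [Set.Finite.mem_toFinset]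
    refine ⟨fun x hx => h0 h hh x ?_, fun x hx => hN h hh x ?_⟩
    · rwa [hl, Finset.mem_toList] at hx
    · rwa [hl, Finset.mem_toList] at hx
  have hin : ∀ S : Set (α → ℤ), ∀ hS : S.Finite, S ⊆ A ∪ B →
      bs N l (S.indicator fun _ => 1) z = S.ncard := by
    intro S hS hSA
    rw [bs_eq N _ l z hnd, Finset.sum_indicator_eq_sum_filter, Finset.sum_const, nsmul_eq_mul,
      mul_one, Set.ncard_eq_toFinset_card S hS]
    congr 2
    ext h
    rw [Finset.mem_filter, Set.Finite.mem_toFinset hS]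
    exact ⟨fun hh => hh.2, fun hh => ⟨hmem h (hSA hh), hh⟩⟩
  have hle : ∀ S : Set (α → ℤ), ∀ hS : S.Finite,
      bs N l (S.indicator fun _ => 1) z ≤ S.ncard := by
    intro S hS
    rw [bs_eq N _ l z hnd, Finset.sum_indicator_eq_sum_filter, Finset.sum_const, nsmul_eq_mul,
      mul_one, Set.ncard_eq_toFinset_card S hS]
    refine Nat.cast_le.2 (Finset.card_le_card fun h hh => ?_)
    rw [Finset.mem_filter] at hh
    rw [Set.Finite.mem_toFinset]
    exact hh.2
  have hnn : ∀ S : Set (α → ℤ), ∀ a, 0 ≤ S.indicator (fun _ => (1 : ℝ)) a := fun S a =>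
    Set.indicator_nonneg (fun _ _ => zero_le_one) a
  have key := pl N (hnn A) (hnn B) (hnn C) (hnn E) ?_ l z z
  · rw [hfz, hcz, hin A hA Set.subset_union_left, hin B hB Set.subset_union_right] at key
    exact key.trans (mul_le_mul (hle C hC) (hle E hE) (bs_nonneg N (hnn E) l z)
      (Nat.cast_nonneg _))
  · intro a b
    by_cases ha : a ∈ A
    · by_cases hb : b ∈ B
      · rw [Set.indicator_of_mem ha, Set.indicator_of_mem hb, Set.indicator_of_mem (h1 a ha b hb),
          Set.indicator_of_mem (h2 a ha b hb)]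
      · rw [Set.indicator_of_notMem hb, mul_zero]
        exact mul_nonneg (hnn _ _) (hnn _ _)
    · rw [Set.indicator_of_notMem ha, zero_mul]
      exact mul_nonneg (hnn _ _) (hnn _ _)

end Vale.Agent.P145W85.P153.F.PL
end

section

/-!
# P153: from patterns to functions

The local limit along rectangles, for patterns of height differences, gives the limit of the
expectations of all functions of the height differences in a finite set.
-/

namespace Vale.Agent.P145W85.P153.Strip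

open Finset MeasureTheory Filter Topology
open Vale.Agent.P145W85.P153.GFF (Ht Pat LocLim)

theorem gff_bc (D : Finset (ℤ × ℤ)) (v : ℤ × ℤ) : GFF.bc D v = Fv.bc D v := by
  classical
  ext a
  by_cases hv : v ∈ D
  · by_cases hv' : v ∈ Fv.inner D
    · rw [Fv.bc_inner hv']
      simp only [GFF.bc, Set.mem_ofPred_eq, Set.mem_univ, iff_true]
      exact ⟨fun h => absurd hv h, fun ⟨w, h1, h2⟩ => absurd (hv'.2 w h1) h2⟩
    · rw [Fv.bc_bd hv hv']
      simp only [GFF.bc, Set.mem_ofPred_eq, Set.mem_insert_iff, Set.mem_singleton_iff]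
      constructor
      · rintro ⟨-, h⟩
        apply h
        by_contra hcon
        push Not at hcon
        exact hv' ⟨hv, hcon⟩
      · exact fun h => ⟨fun h' => absurd hv h', fun _ => h⟩
  · rw [Fv.bc_out hv]
    simp only [GFF.bc, Set.mem_ofPred_eq, Set.mem_singleton_iff]
    exact ⟨fun h => h.1 hv, fun h => ⟨fun _ => h, fun _ => Or.inl h⟩⟩

theorem Ht_eq_reg (D : Finset (ℤ × ℤ)) : Ht D = (Fv.reg D : Set (ℤ × ℤ → ℤ)) := by
  have : GFF.bc D = Fv.bc D := funext fun v => gff_bc D v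
  unfold Ht
  rw [this]
  ext h
  exact (Fv.reg_isLp D h).symm

/-- A function with steps at most one is bounded by the distance to the origin. -/
theorem lip_bound {φ : ℤ × ℤ → ℤ} (hφ : ∀ x y, GFF.Adj x y → |φ x - φ y| ≤ 1) (x : ℤ × ℤ) :
    |φ x - φ (0, 0)| ≤ |x.1| + |x.2| := by
  have h1 : ∀ (n : ℕ) (y : ℤ), |φ ((n : ℤ), y) - φ (0, y)| ≤ n := by
    intro n
    induction n with
    | zero => intro y; simp
    | succ n ih =>
      intro y
      have := hφ ((n : ℤ) + 1, y) ((n : ℤ), y) (by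
        simp only [GFF.Adj, Int.reduceNeg, sub_add_cancel_left, sub_self, Set.mem_insert_iff, Prod.mk.injEq, reduceCtorEq, and_true, neg_eq_zero, one_ne_zero, zero_ne_one, and_self, zero_eq_neg, Set.mem_singleton_iff, and_false, or_self, or_false, or_true])
      have h2 := ih y
      push_cast
      calc |φ ((n : ℤ) + 1, y) - φ (0, y)|
          = |(φ ((n : ℤ) + 1, y) - φ ((n : ℤ), y)) + (φ ((n : ℤ), y) - φ (0, y))| := by
            congr 1; ring
        _ ≤ _ := (abs_add_le _ _).trans (by linarith only [this, h2])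
  have h2 : ∀ (n : ℕ) (y : ℤ), |φ (-(n : ℤ), y) - φ (0, y)| ≤ n := by
    intro n
    induction n with
    | zero => intro y; simp
    | succ n ih =>
      intro y
      have := hφ (-(n : ℤ) - 1, y) (-(n : ℤ), y) (by
        simp only [GFF.Adj, Int.reduceNeg, sub_sub_cancel, sub_self, Set.mem_insert_iff, Prod.mk.injEq, reduceCtorEq, and_true, one_ne_zero, zero_ne_one, and_self, zero_eq_neg, and_false, Set.mem_singleton_iff, or_self, or_false])
      have h2 := ih y
      push_cast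
      have e : (-1 + -(n : ℤ), y) = (-(n : ℤ) - 1, y) := by congr 1; ring
      have e' : (-((n : ℤ) + 1), y) = (-(n : ℤ) - 1, y) := by congr 1; ring
      rw [e']
      calc |φ (-(n : ℤ) - 1, y) - φ (0, y)|
          = |(φ (-(n : ℤ) - 1, y) - φ (-(n : ℤ), y)) + (φ (-(n : ℤ), y) - φ (0, y))| := by
            congr 1; ring
        _ ≤ _ := (abs_add_le _ _).trans (by linarith)
  have h3 : ∀ n : ℕ, |φ (0, (n : ℤ)) - φ (0, 0)| ≤ n := by
    intro n
    induction n with
    | zero => simp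
    | succ n ih =>
      have := hφ (0, (n : ℤ) + 1) (0, (n : ℤ)) (by
        simp only [GFF.Adj, Int.reduceNeg, sub_self, sub_add_cancel_left, Set.mem_insert_iff, Prod.mk.injEq, zero_ne_one, neg_eq_zero, one_ne_zero, and_self, zero_eq_neg, reduceCtorEq, and_false, and_true, Set.mem_singleton_iff, or_self, or_false, or_true])
      push_cast
      calc |φ (0, (n : ℤ) + 1) - φ (0, 0)|
          = |(φ (0, (n : ℤ) + 1) - φ (0, (n : ℤ))) + (φ (0, (n : ℤ)) - φ (0, 0))| := by
            congr 1; ring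
        _ ≤ _ := (abs_add_le _ _).trans (by linarith only [ih, this])
  have h4 : ∀ n : ℕ, |φ (0, -(n : ℤ)) - φ (0, 0)| ≤ n := by
    intro n
    induction n with
    | zero => simp
    | succ n ih =>
      have := hφ (0, -(n : ℤ) - 1) (0, -(n : ℤ)) (by
        simp only [GFF.Adj, Int.reduceNeg, sub_self, sub_sub_cancel, Set.mem_insert_iff, Prod.mk.injEq, zero_ne_one, one_ne_zero, and_self, zero_eq_neg, reduceCtorEq, and_false, Set.mem_singleton_iff, and_true, or_self, or_false, or_true])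
      push_cast
      have e' : ((0 : ℤ), -((n : ℤ) + 1)) = (0, -(n : ℤ) - 1) := by congr 1; ring
      rw [e']
      calc |φ (0, -(n : ℤ) - 1) - φ (0, 0)|
          = |(φ (0, -(n : ℤ) - 1) - φ (0, -(n : ℤ))) + (φ (0, -(n : ℤ)) - φ (0, 0))| := by
            congr 1; ring
        _ ≤ _ := (abs_add_le _ _).trans (by linarith only [ih, this])
  obtain ⟨a, b⟩ := x
  have h5 : |φ (a, b) - φ (0, b)| ≤ |a| := by
    rcases le_total 0 a with h | h
    · obtain ⟨n, rfl⟩ := Int.eq_ofNat_of_zero_le h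
      rw [abs_of_nonneg h]
      exact h1 n b
    · obtain ⟨n, hn⟩ := Int.eq_ofNat_of_zero_le (neg_nonneg.2 h)
      have : a = -(n : ℤ) := by omega
      subst this
      rw [abs_neg, abs_of_nonneg (by positivity : (0 : ℤ) ≤ (n : ℤ))]
      exact h2 n b
  have h6 : |φ (0, b) - φ (0, 0)| ≤ |b| := by
    rcases le_total 0 b with h | h
    · obtain ⟨n, rfl⟩ := Int.eq_ofNat_of_zero_le h
      rw [abs_of_nonneg h]
      exact h3 n
    · obtain ⟨n, hn⟩ := Int.eq_ofNat_of_zero_le (neg_nonneg.2 h)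
      have : b = -(n : ℤ) := by omega
      subst this
      rw [abs_neg, abs_of_nonneg (by positivity : (0 : ℤ) ≤ (n : ℤ))]
      exact h4 n
  calc |φ (a, b) - φ (0, 0)| = |(φ (a, b) - φ (0, b)) + (φ (0, b) - φ (0, 0))| := by
        congr 1; ring
    _ ≤ _ := (abs_add_le _ _).trans (add_le_add h5 h6)

theorem measurableSet_Pat (B : Finset (ℤ × ℤ)) (a : ℤ × ℤ → ℤ) : MeasurableSet (Pat B a) := by
  have : Pat B a = ⋂ x ∈ B, ⋂ y ∈ B, {φ : ℤ × ℤ → ℤ | φ x - φ y = a x - a y} := by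
    ext φ
    simp only [Pat, Prod.forall, Set.mem_ofPred_eq, Set.mem_iInter]
  rw [this]
  refine Finset.measurableSet_biInter B fun x _ => Finset.measurableSet_biInter B fun y _ => ?_
  exact ((measurable_pi_apply x).sub (measurable_pi_apply y)) (measurableSet_singleton _)

open Classical in
/-- Finitely many patterns suffice for the functions with steps at most one. -/
theorem exists_patterns (B : Finset (ℤ × ℤ)) : ∃ A : Finset (ℤ × ℤ → ℤ),
    ∀ F : (ℤ × ℤ → ℤ) → ℝ,
    (∀ φ ψ : ℤ × ℤ → ℤ, (∀ x ∈ B, ∀ y ∈ B, φ x - φ y = ψ x - ψ y) → F φ = F ψ) →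
    ∀ φ : ℤ × ℤ → ℤ, (∀ x y, GFF.Adj x y → |φ x - φ y| ≤ 1) →
      F φ = ∑ a ∈ A, if φ ∈ Pat (insert (0, 0) B) a then F a else 0 := by
  set B' : Finset (ℤ × ℤ) := insert (0, 0) B with hB'
  set M : ℤ := ∑ x ∈ B', (|x.1| + |x.2|) with hM
  let A : Finset (ℤ × ℤ → ℤ) := ((Fintype.piFinset (fun _ : B' => Finset.Icc (-M) M)).image
    (fun g x => if h : x ∈ B' then g ⟨x, h⟩ else 0)).filter (fun a => a (0, 0) = 0)
  refine ⟨A, fun F hF φ hφ => ?_⟩
  set r : ℤ × ℤ → ℤ := fun x => if x ∈ B' then φ x - φ (0, 0) else 0 with hr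
  have h0 : ((0 : ℤ), (0 : ℤ)) ∈ B' := Finset.mem_insert_self _ _
  have hrA : r ∈ A := by
    simp only [A, Finset.mem_filter, Finset.mem_image, Fintype.mem_piFinset]
    refine ⟨⟨fun x => φ x - φ (0, 0), fun x => ?_, ?_⟩, ?_⟩
    · rw [Finset.mem_Icc]
      have h1 := lip_bound hφ x
      have h2 : |(x : ℤ × ℤ).1| + |(x : ℤ × ℤ).2| ≤ M :=
        Finset.single_le_sum (f := fun x : ℤ × ℤ => |x.1| + |x.2|)
          (fun y _ => by (clear * -; positivity)) x.2
      exact abs_le.1 (h1.trans h2)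
    · funext x
      simp only [hr]
      split_ifs <;> rfl
    · simp [hr, h0]
  have key : ∀ a ∈ A, (φ ∈ Pat B' a ↔ a = r) := by
    intro a ha
    simp only [A, Finset.mem_filter, Finset.mem_image, Fintype.mem_piFinset] at ha
    obtain ⟨⟨g, hg, rfl⟩, ha0⟩ := ha
    constructor
    · intro h
      funext x
      simp only [hr]
      split_ifs with hx
      · have h1 := h x hx (0, 0) h0
        rw [ha0, sub_zero] at h1
        rw [h1]
        simp [hx]
      · rfl
    · intro h x hx y hy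
      rw [h]
      simp only [hr, if_pos hx, if_pos hy]
      ring
  have h1 : ∑ a ∈ A, (if φ ∈ Pat B' a then F a else 0) = ∑ a ∈ A, if a = r then F a else 0 :=
    Finset.sum_congr rfl fun a ha => by simp only [key a ha]
  rw [h1, Finset.sum_ite_eq' A r, if_pos hrA]
  apply hF
  intro x hx y hy
  have hx' : x ∈ B' := Finset.mem_insert_of_mem hx
  have hy' : y ∈ B' := Finset.mem_insert_of_mem hy
  simp only [hr, if_pos hx', if_pos hy']
  ring

end Vale.Agent.P145W85.P153.Strip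
end
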