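import Mathlib
import Vale.Agent.P145W85.Bd.B6
import Vale.Agent.P145W85.Bd.B8
import Vale.Agent.P145W85.Bd.B3
import Vale.Agent.P145W85.Bd.B4
import Vale.Agent.P145W85.Bd.B1

set_option linter.all false

section

/-!
The probability of a trifurcation at scale `R` tends to zero, hence a hexagon has at most two
unbounded outer components.
-/

namespace Vale.Agent.P145W85.P153.BK

open Relation MeasureTheory Filter Topology Set
open scoped ENNReal symmDiff

/-- The hexagon as a finset. -/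
noncomputable def HF (n : ℤ) : Finset (ℤ × ℤ) :=
  (Finset.Icc (-n) n ×ˢ Finset.Icc (-n) n).filter fun x => -n ≤ x.1 + x.2 ∧ x.1 + x.2 ≤ n

theorem mem_HF {n : ℤ} {x : ℤ × ℤ} : x ∈ HF n ↔ x ∈ H n := by
  simp only [HF, Finset.mem_filter, Finset.mem_product, Finset.mem_Icc, mem_H]
  tauto

theorem con_congr {τ τ' : Om} {A : Set (ℤ × ℤ)} (h : ∀ x ∈ A, τ x = τ' x) (x y : ℤ × ℤ) :
    Con τ A x y ↔ Con τ' A x y :=
  ⟨fun hc => hc.congr h, fun hc => hc.congr (fun z hz => (h z hz).symm)⟩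

theorem bi_congr {τ τ' : Om} {x y : ℤ × ℤ} (hx : τ x = τ' x) (hy : τ y = τ' y) :
    Bi τ x y ↔ Bi τ' x y := by unfold Bi; rw [hx, hy]

theorem H_mono {m n : ℤ} (h : m ≤ n) : H m ⊆ H n := by
  intro x hx; rw [mem_H] at hx ⊢; omega

theorem tri_imp {n R : ℤ} (hnR : n ≤ R) {τ τ' : Om} (h : ∀ x ∈ H R, τ x = τ' x)
    (ht : Tri n R τ) : Tri n R τ' := by
  obtain ⟨h1, a, h2, h3, h4, h5⟩ := ht
  have hn : ∀ x ∈ H n, τ x = τ' x := fun x hx => h x (H_mono hnR hx)
  have hd : ∀ x ∈ H R \ H n, τ x = τ' x := fun x hx => h x hx.1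
  refine ⟨fun x hx => (h1 x hx).congr hn, a, h2, fun i => ?_, fun i => ?_, fun i j hij => ?_⟩
  · obtain ⟨b, hb, hbi⟩ := h3 i
    exact ⟨b, hb, (bi_congr (hd _ (h2 i)) (hn b hb)).1 hbi⟩
  · obtain ⟨s, hs, hc⟩ := h4 i
    exact ⟨s, hs, hc.congr hd⟩
  · rw [← con_congr hd]; exact h5 i j hij

theorem tri_loc {n R : ℤ} (hnR : n ≤ R) : Loc (HF R) {τ | Tri n R τ} := fun _ _ h =>
  ⟨tri_imp hnR (fun x hx => h x (mem_HF.2 hx)),
    tri_imp hnR (fun x hx => (h x (mem_HF.2 hx)).symm)⟩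

/-- The boundary as a finset. -/
noncomputable def BdF (N : ℤ) : Finset (ℤ × ℤ) := by
  classical exact (HF N).filter fun x => x ∉ H (N - 1)

theorem mem_BdF {N : ℤ} (x : ℤ × ℤ) : x ∈ BdF N ↔ x ∈ Bd N := by
  classical
  simp only [BdF, Finset.mem_filter, mem_HF, Bd]
  exact Iff.rfl

theorem card_BdF {N : ℤ} (hN : 0 ≤ N) : ((BdF N).card : ℤ) ≤ 6 * (2 * N + 1) := by
  classical
  set I := Finset.Icc (-N) N with hI
  have hIc : (I.card : ℤ) = 2 * N + 1 := by rw [hI, Int.card_Icc]; omega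
  have hsub : BdF N ⊆ I.image (fun j => (N, j)) ∪ I.image (fun j => (-N, j)) ∪
      I.image (fun j => (j, N)) ∪ I.image (fun j => (j, -N)) ∪
      I.image (fun j => (j, N - j)) ∪ I.image (fun j => (j, -N - j)) := by
    intro x hx
    rw [mem_BdF] at hx
    obtain ⟨x1, x2⟩ := x
    obtain ⟨h1, h2⟩ := hx
    simp only [mem_H] at h1 h2
    simp only [Finset.mem_union, Finset.mem_image, hI, Finset.mem_Icc, Prod.mk.injEq]
    by_cases c1 : x1 = N
    · left; left; left; left; left; exact ⟨x2, by omega, by omega, rfl⟩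
    by_cases c2 : x1 = -N
    · left; left; left; left; right; exact ⟨x2, by omega, by omega, rfl⟩
    by_cases c3 : x2 = N
    · left; left; left; right; exact ⟨x1, by omega, rfl, by omega⟩
    by_cases c4 : x2 = -N
    · left; left; right; exact ⟨x1, by omega, rfl, by omega⟩
    by_cases c5 : x1 + x2 = N
    · left; right; exact ⟨x1, by omega, rfl, by omega⟩
    · right; exact ⟨x1, by omega, rfl, by omega⟩
  have h1 := Finset.card_le_card hsub
  have h2 : ∀ f : ℤ → ℤ × ℤ, (I.image f).card ≤ I.card := fun f => Finset.card_image_le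
  have h3 := Finset.card_union_le (I.image (fun j => (N, j)) ∪ I.image (fun j => (-N, j)) ∪
      I.image (fun j => (j, N)) ∪ I.image (fun j => (j, -N)) ∪
      I.image (fun j => (j, N - j))) (I.image (fun j => (j, -N - j)))
  have h4 := Finset.card_union_le (I.image (fun j => (N, j)) ∪ I.image (fun j => (-N, j)) ∪
      I.image (fun j => (j, N)) ∪ I.image (fun j => (j, -N))) (I.image (fun j => (j, N - j)))
  have h5 := Finset.card_union_le (I.image (fun j => (N, j)) ∪ I.image (fun j => (-N, j)) ∪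
      I.image (fun j => (j, N))) (I.image (fun j => (j, -N)))
  have h6 := Finset.card_union_le (I.image (fun j => (N, j)) ∪ I.image (fun j => (-N, j)))
      (I.image (fun j => (j, N)))
  have h7 := Finset.card_union_le (I.image (fun j => (N, j))) (I.image (fun j => (-N, j)))
  have g1 := h2 (fun j => (N, j))
  have g2 := h2 (fun j => (-N, j))
  have g3 := h2 (fun j => (j, N))
  have g4 := h2 (fun j => (j, -N))
  have g5 := h2 (fun j => (j, N - j))
  have g6 := h2 (fun j => (j, -N - j))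
  omega

/-- The bound on the probability of a trifurcation. -/
theorem tri_bound {P : Measure Om} (h : Hyp P) {n : ℤ} (hn : 0 ≤ n) (K : ℕ) :
    (K : ℝ≥0∞) ^ 2 * P {τ | Tri n (2 * (2 * (2 * n + 1) * K + n + 1) + 1) τ} ≤
      ENNReal.ofReal (6 * (2 * (2 * (2 * n + 1) * K + n + 1) + 1)) := by
  classical
  have := h.prob
  set N : ℤ := 2 * (2 * n + 1) * K + n + 1 with hN
  have hN0 : 0 ≤ N := by positivity
  have hNn : n ≤ N := by
    have : 0 ≤ 2 * (2 * n + 1) * (K : ℤ) := by positivity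
    omega
  set C : Finset (ℤ × ℤ) := (Finset.range K ×ˢ Finset.range K).image
    (fun p : ℕ × ℕ => ((2 * n + 1) * (p.1 : ℤ), (2 * n + 1) * (p.2 : ℤ))) with hCdef
  have hCcard : C.card = K ^ 2 := by
    rw [hCdef, Finset.card_image_of_injective, Finset.card_product, Finset.card_range, sq]
    intro p q hpq
    simp only [Prod.mk.injEq, mul_eq_mul_left_iff] at hpq
    obtain ⟨h1, h2⟩ := hpq
    have e1 : p.1 = q.1 := by
      rcases h1 with h | h
      · exact_mod_cast h
      · omega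
    have e2 : p.2 = q.2 := by
      rcases h2 with h | h
      · exact_mod_cast h
      · omega
    exact Prod.ext e1 e2
  have hCmem : ∀ c ∈ C, ∃ i j : ℤ, 0 ≤ i ∧ i < K ∧ 0 ≤ j ∧ j < K ∧
      c = ((2 * n + 1) * i, (2 * n + 1) * j) := by
    intro c hc
    simp only [hCdef, Finset.mem_image, Finset.mem_product, Finset.mem_range] at hc
    obtain ⟨p, ⟨hp1, hp2⟩, rfl⟩ := hc
    exact ⟨p.1, p.2, by positivity, by exact_mod_cast hp1, by positivity, by exact_mod_cast hp2,
      rfl⟩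
  have hbnd : ∀ i : ℤ, 0 ≤ i → i < K → 0 ≤ (2 * n + 1) * i ∧
      (2 * n + 1) * i ≤ (2 * n + 1) * K - (2 * n + 1) := by
    intro i h1 h2
    refine ⟨by positivity, ?_⟩
    nlinarith
  have hC : ∀ c ∈ C, ∀ x ∈ Bx n c, x ∈ H (N - 1) := by
    intro c hc x hx
    obtain ⟨i, j, hi0, hiK, hj0, hjK, rfl⟩ := hCmem c hc
    obtain ⟨a1, a2⟩ := hbnd i hi0 hiK
    obtain ⟨b1, b2⟩ := hbnd j hj0 hjK
    change x - _ ∈ H n at hx
    obtain ⟨x1, x2⟩ := x
    simp only [mem_H, Prod.mk_sub_mk] at hx ⊢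
    generalize (2 * n + 1) * i = u at *
    generalize (2 * n + 1) * j = v at *
    have : 2 * (2 * n + 1) * (K : ℤ) = 2 * ((2 * n + 1) * K) := by ring
    rw [this] at hN
    generalize (2 * n + 1) * (K : ℤ) = w at *
    omega
  have hdis : ∀ c ∈ C, ∀ c' ∈ C, c ≠ c' → ∀ x ∈ Bx n c, x ∉ Bx n c' := by
    intro c hc c' hc' hne x hx hx'
    obtain ⟨i, j, hi0, hiK, hj0, hjK, rfl⟩ := hCmem c hc
    obtain ⟨i', j', hi0', hiK', hj0', hjK', rfl⟩ := hCmem c' hc'
    change x - _ ∈ H n at hx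
    change x - _ ∈ H n at hx'
    obtain ⟨x1, x2⟩ := x
    simp only [mem_H, Prod.mk_sub_mk] at hx hx'
    have hcase : ∀ a b : ℤ, -n ≤ x1 - (2 * n + 1) * a → x1 - (2 * n + 1) * a ≤ n →
        -n ≤ x1 - (2 * n + 1) * b → x1 - (2 * n + 1) * b ≤ n → a = b := by
      intro a b h1 h2 h3 h4
      by_contra hab
      rcases lt_or_gt_of_ne hab with hlt | hgt
      · nlinarith
      · nlinarith
    have hcase2 : ∀ a b : ℤ, -n ≤ x2 - (2 * n + 1) * a → x2 - (2 * n + 1) * a ≤ n →
        -n ≤ x2 - (2 * n + 1) * b → x2 - (2 * n + 1) * b ≤ n → a = b := by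
      intro a b h1 h2 h3 h4
      by_contra hab
      rcases lt_or_gt_of_ne hab with hlt | hgt
      · nlinarith
      · nlinarith
    apply hne
    rw [hcase i i' hx.1 hx.2.1 hx'.1 hx'.2.1, hcase2 j j' hx.2.2.1 hx.2.2.2.1 hx'.2.2.1
      hx'.2.2.2.1]
  have hR : ∀ c ∈ C, ∀ x ∈ H N, x - c ∈ H (2 * N + 1 - 1) := by
    intro c hc x hx
    have hcN : c ∈ H (N - 1) := hC c hc c (mem_Bx_self hn c)
    obtain ⟨x1, x2⟩ := x
    obtain ⟨c1, c2⟩ := c
    simp only [mem_H, Prod.mk_sub_mk] at hx hcN ⊢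
    omega
  have hcount : ∀ τ : Om, ((C.filter (fun c => Tri n (2 * N + 1) (sh c τ))).card : ℝ≥0∞) ≤
      ENNReal.ofReal (6 * (2 * N + 1)) := by
    intro τ
    have h1 := tri_card hn C (BdF N) τ mem_BdF hC hdis hR
      (C.filter (fun c => Tri n (2 * N + 1) (sh c τ))) (Finset.filter_subset _ _)
      (fun t ht => (Finset.mem_filter.1 ht).2)
    have h2 := card_BdF hN0
    have h3 : ((C.filter (fun c => Tri n (2 * N + 1) (sh c τ))).card : ℝ) ≤ 6 * (2 * N + 1) := by
      have : ((C.filter (fun c => Tri n (2 * N + 1) (sh c τ))).card : ℤ) ≤ 6 * (2 * N + 1) := by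
        omega
      exact_mod_cast this
    rw [← ENNReal.ofReal_natCast]
    exact ENNReal.ofReal_le_ofReal h3
  have hmeas : MeasurableSet {τ : Om | Tri n (2 * N + 1) τ} :=
    (tri_loc (by omega : n ≤ 2 * N + 1)).meas
  have hsum : ∫⁻ τ, ((C.filter (fun c => Tri n (2 * N + 1) (sh c τ))).card : ℝ≥0∞) ∂P =
      (K : ℝ≥0∞) ^ 2 * P {τ | Tri n (2 * N + 1) τ} := by
    have e1 : ∀ τ : Om, ((C.filter (fun c => Tri n (2 * N + 1) (sh c τ))).card : ℝ≥0∞) =
        ∑ c ∈ C, (sh c ⁻¹' {τ : Om | Tri n (2 * N + 1) τ}).indicator (fun _ => 1) τ := by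
      intro τ
      rw [Finset.card_filter]
      push_cast
      refine Finset.sum_congr rfl (fun c _ => ?_)
      by_cases hc : Tri n (2 * N + 1) (sh c τ)
      · rw [Set.indicator_of_mem (show τ ∈ sh c ⁻¹' {τ : Om | Tri n (2 * N + 1) τ} from hc)]
        simp [hc]
      · rw [Set.indicator_of_notMem (show τ ∉ sh c ⁻¹' {τ : Om | Tri n (2 * N + 1) τ} from hc)]
        simp [hc]
    simp_rw [e1]
    rw [lintegral_finsetSum _ (fun c _ => (measurable_const.indicator
      ((measurable_sh c) hmeas)))]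
    simp_rw [lintegral_indicator_const ((measurable_sh _) hmeas), one_mul]
    rw [Finset.sum_congr rfl (fun c _ => h.inv' c hmeas), Finset.sum_const, hCcard, nsmul_eq_mul]
    push_cast
    rfl
  have hfin : (K : ℝ≥0∞) ^ 2 * P {τ | Tri n (2 * N + 1) τ} ≤ ENNReal.ofReal (6 * (2 * N + 1)) := by
    rw [← hsum]
    calc _ ≤ ∫⁻ _, ENNReal.ofReal (6 * (2 * N + 1)) ∂P := lintegral_mono hcount
      _ = _ := by simp
  convert hfin using 3
  rw [hN]; push_cast; ring

/-- Three outer components of the hexagon of radius `n` reach distance `R`. -/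
def Arms (n R : ℤ) (τ : Om) : Prop :=
  ∃ a : Fin 3 → ℤ × ℤ, (∀ i, a i ∉ H n) ∧ (∀ i, ∃ b ∈ H n, Step (a i) b) ∧
    (∀ i, ∃ s ∈ Bd R, Con τ (H R \ H n) (a i) s) ∧
    ∀ i j, i ≠ j → ¬ Con τ (H R \ H n) (a i) (a j)

theorem arms_tri {n R : ℤ} (hn : 2 ≤ n) (hnR : n < R) {τ : Om} (h : Arms n R τ) :
    ∃ ε v, Tri n R (recol n (pat ε v) τ) := by
  obtain ⟨a, h1, h2, h3, h4⟩ := h
  have hA : ∀ x, x ∉ H n → (∃ b ∈ H n, Step x b) → x ∈ H R \ H n := by
    rintro x hx ⟨b, hb, hst⟩
    refine ⟨?_, hx⟩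
    have := step_H hb (show Step b x by unfold Step at hst ⊢; omega)
    exact H_mono (by omega) this
  obtain ⟨ε, v, g1, a', g2, g3, g4⟩ := exists_attach (τ := τ) (A := H R \ H n) hn hA
    (fun x hx => hx.2) a h1 h2 (fun i j => by
      by_cases hij : i = j
      · exact Or.inl (by rw [hij])
      · exact Or.inr (h4 i j hij))
  have hcong : ∀ x ∈ H R \ H n, τ x = recol n (pat ε v) τ x := fun x hx => (recol_out hx.2).symm
  have haA : ∀ i, a i ∈ H R \ H n := fun i => hA _ (h1 i) (h2 i)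
  refine ⟨ε, v, g1, a', fun i => (g3 i).right_mem (haA i), g4, fun i => ?_, fun i j hij hc => ?_⟩
  · obtain ⟨s, hs, hc⟩ := h3 i
    exact ⟨s, hs, (g3 i).symm.trans (hc.congr hcong)⟩
  · apply h4 i j hij
    rw [con_congr hcong]
    exact (g3 i).trans (hc.trans (g3 j).symm)

/-- The recolourings by a pattern are finitely many. -/
theorem recol_pat_finite (n : ℤ) (ε : Bool) (v : ℤ × ℤ) : ∃ v' ∈ insert (n + 1, 0) (HF n),
    ∀ τ : Om, recol n (pat ε v) τ = recol n (pat ε v') τ := by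
  by_cases hv : v ∈ H n
  · exact ⟨v, Finset.mem_insert_of_mem (mem_HF.2 hv), fun τ => rfl⟩
  · refine ⟨(n + 1, 0), Finset.mem_insert_self _ _, fun τ => ?_⟩
    funext x
    by_cases hx : x ∈ H n
    · rw [recol_in hx, recol_in hx]
      have e1 : x ≠ v := fun h => hv (h ▸ hx)
      have e2 : x ≠ (n + 1, 0) := by
        rintro rfl
        rw [mem_H] at hx; simp only at hx; omega
      simp only [pat, e1, e2]
    · rw [recol_out hx, recol_out hx]

/-- Covering a set by finitely many recoloured sets. -/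
theorem measure_recol_cover {P : Measure Om} (h : Hyp P) (n : ℤ) : ∃ C : ℝ≥0∞, C ≠ ⊤ ∧
    ∀ (A E : Set Om), MeasurableSet E → (∀ τ ∈ A, ∃ ε v, recol n (pat ε v) τ ∈ E) →
      P A ≤ C * P E := by
  obtain ⟨C, hC, hfe⟩ := h.fe' n
  set F : Finset (Bool × (ℤ × ℤ)) := Finset.univ ×ˢ insert (n + 1, 0) (HF n) with hF
  refine ⟨F.card * C, ENNReal.mul_ne_top (ENNReal.natCast_ne_top _) hC, fun A E hE hA => ?_⟩
  have hsub : A ⊆ ⋃ p ∈ F, recol n (pat p.1 p.2) ⁻¹' E := by
    intro τ hτ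
    obtain ⟨ε, v, hv⟩ := hA τ hτ
    obtain ⟨v', hv', he⟩ := recol_pat_finite n ε v
    simp only [Set.mem_iUnion]
    refine ⟨(ε, v'), ?_, ?_⟩
    · rw [hF]; simp only [Finset.mem_product, Finset.mem_univ, true_and]; exact hv'
    · change recol n (pat ε v') τ ∈ E
      rw [← he]; exact hv
  calc P A ≤ P (⋃ p ∈ F, recol n (pat p.1 p.2) ⁻¹' E) := measure_mono hsub
    _ ≤ ∑ p ∈ F, P (recol n (pat p.1 p.2) ⁻¹' E) := measure_biUnion_finset_le _ _
    _ ≤ ∑ _p ∈ F, C * P E := Finset.sum_le_sum (fun p _ => hfe _ E hE)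
    _ = F.card * C * P E := by rw [Finset.sum_const, nsmul_eq_mul, mul_assoc]

/-- Almost surely, at most two outer components of a hexagon reach every distance. -/
theorem arms_null {P : Measure Om} (h : Hyp P) {n : ℤ} (hn : 2 ≤ n) :
    P {τ | ∀ R, n < R → Arms n R τ} = 0 := by
  obtain ⟨C, hC, hcov⟩ := measure_recol_cover h n
  have hK : ∀ K : ℕ, P {τ | ∀ R, n < R → Arms n R τ} ≤
      C * P {τ | Tri n (2 * (2 * (2 * n + 1) * K + n + 1) + 1) τ} := by
    intro K
    have h0 : (0 : ℤ) ≤ 2 * (2 * n + 1) * K := by positivity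
    refine hcov _ _ (tri_loc (by omega)).meas (fun τ hτ => ?_)
    exact arms_tri hn (by omega) (hτ _ (by omega))
  have hlim : Tendsto (fun K : ℕ => P {τ | Tri n (2 * (2 * (2 * n + 1) * K + n + 1) + 1) τ})
      atTop (𝓝 0) := by
    have hb : ∀ K : ℕ, 1 ≤ K → P {τ | Tri n (2 * (2 * (2 * n + 1) * K + n + 1) + 1) τ} ≤
        ENNReal.ofReal ((60 * (2 * n + 1)) / K) := by
      intro K hK
      have hKr : (1 : ℝ) ≤ K := by exact_mod_cast hK
      have hnr : (2 : ℝ) ≤ n := by exact_mod_cast hn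
      have h1 := tri_bound h (show (0 : ℤ) ≤ n by omega) K
      have hK2 : (K : ℝ≥0∞) ^ 2 ≠ 0 := by
        simp only [ne_eq, pow_eq_zero_iff, OfNat.ofNat_ne_zero, not_false_eq_true,
          Nat.cast_eq_zero]
        omega
      have hK3 : (K : ℝ≥0∞) ^ 2 ≠ ⊤ := ENNReal.pow_ne_top (ENNReal.natCast_ne_top _)
      rw [mul_comm, ← ENNReal.le_div_iff_mul_le (Or.inl hK2) (Or.inl hK3)] at h1
      refine h1.trans ?_
      rw [← ENNReal.ofReal_natCast, ← ENNReal.ofReal_pow (by positivity),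
        ← ENNReal.ofReal_div_of_pos (by positivity)]
      apply ENNReal.ofReal_le_ofReal
      rw [div_le_div_iff₀ (by positivity) (by positivity)]
      have : 6 * (2 * (2 * (2 * (n : ℝ) + 1) * K + n + 1) + 1) ≤ 60 * (2 * n + 1) * K := by
        nlinarith
      nlinarith
    have hto : Tendsto (fun K : ℕ => ENNReal.ofReal ((60 * (2 * n + 1)) / K)) atTop (𝓝 0) := by
      rw [← ENNReal.ofReal_zero]
      exact ENNReal.tendsto_ofReal (tendsto_const_div_atTop_nhds_zero_nat _)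
    exact tendsto_of_tendsto_of_tendsto_of_le_of_le' tendsto_const_nhds hto
      (Eventually.of_forall (fun _ => zero_le)) (eventually_atTop.2 ⟨1, hb⟩)
  have hlim2 := ENNReal.Tendsto.const_mul hlim (Or.inr hC)
  rw [mul_zero] at hlim2
  exact le_antisymm (ge_of_tendsto' hlim2 hK) zero_le

end Vale.Agent.P145W85.P153.BK
end

section

/-!
Burton–Keane: the hypotheses in terms of single flips, and the output for finite windows.
-/

namespace Vale.Agent.P145W85.P153.BK

open Relation MeasureTheory Filter Topology Set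
open scoped ENNReal symmDiff

/-- Change the colour of one vertex. -/
def flip (x : ℤ × ℤ) (τ : Om) : Om := Function.update τ x (!τ x)

/-- Prescribe the colours in a finite set. -/
noncomputable def recF (F : Finset (ℤ × ℤ)) (η τ : Om) : Om := by
  classical exact fun x => if x ∈ F then η x else τ x

theorem measurable_flip (x : ℤ × ℤ) : Measurable (flip x) := by
  classical
  refine measurable_pi_lambda _ (fun y => ?_)
  unfold flip
  by_cases h : y = x
  · subst h
    simp only [Function.update_self]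
    exact (measurable_of_finite (fun b : Bool => !b)).comp (measurable_pi_apply y)
  · simp only [Function.update_of_ne h]
    exact measurable_pi_apply y

theorem recF_bound {P : Measure Om} {C : ℝ≥0∞}
    (hC : ∀ (x : ℤ × ℤ) (E : Set Om), MeasurableSet E → P (flip x ⁻¹' E) ≤ C * P E)
    (η : Om) (F : Finset (ℤ × ℤ)) : ∀ E : Set Om, MeasurableSet E →
      P (recF F η ⁻¹' E) ≤ (1 + C) ^ F.card * P E := by
  classical
  induction F using Finset.induction_on with
  | empty =>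
    intro E _
    have : recF ∅ η ⁻¹' E = E := by
      ext τ
      have e : recF ∅ η τ = τ := by funext x; simp [recF]
      simp only [Set.mem_preimage, e]
    rw [this]; simp
  | insert a F ha ih =>
    intro E hE
    -- `recF (insert a F) η = recF F η ∘ update at a`, the update is the identity or a flip
    have hsub : recF (insert a F) η ⁻¹' E ⊆
        recF F η ⁻¹' E ∪ recF F η ⁻¹' (flip a ⁻¹' E) := by
      intro τ hτ
      rw [Set.mem_preimage] at hτ
      by_cases h : τ a = η a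
      · left
        have e : recF (insert a F) η τ = recF F η τ := by
          funext x
          by_cases hxa : x = a
          · subst hxa; simp [recF, ha, h]
          · simp [recF, hxa]
        rw [Set.mem_preimage, ← e]; exact hτ
      · right
        have e : recF (insert a F) η τ = flip a (recF F η τ) := by
          funext x
          by_cases hxa : x = a
          · subst hxa
            simp only [recF, Finset.mem_insert_self, if_true, flip, Function.update_self, ha,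
              if_false]
            revert h
            cases τ x <;> cases η x <;> simp
          · simp [recF, hxa, flip]
        rw [Set.mem_preimage, Set.mem_preimage, ← e]; exact hτ
    calc P (recF (insert a F) η ⁻¹' E) ≤ P (recF F η ⁻¹' E) + P (recF F η ⁻¹' (flip a ⁻¹' E)) :=
          (measure_mono hsub).trans (measure_union_le _ _)
      _ ≤ (1 + C) ^ F.card * P E + (1 + C) ^ F.card * P (flip a ⁻¹' E) :=
          add_le_add (ih E hE) (ih _ (measurable_flip a hE))
      _ ≤ (1 + C) ^ F.card * P E + (1 + C) ^ F.card * (C * P E) := by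
          gcongr; exact hC a E hE
      _ = (1 + C) ^ (insert a F).card * P E := by
          rw [Finset.card_insert_of_notMem ha, pow_succ]; ring

/-- The hypotheses of the Burton–Keane theorem from translation invariance, mixing of local events
along one sequence and the bound for a single flip. -/
theorem hyp_of_flip {P : Measure Om} (hP : IsProbabilityMeasure P)
    (inv : ∀ c, P.map (sh c) = P) {C : ℝ≥0∞} (hC : C ≠ ⊤)
    (hfl : ∀ (x : ℤ × ℤ) (E : Set Om), MeasurableSet E → P (flip x ⁻¹' E) ≤ C * P E)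
    (mix : ∃ z : ℕ → ℤ × ℤ, ∀ (B : Finset (ℤ × ℤ)) (A A' : Set Om), Loc B A → Loc B A' →
      Tendsto (fun k => P (A ∩ sh (z k) ⁻¹' A')) atTop (𝓝 (P A * P A'))) : Hyp P where
  prob := hP
  inv := fun c B A hA => by
    conv_rhs => rw [← inv c]
    rw [Measure.map_apply (measurable_sh c) hA.meas]
  fe := fun n => by
    refine ⟨(1 + C) ^ (HF n).card, ENNReal.pow_ne_top (by simp [hC]), fun η B A hA => ?_⟩
    have e : recol n η = recF (HF n) η := by
      funext τ x
      by_cases hx : x ∈ H n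
      · rw [recol_in hx]; simp [recF, mem_HF, hx]
      · rw [recol_out hx]; simp [recF, mem_HF, hx]
    rw [e]
    exact recF_bound hfl η _ A hA.meas
  mix := mix

end Vale.Agent.P145W85.P153.BK
end

section

/-!
P153, block A3, step (4): smaller domains have larger tau.
-/

namespace Vale.Agent.P145W85.P153.A

open Vale.Agent.P145W85.P153.GFF (Adj)
open Vale.Agent.P145W85.P153.Topo (adj_symm)

namespace Dm

/-- Both ends of a bichromatic edge are in the domain. -/
theorem both {D : Finset Pt} {τ : Sp} (hτ : τ ∈ Adm D) {x y : Pt} (hxy : Adj x y)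
    (hne : τ x ≠ τ y) : x ∈ D ∧ y ∈ D := by
  by_cases hx : x ∈ inn D
  · exact ⟨hx.1, hx.2 y hxy⟩
  · by_cases hy : y ∈ inn D
    · exact ⟨hy.2 x (adj_symm hxy), hy.1⟩
    · exact absurd ((hτ x hx).trans (hτ y hy).symm) hne

theorem inn_mono {D D' : Finset Pt} (h : D ⊆ D') : inn D ⊆ inn D' :=
  fun _ hx => ⟨h hx.1, fun w hw => h (hx.2 w hw)⟩

theorem adm_mono {D D' : Finset Pt} (h : D ⊆ D') : Adm D ⊆ Adm D' :=
  fun _ hτ x hx => hτ x fun hx' => hx (inn_mono h hx')

/-- The spins on the difference of the domains are free. -/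
noncomputable def eqv {D D' : Finset Pt} (h : D ⊆ D') {τ : Sp} (hτ : τ ∈ Adm D) :
    G D' τ ≃ G D τ × ({x // x ∈ D' \ D} → Bool) where
  toFun s := (⟨fun x => if x ∈ D then s.1 x else false, fun x hx => if_neg hx,
    fun x y hxy hne => by
      obtain ⟨h1, h2⟩ := both hτ hxy hne
      simp only [if_pos h1, if_pos h2]
      exact s.2.2 x y hxy hne⟩, fun x => s.1 x)
  invFun p := ⟨fun x => if hx : x ∈ D' \ D then p.2 ⟨x, hx⟩ else p.1.1 x, fun x hx => by
      have h1 : x ∉ D' \ D := fun h' => hx (Finset.mem_sdiff.1 h').1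
      have h2 : x ∉ D := fun h' => hx (h h')
      simp only [dif_neg h1]
      exact p.1.2.1 x h2, fun x y hxy hne => by
      obtain ⟨h1, h2⟩ := both hτ hxy hne
      have h1' : x ∉ D' \ D := fun h' => (Finset.mem_sdiff.1 h').2 h1
      have h2' : y ∉ D' \ D := fun h' => (Finset.mem_sdiff.1 h').2 h2
      simp only [dif_neg h1', dif_neg h2']
      exact p.1.2.2 x y hxy hne⟩
  left_inv s := by
    apply Subtype.ext
    funext x
    by_cases hx : x ∈ D' \ D
    · simp only [dif_pos hx]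
    · simp only [dif_neg hx]
      by_cases hD : x ∈ D
      · simp only [if_pos hD]
      · simp only [if_neg hD]
        have h1 : x ∉ D' := fun h' => hx (Finset.mem_sdiff.2 ⟨h', hD⟩)
        exact (s.2.1 x h1).symm
  right_inv p := by
    apply Prod.ext
    · apply Subtype.ext
      funext x
      by_cases hD : x ∈ D
      · have h1 : x ∉ D' \ D := fun h' => (Finset.mem_sdiff.1 h').2 hD
        simp only [if_pos hD, dif_neg h1]
      · simp only [if_neg hD]
        exact (p.1.2.1 x hD).symm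
    · funext x
      simp only [dif_pos x.2]

theorem w_eq {D D' : Finset Pt} (h : D ⊆ D') {τ : Sp} (hτ : τ ∈ Adm D) :
    w D' τ = 2 ^ (D' \ D).card * w D τ := by
  unfold w
  rw [Nat.card_congr (eqv h hτ), Nat.card_prod, mul_comm]
  congr 1
  rw [Nat.card_eq_fintype_card, Fintype.card_fun, Fintype.card_bool, Fintype.card_coe]

open Classical in
/-- The indicator of the admissible configurations. -/
noncomputable def ind (D : Finset Pt) (τ : Sp) : ℝ := if τ ∈ Adm D then 1 else 0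

theorem ind_mono (D : Finset Pt) : Monotone (ind D) := by
  intro a b hab
  unfold ind
  by_cases ha : a ∈ Adm D
  · have hb : b ∈ Adm D := by
      intro x hx
      have h1 := ha x hx
      have h2 := hab x
      rw [h1] at h2
      exact Bool.eq_true_of_true_le h2
    rw [if_pos ha, if_pos hb]
  · rw [if_neg ha]
    split_ifs
    · exact zero_le_one
    · exact le_rfl

theorem sum_eq (h2 : S_e1) {D D' : Finset Pt} (h : D ⊆ D') (u : Sp → ℝ) :
    (2 : ℝ) ^ (D' \ D).card * ∑ τ ∈ (h2 D).1.toFinset, (w D τ : ℝ) * u τ =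
      ∑ τ ∈ (h2 D').1.toFinset, (w D' τ : ℝ) * (u τ * ind D τ) := by
  have hsub : (h2 D).1.toFinset ⊆ (h2 D').1.toFinset := by
    intro τ hτ
    rw [Set.Finite.mem_toFinset] at hτ ⊢
    exact adm_mono h hτ
  rw [← Finset.sum_subset hsub, Finset.mul_sum]
  · refine Finset.sum_congr rfl fun τ hτ => ?_
    rw [Set.Finite.mem_toFinset] at hτ
    rw [w_eq h hτ, ind, if_pos hτ]
    push_cast
    ring
  · intro τ _ hτ
    rw [Set.Finite.mem_toFinset] at hτ
    rw [ind, if_neg hτ, mul_zero, mul_zero]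

end Dm

/-- (4) smaller domains have larger tau. -/
theorem s_dom (h2 : S_e1) (h3 : S_fkg) : S_dom := by
  intro D D' h f hf
  have hZ := fkg_Z_pos h2 D
  have hZ' := fkg_Z_pos h2 D'
  have key := h3 D' f (Dm.ind D) hf (Dm.ind_mono D)
  rw [fkg_E1_eq h2 D' f, fkg_E1_eq h2 D' (Dm.ind D), fkg_E1_eq h2 D'] at key
  rw [fkg_E1_eq h2 D' f, fkg_E1_eq h2 D f]
  have e1 := Dm.sum_eq h2 h f
  have e2 := Dm.sum_eq h2 h fun _ => 1
  simp only [mul_one, one_mul] at e2
  have hc : (0 : ℝ) < 2 ^ (D' \ D).card := by positivity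
  rw [← e1, ← e2] at key
  set c : ℝ := 2 ^ (D' \ D).card
  set Z := ∑ τ ∈ (h2 D).1.toFinset, (w D τ : ℝ)
  set Z' := ∑ τ ∈ (h2 D').1.toFinset, (w D' τ : ℝ)
  set S := ∑ τ ∈ (h2 D).1.toFinset, (w D τ : ℝ) * f τ
  set S' := ∑ τ ∈ (h2 D').1.toFinset, (w D' τ : ℝ) * f τ
  rw [div_mul_div_comm, div_le_div_iff₀ (by (clear * - hZ'; positivity)) hZ'] at key
  rw [div_le_div_iff₀ hZ' hZ]
  have h5 : (c * Z') * (S' * Z) ≤ (c * Z') * (S * Z') := by linarith only [key]
  exact le_of_mul_le_mul_left h5 (by (clear * - hZ'; positivity))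

end Vale.Agent.P145W85.P153.A
end

section

/-!
# The strip inequality: conclusion
-/

namespace Vale.Agent.P145W85.P153.Asm

open MeasureTheory Filter Finset
open scoped Topology ENNReal
open Vale.Agent.P145W85.P153.CLT

variable {Ω : Type*} {mΩ : MeasurableSpace Ω} {μ : Measure Ω}
variable {ι β : Type} [Fintype ι] [Fintype β] [DecidableEq β]
variable {F : ℤ → MeasurableSpace Ω} {h : ℤ × ℤ → Ω → ℝ} {B : ℝ} {lo hi : ℤ}

lemma norm_ei_sub_ei_le (x y : ℝ) : ‖ei x - ei y‖ ≤ |x - y| := by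
  have h1 : ei x - ei y = ei y * (ei (x - y) - 1) := by
    rw [mul_sub, ← ei_add, mul_one]
    congr 2
    ring
  rw [h1, norm_mul, norm_ei, one_mul]
  unfold ei
  exact Real.norm_exp_I_mul_ofReal_sub_one_le

lemma int_combo {f g k : Ω → ℝ} (hf : Integrable f μ) (hg : Integrable g μ)
    (hk : Integrable k μ) {t c : ℝ} :
    ∫ ω, (f ω + (t * g ω + c * k ω)) ∂μ = ∫ ω, f ω ∂μ + (t * ∫ ω, g ω ∂μ + c * ∫ ω, k ω ∂μ) := by
  have h1 : ∫ ω, (f ω + (t * g ω + c * k ω)) ∂μ = ∫ ω, f ω ∂μ + ∫ ω, (t * g ω + c * k ω) ∂μ :=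
    integral_add hf ((hg.const_mul t).add (hk.const_mul c))
  have h2 : ∫ ω, (t * g ω + c * k ω) ∂μ = ∫ ω, t * g ω ∂μ + ∫ ω, c * k ω ∂μ :=
    integral_add (hg.const_mul t) (hk.const_mul c)
  rw [h1, h2, integral_const_mul, integral_const_mul]

/-- **Strip inequality.** -/
theorem strip [IsProbabilityMeasure μ] (R : Rows μ F h B lo hi) (hB : 0 ≤ B) (G : Geo ι β)
    {J : ℕ} {T : ℤ} (W : G.In lo hi J T) (hK : 0 < G.K)
    (A : Finset (ℤ × ℤ)) (hAT : ∀ w ∈ A, w.1 ≤ T) (a : ℤ × ℤ → ℝ) (ha : ∑ w ∈ A, a w = 0)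
    (g : ℕ → ι → ℝ)
    {η : ℝ} (hη1 : η ≤ 1)
    (hη : ∀ j c, ∑ i ∈ sT G.b {c}, |g j i| * (2 * (B * G.K)) ≤ η)
    (s : ℝ) (hs : 0 ≤ s) (t : ℝ) (ht : 0 < t) :
    ‖∫ ω, ei (∑ w ∈ A, a w * h w ω) ∂μ - ((Real.exp (-s / 2) : ℝ) : ℂ)‖ ≤
      Real.sqrt (err2 (msd μ h) G A a g J) +
      2 * (4 * vcross (msd μ h) G g J + η * vsq (msd μ h) G g J) +
      (s + 4) * (dev μ h G g J s + t * vloc (msd μ h) G g J +
        (1 + 1 / t) * vdel (msd μ h) G g J + Real.sqrt J * (Fintype.card β * η ^ 2)) := by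
  classical
  set r := rr μ F h B G J with hr
  have hblock : ∀ j c ω, |lL (g j) (r j) (sT G.b {c}) ω| ≤ η := by
    intro j c ω
    unfold lL
    refine (Finset.abs_sum_le_sum_abs _ _).trans (le_trans (Finset.sum_le_sum fun i _ => ?_) (hη j c))
    rw [abs_mul]
    exact mul_le_mul_of_nonneg_left (rr_bound R G W hB j i ω) (abs_nonneg _)
  have hclt := np_mart_clt_sq (μ := μ) (fun j => F (G.l j)) (fun j => R.hF _)
    (fun i j hij => R.mono (G.l_mono hij)) r g G.b (fun j i => rr_meas R G J j i)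
    (2 * (B * G.K)) (fun j i ω => rr_bound R G W hB j i ω) (fun j => rr_np R G W hK j)
    (fun j i => rr_centered R G W j i) hη1 hblock s hs J
  -- the cross covariances and the variances
  have hcross : ∀ j < J, cross μ (g j) (r j) G.b univ = ∑ i, ∑ i', if G.b i = G.b i' then 0 else
      |g j i| * |g j i'| * crV (msd μ h) (G.l j) (G.site j i) (G.site j i') := by
    intro j hj
    unfold cross
    refine Finset.sum_congr rfl fun i _ => Finset.sum_congr rfl fun i' _ => ?_
    rw [hr, int_rr_rr R G W hj i i']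
    rfl
  have hvar : ∀ j < J, ∑ c : β, ∫ ω, lL (g j) (r j) (sT G.b {c}) ω ^ 2 ∂μ =
      ∑ c : β, ∑ i ∈ sT G.b {c}, ∑ i' ∈ sT G.b {c},
        g j i * g j i' * crV (msd μ h) (G.l j) (G.site j i) (G.site j i') := by
    intro j hj
    exact Finset.sum_congr rfl fun c _ => int_block_sq R G W g hj c
  have h1 : ∑ j ∈ range J, (4 * cross μ (g j) (r j) G.b univ +
        η * ∑ c : β, ∫ ω, lL (g j) (r j) (sT G.b {c}) ω ^ 2 ∂μ) =
      4 * vcross (msd μ h) G g J + η * vsq (msd μ h) G g J := by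
    unfold vcross vsq
    rw [Finset.sum_add_distrib, ← Finset.mul_sum, ← Finset.mul_sum]
    congr 2
    · exact Finset.sum_congr rfl fun j hj => hcross j (Finset.mem_range.1 hj)
    · exact Finset.sum_congr rfl fun j hj => hvar j (Finset.mem_range.1 hj)
  -- L² facts
  have hrm : ∀ j i, MemLp (r j i) 2 μ := fun j i => rr_memLp R G W j i
  have hL : ∀ j c, MemLp (lL (g j) (r j) (sT G.b {c})) 2 μ := fun j c =>
    memLp_finsetSum _ fun i _ => (hrm j i).const_mul (g j i)
  have hY : ∀ j c, MemLp (yloc h G g j c) 2 μ := fun j c =>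
    memLp_finsetSum _ fun i _ => (((R.bm (G.site j i)).memLp 2).sub
      ((R.bm (G.base j i)).memLp 2)).const_mul (g j i)
  have hD : ∀ j c, MemLp (fun ω => lL (g j) (r j) (sT G.b {c}) ω - yloc h G g j c ω) 2 μ :=
    fun j c => (hL j c).sub (hY j c)
  -- the squares
  have h2 : ∫ ω, |∑ j ∈ range J, ∑ c : β, lL (g j) (r j) (sT G.b {c}) ω ^ 2 - s| ∂μ ≤
      dev μ h G g J s + t * vloc (msd μ h) G g J + (1 + 1 / t) * vdel (msd μ h) G g J := by
    have i1 : Integrable (fun ω => |∑ j ∈ range J, ∑ c : β, yloc h G g j c ω ^ 2 - s|) μ :=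
      ((integrable_finsetSum _ fun j _ => integrable_finsetSum _ fun c _ =>
        (hY j c).integrable_sq).sub (integrable_const s)).abs
    have i2 : Integrable (fun ω => ∑ j ∈ range J, ∑ c : β, yloc h G g j c ω ^ 2) μ :=
      integrable_finsetSum _ fun j _ => integrable_finsetSum _ fun c _ => (hY j c).integrable_sq
    have i3 : Integrable (fun ω => ∑ j ∈ range J, ∑ c : β,
        (lL (g j) (r j) (sT G.b {c}) ω - yloc h G g j c ω) ^ 2) μ :=
      integrable_finsetSum _ fun j _ => integrable_finsetSum _ fun c _ => (hD j c).integrable_sq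
    have e2 : ∫ ω, ∑ j ∈ range J, ∑ c : β, yloc h G g j c ω ^ 2 ∂μ = vloc (msd μ h) G g J := by
      rw [integral_finsetSum _ fun j _ => integrable_finsetSum _ fun c _ =>
        (hY j c).integrable_sq]
      unfold vloc
      refine Finset.sum_congr rfl fun j _ => ?_
      rw [integral_finsetSum _ fun c _ => (hY j c).integrable_sq]
      exact Finset.sum_congr rfl fun c _ => int_loc_sq R G g j c
    have e3 : ∫ ω, ∑ j ∈ range J, ∑ c : β,
        (lL (g j) (r j) (sT G.b {c}) ω - yloc h G g j c ω) ^ 2 ∂μ = vdel (msd μ h) G g J := by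
      rw [integral_finsetSum _ fun j _ => integrable_finsetSum _ fun c _ =>
        (hD j c).integrable_sq]
      unfold vdel
      refine Finset.sum_congr rfl fun j hj => ?_
      rw [integral_finsetSum _ fun c _ => (hD j c).integrable_sq]
      exact Finset.sum_congr rfl fun c _ => int_del_sq R G W g (Finset.mem_range.1 hj) c
    calc ∫ ω, |∑ j ∈ range J, ∑ c : β, lL (g j) (r j) (sT G.b {c}) ω ^ 2 - s| ∂μ
        ≤ ∫ ω, (|∑ j ∈ range J, ∑ c : β, yloc h G g j c ω ^ 2 - s| +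
            (t * ∑ j ∈ range J, ∑ c : β, yloc h G g j c ω ^ 2 +
            (1 + 1 / t) * ∑ j ∈ range J, ∑ c : β,
              (lL (g j) (r j) (sT G.b {c}) ω - yloc h G g j c ω) ^ 2)) ∂μ := by
          refine integral_mono_of_nonneg (ae_of_all _ fun ω => abs_nonneg _)
            (i1.add ((i2.const_mul t).add (i3.const_mul _))) (ae_of_all _ fun ω => ?_)
          simp only
          have key : ∀ j c, |lL (g j) (r j) (sT G.b {c}) ω ^ 2 - yloc h G g j c ω ^ 2| ≤
              t * yloc h G g j c ω ^ 2 +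
              (1 + 1 / t) * (lL (g j) (r j) (sT G.b {c}) ω - yloc h G g j c ω) ^ 2 := by
            intro j c
            set x := lL (g j) (r j) (sT G.b {c}) ω
            set y := yloc h G g j c ω
            have p1 : |2 * (x - y) * y| ≤ t * y ^ 2 + 1 / t * (x - y) ^ 2 := by
              have q1 : 0 ≤ t * (|y| - 1 / t * |x - y|) ^ 2 := mul_nonneg ht.le (sq_nonneg _)
              have q2 : t * (|y| - 1 / t * |x - y|) ^ 2 =
                  t * |y| ^ 2 - 2 * |x - y| * |y| + 1 / t * |x - y| ^ 2 := by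
                field_simp
                ring
              rw [q2, sq_abs, sq_abs] at q1
              rw [abs_mul, abs_mul, abs_two]
              linarith only [q1]
            have p2 : x ^ 2 - y ^ 2 = 2 * (x - y) * y + (x - y) ^ 2 := by ring
            rw [p2]
            refine (abs_add_le _ _).trans ?_
            rw [abs_of_nonneg (sq_nonneg (x - y))]
            linarith only [p1]
          have p3 : ∑ j ∈ range J, ∑ c : β, lL (g j) (r j) (sT G.b {c}) ω ^ 2 - s =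
              (∑ j ∈ range J, ∑ c : β, yloc h G g j c ω ^ 2 - s) +
              ∑ j ∈ range J, ∑ c : β,
                (lL (g j) (r j) (sT G.b {c}) ω ^ 2 - yloc h G g j c ω ^ 2) := by
            simp only [Finset.sum_sub_distrib]
            ring
          rw [p3]
          refine (abs_add_le _ _).trans (add_le_add le_rfl ?_)
          rw [Finset.mul_sum, Finset.mul_sum, ← Finset.sum_add_distrib]
          refine (Finset.abs_sum_le_sum_abs _ _).trans (Finset.sum_le_sum fun j _ => ?_)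
          rw [Finset.mul_sum, Finset.mul_sum, ← Finset.sum_add_distrib]
          exact (Finset.abs_sum_le_sum_abs _ _).trans (Finset.sum_le_sum fun c _ => key j c)
      _ = dev μ h G g J s + t * vloc (msd μ h) G g J + (1 + 1 / t) * vdel (msd μ h) G g J := by
          rw [int_combo i1 i2 i3, e2, e3]
          unfold dev
          ring
  -- fourth moments
  have h3 : Real.sqrt (∑ j ∈ range J, ∫ ω, (∑ c : β, lL (g j) (r j) (sT G.b {c}) ω ^ 2) ^ 2 ∂μ) ≤
      Real.sqrt J * (Fintype.card β * η ^ 2) := by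
    have hnn : (0 : ℝ) ≤ Fintype.card β * η ^ 2 := by (clear * -; positivity)
    have q1 : ∀ j, ∫ ω, (∑ c : β, lL (g j) (r j) (sT G.b {c}) ω ^ 2) ^ 2 ∂μ ≤
        (Fintype.card β * η ^ 2) ^ 2 := by
      intro j
      have q2 : ∫ ω, (∑ c : β, lL (g j) (r j) (sT G.b {c}) ω ^ 2) ^ 2 ∂μ ≤
          ∫ _ : Ω, (Fintype.card β * η ^ 2 : ℝ) ^ 2 ∂μ := by
        refine integral_mono_of_nonneg (ae_of_all _ fun ω => sq_nonneg _) (integrable_const _)
          (ae_of_all _ fun ω => ?_)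
        simp only
        refine pow_le_pow_left₀ (Finset.sum_nonneg fun c _ => sq_nonneg _) ?_ 2
        calc ∑ c : β, lL (g j) (r j) (sT G.b {c}) ω ^ 2 ≤ ∑ _c : β, η ^ 2 :=
              Finset.sum_le_sum fun c _ => by
                rw [← sq_abs]
                exact pow_le_pow_left₀ (abs_nonneg _) (hblock j c ω) 2
          _ = Fintype.card β * η ^ 2 := by
              rw [Finset.sum_const, Finset.card_univ, nsmul_eq_mul]
      simpa only [ge_iff_le, integral_const, probReal_univ, smul_eq_mul, one_mul] using q2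
    calc Real.sqrt (∑ j ∈ range J, ∫ ω, (∑ c : β, lL (g j) (r j) (sT G.b {c}) ω ^ 2) ^ 2 ∂μ)
        ≤ Real.sqrt (∑ _j ∈ range J, (Fintype.card β * η ^ 2) ^ 2) :=
          Real.sqrt_le_sqrt (Finset.sum_le_sum fun j _ => q1 j)
      _ = Real.sqrt (J * (Fintype.card β * η ^ 2) ^ 2) := by
          rw [Finset.sum_const, Finset.card_range, nsmul_eq_mul]
      _ = Real.sqrt J * (Fintype.card β * η ^ 2) := by
          rw [Real.sqrt_mul (by (clear * -; positivity)), Real.sqrt_sq hnn]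
  -- replacing X by Y
  have hXm : Measurable[mΩ] (fun ω => ∑ w ∈ A, a w * h w ω) :=
    Finset.measurable_sum _ fun w _ => (R.measΩ w).const_mul _
  have hYm : Measurable[mΩ] (fun ω => ∑ j ∈ range J, ∑ i, g j i * r j i ω) :=
    Finset.measurable_sum _ fun j _ => Finset.measurable_sum _ fun i _ =>
      ((rr_meas R G J j i).mono (R.hF _) le_rfl).const_mul _
  have hXY : MemLp (fun ω => ∑ w ∈ A, a w * h w ω - ∑ j ∈ range J, ∑ i, g j i * r j i ω) 2 μ :=
    (memLp_finsetSum _ fun w _ => ((R.bm w).memLp 2).const_mul (a w)).sub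
      (memLp_finsetSum _ fun j _ => memLp_finsetSum _ fun i _ => (hrm j i).const_mul (g j i))
  have h4 : ‖∫ ω, ei (∑ w ∈ A, a w * h w ω) ∂μ -
      ∫ ω, ei (∑ j ∈ range J, ∑ i, g j i * r j i ω) ∂μ‖ ≤
      Real.sqrt (err2 (msd μ h) G A a g J) := by
    rw [← integral_sub (integrable_ei hXm) (integrable_ei hYm)]
    refine (norm_integral_le_integral_norm _).trans ?_
    refine le_trans ?_ (integral_abs_le_sqrt hXY (int_sq_XY R G W A hAT a ha g).le)
    exact integral_mono_of_nonneg (ae_of_all _ fun ω => norm_nonneg _)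
      (hXY.integrable (by norm_num)).abs (ae_of_all _ fun ω => norm_ei_sub_ei_le _ _)
  calc ‖∫ ω, ei (∑ w ∈ A, a w * h w ω) ∂μ - ((Real.exp (-s / 2) : ℝ) : ℂ)‖
      ≤ ‖∫ ω, ei (∑ w ∈ A, a w * h w ω) ∂μ -
          ∫ ω, ei (∑ j ∈ range J, ∑ i, g j i * r j i ω) ∂μ‖ +
        ‖∫ ω, ei (∑ j ∈ range J, ∑ i, g j i * r j i ω) ∂μ -
          ((Real.exp (-s / 2) : ℝ) : ℂ)‖ := norm_sub_le_norm_sub_add_norm_sub _ _ _
    _ ≤ Real.sqrt (err2 (msd μ h) G A a g J) +
        (2 * ∑ j ∈ range J, (4 * cross μ (g j) (r j) G.b univ +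
          η * ∑ c : β, ∫ ω, lL (g j) (r j) (sT G.b {c}) ω ^ 2 ∂μ) +
        (s + 4) * (∫ ω, |∑ j ∈ range J, ∑ c : β, lL (g j) (r j) (sT G.b {c}) ω ^ 2 - s| ∂μ +
          Real.sqrt (∑ j ∈ range J, ∫ ω,
            (∑ c : β, lL (g j) (r j) (sT G.b {c}) ω ^ 2) ^ 2 ∂μ))) := add_le_add h4 hclt
    _ ≤ _ := by
        rw [h1]
        have := mul_le_mul_of_nonneg_left (add_le_add h2 h3) (show 0 ≤ s + 4 by linarith only [hs])
        linarith only [this]

end Vale.Agent.P145W85.P153.Asm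
end

section

/-!
# From the strips to the plane
-/

namespace Vale.Agent.P145W85.P153.Asm

open MeasureTheory Filter Finset
open scoped Topology ENNReal
open Vale.Agent.P145W85.P153.CLT

/-- A function of a configuration that is continuous and depends on finitely many sites of the
window. -/
def Loc (lo hi : ℤ) (φ : (ℤ × ℤ → ℝ) → ℝ) : Prop :=
  Continuous φ ∧ ∃ S : Finset (ℤ × ℤ), (∀ p ∈ S, lo ≤ p.1 ∧ p.1 ≤ hi) ∧
    ∀ x y : ℤ × ℤ → ℝ, (∀ p ∈ S, x p = y p) → φ x = φ y

/-- Local convergence of height differences in the window. -/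
def LocConv {Ωs : ℕ → Type*} [∀ n, MeasurableSpace (Ωs n)] (μs : ∀ n, Measure (Ωs n))
    (hs : ∀ n, ℤ × ℤ → Ωs n → ℝ) {Ω : Type*} [MeasurableSpace Ω] (P : Measure Ω)
    (h : ℤ × ℤ → Ω → ℝ) (lo hi : ℤ) : Prop :=
  ∀ φ : (ℤ × ℤ → ℝ) → ℝ, Loc lo hi φ →
    Tendsto (fun n => ∫ ω, φ (fun p => hs n p ω - hs n (0, 0) ω) ∂(μs n)) atTop
      (𝓝 (∫ ω, φ (fun p => h p ω - h (0, 0) ω) ∂P))

/-- `P` is, on each window, a limit of row models. -/
def RowLim {Ω : Type*} [MeasurableSpace Ω] (P : Measure Ω) (h : ℤ × ℤ → Ω → ℝ) (B : ℝ) : Prop :=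
  ∀ H : ℕ, ∃ (Ωs : ℕ → Type) (_ : ∀ n, MeasurableSpace (Ωs n)) (μs : ∀ n, Measure (Ωs n))
    (Fs : ∀ n, ℤ → MeasurableSpace (Ωs n)) (hs : ∀ n, ℤ × ℤ → Ωs n → ℝ),
    (∀ n, IsProbabilityMeasure (μs n)) ∧
    (∀ n, Rows (μs n) (Fs n) (hs n) B (-(H : ℤ)) H) ∧
    LocConv μs hs P h (-(H : ℤ)) H

section

variable {Ωs : ℕ → Type*} [∀ n, MeasurableSpace (Ωs n)] {μs : ∀ n, Measure (Ωs n)}
  {hs : ∀ n, ℤ × ℤ → Ωs n → ℝ} {Ω : Type*} [mΩ : MeasurableSpace Ω] {P : Measure Ω}
  {h : ℤ × ℤ → Ω → ℝ} {lo hi : ℤ}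

lemma LocConv.msd (L : LocConv μs hs P h lo hi) {p q : ℤ × ℤ} (hp : lo ≤ p.1 ∧ p.1 ≤ hi)
    (hq : lo ≤ q.1 ∧ q.1 ≤ hi) :
    Tendsto (fun n => msd (μs n) (hs n) p q) atTop (𝓝 (msd P h p q)) := by
  have h1 := L (fun x => (x p - x q) ^ 2) ⟨by fun_prop, {p, q}, by simp only [mem_insert, mem_singleton, forall_eq_or_imp, hp, and_self, forall_eq, hq], fun x y hxy => by
    simp only
    rw [hxy p (by simp only [mem_insert, mem_singleton, true_or]), hxy q (by simp)]⟩
  unfold Asm.msd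
  simpa only [sub_sub_sub_cancel_right] using h1

/-- Linear functionals. -/
lemma LocConv.lin_cos (L : LocConv μs hs P h lo hi) (A : Finset (ℤ × ℤ))
    (hA : ∀ w ∈ A, lo ≤ w.1 ∧ w.1 ≤ hi) (a : ℤ × ℤ → ℝ)
    (ha : ∑ w ∈ A, a w = 0) {u : ℝ → ℝ} (hu : Continuous u) :
    Tendsto (fun n => ∫ ω, u (∑ w ∈ A, a w * hs n w ω) ∂(μs n)) atTop
      (𝓝 (∫ ω, u (∑ w ∈ A, a w * h w ω) ∂P)) := by
  have h1 := L (fun x => u (∑ w ∈ A, a w * x w)) ⟨by fun_prop, A, hA, fun x y hxy => by
    simp only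
    congr 1
    exact Finset.sum_congr rfl fun w hw => by rw [hxy w hw]⟩
  have e : ∀ (x : ℤ × ℤ → ℝ) (c : ℝ), ∑ w ∈ A, a w * (x w - c) = ∑ w ∈ A, a w * x w := by
    intro x c
    simp only [mul_sub, Finset.sum_sub_distrib]
    rw [← Finset.sum_mul, ha]
    ring
  simpa only [e] using h1

lemma LocConv.dev {ι β : Type} [Fintype ι] [Fintype β] [DecidableEq β]
    (L : LocConv μs hs P h lo hi) (G : Geo ι β) {J : ℕ} {T : ℤ} (W : G.In lo hi J T)
    (g : ℕ → ι → ℝ) (s : ℝ) :
    Tendsto (fun n => dev (μs n) (hs n) G g J s) atTop (𝓝 (dev P h G g J s)) := by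
  classical
  have h1 := L (fun x => |∑ j ∈ range J, ∑ c : β,
      (∑ i ∈ sT G.b {c}, g j i * (x (G.site j i) - x (G.base j i))) ^ 2 - s|)
    ⟨by fun_prop, (range J).biUnion fun j => (univ : Finset ι).image (G.site j) ∪
      (univ : Finset ι).image (G.base j), by
      intro p hp
      simp only [mem_biUnion, mem_union, mem_image, mem_univ, true_and] at hp
      obtain ⟨j, hj, hp⟩ := hp
      obtain ⟨w1, w2, -⟩ := W.mid (Finset.mem_range.1 hj)
      have w3 := G.l_mono (Nat.le_succ j)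
      rcases hp with ⟨i, rfl⟩ | ⟨i, rfl⟩
      · exact ⟨w1.trans w3, w2⟩
      · exact ⟨w1, w3.trans w2⟩, fun x y hxy => by
    simp only
    congr 2
    refine Finset.sum_congr rfl fun j hj => Finset.sum_congr rfl fun c _ => ?_
    congr 1
    refine Finset.sum_congr rfl fun i _ => ?_
    rw [hxy (G.site j i), hxy (G.base j i)]
    · exact mem_biUnion.2 ⟨j, hj, mem_union_right _ (mem_image_of_mem _ (mem_univ _))⟩
    · exact mem_biUnion.2 ⟨j, hj, mem_union_left _ (mem_image_of_mem _ (mem_univ _))⟩⟩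
  have e : ∀ a b c : ℝ, a - c - (b - c) = a - b := fun a b c => by ring
  simp only [e] at h1
  exact h1

end

lemma integral_ei_eq {Ω : Type*} [MeasurableSpace Ω] {μ : Measure Ω} [IsProbabilityMeasure μ]
    {X : Ω → ℝ} (hX : Measurable X) :
    ∫ ω, ei (X ω) ∂μ = ((∫ ω, Real.cos (X ω) ∂μ : ℝ) : ℂ) +
      ((∫ ω, Real.sin (X ω) ∂μ : ℝ) : ℂ) * Complex.I := by
  have hi := integrable_ei (μ := μ) hX
  apply Complex.ext
  · have h1 : (∫ ω, ei (X ω) ∂μ).re = ∫ ω, (ei (X ω)).re ∂μ := (integral_re hi).symm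
    simp only [ei_re] at h1
    simp [h1]
  · have h1 : (∫ ω, ei (X ω) ∂μ).im = ∫ ω, (ei (X ω)).im ∂μ := (integral_im hi).symm
    simp only [ei_im] at h1
    simp [h1]

/-- **Plane inequality**, windowed form. -/
theorem plane_window {Ωs : ℕ → Type*} [∀ n, MeasurableSpace (Ωs n)] {μs : ∀ n, Measure (Ωs n)}
    [∀ n, IsProbabilityMeasure (μs n)] {Fs : ∀ n, ℤ → MeasurableSpace (Ωs n)}
    {hs : ∀ n, ℤ × ℤ → Ωs n → ℝ} {B : ℝ} {lo hi : ℤ}
    (R : ∀ n, Rows (μs n) (Fs n) (hs n) B lo hi) (hB : 0 ≤ B)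
    {Ω : Type*} [MeasurableSpace Ω] {P : Measure Ω} [IsProbabilityMeasure P]
    {h : ℤ × ℤ → Ω → ℝ} (hm : ∀ p, Measurable (h p)) (L : LocConv μs hs P h lo hi)
    {ι β : Type} [Fintype ι] [Fintype β] [DecidableEq β] (G : Geo ι β) {J : ℕ} {T : ℤ}
    (W : G.In lo hi J T) (hK : 0 < G.K)
    (A : Finset (ℤ × ℤ)) (hAT : ∀ w ∈ A, lo ≤ w.1 ∧ w.1 ≤ T) (a : ℤ × ℤ → ℝ)
    (ha : ∑ w ∈ A, a w = 0) (g : ℕ → ι → ℝ)
    {η : ℝ} (hη1 : η ≤ 1) (hη : ∀ j c, ∑ i ∈ sT G.b {c}, |g j i| * (2 * (B * G.K)) ≤ η)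
    (s : ℝ) (hs0 : 0 ≤ s) (t : ℝ) (ht : 0 < t) :
    ‖∫ ω, ei (∑ w ∈ A, a w * h w ω) ∂P - ((Real.exp (-s / 2) : ℝ) : ℂ)‖ ≤
      Real.sqrt (err2 (msd P h) G A a g J) +
      2 * (4 * vcross (msd P h) G g J + η * vsq (msd P h) G g J) +
      (s + 4) * (dev P h G g J s + t * vloc (msd P h) G g J +
        (1 + 1 / t) * vdel (msd P h) G g J + Real.sqrt J * (Fintype.card β * η ^ 2)) := by
  have key := fun n => strip (R n) hB G W hK A (fun w hw => (hAT w hw).2) a ha g hη1 hη s hs0 t ht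
  have inA : ∀ w ∈ A, lo ≤ w.1 ∧ w.1 ≤ hi := fun w hw =>
    ⟨(hAT w hw).1, (hAT w hw).2.trans W.top⟩
  have inS : ∀ j < J, ∀ i, lo ≤ (G.site j i).1 ∧ (G.site j i).1 ≤ hi := fun j hj i =>
    ⟨(W.mid hj).1.trans (G.l_mono (Nat.le_succ j)), (W.mid hj).2.1⟩
  have inB : ∀ j < J, ∀ i, lo ≤ (G.base j i).1 ∧ (G.base j i).1 ≤ hi := fun j hj i =>
    ⟨(W.mid hj).1, (G.l_mono (Nat.le_succ j)).trans (W.mid hj).2.1⟩
  have inR : ∀ j < J, ∀ i, lo ≤ (rho (G.l j) (G.site j i)).1 ∧
      (rho (G.l j) (G.site j i)).1 ≤ hi := fun j hj i => by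
    obtain ⟨a1, a2, a3⟩ := W.site hj i
    refine ⟨a3, ?_⟩
    show 2 * G.l j - (G.site j i).1 ≤ hi
    have := (inB j hj i).2
    have e : (G.base j i).1 = G.l j := rfl
    rw [e] at this
    linarith only [a1, a2]
  have hV : ∀ p q : ℤ × ℤ, (lo ≤ p.1 ∧ p.1 ≤ hi) → (lo ≤ q.1 ∧ q.1 ≤ hi) →
      Tendsto (fun n => msd (μs n) (hs n) p q) atTop (𝓝 (msd P h p q)) :=
    fun p q hp hq => L.msd hp hq
  have l1 : Tendsto (fun n => ‖∫ ω, ei (∑ w ∈ A, a w * hs n w ω) ∂(μs n) -
      ((Real.exp (-s / 2) : ℝ) : ℂ)‖) atTop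
      (𝓝 ‖∫ ω, ei (∑ w ∈ A, a w * h w ω) ∂P - ((Real.exp (-s / 2) : ℝ) : ℂ)‖) := by
    refine (Tendsto.sub_const ?_ _).norm
    have hm1 : ∀ n, Measurable (fun ω => ∑ w ∈ A, a w * hs n w ω) := fun n =>
      Finset.measurable_sum _ fun w _ => ((R n).measΩ w).const_mul _
    have hm2 : Measurable (fun ω => ∑ w ∈ A, a w * h w ω) :=
      Finset.measurable_sum _ fun w _ => (hm w).const_mul _
    rw [integral_ei_eq hm2]
    have e : ∀ n, ∫ ω, ei (∑ w ∈ A, a w * hs n w ω) ∂(μs n) =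
        ((∫ ω, Real.cos (∑ w ∈ A, a w * hs n w ω) ∂(μs n) : ℝ) : ℂ) +
        ((∫ ω, Real.sin (∑ w ∈ A, a w * hs n w ω) ∂(μs n) : ℝ) : ℂ) * Complex.I :=
      fun n => integral_ei_eq (hm1 n)
    simp only [e]
    have c1 := L.lin_cos A inA a ha Real.continuous_cos
    have c2 := L.lin_cos A inA a ha Real.continuous_sin
    exact ((Complex.continuous_ofReal.tendsto _).comp c1).add
      (((Complex.continuous_ofReal.tendsto _).comp c2).mul_const _)
  have l2 : Tendsto (fun n => err2 (msd (μs n) (hs n)) G A a g J) atTop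
      (𝓝 (err2 (msd P h) G A a g J)) := by
    unfold err2
    refine (((tendsto_finsetSum _ fun w hw => tendsto_finsetSum _ fun w' hw' =>
      (hV w w' (inA w hw) (inA w' hw')).const_mul _).const_mul _).sub
      ((tendsto_finsetSum _ fun j hj => tendsto_finsetSum _ fun i _ =>
      (tendsto_finsetSum _ fun w hw => ?_).const_mul _).const_mul
      _)).add (tendsto_finsetSum _ fun j hj => tendsto_finsetSum _ fun i _ =>
      tendsto_finsetSum _ fun i' _ => (((hV _ _ (inS j (mem_range.1 hj) i)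
        (inR j (mem_range.1 hj) i')).sub (hV _ _ (inS j (mem_range.1 hj) i)
        (inS j (mem_range.1 hj) i'))).div_const _).const_mul _)
    split_ifs
    · exact (((hV _ _ (inA w hw) (inR j (mem_range.1 hj) i)).sub (hV _ _ (inA w hw)
        (inS j (mem_range.1 hj) i))).div_const _).const_mul _
    · exact tendsto_const_nhds
  have l3 : Tendsto (fun n => vcross (msd (μs n) (hs n)) G g J) atTop
      (𝓝 (vcross (msd P h) G g J)) := by
    unfold vcross
    refine tendsto_finsetSum _ fun j hj => tendsto_finsetSum _ fun i _ =>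
      tendsto_finsetSum _ fun i' _ => ?_
    split_ifs
    · exact tendsto_const_nhds
    · exact (((hV _ _ (inS j (mem_range.1 hj) i)
        (inR j (mem_range.1 hj) i')).sub (hV _ _ (inS j (mem_range.1 hj) i)
        (inS j (mem_range.1 hj) i'))).div_const _).const_mul _
  have l4 : Tendsto (fun n => vsq (msd (μs n) (hs n)) G g J) atTop
      (𝓝 (vsq (msd P h) G g J)) := by
    unfold vsq
    exact tendsto_finsetSum _ fun j hj => tendsto_finsetSum _ fun c _ =>
      tendsto_finsetSum _ fun i _ => tendsto_finsetSum _ fun i' _ =>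
      (((hV _ _ (inS j (mem_range.1 hj) i) (inR j (mem_range.1 hj) i')).sub
        (hV _ _ (inS j (mem_range.1 hj) i) (inS j (mem_range.1 hj) i'))).div_const _).const_mul _
  have l5 : Tendsto (fun n => vloc (msd (μs n) (hs n)) G g J) atTop
      (𝓝 (vloc (msd P h) G g J)) := by
    unfold vloc
    refine tendsto_finsetSum _ fun j hj => tendsto_finsetSum _ fun c _ =>
      tendsto_finsetSum _ fun i _ => tendsto_finsetSum _ fun i' _ => ?_
    have hj := mem_range.1 hj
    exact (((((hV _ _ (inS j hj i) (inB j hj i')).add (hV _ _ (inB j hj i) (inS j hj i'))).sub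
      (hV _ _ (inS j hj i) (inS j hj i'))).sub
      (hV _ _ (inB j hj i) (inB j hj i'))).div_const _).const_mul _
  have l6 : Tendsto (fun n => vdel (msd (μs n) (hs n)) G g J) atTop
      (𝓝 (vdel (msd P h) G g J)) := by
    unfold vdel
    refine tendsto_finsetSum _ fun j hj => tendsto_finsetSum _ fun c _ =>
      tendsto_finsetSum _ fun i _ => tendsto_finsetSum _ fun i' _ => ?_
    have hj := mem_range.1 hj
    exact (((((hV _ _ (inS j hj i) (inB j hj i')).add (hV _ _ (inB j hj i) (inR j hj i'))).sub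
      (hV _ _ (inS j hj i) (inR j hj i'))).sub
      (hV _ _ (inB j hj i) (inB j hj i'))).div_const _).const_mul _
  have l7 := L.dev G W g s
  refine le_of_tendsto_of_tendsto' l1 ?_ key
  exact ((l2.sqrt).add (((l3.const_mul 4).add (l4.const_mul η)).const_mul 2)).add
    ((((l7.add (l5.const_mul t)).add (l6.const_mul _)).add_const _).const_mul _)

/-- **Plane inequality.** -/
theorem plane {B : ℝ} (hB : 0 ≤ B) {Ω : Type*} [MeasurableSpace Ω] {P : Measure Ω}
    [IsProbabilityMeasure P] {h : ℤ × ℤ → Ω → ℝ} (hm : ∀ p, Measurable (h p))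
    (L : RowLim P h B)
    {ι β : Type} [Fintype ι] [Fintype β] [DecidableEq β] (G : Geo ι β) (hK : 0 < G.K)
    (A : Finset (ℤ × ℤ)) (a : ℤ × ℤ → ℝ) (ha : ∑ w ∈ A, a w = 0) (g : ℕ → ι → ℝ) (J : ℕ)
    {η : ℝ} (hη1 : η ≤ 1) (hη : ∀ j c, ∑ i ∈ sT G.b {c}, |g j i| * (2 * (B * G.K)) ≤ η)
    (s : ℝ) (hs0 : 0 ≤ s) (t : ℝ) (ht : 0 < t) :
    ‖∫ ω, ei (∑ w ∈ A, a w * h w ω) ∂P - ((Real.exp (-s / 2) : ℝ) : ℂ)‖ ≤
      Real.sqrt (err2 (msd P h) G A a g J) +
      2 * (4 * vcross (msd P h) G g J + η * vsq (msd P h) G g J) +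
      (s + 4) * (dev P h G g J s + t * vloc (msd P h) G g J +
        (1 + 1 / t) * vdel (msd P h) G g J + Real.sqrt J * (Fintype.card β * η ^ 2)) := by
  set T : ℤ := |G.l J| + ∑ w ∈ A, |w.1| with hT
  set H : ℕ := (T + 2 * |G.l 0|).toNat with hH
  have hT0 : 0 ≤ T := add_nonneg (abs_nonneg _) (Finset.sum_nonneg fun w _ => abs_nonneg _)
  have hH' : (H : ℤ) = T + 2 * |G.l 0| := Int.toNat_of_nonneg (by (clear * -; positivity))
  have hw : ∀ w ∈ A, |w.1| ≤ T := fun w hw => by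
    have h1 := Finset.single_le_sum (f := fun w : ℤ × ℤ => |w.1|) (fun w _ => abs_nonneg w.1) hw
    have h2 := abs_nonneg (G.l J)
    linarith only [h1, h2]
  have h0 := abs_nonneg (G.l 0)
  have h3 := neg_abs_le (G.l 0)
  have h4 := le_abs_self (G.l J)
  have h5 : 0 ≤ ∑ w ∈ A, |w.1| := Finset.sum_nonneg fun w _ => abs_nonneg _
  obtain ⟨Ωs, mΩs, μs, Fs, hs, p1, p2, p3⟩ := L H
  have W : G.In (-(H : ℤ)) H J T := ⟨by linarith only [hH', h0], by linarith only [hH', h3], by linarith only [h4, h5]⟩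
  exact plane_window p2 hB hm p3 G W hK A (fun w hwA => by
    have := abs_le.1 (hw w hwA)
    exact ⟨by linarith only [hH', h0, this], this.2⟩) a ha g hη1 hη s hs0 t ht

/-- Positivity of the covariances of the innovations. -/
theorem crV_nonneg {Ω : Type*} {mΩ : MeasurableSpace Ω} {μ : Measure Ω} [IsProbabilityMeasure μ]
    {F : ℤ → MeasurableSpace Ω} {h : ℤ × ℤ → Ω → ℝ} {B : ℝ} {lo hi : ℤ}
    (R : Rows μ F h B lo hi) {l : ℤ} {p q : ℤ × ℤ} (hp : Win lo hi l p) (hq : Win lo hi l q)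
    (hp' : l < p.1) (hq' : l < q.1) : 0 ≤ crV (msd μ h) l p q := by
  have hlo : lo ≤ l := by
    obtain ⟨a, b, c⟩ := hp
    linarith only [hp', c]
  have hnp := R.np l (fun i : Fin 2 => if i = 0 then p else q) hlo (by
    intro i
    split_ifs
    · exact ⟨hp', hp.2.1⟩
    · exact ⟨hq', hq.2.1⟩)
  have h1 := hnp.nn 0 1
  simp only [Fin.isValue, if_true, one_ne_zero, if_false] at h1
  have e : crV (msd μ h) l p q = ∫ ω, ccov μ (F l) (h p) (h q) ω ∂μ := by
    have e1 : crV (msd μ h) l p q = cr μ h l p q := rfl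
    rw [e1, ← R.int_inn_inn l p q hp hq]
    have mp := R.memLp_condExp l p
    have mq := R.memLp_condExp l q
    have bp := (R.bm p).memLp (μ := μ) 2
    have bq := (R.bm q).memLp (μ := μ) 2
    have i1 : Integrable (fun ω => h p ω * h q ω) μ := bp.integrable_mul bq
    have i2 : Integrable (fun ω => (μ[h p | F l]) ω * (μ[h q | F l]) ω) μ := mp.integrable_mul mq
    have i3 : Integrable (fun ω => (μ[h p | F l]) ω * inn μ F h l q ω) μ :=
      mp.integrable_mul (R.memLp_inn l q)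
    have i4 : Integrable (fun ω => h p ω * inn μ F h l q ω) μ :=
      bp.integrable_mul (R.memLp_inn l q)
    have i5 : Integrable (fun ω => h p ω * (μ[h q | F l]) ω) μ := bp.integrable_mul mq
    have z : ∫ ω, (μ[h p | F l]) ω * inn μ F h l q ω ∂μ = 0 := by
      have e3 : (fun ω => (μ[h p | F l]) ω * inn μ F h l q ω) =
          fun ω => inn μ F h l q ω * (μ[h p | F l]) ω := by
        funext ω
        ring
      rw [e3]
      exact R.int_inn_mul l q mp stronglyMeasurable_condExp.aestronglyMeasurable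
    have e2 : (fun ω => inn μ F h l p ω * inn μ F h l q ω) =
        fun ω => h p ω * inn μ F h l q ω - (μ[h p | F l]) ω * inn μ F h l q ω := by
      funext ω
      simp only [inn]
      ring
    have e3 : (fun ω => h p ω * inn μ F h l q ω) =
        fun ω => h p ω * h q ω - h p ω * (μ[h q | F l]) ω := by
      funext ω
      simp only [inn]
      ring
    have e4 := int_condExp_mul (μ := μ) (R.hF l) (R.bm p) mq
      stronglyMeasurable_condExp.aestronglyMeasurable
    rw [e2, integral_sub i4 i3, z, sub_zero, e3, integral_sub i1 i5, ← e4]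
    have e5 : ccov μ (F l) (h p) (h q) = fun ω => (μ[fun ω => h p ω * h q ω | F l]) ω -
        (μ[h p | F l]) ω * (μ[h q | F l]) ω := rfl
    rw [e5, integral_sub integrable_condExp i2, integral_condExp (R.hF l)]
  rw [e]
  exact integral_nonneg_of_ae h1

/-- The same for the plane. -/
theorem crV_nonneg_plane {B : ℝ} {Ω : Type*} [MeasurableSpace Ω] {P : Measure Ω}
    {h : ℤ × ℤ → Ω → ℝ} (L : RowLim P h B) {l : ℤ} {p q : ℤ × ℤ}
    (hp : l < p.1) (hq : l < q.1) : 0 ≤ crV (msd P h) l p q := by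
  set H : ℕ := (2 * |l| + |p.1| + |q.1|).toNat with hH
  have hH' : (H : ℤ) = 2 * |l| + |p.1| + |q.1| := Int.toNat_of_nonneg (by (clear * -; positivity))
  obtain ⟨Ωs, mΩs, μs, Fs, hs, p1, p2, p3⟩ := L H
  have a1 := abs_nonneg l
  have a2 := abs_nonneg p.1
  have a3 := abs_nonneg q.1
  have a4 := le_abs_self p.1
  have a5 := le_abs_self q.1
  have a6 := neg_abs_le p.1
  have a7 := neg_abs_le q.1
  have a8 := neg_abs_le l
  have a9 := le_abs_self l
  have wp : Win (-(H : ℤ)) H l p := ⟨hp.le, by linarith, by linarith⟩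
  have wq : Win (-(H : ℤ)) H l q := ⟨hq.le, by linarith, by linarith only [hH', a2, a5, a8]⟩
  have key : ∀ n, 0 ≤ crV (msd (μs n) (hs n)) l p q := fun n =>
    crV_nonneg (p2 n) wp wq hp hq
  have t : Tendsto (fun n => crV (msd (μs n) (hs n)) l p q) atTop (𝓝 (crV (msd P h) l p q)) := by
    unfold crV
    have b1 := p3.msd (p := p) (q := rho l q) ⟨by linarith only [hp, hH', a3, a4, a8], by linarith only [hH', a1, a3, a4]⟩
      ⟨by simp only [rho]; linarith only [hH', a2, a5, a8], by simp only [rho]; linarith⟩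
    have b2 := p3.msd (p := p) (q := q) ⟨by linarith, by linarith only [hH', a1, a3, a4]⟩ ⟨by linarith, by linarith only [hp, hH', a1, a4, a5, a8]⟩
    exact (b1.sub b2).div_const _
  exact ge_of_tendsto' t key

end Vale.Agent.P145W85.P153.Asm
end

section

/-!
# P153, strips: sums over paths (transfer matrix)
-/

namespace Vale.Agent.P145W85.P153.Strip

open Finset

variable {X : Type*} [Fintype X]

/-- weight of a path -/
noncomputable def pw (A : X → X → ℝ) {n : ℕ} (q : Fin (n + 1) → X) : ℝ :=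
  ∏ i : Fin n, A (q i.castSucc) (q i.succ)

/-- `k` steps of the transfer matrix applied to `c` -/
noncomputable def ext (A : X → X → ℝ) (c : X → ℝ) : ℕ → X → ℝ
  | 0 => c
  | k + 1 => fun x => ∑ y, A x y * ext A c k y

theorem ext_zero (A : X → X → ℝ) (c : X → ℝ) : ext A c 0 = c := rfl

theorem ext_succ (A : X → X → ℝ) (c : X → ℝ) (k : ℕ) :
    ext A c (k + 1) = fun x => ∑ y, A x y * ext A c k y := rfl

theorem ext_succ' (A : X → X → ℝ) (c : X → ℝ) (k : ℕ) :
    ext A (fun x => ∑ y, A x y * c y) k = ext A c (k + 1) := by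
  induction k with
  | zero => rfl
  | succ k ih => rw [ext_succ, ih, ← ext_succ]

omit [Fintype X] in
theorem pw_snoc (A : X → X → ℝ) {n : ℕ} (q : Fin (n + 1) → X) (y : X) :
    pw A (Fin.snoc q y : Fin (n + 1 + 1) → X) = pw A q * A (q (Fin.last n)) y := by
  unfold pw
  rw [Fin.prod_univ_castSucc]
  congr 1
  · apply Finset.prod_congr rfl
    intro i _
    rw [Fin.snoc_castSucc, ← Fin.castSucc_succ, Fin.snoc_castSucc]
  · rw [Fin.snoc_castSucc, Fin.succ_last, Fin.snoc_last]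

omit [Fintype X] in
theorem pw_cons (A : X → X → ℝ) {n : ℕ} (q : Fin (n + 1) → X) (y : X) :
    pw A (Fin.cons y q : Fin (n + 1 + 1) → X) = A y (q 0) * pw A q := by
  unfold pw
  rw [Fin.prod_univ_succ]
  congr 1

theorem psum_snoc {n : ℕ} (f : (Fin (n + 1) → X) → ℝ) :
    ∑ q : Fin (n + 1) → X, f q = ∑ q : Fin n → X, ∑ y : X, f (Fin.snoc q y) := by
  rw [← (Fin.snocEquiv (fun _ => X)).sum_comp, Fintype.sum_prod_type_right]
  rfl

theorem psum_cons {n : ℕ} (f : (Fin (n + 1) → X) → ℝ) :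
    ∑ q : Fin (n + 1) → X, f q = ∑ q : Fin n → X, ∑ y : X, f (Fin.cons y q) := by
  rw [← (Fin.consEquiv (fun _ => X)).sum_comp, Fintype.sum_prod_type_right]
  rfl

/-- summation over the last `k` steps -/
theorem sum_top (A : X → X → ℝ) {n : ℕ} (G : (Fin (n + 1) → X) → ℝ) (k : ℕ) :
    ∀ c : X → ℝ, ∑ q : Fin (n + k + 1) → X,
      G (fun i => q ⟨i, by omega⟩) * pw A q * c (q (Fin.last _)) =
      ∑ q : Fin (n + 1) → X, G q * pw A q * ext A c k (q (Fin.last _)) := by
  induction k with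
  | zero =>
    intro c
    rfl
  | succ k ih =>
    intro c
    rw [← ext_succ', ← ih]
    refine (psum_snoc (n := n + k + 1) _).trans ?_
    apply Finset.sum_congr rfl
    intro q _
    rw [Finset.mul_sum]
    apply Finset.sum_congr rfl
    intro y _
    have e1 : (fun i : Fin (n + 1) => (Fin.snoc q y : Fin (n + k + 1 + 1) → X) ⟨i, by omega⟩)
        = fun i : Fin (n + 1) => q ⟨i, by omega⟩ := by
      funext i
      have : (⟨i, by omega⟩ : Fin (n + k + 1 + 1))
          = Fin.castSucc (⟨i, by omega⟩ : Fin (n + k + 1)) := rfl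
      rw [this, Fin.snoc_castSucc]
    rw [e1]
    have e2 := pw_snoc A q y
    rw [e2]
    have e3 : (Fin.snoc q y : Fin (n + k + 1 + 1) → X) (Fin.last (n + (k + 1))) = y :=
      Fin.snoc_last (n := n + k + 1) _ _
    rw [e3]
    ring

/-- summation over the first `m` steps -/
theorem sum_bot (A : X → X → ℝ) (hA : ∀ x y, A x y = A y x) {L : ℕ}
    (G : (Fin (L + 1) → X) → ℝ) (m : ℕ) :
    ∀ b : X → ℝ, ∑ q : Fin (L + m + 1) → X,
      G (fun i => q ⟨m + i, by omega⟩) * pw A q * b (q 0) =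
      ∑ q : Fin (L + 1) → X, G q * pw A q * ext A b m (q 0) := by
  induction m with
  | zero =>
    intro b
    apply Finset.sum_congr rfl
    intro q _
    simp only [Nat.zero_add]
    rfl
  | succ m ih =>
    intro b
    rw [← ext_succ', ← ih]
    refine (psum_cons (n := L + m + 1) _).trans ?_
    apply Finset.sum_congr rfl
    intro q _
    rw [Finset.mul_sum]
    apply Finset.sum_congr rfl
    intro y _
    have e1 : (fun i : Fin (L + 1) => (Fin.cons y q : Fin (L + m + 1 + 1) → X) ⟨m + 1 + i, by omega⟩)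
        = fun i : Fin (L + 1) => q ⟨m + i, by omega⟩ := by
      funext i
      have : (⟨m + 1 + i, by omega⟩ : Fin (L + m + 1 + 1))
          = Fin.succ (⟨m + i, by omega⟩ : Fin (L + m + 1)) := by
        ext
        simp only [Fin.succ_mk]
        omega
      rw [this, Fin.cons_succ]
    rw [e1]
    have e2 := pw_cons A q y
    rw [e2]
    have e3 : (Fin.cons y q : Fin (L + m + 1 + 1) → X) 0 = y := rfl
    rw [e3, hA y (q 0)]
    ring

/-- summation over everything outside the window `m, ..., m + L` -/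
theorem sum_window (A : X → X → ℝ) (hA : ∀ x y, A x y = A y x) {L : ℕ}
    (G : (Fin (L + 1) → X) → ℝ) (m k : ℕ) (b c : X → ℝ) :
    ∑ q : Fin (L + m + k + 1) → X,
      G (fun i => q ⟨m + i, by omega⟩) * b (q 0) * pw A q * c (q (Fin.last _)) =
      ∑ q : Fin (L + 1) → X,
        G q * pw A q * ext A b m (q 0) * ext A c k (q (Fin.last _)) := by
  have h1 := sum_top A (n := L + m)
    (fun q : Fin (L + m + 1) → X => G (fun i => q ⟨m + i, by omega⟩) * b (q 0)) k c
  have h2 := sum_bot A hA (L := L)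
    (fun q : Fin (L + 1) → X => G q * ext A c k (q (Fin.last _))) m b
  refine h1.trans ?_
  have e : ∀ q : Fin (L + m + 1) → X,
      G (fun i => q ⟨m + i, by omega⟩) * b (q 0) * pw A q * ext A c k (q (Fin.last _))
        = G (fun i => q ⟨m + i, by omega⟩) * ext A c k (q ⟨m + (Fin.last L : Fin (L + 1)), by
          simp only [Fin.val_last]; omega⟩) * pw A q * b (q 0) := by
    intro q
    have : (⟨m + (Fin.last L : Fin (L + 1)), by simp only [Fin.val_last]; omega⟩ : Fin (L + m + 1))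
        = Fin.last (L + m) := by
      ext
      simp only [Fin.val_last]
      omega
    rw [this]
    ring
  rw [Finset.sum_congr rfl fun q _ => e q]
  refine h2.trans ?_
  apply Finset.sum_congr rfl
  intro q _
  ring

end Vale.Agent.P145W85.P153.Strip
end

section

/-!
# P153, strips: Lipschitz functions on the rectangle as paths of row states
-/

namespace Vale.Agent.P145W85.P153.Strip

open Finset Vale.Agent.P145W85.P153.Fv

variable {N : ℕ}

/-- the row `j` of `h` as a function of the key -/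
def rowf (h : ℤ × ℤ → ℤ) (j : ℤ) (p : ℤ) : ℤ :=
  if (p : ZMod 2) = j then h ((p - j) / 2, j) else 0

/-- a row state from its data -/
def mkRow {e : ZMod 2} {q : ℤ → ℤ} (h : IsRow N e q) : RowSt N := ⟨(e, q), h⟩

theorem mkRow_par {e : ZMod 2} {q : ℤ → ℤ} (h : IsRow N e q) : (mkRow h).par = e := rfl

theorem mkRow_ht {e : ZMod 2} {q : ℤ → ℤ} (h : IsRow N e q) (p : ℤ) : (mkRow h).ht p = q p := rfl

open Classical in
/-- the row `j` of `h` as a row state -/
noncomputable def rst (N : ℕ) (h : ℤ × ℤ → ℤ) (j : ℤ) : RowSt N :=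
  if hh : IsRow N (j : ZMod 2) (rowf h j) then mkRow hh else zrow N j

theorem rst_par (h : ℤ × ℤ → ℤ) (j : ℤ) : (rst N h j).par = j := by
  unfold rst
  split_ifs
  · exact mkRow_par _
  · exact zrow_par N _

theorem rst_ht {h : ℤ × ℤ → ℤ} {j : ℤ} (hh : IsRow N (j : ZMod 2) (rowf h j)) (p : ℤ) :
    (rst N h j).ht p = rowf h j p := by
  unfold rst
  rw [dif_pos hh, mkRow_ht]

/-- the function given by a path of row states whose first row is the row `j0` -/
noncomputable def fld (j0 : ℤ) {n : ℕ} (q : Fin (n + 1) → RowSt N) (v : ℤ × ℤ) : ℤ :=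
  if h : j0 ≤ v.2 ∧ v.2 ≤ j0 + n then (q ⟨(v.2 - j0).toNat, by omega⟩).ht (key v) else 0

/-- the path of the rows `j0, ..., j0 + n` of `h` -/
noncomputable def pth (N : ℕ) (j0 : ℤ) (n : ℕ) (h : ℤ × ℤ → ℤ) : Fin (n + 1) → RowSt N :=
  fun i => rst N h (j0 + i)

theorem fld_of_lt (j0 : ℤ) {n : ℕ} (q : Fin (n + 1) → RowSt N) {v : ℤ × ℤ}
    (h : v.2 < j0 ∨ j0 + n < v.2) : fld j0 q v = 0 := by
  unfold fld
  rw [dif_neg (by omega)]

theorem fld_of_le (j0 : ℤ) {n : ℕ} (q : Fin (n + 1) → RowSt N) (a : ℤ) (i : Fin (n + 1)) :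
    fld j0 q (a, j0 + i) = (q i).ht (2 * a + (j0 + i)) := by
  unfold fld
  have hi := i.2
  rw [dif_pos (by simp only; omega)]
  have : (⟨(((a, j0 + i) : ℤ × ℤ).2 - j0).toNat, by simp only; omega⟩ : Fin (n + 1)) = i := by
    ext
    simp
  rw [this]
  rfl

theorem cast_eq_iff (p j : ℤ) : (p : ZMod 2) = j ↔ (p - j) % 2 = 0 := by
  rw [ZMod.intCast_eq_intCast_iff_dvd_sub]
  push_cast
  omega

theorem rowf_key (h : ℤ × ℤ → ℤ) (v : ℤ × ℤ) : rowf h v.2 (key v) = h v := by
  unfold rowf key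
  rw [if_pos ((cast_eq_iff _ _).2 (by omega))]
  congr 1
  ext
  · simp
  · rfl

theorem rowf_eq {h : ℤ × ℤ → ℤ} {j p : ℤ} (hp : (p - j) % 2 = 0) :
    rowf h j p = h ((p - j) / 2, j) := by
  unfold rowf
  rw [if_pos ((cast_eq_iff _ _).2 hp)]

theorem rowf_ne {h : ℤ × ℤ → ℤ} {j p : ℤ} (hp : (p - j) % 2 ≠ 0) : rowf h j p = 0 := by
  unfold rowf
  rw [if_neg fun h' => hp ((cast_eq_iff _ _).1 h')]

/-! ### from functions to paths -/

theorem rect_not_inner {N H H' : ℕ} {v w : ℤ × ℤ} (hvw : Adj v w) (hw : w ∉ rect N H H') :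
    v ∉ inner (rect N H H') := fun hv => hw (hv.2 w hvw)

theorem bd_of_not_inner {Λ : Finset (ℤ × ℤ)} {h : ℤ × ℤ → ℤ} (hh : h ∈ reg Λ) {v : ℤ × ℤ}
    (hv : v ∉ inner Λ) : h v = 0 ∨ h v = 1 := by
  by_cases hv' : v ∈ Λ
  · exact (mem_reg.1 hh).2.1 v hv' hv
  · exact Or.inl ((mem_reg.1 hh).1 v hv')

theorem isRow_rowf {N H H' : ℕ} {h : ℤ × ℤ → ℤ} (hh : h ∈ reg (rect N H H')) (j : ℤ) :
    IsRow N (j : ZMod 2) (rowf h j) := by
  refine ⟨fun p hp => ?_, fun p hp => ?_, fun p hp => ?_, fun p => ?_⟩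
  · by_cases h2 : (p - j) % 2 = 0
    · rw [rowf_eq h2]
      apply (mem_reg.1 hh).1
      rw [mem_rect]
      rintro ⟨_, h3⟩
      simp only at h3
      rw [show 2 * ((p - j) / 2) + j = p by omega] at h3
      omega
    · exact rowf_ne h2
  · unfold rowf
    rw [if_neg hp]
  · by_cases h2 : (p - j) % 2 = 0
    · rw [rowf_eq h2]
      apply bd_of_not_inner hh
      rw [le_abs] at hp
      rcases hp with hp | hp
      · apply rect_not_inner (w := ((p - j) / 2 + 1, j))
        · rw [adj_iff]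
          left
          exact ⟨rfl, rfl⟩
        · rw [mem_rect]
          rintro ⟨_, h3⟩
          simp only at h3
          rw [abs_le] at h3
          omega
      · apply rect_not_inner (w := ((p - j) / 2 - 1, j))
        · rw [adj_iff]
          right; left
          exact ⟨rfl, rfl⟩
        · rw [mem_rect]
          rintro ⟨_, h3⟩
          simp only at h3
          rw [abs_le] at h3
          omega
    · exact Or.inl (rowf_ne h2)
  · by_cases h2 : (p - j) % 2 = 0
    · rw [rowf_eq h2, rowf_eq (by omega : (p + 2 - j) % 2 = 0)]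
      apply (mem_reg.1 hh).2.2
      rw [adj_iff]
      left
      exact ⟨by show (p + 2 - j) / 2 = (p - j) / 2 + 1; omega, rfl⟩
    · rw [rowf_ne h2, rowf_ne (by omega : (p + 2 - j) % 2 ≠ 0)]
      simp

theorem compat_rst {N H H' : ℕ} {h : ℤ × ℤ → ℤ} (hh : h ∈ reg (rect N H H')) (j : ℤ) :
    Compat (rst N h j) (rst N h (j + 1)) := by
  refine ⟨by rw [rst_par, rst_par]; push_cast; ring, fun p => ?_⟩
  rw [rst_ht (isRow_rowf hh j), rst_ht (isRow_rowf hh (j + 1)), rst_ht (isRow_rowf hh (j + 1))]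
  by_cases h2 : (p - j) % 2 = 0
  · rw [rowf_eq h2, rowf_eq (by omega : (p + 1 - (j + 1)) % 2 = 0),
      rowf_eq (by omega : (p - 1 - (j + 1)) % 2 = 0)]
    constructor
    · apply (mem_reg.1 hh).2.2
      rw [adj_iff]
      right; right; left
      exact ⟨by show (p + 1 - (j + 1)) / 2 = (p - j) / 2; omega, rfl⟩
    · apply (mem_reg.1 hh).2.2
      rw [adj_iff]
      right; right; right; right; right
      exact ⟨by show (p - 1 - (j + 1)) / 2 = (p - j) / 2 - 1; omega, rfl⟩
  · rw [rowf_ne h2, rowf_ne (by omega : (p + 1 - (j + 1)) % 2 ≠ 0),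
      rowf_ne (by omega : (p - 1 - (j + 1)) % 2 ≠ 0)]
    simp

/-- the values of the row are all `0` or `1` -/
def Bd (x : RowSt N) : Prop := ∀ p, x.ht p = 0 ∨ x.ht p = 1

theorem bd_rst {N H H' : ℕ} {h : ℤ × ℤ → ℤ} (hh : h ∈ reg (rect N H H')) {j : ℤ}
    (hj : j = -(H : ℤ) ∨ j = H') : Bd (rst N h j) := by
  intro p
  rw [rst_ht (isRow_rowf hh j)]
  by_cases h2 : (p - j) % 2 = 0
  · rw [rowf_eq h2]
    apply bd_of_not_inner hh
    rcases hj with hj | hj
    · apply rect_not_inner (w := ((p - j) / 2, j - 1))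
      · rw [adj_iff]
        right; right; right; left
        exact ⟨rfl, rfl⟩
      · rw [mem_rect]
        rintro ⟨⟨h3, _⟩, _⟩
        simp only at h3
        omega
    · apply rect_not_inner (w := ((p - j) / 2, j + 1))
      · rw [adj_iff]
        right; right; left
        exact ⟨rfl, rfl⟩
      · rw [mem_rect]
        rintro ⟨⟨_, h3⟩, _⟩
        simp only at h3
        omega
  · exact Or.inl (rowf_ne h2)

/-! ### from paths to functions -/

/-- chains of compatible row states whose first row is the row `j0` -/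
def Chn (j0 : ℤ) {n : ℕ} (q : Fin (n + 1) → RowSt N) : Prop :=
  (q 0).par = j0 ∧ (∀ i : Fin n, Compat (q i.castSucc) (q i.succ))

/-- admissible paths whose first row is the row `j0` -/
def Adm (j0 : ℤ) {n : ℕ} (q : Fin (n + 1) → RowSt N) : Prop :=
  (q 0).par = j0 ∧ (∀ i : Fin n, Compat (q i.castSucc) (q i.succ)) ∧ Bd (q 0) ∧ Bd (q (Fin.last n))

theorem Adm.chn {j0 : ℤ} {n : ℕ} {q : Fin (n + 1) → RowSt N} (h : Adm j0 q) : Chn j0 q :=
  ⟨h.1, h.2.1⟩

theorem Chn.par {j0 : ℤ} {n : ℕ} {q : Fin (n + 1) → RowSt N} (h : Chn j0 q) (i : Fin (n + 1)) :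
    (q i).par = ((j0 + (i : ℕ) : ℤ) : ZMod 2) := by
  induction i using Fin.induction with
  | zero => simpa using h.1
  | succ i ih =>
    rw [(h.2 i).1, ih]
    simp only [Fin.val_castSucc, Fin.val_succ]
    push_cast
    ring

theorem fld_side {j0 : ℤ} {n : ℕ} (q : Fin (n + 1) → RowSt N) {v : ℤ × ℤ}
    (hv : 2 * (N : ℤ) - 1 ≤ |key v|) : fld j0 q v = 0 ∨ fld j0 q v = 1 := by
  by_cases h : j0 ≤ v.2 ∧ v.2 ≤ j0 + n
  · unfold fld
    rw [dif_pos h]
    exact (q _).isRow.side _ hv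
  · left
    unfold fld
    rw [dif_neg h]

theorem fld_step {j0 : ℤ} {n : ℕ} {q : Fin (n + 1) → RowSt N} (hq : Adm j0 q) {v w : ℤ × ℤ}
    (hvw : (w.1 = v.1 + 1 ∧ w.2 = v.2) ∨ (w.1 = v.1 ∧ w.2 = v.2 + 1) ∨
      (w.1 = v.1 - 1 ∧ w.2 = v.2 + 1)) : |fld j0 q v - fld j0 q w| ≤ 1 := by
  obtain ⟨a, j⟩ := v
  obtain ⟨b, k⟩ := w
  simp only at hvw
  have bdry : ∀ (a j : ℤ), (j = j0 ∨ j = j0 + n) → fld j0 q (a, j) = 0 ∨ fld j0 q (a, j) = 1 := by
    intro a j hj
    rcases hj with rfl | rfl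
    · have := fld_of_le j q a 0
      simp only [Fin.val_zero, Nat.cast_zero, add_zero] at this
      rw [this]
      exact hq.2.2.1 _
    · have := fld_of_le j0 q a (Fin.last n)
      simp only [Fin.val_last] at this
      rw [this]
      exact hq.2.2.2 _
  rcases hvw with ⟨rfl, rfl⟩ | h
  · by_cases hj : j0 ≤ k ∧ k ≤ j0 + n
    · obtain ⟨i, hi⟩ : ∃ i : Fin (n + 1), k = j0 + i :=
        ⟨⟨(k - j0).toNat, by omega⟩, by simp only; omega⟩
      rw [hi, fld_of_le, fld_of_le]
      have := (q i).isRow.lip (2 * a + (j0 + i))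
      rwa [show 2 * (a + 1) + (j0 + (i : ℤ)) = 2 * a + (j0 + i) + 2 by ring]
    · rw [fld_of_lt j0 q (by simp only; omega), fld_of_lt j0 q (by simp only; omega)]
      simp
  · have hk : k = j + 1 := by omega
    subst hk
    by_cases hj : j0 ≤ j ∧ j + 1 ≤ j0 + n
    · obtain ⟨i, hi⟩ : ∃ i : Fin n, j = j0 + i :=
        ⟨⟨(j - j0).toNat, by omega⟩, by simp only; omega⟩
      have h1 : fld j0 q (a, j) = (q i.castSucc).ht (2 * a + j) := by
        rw [hi]
        exact fld_of_le j0 q a i.castSucc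
      have h2 : fld j0 q (b, j + 1) = (q i.succ).ht (2 * b + (j + 1)) := by
        have := fld_of_le j0 q b i.succ
        rw [Fin.val_succ] at this
        rw [hi, show j0 + (i : ℤ) + 1 = j0 + ((i + 1 : ℕ) : ℤ) by push_cast; ring]
        exact this
      rw [h1, h2]
      have hc := (hq.2.1 i).2 (2 * a + j)
      rcases h with ⟨hb, _⟩ | ⟨hb, _⟩
      · subst hb
        rw [show 2 * b + (j + 1) = 2 * b + j + 1 by ring]
        exact hc.1
      · subst hb
        rw [show 2 * (a - 1) + (j + 1) = 2 * a + j - 1 by ring]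
        exact hc.2
    · by_cases h3 : j < j0
      · rw [fld_of_lt j0 q (v := (a, j)) (by simp only; omega)]
        by_cases h4 : j + 1 = j0
        · rcases bdry b (j + 1) (Or.inl h4) with h5 | h5 <;> rw [h5] <;> norm_num
        · rw [fld_of_lt j0 q (v := (b, j + 1)) (by simp only; omega)]
          simp
      · rw [fld_of_lt j0 q (v := (b, j + 1)) (by simp only; omega)]
        by_cases h4 : j = j0 + n
        · rcases bdry a j (Or.inr h4) with h5 | h5 <;> rw [h5] <;> norm_num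
        · rw [fld_of_lt j0 q (v := (a, j)) (by simp only; omega)]
          simp

theorem fld_mem {H H' n : ℕ} (hn : (n : ℤ) = H + H') {q : Fin (n + 1) → RowSt N}
    (hq : Adm (-(H : ℤ)) q) : fld (-(H : ℤ)) q ∈ reg (rect N H H') := by
  rw [mem_reg]
  refine ⟨fun v hv => ?_, fun v hv hv' => ?_, fun v w hvw => ?_⟩
  · by_cases h : -(H : ℤ) ≤ v.2 ∧ v.2 ≤ -(H : ℤ) + n
    · unfold fld
      rw [dif_pos h]
      apply (q _).isRow.off
      rw [mem_rect] at hv
      by_contra hcon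
      rw [not_lt] at hcon
      exact hv ⟨⟨h.1, by omega⟩, hcon⟩
    · exact fld_of_lt _ q (by omega)
  · have h1 : ∃ w, Adj v w ∧ w ∉ rect N H H' := by
      by_contra hcon
      push Not at hcon
      exact hv' ⟨hv, hcon⟩
    obtain ⟨w, hvw, hw⟩ := h1
    rw [mem_rect] at hv hw
    by_cases hw2 : -(H : ℤ) ≤ w.2 ∧ w.2 ≤ H'
    · apply fld_side
      have h3 : ¬ |2 * w.1 + w.2| ≤ 2 * (N : ℤ) := fun h => hw ⟨hw2, h⟩
      rw [not_le, lt_abs] at h3
      rw [adj_iff] at hvw
      unfold key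
      rw [le_abs]
      omega
    · rw [adj_iff] at hvw
      obtain ⟨a, j⟩ := v
      simp only at *
      have hj : j = -(H : ℤ) ∨ j = H' := by omega
      rcases hj with rfl | rfl
      · have := fld_of_le (-(H : ℤ)) q a 0
        simp only [Fin.val_zero, Nat.cast_zero, add_zero] at this
        rw [this]
        exact hq.2.2.1 _
      · have := fld_of_le (-(H : ℤ)) q a (Fin.last n)
        simp only [Fin.val_last] at this
        rw [hn, show -(H : ℤ) + (H + H') = H' by ring] at this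
        rw [this]
        exact hq.2.2.2 _
  · rw [adj_iff] at hvw
    rcases hvw with h | h | h | h | h | h
    · exact fld_step hq (by omega)
    · rw [abs_sub_comm]
      exact fld_step hq (by omega)
    · exact fld_step hq (by omega)
    · rw [abs_sub_comm]
      exact fld_step hq (by omega)
    · rw [abs_sub_comm]
      exact fld_step hq (by omega)
    · exact fld_step hq (by omega)

theorem pth_adm {H H' n : ℕ} (hn : (n : ℤ) = H + H') {h : ℤ × ℤ → ℤ}
    (hh : h ∈ reg (rect N H H')) : Adm (-(H : ℤ)) (pth N (-(H : ℤ)) n h) := by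
  refine ⟨?_, fun i => ?_, ?_, ?_⟩
  · unfold pth
    rw [rst_par]
    simp
  · unfold pth
    have := compat_rst (N := N) hh (-(H : ℤ) + (i : ℕ))
    simp only [Fin.val_castSucc, Fin.val_succ]
    rw [show -(H : ℤ) + ((i + 1 : ℕ) : ℤ) = -(H : ℤ) + (i : ℕ) + 1 by push_cast; ring]
    exact this
  · unfold pth
    exact bd_rst hh (Or.inl (by simp))
  · unfold pth
    exact bd_rst hh (Or.inr (by simp only [Fin.val_last]; omega))

theorem fld_pth {H H' n : ℕ} (hn : (n : ℤ) = H + H') {h : ℤ × ℤ → ℤ}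
    (hh : h ∈ reg (rect N H H')) : fld (-(H : ℤ)) (pth N (-(H : ℤ)) n h) = h := by
  funext v
  by_cases hv : -(H : ℤ) ≤ v.2 ∧ v.2 ≤ -(H : ℤ) + n
  · unfold fld pth
    rw [dif_pos hv]
    rw [show -(H : ℤ) + ((v.2 - -(H : ℤ)).toNat : ℤ) = v.2 by omega, rst_ht (isRow_rowf hh v.2),
      rowf_key]
  · rw [fld_of_lt _ _ (by omega)]
    symm
    apply (mem_reg.1 hh).1
    rw [mem_rect]
    omega

theorem rowf_fld {j0 : ℤ} {n : ℕ} {q : Fin (n + 1) → RowSt N} (hq : Chn j0 q) (i : Fin (n + 1)) :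
    rowf (fld j0 q) (j0 + i) = (q i).ht := by
  funext p
  by_cases h2 : (p - (j0 + (i : ℕ))) % 2 = 0
  · rw [rowf_eq h2, fld_of_le]
    congr 1
    omega
  · rw [rowf_ne h2]
    symm
    apply (q i).isRow.odd
    rw [hq.par i]
    intro h
    exact h2 ((cast_eq_iff _ _).1 h)

theorem pth_fld {j0 : ℤ} {n : ℕ} {q : Fin (n + 1) → RowSt N} (hq : Chn j0 q) :
    pth N j0 n (fld j0 q) = q := by
  funext i
  have h1 : IsRow N ((j0 + (i : ℕ) : ℤ) : ZMod 2) (rowf (fld j0 q) (j0 + (i : ℕ))) := by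
    rw [rowf_fld hq, ← hq.par i]
    exact (q i).isRow
  unfold pth
  refine RowSt.ext' ?_ fun p => ?_
  · rw [rst_par, hq.par i]
  · rw [rst_ht h1, rowf_fld hq]

/-- sums over the functions of the rectangle are sums over admissible paths -/
theorem sum_reg_rect {H H' n : ℕ} (hn : (n : ℤ) = H + H') (F : (ℤ × ℤ → ℤ) → ℝ)
    [DecidablePred (Adm (N := N) (n := n) (-(H : ℤ)))] :
    ∑ h ∈ reg (rect N H H'), F h =
      ∑ q ∈ Finset.univ.filter (Adm (N := N) (n := n) (-(H : ℤ))), F (fld (-(H : ℤ)) q) := by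
  refine Finset.sum_bij' (fun h _ => pth N (-(H : ℤ)) n h) (fun q _ => fld (-(H : ℤ)) q)
    ?_ ?_ ?_ ?_ ?_
  · intro h hh
    exact Finset.mem_filter.2 ⟨Finset.mem_univ _, pth_adm hn hh⟩
  · intro q hq
    exact fld_mem hn (Finset.mem_filter.1 hq).2
  · intro h hh
    exact fld_pth hn hh
  · intro q hq
    exact pth_fld (Finset.mem_filter.1 hq).2.chn
  · intro h hh
    rw [fld_pth hn hh]

end Vale.Agent.P145W85.P153.Strip
end

section

/-!
# P153, strips: the law of the window rows of a rectangle converges to the window law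
-/

namespace Vale.Agent.P145W85.P153.Strip

open Finset Vale.Agent.P145W85.P153.Fv Filter Topology

variable {N : ℕ}

open Classical in
/-- indicator of rows with values in `{0, 1}` -/
noncomputable def zb (N : ℕ) (x : RowSt N) : ℝ := if Bd x then 1 else 0

theorem zb_zrow (e : ZMod 2) : zb N (zrow N e) = 1 := by
  unfold zb
  rw [if_pos]
  exact fun p => Or.inl (zrow_ht N e p)

theorem zb_nonneg (x : RowSt N) : 0 ≤ zb N x := by
  unfold zb
  split_ifs <;> norm_num

/-- the weight of a path is the indicator of compatibility -/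
theorem pw_eq_one {n : ℕ} {q : Fin (n + 1) → RowSt N}
    (h : ∀ i : Fin n, Compat (q i.castSucc) (q i.succ)) : pw (Amat N) q = 1 := by
  unfold pw
  apply Finset.prod_eq_one
  intro i _
  unfold Amat
  rw [if_pos (h i)]

theorem pw_eq_zero {n : ℕ} {q : Fin (n + 1) → RowSt N}
    (h : ¬ ∀ i : Fin n, Compat (q i.castSucc) (q i.succ)) : pw (Amat N) q = 0 := by
  push Not at h
  obtain ⟨i, hi⟩ := h
  unfold pw
  apply Finset.prod_eq_zero (Finset.mem_univ i)
  unfold Amat
  rw [if_neg hi]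

theorem compat_of_pw {n : ℕ} {q : Fin (n + 1) → RowSt N} (h : pw (Amat N) q ≠ 0) :
    ∀ i : Fin n, Compat (q i.castSucc) (q i.succ) := by
  by_contra hcon
  exact h (pw_eq_zero hcon)

/-- the values on the window rows -/
theorem fld_window {M m k : ℕ} (q : Fin (2 * M + m + k + 1) → RowSt N) {v : ℤ × ℤ}
    (hv : |v.2| ≤ M) : fld (-((M + m : ℕ) : ℤ)) q v =
      fld (-(M : ℤ)) (fun i : Fin (2 * M + 1) => q ⟨m + i, by omega⟩) v := by
  rw [abs_le] at hv
  unfold fld
  rw [dif_pos (by push_cast; omega), dif_pos (by push_cast; omega)]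
  have : (v.2 - -((M + m : ℕ) : ℤ)).toNat = m + (v.2 - -(M : ℤ)).toNat := by
    push_cast
    omega
  simp only [this]

open Classical in
/-- sums over the functions of the rectangle of a function of the window rows -/
theorem sum_rect_window (M m k : ℕ) {F : (ℤ × ℤ → ℤ) → ℝ}
    (hF : Dep {v : ℤ × ℤ | |v.2| ≤ M} F) :
    ∑ h ∈ reg (rect N (M + m) (M + k)), F h =
      ∑ q : Fin (2 * M + 1) → RowSt N, F (fld (-(M : ℤ)) q) * pw (Amat N) q *
        ext (Amat N) (fun x => if x.par = ((-((M + m : ℕ) : ℤ) : ℤ) : ZMod 2) then zb N x else 0)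
          m (q 0) * ext (Amat N) (zb N) k (q (Fin.last _)) := by
  rw [← sum_window (Amat N) (Amat_symm N)
    (fun q : Fin (2 * M + 1) → RowSt N => F (fld (-(M : ℤ)) q)) m k
    (fun x => if x.par = ((-((M + m : ℕ) : ℤ) : ℤ) : ZMod 2) then zb N x else 0) (zb N)]
  rw [sum_reg_rect (n := 2 * M + m + k) (by push_cast; ring) F, Finset.sum_filter]
  apply Finset.sum_congr rfl
  intro q _
  have e1 : F (fld (-((M + m : ℕ) : ℤ)) q) =
      F (fld (-(M : ℤ)) (fun i : Fin (2 * M + 1) => q ⟨m + i, by omega⟩)) :=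
    hF _ _ fun v hv => fld_window q hv
  rw [← e1]
  by_cases h : Adm (-((M + m : ℕ) : ℤ)) q
  · rw [if_pos h, if_pos h.1, pw_eq_one h.2.1]
    unfold zb
    rw [if_pos h.2.2.1, if_pos h.2.2.2]
    ring
  · rw [if_neg h]
    by_cases h1 : (q 0).par = ((-((M + m : ℕ) : ℤ) : ℤ) : ZMod 2)
    · by_cases h2 : ∀ i : Fin (2 * M + m + k), Compat (q i.castSucc) (q i.succ)
      · by_cases h3 : Bd (q 0)
        · by_cases h4 : Bd (q (Fin.last _))
          · exact absurd ⟨h1, h2, h3, h4⟩ h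
          · unfold zb
            rw [if_neg h4]
            ring
        · unfold zb
          rw [if_pos h1, if_neg h3]
          ring
      · rw [pw_eq_zero h2]
        ring
    · rw [if_neg h1]
      ring

theorem zmod_two_add_self (a : ZMod 2) : a + a = 0 := by
  have : ∀ a : ZMod 2, a + a = 0 := by decide
  exact this a

theorem ext_par (z : RowSt N → ℝ) (m : ℕ) : ∀ (e : ZMod 2) (x : RowSt N),
    ext (Amat N) (fun x => if x.par = e then z x else 0) m x =
      if x.par = e + m then ext (Amat N) z m x else 0 := by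
  induction m with
  | zero =>
    intro e x
    simp [ext_zero]
  | succ m ih =>
    intro e x
    rw [ext_succ, ext_succ]
    simp only [ih]
    split_ifs with h
    · apply Finset.sum_congr rfl
      intro y _
      by_cases hA : Amat N x y = 0
      · rw [hA]
        ring
      · have hy := Amat_flip N x y hA
        rw [if_pos]
        rw [hy, h]
        push_cast
        have := zmod_two_add_self (1 : ZMod 2)
        linear_combination this
    · apply Finset.sum_eq_zero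
      intro y _
      by_cases hA : Amat N x y = 0
      · rw [hA]
        ring
      · have hy := Amat_flip N x y hA
        rw [if_neg, mul_zero]
        intro h'
        apply h
        rw [hy] at h'
        push_cast
        have := zmod_two_add_self (1 : ZMod 2)
        linear_combination h' - this

theorem ext_eq_mulVec {X : Type*} [Fintype X] [DecidableEq X] (A : X → X → ℝ) (c : X → ℝ)
    (m : ℕ) (x : X) : ext A c m x = ((Matrix.of A) ^ m).mulVec c x := by
  induction m generalizing x with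
  | zero => simp [ext_zero]
  | succ m ih =>
    rw [ext_succ, pow_succ', ← Matrix.mulVec_mulVec]
    simp only [Matrix.mulVec, dotProduct, Matrix.of_apply]
    apply Finset.sum_congr rfl
    intro y _
    rw [ih]
    rfl

/-- product of the transition probabilities along a path -/
theorem prod_P {X : Type*} [Fintype X] (D : PData X) {n : ℕ} (q : Fin (n + 1) → X) :
    (∏ i : Fin n, D.P (q i.castSucc) (q i.succ)) * (D.lam ^ n * D.psi (q 0)) =
      pw D.A q * D.psi (q (Fin.last n)) := by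
  induction n with
  | zero => simp [pw]
  | succ n ih =>
    have h := ih (fun i => q i.castSucc)
    unfold pw at h ⊢
    rw [Fin.prod_univ_castSucc, Fin.prod_univ_castSucc]
    have e1 : ∀ i : Fin n, D.P (q i.castSucc.castSucc) (q i.castSucc.succ)
        = D.P (q (i.castSucc.castSucc)) (q (i.succ.castSucc)) := fun i => rfl
    have e2 : D.P (q (Fin.last n).castSucc) (q (Fin.last n).succ) * D.lam *
        D.psi (q (Fin.last n).castSucc) =
        D.A (q (Fin.last n).castSucc) (q (Fin.last n).succ) * D.psi (q (Fin.last n).succ) := by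
      unfold PData.P
      have h1 := (D.pos (q (Fin.last n).castSucc)).ne'
      have h2 := D.lpos.ne'
      field_simp
    have e3 : (Fin.last n).succ = Fin.last (n + 1) := Fin.succ_last n
    have e4 : (fun i : Fin (n + 1) => q i.castSucc) 0 = q 0 := rfl
    rw [e3] at e2 ⊢
    simp only [Fin.castSucc_zero] at h
    calc _ = (∏ i : Fin n, D.P (q i.castSucc.castSucc) (q i.succ.castSucc)) *
          (D.lam ^ n * D.psi (q 0)) *
          (D.P (q (Fin.last n).castSucc) (q (Fin.last (n + 1))) * D.lam) := by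
            rw [pow_succ]
            simp only [← Fin.castSucc_succ]
            ring
      _ = (∏ i : Fin n, D.A (q i.castSucc.castSucc) (q i.succ.castSucc)) *
          (D.P (q (Fin.last n).castSucc) (q (Fin.last (n + 1))) * D.lam *
            D.psi (q (Fin.last n).castSucc)) := by
            rw [h]
            ring
      _ = _ := by
            rw [e2]
            simp only [← Fin.castSucc_succ]
            ring

theorem W_eq {X : Type*} [Fintype X] (D : PData X) (e : ZMod 2) {n : ℕ} (q : Fin (n + 1) → X) :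
    D.lam ^ n * D.W e n q = pw D.A q * (if D.par (q 0) = e then D.psi (q 0) else 0) *
      D.psi (q (Fin.last n)) := by
  have h := prod_P D q
  unfold PData.W
  split_ifs
  · have h1 := (D.pos (q 0)).ne'
    calc D.lam ^ n * (D.psi (q 0) ^ 2 * ∏ i : Fin n, D.P (q i.castSucc) (q i.succ))
        = ((∏ i : Fin n, D.P (q i.castSucc) (q i.succ)) * (D.lam ^ n * D.psi (q 0))) *
          D.psi (q 0) := by ring
      _ = _ := by rw [h]; ring
  · ring

/-- the Perron data of the strip -/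
structure StripData (N : ℕ) (D : PData (RowSt N)) : Prop where
  hA : D.A = Amat N
  hpar : D.par = RowSt.par
  lim : ∀ (v : RowSt N → ℝ) (x : RowSt N),
    Tendsto (fun n : ℕ => ext (Amat N) v n x / D.lam ^ n -
      D.psi x * ∑ y, (if RowSt.par y = RowSt.par x + n then D.psi y * v y else 0)) atTop (𝓝 0)

variable {D : PData (RowSt N)}

/-- the constants of the two parities -/
noncomputable def sc (D : PData (RowSt N)) (e : ZMod 2) : ℝ :=
  ∑ y, (if RowSt.par y = e then D.psi y * zb N y else 0)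

theorem sc_pos (D : PData (RowSt N)) (e : ZMod 2) : 0 < sc D e := by
  unfold sc
  apply Finset.sum_pos'
  · intro y _
    split_ifs
    · exact mul_nonneg (D.pos y).le (zb_nonneg y)
    · exact le_rfl
  · refine ⟨zrow N e, Finset.mem_univ _, ?_⟩
    rw [if_pos (zrow_par N e), zb_zrow, mul_one]
    exact D.pos _

/-- the normalised number of extensions -/
noncomputable def un (D : PData (RowSt N)) (m : ℕ) (x : RowSt N) : ℝ :=
  ext (Amat N) (zb N) m x / D.lam ^ m / sc D (x.par + m)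

theorem un_tendsto (hD : StripData N D) (x : RowSt N) :
    Tendsto (fun m => un D m x) atTop (𝓝 (D.psi x)) := by
  obtain ⟨B, hB⟩ : ∃ B : ℝ, ∀ e : ZMod 2, 1 / sc D e ≤ B := by
    refine ⟨∑ e : ZMod 2, 1 / sc D e, fun e => ?_⟩
    exact Finset.single_le_sum (f := fun e : ZMod 2 => 1 / sc D e)
      (fun e _ => (one_div_pos.2 (sc_pos D e)).le) (Finset.mem_univ e)
  have h1 := hD.lim (zb N) x
  have h2 : Tendsto (fun m => |un D m x - D.psi x|) atTop (𝓝 0) := by
    have h3 : Tendsto (fun m : ℕ => |ext (Amat N) (zb N) m x / D.lam ^ m -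
        D.psi x * ∑ y, (if RowSt.par y = RowSt.par x + m then D.psi y * zb N y else 0)| * B)
        atTop (𝓝 0) := by
      have := (h1.abs).mul_const B
      simpa using this
    refine squeeze_zero (fun m => abs_nonneg _) (fun m => ?_) h3
    have hs := sc_pos D (x.par + m)
    have e : un D m x - D.psi x = (ext (Amat N) (zb N) m x / D.lam ^ m -
        D.psi x * sc D (x.par + m)) * (1 / sc D (x.par + m)) := by
      unfold un
      field_simp
    rw [e, abs_mul]
    have hB' := hB (x.par + m)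
    rw [abs_of_pos (one_div_pos.2 hs)]
    exact mul_le_mul_of_nonneg_left hB' (abs_nonneg _)
  have h4 := (tendsto_zero_iff_abs_tendsto_zero _).2 h2
  have h5 := h4.add_const (D.psi x)
  simpa using h5

theorem ext_eq_un (D : PData (RowSt N)) (m : ℕ) (x : RowSt N) :
    ext (Amat N) (zb N) m x = D.lam ^ m * sc D (x.par + m) * un D m x := by
  have h1 := (sc_pos D (x.par + m)).ne'
  have h2 := (pow_pos D.lpos m).ne'
  unfold un
  field_simp

/-- the normalised sum -/
noncomputable def ns (D : PData (RowSt N)) (M : ℕ) (G : (Fin (2 * M + 1) → RowSt N) → ℝ)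
    (m k : ℕ) : ℝ :=
  ∑ q : Fin (2 * M + 1) → RowSt N, G q * pw (Amat N) q *
    (if (q 0).par = M then un D m (q 0) else 0) * un D k (q (Fin.last _))

theorem pw_par {n : ℕ} {q : Fin (n + 1) → RowSt N} (h : pw (Amat N) q ≠ 0) (i : Fin (n + 1)) :
    (q i).par = (q 0).par + (i : ℕ) := by
  have hc := compat_of_pw h
  induction i using Fin.induction with
  | zero => simp
  | succ i ih =>
    rw [(hc i).1, ih]
    simp only [Fin.val_castSucc, Fin.val_succ]
    push_cast
    ring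

theorem sum_rect_ns (D : PData (RowSt N)) (M m k : ℕ) {F : (ℤ × ℤ → ℤ) → ℝ}
    (hF : Dep {v : ℤ × ℤ | |v.2| ≤ M} F) :
    ∑ h ∈ reg (rect N (M + m) (M + k)), F h =
      (D.lam ^ m * sc D (M + m) * (D.lam ^ k * sc D (M + k))) *
        ns D M (fun q => F (fld (-(M : ℤ)) q)) m k := by
  classical
  rw [sum_rect_window M m k hF]
  unfold ns
  rw [Finset.mul_sum]
  apply Finset.sum_congr rfl
  intro q _
  by_cases hp : pw (Amat N) q = 0
  · rw [hp]
    ring
  · rw [ext_par]
    have h2 : ((-((M + m : ℕ) : ℤ) : ℤ) : ZMod 2) + m = M := by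
      push_cast
      have := zmod_two_add_self (M : ZMod 2)
      linear_combination -this
    rw [h2]
    split_ifs with h
    · have h3 : (q (Fin.last _)).par = M := by
        rw [pw_par hp, h]
        simp only [Fin.val_last]
        push_cast
        have := zmod_two_add_self (M : ZMod 2)
        linear_combination this
      rw [ext_eq_un D m, ext_eq_un D k, h, h3]
      ring
    · ring

theorem ns_tendsto (hD : StripData N D) (M : ℕ) (G : (Fin (2 * M + 1) → RowSt N) → ℝ) :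
    Tendsto (fun p : ℕ × ℕ => ns D M G p.1 p.2) (atTop ×ˢ atTop)
      (𝓝 (D.lam ^ (2 * M) * D.EE M (2 * M) G)) := by
  have e : D.lam ^ (2 * M) * D.EE M (2 * M) G = ∑ q : Fin (2 * M + 1) → RowSt N,
      G q * pw (Amat N) q * (if (q 0).par = M then D.psi (q 0) else 0) *
        D.psi (q (Fin.last _)) := by
    unfold PData.EE
    rw [Finset.mul_sum]
    apply Finset.sum_congr rfl
    intro q _
    have := W_eq D M q
    rw [hD.hA, hD.hpar] at this
    rw [← mul_assoc, this]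
    ring
  rw [e]
  unfold ns
  apply tendsto_finsetSum
  intro q _
  apply Tendsto.mul
  · apply Tendsto.const_mul
    split_ifs
    · exact (un_tendsto hD (q 0)).comp tendsto_fst
    · exact tendsto_const_nhds
  · exact (un_tendsto hD (q (Fin.last _))).comp tendsto_snd

/-- the law of the window rows of the rectangle converges to the window law of the strip -/
theorem tendsto_rect (hD : StripData N D) (M : ℕ) {F : (ℤ × ℤ → ℤ) → ℝ}
    (hF : Dep {v : ℤ × ℤ | |v.2| ≤ M} F) :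
    Tendsto (fun p : ℕ × ℕ => ev (reg (rect N (M + p.1) (M + p.2))) F) (atTop ×ˢ atTop)
      (𝓝 (D.EE M (2 * M) (fun q => F (fld (-(M : ℤ)) q)))) := by
  have h1 := ns_tendsto hD M (fun q => F (fld (-(M : ℤ)) q))
  have h2 := ns_tendsto hD M (fun _ => 1)
  rw [D.EE_one, mul_one] at h2
  have hl : D.lam ^ (2 * M) ≠ 0 := (pow_pos D.lpos _).ne'
  have h3 := h1.div h2 hl
  rw [mul_div_cancel_left₀ _ hl] at h3
  refine h3.congr fun p => ?_
  have e1 := sum_rect_ns D M p.1 p.2 hF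
  have e2 := sum_rect_ns D M p.1 p.2 (F := fun _ => 1) (dep_const _ 1)
  simp only [sum_const, nsmul_eq_mul, mul_one] at e2
  unfold ev
  rw [e1, e2]
  have h4 : D.lam ^ p.1 * sc D (M + p.1) * (D.lam ^ p.2 * sc D (M + p.2)) ≠ 0 := by
    have := sc_pos D (M + p.1)
    have := sc_pos D (M + p.2)
    have := pow_pos D.lpos p.1
    have := pow_pos D.lpos p.2
    positivity
  show ns D M (fun q => F (fld (-(M : ℤ)) q)) p.1 p.2 / ns D M (fun _ => 1) p.1 p.2 = _
  rw [mul_div_mul_left _ _ h4]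

/-- the same with epsilon -/
theorem exists_rect (hD : StripData N D) (M : ℕ) {F : (ℤ × ℤ → ℤ) → ℝ}
    (hF : Dep {v : ℤ × ℤ | |v.2| ≤ M} F) {ε : ℝ} (hε : 0 < ε) :
    ∃ K0 : ℕ, ∀ K ≥ K0, ∀ K' ≥ K0,
      |ev (reg (rect N K K')) F - D.EE M (2 * M) (fun q => F (fld (-(M : ℤ)) q))| < ε := by
  have h := tendsto_rect hD M hF
  rw [Metric.tendsto_nhds] at h
  have h1 := h ε hε
  rw [prod_atTop_atTop_eq, eventually_atTop] at h1
  obtain ⟨⟨a, b⟩, hab⟩ := h1
  refine ⟨M + max a b, fun K hK K' hK' => ?_⟩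
  have h2 := hab (K - M, K' - M) ⟨by
    show a ≤ K - M
    have := le_max_left a b
    omega, by
    show b ≤ K' - M
    have := le_max_right a b
    omega⟩
  rw [Real.dist_eq] at h2
  simp only at h2
  rwa [show M + (K - M) = K by omega, show M + (K' - M) = K' by omega] at h2

end Vale.Agent.P145W85.P153.Strip
end

section

/-!
# Positivity of the approximation error and its consequences
-/

namespace Vale.Agent.P145W85.P153.Asm

open MeasureTheory Filter Finset
open scoped Topology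
open Vale.Agent.P145W85.P153.CLT Vale.Agent.P145W85.P153.TwoPt

/-- The approximation error is nonnegative. -/
theorem err2_nonneg {B : ℝ} {Ω : Type*} [MeasurableSpace Ω] {P : Measure Ω}
    {h : ℤ × ℤ → Ω → ℝ} (L : RowLim P h B)
    {ι β : Type} [Fintype ι] (G : Geo ι β)
    (A : Finset (ℤ × ℤ)) (a : ℤ × ℤ → ℝ) (ha : ∑ w ∈ A, a w = 0) (g : ℕ → ι → ℝ) (J : ℕ) :
    0 ≤ err2 (msd P h) G A a g J := by
  set T : ℤ := |G.l J| + ∑ w ∈ A, |w.1| with hT
  set H : ℕ := (T + 2 * |G.l 0|).toNat with hH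
  have hT0 : 0 ≤ T := add_nonneg (abs_nonneg _) (Finset.sum_nonneg fun w _ => abs_nonneg _)
  have hH' : (H : ℤ) = T + 2 * |G.l 0| := Int.toNat_of_nonneg (by (clear * -; positivity))
  have hw : ∀ w ∈ A, |w.1| ≤ T := fun w hw => by
    have h1 := Finset.single_le_sum (f := fun w : ℤ × ℤ => |w.1|) (fun w _ => abs_nonneg w.1) hw
    have h2 := abs_nonneg (G.l J)
    linarith only [h1, h2]
  have h0 := abs_nonneg (G.l 0)
  have h3 := neg_abs_le (G.l 0)
  have h4 := le_abs_self (G.l J)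
  have h5 : 0 ≤ ∑ w ∈ A, |w.1| := Finset.sum_nonneg fun w _ => abs_nonneg _
  obtain ⟨Ωs, mΩs, μs, Fs, hs, p1, p2, p3⟩ := L H
  have W : G.In (-(H : ℤ)) H J T := ⟨by linarith only [hH', h0], by linarith only [hH', h3], by linarith only [h4, h5]⟩
  have inA : ∀ w ∈ A, -(H : ℤ) ≤ w.1 ∧ w.1 ≤ H := fun w hwA => by
    have := abs_le.1 (hw w hwA)
    exact ⟨by linarith only [hH', h0, this], by linarith only [hH', h0, this]⟩
  have inS : ∀ j < J, ∀ i, -(H : ℤ) ≤ (G.site j i).1 ∧ (G.site j i).1 ≤ H := fun j hj i =>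
    ⟨(W.mid hj).1.trans (G.l_mono (Nat.le_succ j)), (W.mid hj).2.1⟩
  have inR : ∀ j < J, ∀ i, -(H : ℤ) ≤ (rho (G.l j) (G.site j i)).1 ∧
      (rho (G.l j) (G.site j i)).1 ≤ H := fun j hj i => by
    obtain ⟨a1, a2, a3⟩ := W.site hj i
    refine ⟨a3, ?_⟩
    show 2 * G.l j - (G.site j i).1 ≤ H
    have h6 := (W.mid hj).2.1
    have h7 := G.l_mono (Nat.le_succ j)
    have e : (G.site j i).1 = G.l (j + 1) := rfl
    rw [e]
    linarith only [a1, a2, h7]
  have hV : ∀ p q : ℤ × ℤ, (-(H : ℤ) ≤ p.1 ∧ p.1 ≤ H) → (-(H : ℤ) ≤ q.1 ∧ q.1 ≤ H) →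
      Tendsto (fun n => msd (μs n) (hs n) p q) atTop (𝓝 (msd P h p q)) :=
    fun p q hp hq => p3.msd hp hq
  have key : ∀ n, 0 ≤ err2 (msd (μs n) (hs n)) G A a g J := fun n => by
    rw [← int_sq_XY (p2 n) G W A (fun w hwA => (le_abs_self _).trans (hw w hwA)) a ha g]
    exact integral_nonneg fun ω => sq_nonneg _
  have l2 : Tendsto (fun n => err2 (msd (μs n) (hs n)) G A a g J) atTop
      (𝓝 (err2 (msd P h) G A a g J)) := by
    unfold err2
    refine (((tendsto_finsetSum _ fun w hw => tendsto_finsetSum _ fun w' hw' =>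
      (hV w w' (inA w hw) (inA w' hw')).const_mul _).const_mul _).sub
      ((tendsto_finsetSum _ fun j hj => tendsto_finsetSum _ fun i _ =>
      (tendsto_finsetSum _ fun w hw => ?_).const_mul _).const_mul
      _)).add (tendsto_finsetSum _ fun j hj => tendsto_finsetSum _ fun i _ =>
      tendsto_finsetSum _ fun i' _ => (((hV _ _ (inS j (mem_range.1 hj) i)
        (inR j (mem_range.1 hj) i')).sub (hV _ _ (inS j (mem_range.1 hj) i)
        (inS j (mem_range.1 hj) i'))).div_const _).const_mul _)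
    split_ifs
    · exact (((hV _ _ (inA w hw) (inR j (mem_range.1 hj) i)).sub (hV _ _ (inA w hw)
        (inS j (mem_range.1 hj) i))).div_const _).const_mul _
    · exact tendsto_const_nhds
  exact ge_of_tendsto' l2 key

lemma quad_bound {A C V : ℝ} (h : ∀ x : ℝ, 0 ≤ x ^ 2 * A - 2 * (x * C) + V) :
    0 ≤ A ∧ 0 ≤ V ∧ C ^ 2 ≤ A * V := by
  have h1 : ∀ x : ℝ, 0 ≤ A * (x * x) + (-2 * C) * x + V := fun x => by
    have := h x
    linarith
  have h2 := discrim_le_zero h1
  unfold discrim at h2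
  have hV : 0 ≤ V := by simpa only [ne_eq, OfNat.ofNat_ne_zero, not_false_eq_true, zero_pow, zero_mul, mul_zero, sub_self,     zero_add] using h 0
  refine ⟨?_, hV, by linarith⟩
  by_contra hA
  push Not at hA
  -- large x gives a contradiction
  have h3 := h ((V + 1 + |C|) / (-A) + 1)
  set y := (V + 1 + |C|) / (-A) with hy
  have hy0 : 0 ≤ y := div_nonneg (by positivity) (by linarith only [hA])
  have hyA : y * (-A) = V + 1 + |C| := div_mul_cancel₀ _ (by linarith only [hA])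
  have hC2 : C ^ 2 ≤ A * V := by nlinarith only [h2]
  have hC0 : C = 0 := by
    have : C ^ 2 ≤ 0 := hC2.trans (mul_nonpos_of_nonpos_of_nonneg hA.le hV)
    exact pow_eq_zero_iff (two_ne_zero) |>.1 (le_antisymm this (sq_nonneg _))
  rw [hC0] at h3 hyA
  simp only [abs_zero, add_zero, mul_zero, sub_zero] at h3 hyA
  nlinarith only [hV, hA, h3, hyA]

lemma sqrt_close {A C V : ℝ} (hA : 0 ≤ A) (hV : 0 ≤ V) (h : C ^ 2 ≤ A * V) :
    |V - A| ≤ Real.sqrt (A - 2 * C + V) * (2 * Real.sqrt A + Real.sqrt (A - 2 * C + V)) := by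
  set x := Real.sqrt A with hx
  set y := Real.sqrt V with hy
  have hx2 : x ^ 2 = A := Real.sq_sqrt hA
  have hy2 : y ^ 2 = V := Real.sq_sqrt hV
  have hx0 : 0 ≤ x := Real.sqrt_nonneg _
  have hy0 : 0 ≤ y := Real.sqrt_nonneg _
  have hC : C ≤ x * y := by
    have h1 : C ^ 2 ≤ (x * y) ^ 2 := by rw [mul_pow, hx2, hy2]; exact h
    exact (le_abs_self C).trans (abs_le_of_sq_le_sq h1 (by (clear * -; positivity)))
  have h1 : (x - y) ^ 2 ≤ A - 2 * C + V := by linarith
  set e := Real.sqrt (A - 2 * C + V) with he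
  have he0 : 0 ≤ e := Real.sqrt_nonneg _
  have h2 : |x - y| ≤ e := Real.abs_le_sqrt h1
  have h3 : V - A = (y - x) * (y + x) := by rw [← hx2, ← hy2]; ring
  rw [h3, abs_mul, abs_sub_comm, abs_of_nonneg (by (clear * -; positivity) : 0 ≤ y + x)]
  have h4 : y ≤ x + e := by
    have := (abs_le.1 h2).1
    linarith only [this]
  exact mul_le_mul h2 (by linarith only [h4]) (by (clear * -; positivity)) he0

lemma exp_close {s s' : ℝ} (hs : 0 ≤ s) (hs' : 0 ≤ s') :
    |Real.exp (-s / 2) - Real.exp (-s' / 2)| ≤ |s - s'| / 2 := by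
  have key : ∀ x y : ℝ, 0 ≤ x → x ≤ y → Real.exp (-x) - Real.exp (-y) ≤ y - x := by
    intro x y hx hxy
    have h1 : Real.exp (-y) = Real.exp (-x) * Real.exp (-(y - x)) := by
      rw [← Real.exp_add]
      congr 1
      ring
    have h2 := Real.add_one_le_exp (-(y - x))
    have h3 : Real.exp (-x) ≤ 1 := Real.exp_le_one_iff.2 (by linarith)
    have h4 : 0 ≤ Real.exp (-x) := (Real.exp_pos _).le
    rw [h1]
    have h5 : Real.exp (-x) - Real.exp (-x) * Real.exp (-(y - x)) =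
        Real.exp (-x) * (1 - Real.exp (-(y - x))) := by ring
    rw [h5]
    have h6 : 1 - Real.exp (-(y - x)) ≤ y - x := by linarith only [h2]
    have h7 : 0 ≤ y - x := by linarith
    calc Real.exp (-x) * (1 - Real.exp (-(y - x))) ≤ Real.exp (-x) * (y - x) :=
          mul_le_mul_of_nonneg_left h6 h4
      _ ≤ 1 * (y - x) := mul_le_mul_of_nonneg_right h3 h7
      _ = y - x := one_mul _
  have mono : ∀ x y : ℝ, x ≤ y → Real.exp (-y) ≤ Real.exp (-x) := fun x y hxy =>
    Real.exp_le_exp.2 (by linarith)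
  rcases le_total s s' with h | h
  · have h1 := key (s / 2) (s' / 2) (by linarith) (by linarith)
    have h2 := mono (s / 2) (s' / 2) (by linarith only [h])
    have e1 : -s / 2 = -(s / 2) := by ring
    have e2 : -s' / 2 = -(s' / 2) := by ring
    rw [e1, e2, abs_of_nonneg (by linarith only [h2]), abs_of_nonpos (by linarith only [h])]
    linarith only [h1]
  · have h1 := key (s' / 2) (s / 2) (by linarith) (by linarith only [h])
    have h2 := mono (s' / 2) (s / 2) (by linarith only [h])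
    have e1 : -s / 2 = -(s / 2) := by ring
    have e2 : -s' / 2 = -(s' / 2) := by ring
    rw [e1, e2, abs_of_nonpos (by linarith only [h2]), abs_of_nonneg (by linarith only [h])]
    linarith only [h1]

end Vale.Agent.P145W85.P153.Asm
end

section

/-!
# P153, TwoPt: Riemann sums, `Var X' → (∑ C_K) / K * ∫ g²`
-/

open MeasureTheory ProbabilityTheory Filter Topology Set
open scoped ENNReal Real

namespace Vale.Agent.P145W85.P153.TwoPt

namespace P3b

/-- The grid point below `p`. -/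
noncomputable def fl (α β : ℝ) (p : ℝ × ℝ) : ℤ × ℤ := (⌊p.1 * α⌋, ⌊p.2 * β⌋)

lemma measurable_fl (α β : ℝ) : Measurable (fl α β) :=
  (Int.measurable_floor.comp (measurable_fst.mul_const α)).prodMk
    (Int.measurable_floor.comp (measurable_snd.mul_const β))

lemma vol_fl1 {α : ℝ} (hα : 0 < α) (i : ℤ) :
    volume {s : ℝ | ⌊s * α⌋ = i} = ENNReal.ofReal (α⁻¹) := by
  have h : {s : ℝ | ⌊s * α⌋ = i} = Ico ((i : ℝ) / α) (((i : ℝ) + 1) / α) := by
    ext s
    simp only [mem_ofPred_eq, Int.floor_eq_iff, mem_Ico, div_le_iff₀ hα, lt_div_iff₀ hα]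
  rw [h, Real.volume_Ico]
  congr 1
  field_simp
  ring

lemma map_fl_singleton {α β : ℝ} (hα : 0 < α) (hβ : 0 < β) (q : ℤ × ℤ) :
    (Measure.map (fl α β) volume) {q} = ENNReal.ofReal (α⁻¹ * β⁻¹) := by
  rw [Measure.map_apply (measurable_fl α β) (measurableSet_singleton q)]
  have h : fl α β ⁻¹' {q} = {s : ℝ | ⌊s * α⌋ = q.1} ×ˢ {s : ℝ | ⌊s * β⌋ = q.2} := by
    ext p
    simp only [fl, mem_preimage, mem_singleton_iff, mem_prod, mem_ofPred_eq, Prod.ext_iff]
  rw [h, Measure.volume_eq_prod, Measure.prod_prod, vol_fl1 hα, vol_fl1 hβ,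
    ENNReal.ofReal_mul (inv_nonneg.2 hα.le)]

lemma integral_fl {α β : ℝ} (hα : 0 < α) (hβ : 0 < β) (h : ℤ × ℤ → ℝ) (s : Finset (ℤ × ℤ))
    (hs : ∀ q, q ∉ s → h q = 0) :
    ∫ p : ℝ × ℝ, h (fl α β p) = α⁻¹ * β⁻¹ * ∑' q, h q := by
  have hfin : (Measure.map (fl α β) volume) (s : Set (ℤ × ℤ)) < ⊤ := by
    rw [← sum_measure_singleton (μ := Measure.map (fl α β) volume)]
    refine ENNReal.sum_lt_top.2 fun q _ => ?_
    rw [map_fl_singleton hα hβ]
    exact ENNReal.ofReal_lt_top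
  have hint : Integrable h (Measure.map (fl α β) volume) := by
    have h1 : IntegrableOn h (s : Set (ℤ × ℤ)) (Measure.map (fl α β) volume) := by
      obtain ⟨B, hB⟩ : ∃ B : ℝ, ∀ q ∈ s, ‖h q‖ ≤ B := by
        refine ⟨∑ q ∈ s, ‖h q‖, fun q hq => ?_⟩
        exact Finset.single_le_sum (f := fun q => ‖h q‖) (fun _ _ => norm_nonneg _) hq
      exact Measure.integrableOn_of_bounded hfin.ne
        (measurable_of_countable h).aestronglyMeasurable
        (by
          refine (ae_restrict_iff' s.measurableSet).2 (Eventually.of_forall fun q hq => ?_)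
          exact hB q hq)
    refine (integrableOn_iff_integrable_of_support_subset ?_).1 h1
    intro q hq
    by_contra hq'
    exact hq (hs q hq')
  rw [← integral_map (measurable_fl α β).aemeasurable
    (measurable_of_countable h).aestronglyMeasurable, integral_countable hint]
  simp only [Measure.real, map_fl_singleton hα hβ]
  rw [ENNReal.toReal_ofReal (by positivity)]
  simp only [smul_eq_mul]
  exact tsum_mul_left

lemma floor_tendsto {α : ℕ → ℝ} (hα : Tendsto α atTop atTop) (s : ℝ) :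
    Tendsto (fun n => (⌊s * α n⌋ : ℝ) / α n) atTop (𝓝 s) := by
  have h0 : ∀ᶠ n in atTop, 0 < α n := hα.eventually_gt_atTop 0
  have h1 : Tendsto (fun n => s - 1 / α n) atTop (𝓝 s) := by
    have : Tendsto (fun n => 1 / α n) atTop (𝓝 0) := by
      exact (tendsto_inv_atTop_zero.comp hα).congr fun n => by simp
    simpa only [one_div, sub_zero] using this.const_sub s
  refine tendsto_of_tendsto_of_tendsto_of_le_of_le' h1 tendsto_const_nhds ?_ ?_
  · filter_upwards [h0] with n hn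
    rw [le_div_iff₀ hn, sub_mul, one_div, inv_mul_cancel₀ hn.ne']
    exact (Int.sub_one_lt_floor _).le
  · filter_upwards [h0] with n hn
    rw [div_le_iff₀ hn]
    exact Int.floor_le _

lemma abs_le_of_floor {α s R : ℝ} (hα : 0 < α) (h : |(⌊s * α⌋ : ℝ) / α| ≤ R) :
    |s| ≤ R + α⁻¹ := by
  have h1 : |s - (⌊s * α⌋ : ℝ) / α| ≤ α⁻¹ := by
    have e : s - (⌊s * α⌋ : ℝ) / α = (s * α - ⌊s * α⌋) * α⁻¹ := by field_simp
    rw [e, abs_mul, abs_of_pos (inv_pos.2 hα)]
    refine mul_le_of_le_one_left (inv_pos.2 hα).le ?_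
    rw [abs_le]
    have h2 := Int.floor_le (s * α)
    have h3 := Int.lt_floor_add_one (s * α)
    constructor <;> linarith only [h2, h3]
  have h2 : |s| ≤ |(⌊s * α⌋ : ℝ) / α| + |s - (⌊s * α⌋ : ℝ) / α| := by
    have := abs_add_le ((⌊s * α⌋ : ℝ) / α) (s - (⌊s * α⌋ : ℝ) / α)
    simpa only [ge_iff_le, add_sub_cancel] using this
  linarith only [h, h1, h2]

lemma exists_radius {F : ℝ × ℝ → ℝ} (hc : HasCompactSupport F) :
    ∃ R : ℝ, 0 ≤ R ∧ ∀ u : ℝ × ℝ, F u ≠ 0 → |u.1| ≤ R ∧ |u.2| ≤ R := by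
  obtain ⟨R, hR⟩ := hc.isCompact.isBounded.subset_closedBall (0 : ℝ × ℝ)
  refine ⟨max R 0, le_max_right _ _, fun u hu => ?_⟩
  have h1 : u ∈ Metric.closedBall (0 : ℝ × ℝ) R := hR (subset_tsupport _ hu)
  rw [mem_closedBall_zero_iff, Prod.norm_def] at h1
  exact ⟨((le_max_left _ _).trans h1).trans (le_max_left _ _),
    ((le_max_right _ _).trans h1).trans (le_max_left _ _)⟩

lemma riemann {F : ℝ × ℝ → ℝ} (hF : Continuous F) (hc : HasCompactSupport F) {K : ℝ} (hK : 0 < K)
    {L : ℕ → ℝ} (hL1 : ∀ n, 1 ≤ L n) (hL : Tendsto L atTop atTop) :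
    Tendsto (fun n => (L n)⁻¹ ^ 2 * ∑' q : ℤ × ℤ, F (q.1 * K / L n, q.2 / L n)) atTop
      (𝓝 ((∫ z, F z) / K)) := by
  obtain ⟨R, hR0, hR⟩ := exists_radius hc
  obtain ⟨B, hB⟩ := hF.bounded_above_of_compact_support hc
  have hα : Tendsto (fun n => L n / K) atTop atTop := hL.atTop_div_const hK
  have hLp : ∀ n, 0 < L n := fun n => lt_of_lt_of_le one_pos (hL1 n)
  have key : ∀ n, (L n)⁻¹ ^ 2 * ∑' q : ℤ × ℤ, F (q.1 * K / L n, q.2 / L n) =
      (∫ p : ℝ × ℝ, F ((⌊p.1 * (L n / K)⌋ : ℝ) / (L n / K), (⌊p.2 * L n⌋ : ℝ) / L n)) / K := by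
    intro n
    have h := integral_fl (div_pos (hLp n) hK) (hLp n)
      (fun q : ℤ × ℤ => F (q.1 * K / L n, q.2 / L n))
      (Finset.Icc (-⌈R * L n / K⌉) ⌈R * L n / K⌉ ×ˢ Finset.Icc (-⌈R * L n⌉) ⌈R * L n⌉) (by
        intro q hq
        by_contra hne
        obtain ⟨h1, h2⟩ := hR _ hne
        refine hq (Finset.mem_product.2 ⟨?_, ?_⟩)
        · rw [abs_div, abs_of_pos (hLp n), div_le_iff₀ (hLp n), abs_mul, abs_of_pos hK,
            ← le_div_iff₀ hK] at h1
          have h3 := abs_le.1 (h1.trans (Int.le_ceil _))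
          rw [Finset.mem_Icc]
          exact ⟨by exact_mod_cast h3.1, by exact_mod_cast h3.2⟩
        · rw [abs_div, abs_of_pos (hLp n), div_le_iff₀ (hLp n)] at h2
          have h3 := abs_le.1 (h2.trans (Int.le_ceil _))
          rw [Finset.mem_Icc]
          exact ⟨by exact_mod_cast h3.1, by exact_mod_cast h3.2⟩)
    have e : (fun p : ℝ × ℝ => F ((⌊p.1 * (L n / K)⌋ : ℝ) / (L n / K), (⌊p.2 * L n⌋ : ℝ) / L n))
        = fun p => (fun q : ℤ × ℤ => F (q.1 * K / L n, q.2 / L n)) (fl (L n / K) (L n) p) := by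
      funext p
      simp only [fl]
      congr 2
      rw [div_div_eq_mul_div]
    rw [e, h]
    have := (hLp n).ne'
    generalize ∑' q : ℤ × ℤ, F (q.1 * K / L n, q.2 / L n) = T
    (clear * - hK this; field_simp)
  simp_rw [key]
  refine Tendsto.div_const ?_ K
  refine tendsto_integral_of_dominated_convergence
    (fun p => (Icc (-(R + K)) (R + K) ×ˢ Icc (-(R + 1)) (R + 1)).indicator (fun _ => B) p)
    (fun n => ?_) ?_ (fun n => Eventually.of_forall fun p => ?_)
    (Eventually.of_forall fun p => ?_)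
  · refine (hF.measurable.comp ?_).aestronglyMeasurable
    exact ((measurable_from_top.comp (Int.measurable_floor.comp
        (measurable_fst.mul_const _))).div_const _).prodMk
      ((measurable_from_top.comp (Int.measurable_floor.comp
        (measurable_snd.mul_const _))).div_const _)
  · refine (integrable_indicator_iff (measurableSet_Icc.prod measurableSet_Icc)).2 ?_
    refine integrableOn_const ?_
    exact (isCompact_Icc.prod isCompact_Icc).measure_lt_top.ne
  · by_cases h0 : F ((⌊p.1 * (L n / K)⌋ : ℝ) / (L n / K), (⌊p.2 * L n⌋ : ℝ) / L n) = 0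
    · rw [h0, norm_zero]
      exact indicator_nonneg (fun _ _ => (norm_nonneg _).trans (hB 0)) _
    · obtain ⟨h1, h2⟩ := hR _ h0
      have h3 := abs_le_of_floor (div_pos (hLp n) hK) h1
      have h4 := abs_le_of_floor (hLp n) h2
      have h5 : (L n / K)⁻¹ ≤ K := by
        rw [inv_div]
        exact div_le_self hK.le (hL1 n)
      have h6 : (L n)⁻¹ ≤ 1 := inv_le_one_of_one_le₀ (hL1 n)
      rw [indicator_of_mem]
      · exact hB _
      · exact ⟨abs_le.1 (h3.trans (by linarith only [h5])), abs_le.1 (h4.trans (by linarith only [h6]))⟩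
  · refine (hF.tendsto p).comp ?_
    rw [nhds_prod_eq]
    exact (floor_tendsto hα p.1).prodMk (floor_tendsto hL p.2)

lemma fs {f : ℤ → ℝ} {S : Finset ℤ} (h : ∀ i, i ∉ S → f i = 0) : ∑ᶠ i, f i = ∑ i ∈ S, f i :=
  finsum_eq_sum_of_support_subset f fun i hi => by
    by_contra h'
    exact hi (h i h')

lemma inner_eq {S : Finset ℤ} {u C : ℤ → ℝ} (hu : ∀ y, y ∉ S → u y = 0) (a : ℝ) (x : ℤ) :
    ∑ᶠ y, a * u y * C (x - y) = ∑' z, C z * (a * u (x - z)) := by
  have h1 : ∑ᶠ y, a * u y * C (x - y) = ∑ y ∈ S, a * u y * C (x - y) :=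
    fs fun y hy => by rw [hu y hy]; ring
  have h2 : ∑' y, a * u y * C (x - y) = ∑ y ∈ S, a * u y * C (x - y) :=
    tsum_eq_sum fun y hy => by rw [hu y hy]; ring
  rw [h1, ← h2, ← (Equiv.subLeft x).tsum_eq (fun y => a * u y * C (x - y))]
  refine tsum_congr fun z => ?_
  simp only [Equiv.subLeft_apply, sub_sub_cancel]
  ring

lemma summ {S : Finset ℤ} {u : ℤ → ℝ} (C : ℤ → ℝ) (hu : ∀ y, y ∉ S → u y = 0) (a : ℝ) (x : ℤ) :
    Summable fun z => C z * (a * u (x - z)) := by
  refine summable_of_ne_finset_zero (s := S.image (fun y => x - y)) fun z hz => ?_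
  have : x - z ∉ S := fun h => hz (Finset.mem_image.2 ⟨x - z, h, by ring⟩)
  rw [hu _ this]
  ring

lemma swap {T : Finset (ℤ × ℤ)} (H : ℤ × ℤ → ℤ → ℝ) (h : ∀ p, Summable (H p)) :
    ∑ p ∈ T, ∑' z, H p z = ∑' z, ∑ p ∈ T, H p z :=
  (Summable.tsum_finsetSum (fun p _ => h p)).symm

lemma triple {S : Finset ℤ} (G : ℤ → ℤ → ℝ) (C : ℤ → ℝ) (h1 : ∀ i x, i ∉ S → G i x = 0)
    (h2 : ∀ i x, x ∉ S → G i x = 0) :
    ∑ᶠ i, ∑ᶠ x, ∑ᶠ y, G i x * G i y * C (x - y) =
      ∑' z, C z * ∑ p ∈ S ×ˢ S, G p.1 p.2 * G p.1 (p.2 - z) := by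
  have e1 : ∀ i x, ∑ᶠ y, G i x * G i y * C (x - y) =
      ∑' z, C z * (G i x * G i (x - z)) := fun i x => inner_eq (h2 i) (G i x) x
  have e2 : ∀ i, ∑ᶠ x, ∑ᶠ y, G i x * G i y * C (x - y) =
      ∑ x ∈ S, ∑' z, C z * (G i x * G i (x - z)) := by
    intro i
    rw [fs (S := S)]
    · exact Finset.sum_congr rfl fun x _ => e1 i x
    · intro x hx
      rw [e1]
      simp only [h2 i x hx, zero_mul, mul_zero, tsum_zero]
  have e3 : ∑ᶠ i, ∑ᶠ x, ∑ᶠ y, G i x * G i y * C (x - y) =
      ∑ i ∈ S, ∑ x ∈ S, ∑' z, C z * (G i x * G i (x - z)) := by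
    rw [fs (S := S)]
    · exact Finset.sum_congr rfl fun i _ => e2 i
    · intro i hi
      rw [e2]
      simp only [h1 i _ hi, mul_zero, tsum_zero, Finset.sum_const_zero]
  have e4 := swap (T := S ×ˢ S) (fun p z => C z * (G p.1 p.2 * G p.1 (p.2 - z)))
    (fun p => summ C (h2 p.1) (G p.1 p.2) p.2)
  rw [e3, ← Finset.sum_product' S S (fun i x => ∑' z, C z * (G i x * G i (x - z)))]
  refine e4.trans ?_
  exact tsum_congr fun z => (Finset.mul_sum _ _ _).symm

/-- The box of indices. -/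
noncomputable def bx (R L : ℝ) : Finset ℤ := Finset.Icc (-⌈R * L⌉) ⌈R * L⌉

lemma card_bx {R L : ℝ} (hR : 0 ≤ R) (hL : 1 ≤ L) : ((bx R L).card : ℝ) ≤ (2 * R + 3) * L := by
  have h0 : (0 : ℤ) ≤ ⌈R * L⌉ := Int.ceil_nonneg (by positivity)
  have h1 : (((bx R L).card : ℤ) : ℝ) = 2 * (⌈R * L⌉ : ℝ) + 1 := by
    unfold bx
    rw [Int.card_Icc, Int.toNat_of_nonneg (by omega)]
    push_cast
    ring
  have h2 := (Int.ceil_lt_add_one (R * L)).le
  rw [← Int.cast_natCast, h1]
  linarith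

section

variable {g : ℝ × ℝ → ℝ} {R : ℝ} {K : ℕ} {L : ℝ}

lemma abs_le_of_not_zero (hL : 1 ≤ L) {x : ℤ} (h : |(x : ℝ) / L| ≤ R) : x ∈ bx R L := by
  have hL0 : 0 < L := lt_of_lt_of_le one_pos hL
  rw [abs_div, abs_of_pos hL0, div_le_iff₀ hL0] at h
  have h3 := abs_le.1 (h.trans (Int.le_ceil _))
  rw [bx, Finset.mem_Icc]
  exact ⟨by exact_mod_cast h3.1, by exact_mod_cast h3.2⟩

lemma zero_of (hR : ∀ u : ℝ × ℝ, g u ≠ 0 → |u.1| ≤ R ∧ |u.2| ≤ R) (hK : 0 < K) (hL : 1 ≤ L)
    {i x : ℤ} (h : i ∉ bx R L ∨ x ∉ bx R L) : g (i * K / L, x / L) = 0 := by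
  by_contra h0
  obtain ⟨h1, h2⟩ := hR _ h0
  rcases h with h | h
  · refine h (abs_le_of_not_zero hL (le_trans ?_ h1))
    have hK1 : (1 : ℝ) ≤ K := by exact_mod_cast hK
    rw [abs_div, abs_div]
    refine div_le_div_of_nonneg_right ?_ (abs_nonneg _)
    rw [abs_mul, abs_of_nonneg (by positivity : (0 : ℝ) ≤ K)]
    exact le_mul_of_one_le_right (abs_nonneg _) hK1
  · exact h (abs_le_of_not_zero hL h2)

/-- The correlation sum. -/
noncomputable def AA (g : ℝ × ℝ → ℝ) (R : ℝ) (K : ℕ) (L : ℝ) (z : ℤ) : ℝ :=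
  ∑ p ∈ bx R L ×ˢ bx R L, (L⁻¹ * g (p.1 * K / L, p.2 / L)) *
    (L⁻¹ * g (p.1 * K / L, ((p.2 - z : ℤ) : ℝ) / L))

lemma varX'_eq (hR : ∀ u : ℝ × ℝ, g u ≠ 0 → |u.1| ≤ R ∧ |u.2| ≤ R) (hK : 0 < K) (hL : 1 ≤ L)
    (V : ℤ → ℤ → ℝ) : varX' V K L g = ∑' z, CK V K z * AA g R K L z :=
  triple (S := bx R L) (fun i x => L⁻¹ * g (i * K / L, x / L)) (CK V K)
    (fun i x hi => by
      show L⁻¹ * g (i * K / L, x / L) = 0
      rw [zero_of hR hK hL (Or.inl hi), mul_zero])
    (fun i x hx => by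
      show L⁻¹ * g (i * K / L, x / L) = 0
      rw [zero_of hR hK hL (Or.inr hx), mul_zero])

end

lemma AA_zero {g : ℝ × ℝ → ℝ} {R : ℝ} {K : ℕ} {L : ℝ}
    (hR : ∀ u : ℝ × ℝ, g u ≠ 0 → |u.1| ≤ R ∧ |u.2| ≤ R) (hK : 0 < K) (hL : 1 ≤ L) :
    AA g R K L 0 = L⁻¹ ^ 2 * ∑' q : ℤ × ℤ, g (q.1 * K / L, q.2 / L) ^ 2 := by
  rw [tsum_eq_sum (s := bx R L ×ˢ bx R L), Finset.mul_sum]
  · refine Finset.sum_congr rfl fun p _ => ?_
    rw [sub_zero]
    ring
  · intro q hq
    rw [Finset.mem_product, not_and_or] at hq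
    rw [zero_of hR hK hL hq]
    simp

lemma AA_le {g : ℝ × ℝ → ℝ} {R : ℝ} (hR0 : 0 ≤ R) {L : ℝ} (hL : 1 ≤ L)
    {B ε : ℝ} (hB : ∀ u, ‖g u‖ ≤ B) (hε : 0 ≤ ε) (u v : ℤ → ℤ → ℝ)
    (hu : ∀ i x, |u i x| ≤ L⁻¹ * B) (hv : ∀ i x, |v i x| ≤ L⁻¹ * ε) :
    |∑ p ∈ bx R L ×ˢ bx R L, u p.1 p.2 * v p.1 p.2| ≤ (2 * R + 3) ^ 2 * (B * ε) := by
  have hL0 : 0 < L := lt_of_lt_of_le one_pos hL
  have hB0 : 0 ≤ B := (norm_nonneg _).trans (hB 0)
  calc |∑ p ∈ bx R L ×ˢ bx R L, u p.1 p.2 * v p.1 p.2|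
      ≤ ∑ p ∈ bx R L ×ˢ bx R L, |u p.1 p.2 * v p.1 p.2| := Finset.abs_sum_le_sum_abs _ _
    _ ≤ ∑ p ∈ bx R L ×ˢ bx R L, (L⁻¹ * B) * (L⁻¹ * ε) := by
        refine Finset.sum_le_sum fun p _ => ?_
        rw [abs_mul]
        exact mul_le_mul (hu _ _) (hv _ _) (abs_nonneg _) (by positivity)
    _ = ((bx R L).card : ℝ) ^ 2 * ((L⁻¹ * B) * (L⁻¹ * ε)) := by
        rw [Finset.sum_const, Finset.card_product, nsmul_eq_mul]
        push_cast
        ring
    _ ≤ ((2 * R + 3) * L) ^ 2 * ((L⁻¹ * B) * (L⁻¹ * ε)) := by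
        refine mul_le_mul_of_nonneg_right ?_ (by (clear * - hL hB0 hε; positivity))
        exact pow_le_pow_left₀ (Nat.cast_nonneg _) (card_bx hR0 hL) 2
    _ = (2 * R + 3) ^ 2 * (B * ε) := by
        (clear * - hL hR0; field_simp)

end P3b

open P3b in
theorem p3b : P3bStatement := by
  intro V K hK hC0 hC L hL1 hL g hg hgc
  obtain ⟨R, hR0, hR⟩ := exists_radius hgc
  obtain ⟨B, hB⟩ := hg.bounded_above_of_compact_support hgc
  have hB0 : 0 ≤ B := (norm_nonneg _).trans (hB 0)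
  have hLp : ∀ n, 0 < L n := fun n => lt_of_lt_of_le one_pos (hL1 n)
  have hGB : ∀ n u, |(L n)⁻¹ * g u| ≤ (L n)⁻¹ * B := by
    intro n u
    rw [abs_mul, abs_of_pos (inv_pos.2 (hLp n))]
    exact mul_le_mul_of_nonneg_left (hB u) (inv_pos.2 (hLp n)).le
  have hA0 : Tendsto (fun n => AA g R K (L n) 0) atTop (𝓝 ((∫ z, g z ^ 2) / K)) := by
    simp_rw [fun n => AA_zero hR hK (hL1 n)]
    have hgc2 : HasCompactSupport (fun z => g z ^ 2) :=
      hgc.comp_left (g := fun t : ℝ => t ^ 2) (by simp)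
    have hK' : (0 : ℝ) < (K : ℝ) := by exact_mod_cast hK
    exact riemann (F := fun z => g z ^ 2) (hg.pow 2) hgc2 hK' hL1 hL
  have hAz : ∀ z, Tendsto (fun n => AA g R K (L n) z) atTop (𝓝 ((∫ z, g z ^ 2) / K)) := by
    intro z
    have hd : Tendsto (fun n => AA g R K (L n) z - AA g R K (L n) 0) atTop (𝓝 0) := by
      rw [Metric.tendsto_nhds]
      intro ε hε
      have hη : 0 < ε / (2 * ((2 * R + 3) ^ 2 * (B + 1))) := by positivity
      obtain ⟨δ, hδ, hu⟩ := Metric.uniformContinuous_iff.1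
        (hgc.uniformContinuous_of_continuous hg) _ hη
      have hz : Tendsto (fun n => |(z : ℝ)| / L n) atTop (𝓝 0) := hL.const_div_atTop _
      filter_upwards [hz.eventually_lt_const hδ] with n hn
      have e : AA g R K (L n) z - AA g R K (L n) 0 = ∑ p ∈ P3b.bx R (L n) ×ˢ P3b.bx R (L n),
          ((L n)⁻¹ * g (p.1 * K / L n, p.2 / L n)) *
          ((L n)⁻¹ * (g (p.1 * K / L n, ((p.2 - z : ℤ) : ℝ) / L n) -
            g (p.1 * K / L n, p.2 / L n))) := by
        unfold AA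
        rw [← Finset.sum_sub_distrib]
        refine Finset.sum_congr rfl fun p _ => ?_
        rw [sub_zero]
        ring
      rw [dist_zero_right, Real.norm_eq_abs, e]
      refine lt_of_le_of_lt (AA_le hR0 (hL1 n) hB hη.le
        (fun i x => (L n)⁻¹ * g (i * K / L n, x / L n))
        (fun i x => (L n)⁻¹ * (g (i * K / L n, ((x - z : ℤ) : ℝ) / L n) -
            g (i * K / L n, x / L n))) (fun i x => hGB n _) fun i x => ?_) ?_
      · rw [abs_mul, abs_of_pos (inv_pos.2 (hLp n))]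
        refine mul_le_mul_of_nonneg_left ?_ (inv_pos.2 (hLp n)).le
        have := hu (a := ((i * K / L n, ((x - z : ℤ) : ℝ) / L n) : ℝ × ℝ))
          (b := ((i * K / L n, x / L n) : ℝ × ℝ)) (by
          rw [Prod.dist_eq, dist_self, Real.dist_eq, max_eq_right (abs_nonneg _)]
          have e2 : ((x - z : ℤ) : ℝ) / L n - x / L n = - (z / L n) := by
            push_cast
            ring
          rw [e2, abs_neg, abs_div, abs_of_pos (hLp n)]
          exact hn)
        exact this.le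
      · have h1 : (2 * R + 3) ^ 2 * (B * (ε / (2 * ((2 * R + 3) ^ 2 * (B + 1))))) =
            ε / 2 * (B / (B + 1)) := by
          have : (2 * R + 3) ≠ 0 := by positivity
          field_simp
        rw [h1]
        have h2 : B / (B + 1) ≤ 1 := (div_le_one (by positivity)).2 (by linarith)
        nlinarith
    simpa using hd.add hA0
  have hfin := tendsto_tsum_of_dominated_convergence (𝓕 := atTop)
    (f := fun n z => CK V K z * AA g R K (L n) z)
    (g := fun z => CK V K z * ((∫ z, g z ^ 2) / K))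
    (bound := fun z => CK V K z * ((2 * R + 3) ^ 2 * (B * B)))
    (hC.mul_right _) (fun z => (hAz z).const_mul _) (Eventually.of_forall fun n z => by
      rw [Real.norm_eq_abs, abs_mul, abs_of_nonneg (hC0 z)]
      exact mul_le_mul_of_nonneg_left (AA_le hR0 (hL1 n) hB hB0
        (fun i x => (L n)⁻¹ * g (i * K / L n, x / L n))
        (fun i x => (L n)⁻¹ * g (i * K / L n, ((x - z : ℤ) : ℝ) / L n))
        (fun i x => hGB n _) (fun i x => hGB n _)) (hC0 z))
  rw [tsum_mul_right] at hfin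
  have e : (∑' z, CK V K z) / K * ∫ z : ℝ × ℝ, g z ^ 2 =
      (∑' z, CK V K z) * ((∫ z, g z ^ 2) / K) := by ring
  rw [e]
  refine hfin.congr fun n => ?_
  exact (varX'_eq hR hK (hL1 n) V).symm

end Vale.Agent.P145W85.P153.TwoPt
end

section

/-!
P145, block F-A (product Schwinger-Dyson identity for the six-vertex heights): definitions.

`mu0 P` is the law of the absolute heights: `P` times counting measure on the even constants.
A direction `D : Dir` consists of a linear form `D.l`, the reflections `D.θ m` in the lines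
`D.l = m` and the translation `D.s = D.θ 1 ∘ D.θ 0`; `D.l D.s = 2`.
-/

namespace Vale.Agent.P145W85.P145.FA

open Finset Filter Topology MeasureTheory
open Vale.Agent.P145W85.P152

/-- Absolute heights. -/
abbrev Hgt : Type := ℤ × ℤ → ℤ

/-- `P` times counting measure on the even constants. -/
noncomputable def mu0 (P : Measure (Ori (ℤ × ℤ))) : Measure Hgt :=
  Measure.sum fun k : ℤ => P.map (fun ω q => pth ω q + 2 * k)

/-- The functional `F` depends only on the heights of finitely many faces of `A`. -/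
def Loc {R : Type} (A : Set (ℤ × ℤ)) (F : Hgt → R) : Prop :=
  ∃ Λ : Finset (ℤ × ℤ), (∀ q ∈ Λ, q ∈ A) ∧ ∀ h h' : Hgt, (∀ q ∈ Λ, h q = h' q) → F h = F h'

/-! ### Reflection positivity of the gradients -/

end Vale.Agent.P145W85.P145.FA
end

section

/-!
P145, block F-A: statements (as `Prop`s).
-/

namespace Vale.Agent.P145W85.P145.FA

open Finset Filter Topology MeasureTheory
open Vale.Agent.P145W85.P152

/-! ### The plane measure -/

/-- What is used of the plane measure. -/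
structure Pl (c : ℝ) (P : Measure (Ori (ℤ × ℤ))) : Prop where
  prob : IsProbabilityMeasure P
  ice : ∀ᵐ ω ∂P, ∀ x y, Ice ω x y
  shift : ∀ a : ℤ × ℤ, P.map (fun ω e => ω (Sum.map (· + a) (· + a) e)) = P
  tr : P.map (fun ω => Sum.elim (fun v => ω (Sum.inr v.swap)) (fun v => ω (Sum.inl v.swap))) = P
  rev : P.map (fun ω e => !(ω e)) = P
  refl : P.map (fun ω => Sum.elim (fun v => ω (Sum.inl (-v.1 - 1, v.2)))
        (fun v => !(ω (Sum.inr (-v.1, v.2))))) = P

/-! ### The half-plane statement -/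

/-- Linear functionals of the heights. -/
noncomputable def ev (w : (ℤ × ℤ) →₀ ℝ) (h : Hgt) : ℝ := w.sum fun q a => a * (h q : ℝ)

end Vale.Agent.P145W85.P145.FA
end

section

/-!
P145, block F-A: `⟨-Δψ, (-Δ)⁻¹ g⟩ = ∫ ψ g` for the whole plane Green function.
-/

namespace Vale.Agent.P145W85.P145.FA

open MeasureTheory Set Filter Topology
open Vale.Agent.P145W85.P145.PT Vale.Agent.P145W85.P152.GFF.S

/-- Regularised logarithm. -/
noncomputable def LL (ε : ℝ) (z : ℝ × ℝ) : ℝ := Real.log (z.1 ^ 2 + z.2 ^ 2 + ε ^ 2) / 2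

theorem LL_sm {ε : ℝ} (hε : 0 < ε) : Sm (LL ε) := by
  unfold LL
  refine ContDiff.div_const (ContDiff.log (by fun_prop) (fun z => ?_)) 2
  positivity

theorem dx_of {f : ℝ × ℝ → ℝ} (hf : Differentiable ℝ f) {z : ℝ × ℝ} {c : ℝ}
    (h : HasDerivAt (fun t => f (t, z.2)) c z.1) : PT.dx f z = c := by
  have h1 : HasDerivAt (fun t => f (t, z.2)) (fderiv ℝ f z (1, 0)) z.1 :=
    (hf z).hasFDerivAt.comp_hasDerivAt z.1
      ((hasDerivAt_id z.1).prodMk (hasDerivAt_const z.1 z.2))
  exact h1.unique h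

theorem dy_of {f : ℝ × ℝ → ℝ} (hf : Differentiable ℝ f) {z : ℝ × ℝ} {c : ℝ}
    (h : HasDerivAt (fun t => f (z.1, t)) c z.2) : PT.dy f z = c := by
  have h1 : HasDerivAt (fun t => f (z.1, t)) (fderiv ℝ f z (0, 1)) z.2 :=
    (hf z).hasFDerivAt.comp_hasDerivAt z.2
      ((hasDerivAt_const z.2 z.1).prodMk (hasDerivAt_id z.2))
  exact h1.unique h

theorem LL_dx {ε : ℝ} (hε : 0 < ε) (z : ℝ × ℝ) :
    PT.dx (LL ε) z = z.1 / (z.1 ^ 2 + z.2 ^ 2 + ε ^ 2) := by
  refine dx_of (LL_sm hε).diff ?_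
  have hq : (z.1 ^ 2 + z.2 ^ 2 + ε ^ 2) ≠ 0 := by positivity
  have h1 : HasDerivAt (fun t : ℝ => t ^ 2 + z.2 ^ 2 + ε ^ 2) (2 * z.1) z.1 := by
    simpa only [hasDerivAt_add_const_iff, Pi.pow_apply, id_eq, Nat.cast_ofNat, Nat.add_one_sub_one, pow_one,     mul_one] using (((hasDerivAt_id z.1).pow 2).add_const (z.2 ^ 2)).add_const (ε ^ 2)
  have h2 := (h1.log hq).div_const 2
  refine h2.congr_deriv ?_
  field_simp

theorem LL_dy {ε : ℝ} (hε : 0 < ε) (z : ℝ × ℝ) :
    PT.dy (LL ε) z = z.2 / (z.1 ^ 2 + z.2 ^ 2 + ε ^ 2) := by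
  refine dy_of (LL_sm hε).diff ?_
  have hq : (z.1 ^ 2 + z.2 ^ 2 + ε ^ 2) ≠ 0 := by positivity
  have h1 : HasDerivAt (fun t : ℝ => z.1 ^ 2 + t ^ 2 + ε ^ 2) (2 * z.2) z.2 := by
    simpa only [hasDerivAt_add_const_iff, hasDerivAt_const_add_iff, Pi.pow_apply, id_eq, Nat.cast_ofNat,     Nat.add_one_sub_one, pow_one, mul_one] using (((hasDerivAt_id z.2).pow 2).const_add (z.1 ^ 2)).add_const (ε ^ 2)
  have h2 := (h1.log hq).div_const 2
  refine h2.congr_deriv ?_
  field_simp

theorem LL_lap {ε : ℝ} (hε : 0 < ε) (z : ℝ × ℝ) :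
    lap (LL ε) z = 2 * ε ^ 2 / (z.1 ^ 2 + z.2 ^ 2 + ε ^ 2) ^ 2 := by
  have hq : (z.1 ^ 2 + z.2 ^ 2 + ε ^ 2) ≠ 0 := by positivity
  have e1 : PT.dx (PT.dx (LL ε)) z =
      ((z.1 ^ 2 + z.2 ^ 2 + ε ^ 2) - z.1 * (2 * z.1)) / (z.1 ^ 2 + z.2 ^ 2 + ε ^ 2) ^ 2 := by
    refine dx_of (LL_sm hε).dx.diff ?_
    have h0 : (fun t => PT.dx (LL ε) (t, z.2)) = fun t => t / (t ^ 2 + z.2 ^ 2 + ε ^ 2) := by
      funext t; rw [LL_dx hε]
    rw [h0]
    have h1 : HasDerivAt (fun t : ℝ => t ^ 2 + z.2 ^ 2 + ε ^ 2) (2 * z.1) z.1 := by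
      simpa only [hasDerivAt_add_const_iff, Pi.pow_apply, id_eq, Nat.cast_ofNat, Nat.add_one_sub_one, pow_one,     mul_one] using (((hasDerivAt_id z.1).pow 2).add_const (z.2 ^ 2)).add_const (ε ^ 2)
    have h2 := (hasDerivAt_id z.1).div h1 hq
    refine h2.congr_deriv ?_
    simp only [one_mul, id_eq]
  have e2 : PT.dy (PT.dy (LL ε)) z =
      ((z.1 ^ 2 + z.2 ^ 2 + ε ^ 2) - z.2 * (2 * z.2)) / (z.1 ^ 2 + z.2 ^ 2 + ε ^ 2) ^ 2 := by
    refine dy_of (LL_sm hε).dy.diff ?_
    have h0 : (fun t => PT.dy (LL ε) (z.1, t)) = fun t => t / (z.1 ^ 2 + t ^ 2 + ε ^ 2) := by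
      funext t; rw [LL_dy hε]
    rw [h0]
    have h1 : HasDerivAt (fun t : ℝ => z.1 ^ 2 + t ^ 2 + ε ^ 2) (2 * z.2) z.2 := by
      simpa only [hasDerivAt_add_const_iff, hasDerivAt_const_add_iff, Pi.pow_apply, id_eq, Nat.cast_ofNat,     Nat.add_one_sub_one, pow_one, mul_one] using (((hasDerivAt_id z.2).pow 2).const_add (z.1 ^ 2)).add_const (ε ^ 2)
    have h2 := (hasDerivAt_id z.2).div h1 hq
    refine h2.congr_deriv ?_
    simp only [one_mul, id_eq]
  unfold lap
  rw [e1, e2]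
  ring

theorem lap_swap {φ : ℝ × ℝ → ℝ} (hφ : TestOn univ φ) {L : ℝ × ℝ → ℝ} (hL : Sm L) :
    ∫ z, L z * lap φ z = ∫ z, φ z * lap L z := by
  rw [green_id hφ hL]
  have h1 := ibp hφ.dx hL (1, 0)
  have h2 := ibp hφ.dy hL (0, 1)
  have e2 : ∫ z, (PT.dx φ z * PT.dx L z + PT.dy φ z * PT.dy L z)
      = (∫ z, PT.dx φ z * PT.dx L z) + ∫ z, PT.dy φ z * PT.dy L z := by
    rw [← integral_add]
    · exact hφ.dx.intMul hL.dx.continuous
    · exact hφ.dy.intMul hL.dy.continuous
  have e1 : ∫ z, L z * lap φ z = (∫ z, PT.dx (PT.dx φ) z * L z) + ∫ z, PT.dy (PT.dy φ) z * L z := by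
    rw [← integral_add]
    · congr 1; funext z; unfold PT.lap; ring
    · exact hφ.dx.dx.intMul hL.continuous
    · exact hφ.dy.dy.intMul hL.continuous
  rw [e1, e2]
  have h1' : ∫ z, PT.dx φ z * PT.dx L z = - ∫ z, PT.dx (PT.dx φ) z * L z := h1
  have h2' : ∫ z, PT.dy φ z * PT.dy L z = - ∫ z, PT.dy (PT.dy φ) z * L z := h2
  rw [h1', h2']; ring

/-- The kernel. -/
noncomputable def ker1 (w : ℝ × ℝ) : ℝ := 2 / (w.1 ^ 2 + w.2 ^ 2 + 1) ^ 2

theorem ker1_nonneg (w : ℝ × ℝ) : 0 ≤ ker1 w := by unfold ker1; positivity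

theorem ker1_integrable : Integrable ker1 := by
  have h1 : Integrable (fun x : ℝ × ℝ => (2 : ℝ) * ((1 : ℝ) + ‖x‖ ^ 2) ^ (-(4 : ℝ) / 2)) := by
    refine Integrable.const_mul ?_ 2
    refine integrable_rpow_neg_one_add_norm_sq ?_
    simp
    norm_num
  refine h1.mono' ?_ (Eventually.of_forall fun w => ?_)
  · unfold ker1
    exact (by fun_prop : Measurable fun w : ℝ × ℝ => 2 / (w.1 ^ 2 + w.2 ^ 2 + 1) ^ 2).aestronglyMeasurable
  · rw [Real.norm_eq_abs, abs_of_nonneg (ker1_nonneg w)]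
    unfold ker1
    have h2 : (-(4 : ℝ) / 2) = -((2 : ℕ) : ℝ) := by norm_num
    rw [h2, Real.rpow_neg (by (clear * -; positivity)), Real.rpow_natCast, ← div_eq_mul_inv]
    refine div_le_div_of_nonneg_left (by norm_num) (by positivity) ?_
    refine pow_le_pow_left₀ (by positivity) ?_ 2
    have h3 : ‖w‖ ^ 2 ≤ w.1 ^ 2 + w.2 ^ 2 := by
      rw [Prod.norm_def, Real.norm_eq_abs, Real.norm_eq_abs]
      rcases max_choice |w.1| |w.2| with h | h
      · rw [h, sq_abs]; nlinarith only []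
      · rw [h, sq_abs]; nlinarith only []
    linarith

theorem ker1_integral : ∫ w, ker1 w = 2 * Real.pi := by
  rw [← integral_comp_polarCoord_symm]
  have h0 : ∀ p : ℝ × ℝ, p.1 • ker1 (polarCoord.symm p) = (2 * p.1 / (p.1 ^ 2 + 1) ^ 2) * 1 := by
    intro p
    rw [polarCoord_symm_apply]
    unfold ker1
    have : (p.1 * Real.cos p.2) ^ 2 + (p.1 * Real.sin p.2) ^ 2 = p.1 ^ 2 := by
      rw [mul_pow, mul_pow, ← mul_add, Real.cos_sq_add_sin_sq, mul_one]
    simp only [this, smul_eq_mul]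
    ring
  simp_rw [h0]
  rw [polarCoord_target, Measure.volume_eq_prod,
    setIntegral_prod_mul (fun r : ℝ => 2 * r / (r ^ 2 + 1) ^ 2) (fun _ : ℝ => (1 : ℝ))]
  have h1 : ∫ r in Ioi (0 : ℝ), 2 * r / (r ^ 2 + 1) ^ 2 = 0 - (-1) := by
    refine (integral_Ioi_of_hasDerivAt_of_nonneg' (g := fun r : ℝ => - (r ^ 2 + 1)⁻¹) (l := 0)
      ?_ ?_ ?_).trans ?_
    · intro r _
      have h2 : HasDerivAt (fun t : ℝ => t ^ 2 + 1) (2 * r) r := by
        simpa only [hasDerivAt_add_const_iff, Pi.pow_apply, id_eq, Nat.cast_ofNat, Nat.add_one_sub_one, pow_one,     mul_one] using ((hasDerivAt_id r).pow 2).add_const (1 : ℝ)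
      have h3 := (h2.inv (by (clear * -; positivity))).neg
      refine h3.congr_deriv ?_
      ring
    · intro r hr
      have : (0 : ℝ) < r := hr
      (clear * - this; positivity)
    · have : Tendsto (fun r : ℝ => (r ^ 2 + 1)) atTop atTop :=
        tendsto_atTop_add_const_right _ _ (tendsto_pow_atTop (by norm_num))
      simpa only [Function.comp_apply, neg_zero] using (tendsto_inv_atTop_zero.comp this).neg
    · norm_num
  rw [h1]
  simp only [sub_neg_eq_add, zero_add, one_mul, integral_const, MeasurableSet.univ,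
    measureReal_restrict_apply, univ_inter, Real.volume_real_Ioo_of_le (by linarith only [Real.pi_pos] : -Real.pi ≤ Real.pi),
    smul_eq_mul, mul_one]
  ring

theorem ker_lim {φ : ℝ × ℝ → ℝ} (hφ : Continuous φ) (cφ : HasCompactSupport φ) :
    Tendsto (fun n : ℕ => ∫ z, φ z * (2 * (1 / ((n : ℝ) + 1)) ^ 2 /
      (z.1 ^ 2 + z.2 ^ 2 + (1 / ((n : ℝ) + 1)) ^ 2) ^ 2)) atTop (𝓝 (2 * Real.pi * φ 0)) := by
  obtain ⟨C, hC⟩ := cφ.exists_bound_of_continuous hφ
  have h1 : ∀ n : ℕ, ∫ z, φ z * (2 * (1 / ((n : ℝ) + 1)) ^ 2 /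
      (z.1 ^ 2 + z.2 ^ 2 + (1 / ((n : ℝ) + 1)) ^ 2) ^ 2) =
      ∫ w, φ ((1 / ((n : ℝ) + 1)) • w) * ker1 w := by
    intro n
    set ε : ℝ := 1 / ((n : ℝ) + 1) with hε
    have hε0 : 0 < ε := by (clear * -; positivity)
    have h2 := Measure.integral_comp_smul (volume : Measure (ℝ × ℝ))
      (fun z : ℝ × ℝ => φ z * (2 * ε ^ 2 / (z.1 ^ 2 + z.2 ^ 2 + ε ^ 2) ^ 2)) ε
    have h3 : Module.finrank ℝ (ℝ × ℝ) = 2 := by simp
    rw [h3, abs_of_pos (by (clear * -; positivity)), smul_eq_mul] at h2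
    have h4 : ∫ z, φ z * (2 * ε ^ 2 / (z.1 ^ 2 + z.2 ^ 2 + ε ^ 2) ^ 2) =
        ε ^ 2 * ∫ w : ℝ × ℝ, φ (ε • w) * (2 * ε ^ 2 / ((ε • w).1 ^ 2 + (ε • w).2 ^ 2 + ε ^ 2) ^ 2) := by
      rw [h2, ← mul_assoc, mul_inv_cancel₀ (by positivity), one_mul]
    rw [h4, ← integral_const_mul]
    refine integral_congr_ae (Eventually.of_forall fun w => ?_)
    simp only [Prod.smul_fst, Prod.smul_snd, smul_eq_mul]
    unfold ker1
    have h5 : (ε * w.1) ^ 2 + (ε * w.2) ^ 2 + ε ^ 2 = ε ^ 2 * (w.1 ^ 2 + w.2 ^ 2 + 1) := by ring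
    rw [h5]
    have h6 : (w.1 ^ 2 + w.2 ^ 2 + 1) ≠ 0 := by (clear * -; positivity)
    (clear * - hε0 h6; field_simp)
  simp_rw [h1]
  have h2 : 2 * Real.pi * φ 0 = ∫ w, φ 0 * ker1 w := by
    rw [integral_const_mul, ker1_integral]; ring
  rw [h2]
  refine tendsto_integral_of_dominated_convergence (fun w => C * ker1 w) ?_ ?_ ?_ ?_
  · intro n
    exact ((hφ.comp (continuous_const_smul _)).aestronglyMeasurable).mul
      ker1_integrable.aestronglyMeasurable
  · exact ker1_integrable.const_mul C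
  · intro n
    refine Eventually.of_forall fun w => ?_
    rw [norm_mul, Real.norm_eq_abs (ker1 w), abs_of_nonneg (ker1_nonneg w)]
    exact mul_le_mul_of_nonneg_right (hC _) (ker1_nonneg w)
  · refine Eventually.of_forall fun w => ?_
    refine Tendsto.mul_const _ ?_
    have h3 : Tendsto (fun n : ℕ => (1 / ((n : ℝ) + 1)) • w) atTop (𝓝 ((0 : ℝ) • w)) :=
      tendsto_one_div_add_atTop_nhds_zero_nat.smul_const w
    rw [zero_smul] at h3
    exact (hφ.tendsto 0).comp h3

theorem log_lim {f : ℝ × ℝ → ℝ} (hf : Continuous f) (cf : HasCompactSupport f) :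
    Tendsto (fun n : ℕ => ∫ z, LL (1 / ((n : ℝ) + 1)) z * f z) atTop
      (𝓝 (∫ z, Real.log (Real.sqrt (z.1 ^ 2 + z.2 ^ 2)) * f z)) := by
  obtain ⟨C, hC⟩ := cf.exists_bound_of_continuous hf
  obtain ⟨R, hR⟩ := (Metric.isBounded_iff_subset_closedBall 0).mp cf.isCompact.isBounded
  set M : ℝ := max 1 R with hM
  have hM1 : 1 ≤ M := le_max_left _ _
  have hC0 : 0 ≤ C := (norm_nonneg _).trans (hC 0)
  have hne : ∀ᵐ z : ℝ × ℝ, z.1 ≠ 0 := by
    have h0 : (volume : Measure (ℝ × ℝ)) ({(0 : ℝ)} ×ˢ Set.univ) = 0 := by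
      rw [Measure.volume_eq_prod, Measure.prod_prod]
      simp
    refine measure_mono_null (fun z hz => ?_) h0
    simp only [Set.mem_compl_iff, Set.mem_ofPred_eq, not_not] at hz
    exact ⟨hz, Set.mem_univ _⟩
  refine tendsto_integral_of_dominated_convergence
    (fun z => C * S10_phi M z + (2 * M ^ 2) * ‖f z‖) ?_ ?_ ?_ ?_
  · intro n
    exact ((LL_sm (by positivity)).continuous.mul hf).aestronglyMeasurable
  · exact ((S10_phi_integrable hM1).const_mul C).add
      ((hf.integrable_of_hasCompactSupport cf).norm.const_mul _)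
  · intro n
    filter_upwards [hne] with z hz
    set ε : ℝ := 1 / ((n : ℝ) + 1) with hε
    have hε0 : 0 < ε := by positivity
    have hε1 : ε ≤ 1 := by
      rw [hε, div_le_one (by positivity)]
      have : (0 : ℝ) ≤ n := by (clear * -; positivity)
      linarith only []
    by_cases hfz : f z = 0
    · rw [hfz, mul_zero, norm_zero, mul_zero, add_zero]
      refine mul_nonneg hC0 ?_
      unfold S10_phi
      split_ifs
      · exact abs_nonneg _
      · exact le_refl _
    · have hz1 : ‖z‖ ≤ M := by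
        have := hR (subset_tsupport f hfz)
        rw [Metric.mem_closedBall, dist_zero_right] at this
        exact this.trans (le_max_right _ _)
      have hd1 : |z.1| ≤ M := (norm_fst_le z).trans hz1
      have hd2 : |z.2| ≤ M := (norm_snd_le z).trans hz1
      have hphi : S10_phi M z = |Real.log (Real.sqrt (z.1 ^ 2 + z.2 ^ 2))| := by
        unfold S10_phi; rw [if_pos ⟨hd1, hd2⟩]
      have hr : 0 < z.1 ^ 2 + z.2 ^ 2 := by (clear * - hz; positivity)
      have hlog : Real.log (Real.sqrt (z.1 ^ 2 + z.2 ^ 2)) = Real.log (z.1 ^ 2 + z.2 ^ 2) / 2 :=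
        Real.log_sqrt hr.le
      have hlow : Real.log (Real.sqrt (z.1 ^ 2 + z.2 ^ 2)) ≤ LL ε z := by
        rw [hlog]; unfold LL
        have := Real.log_le_log hr (by nlinarith only [] :
          z.1 ^ 2 + z.2 ^ 2 ≤ z.1 ^ 2 + z.2 ^ 2 + ε ^ 2)
        linarith only [this]
      have hup : LL ε z ≤ 2 * M ^ 2 := by
        unfold LL
        have h1 := Real.log_le_sub_one_of_pos (by (clear * - hz; positivity) : 0 < z.1 ^ 2 + z.2 ^ 2 + ε ^ 2)
        have h2 : z.1 ^ 2 ≤ M ^ 2 := by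
          rw [← sq_abs z.1]; exact pow_le_pow_left₀ (abs_nonneg _) hd1 2
        have h3 : z.2 ^ 2 ≤ M ^ 2 := by
          rw [← sq_abs z.2]; exact pow_le_pow_left₀ (abs_nonneg _) hd2 2
        have h4 : ε ^ 2 ≤ 1 := by nlinarith only [hε1, hε0]
        linarith
      have habs : |LL ε z| ≤ S10_phi M z + 2 * M ^ 2 := by
        rw [hphi, abs_le]
        constructor
        · have h5 := neg_abs_le (Real.log (Real.sqrt (z.1 ^ 2 + z.2 ^ 2)))
          nlinarith only [hlow, h5]
        · have h6 := abs_nonneg (Real.log (Real.sqrt (z.1 ^ 2 + z.2 ^ 2)))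
          linarith only [hup, h6]
      have hphi0 : 0 ≤ S10_phi M z := by rw [hphi]; exact abs_nonneg _
      rw [norm_mul, Real.norm_eq_abs (LL ε z)]
      calc |LL ε z| * ‖f z‖ ≤ (S10_phi M z + 2 * M ^ 2) * ‖f z‖ :=
            mul_le_mul_of_nonneg_right habs (norm_nonneg _)
        _ ≤ C * S10_phi M z + 2 * M ^ 2 * ‖f z‖ := by
            have := mul_le_mul_of_nonneg_left (hC z) hphi0
            nlinarith only [this]
  · filter_upwards [hne] with z hz
    refine Tendsto.mul_const _ ?_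
    have hr : 0 < z.1 ^ 2 + z.2 ^ 2 := by (clear * - hz; positivity)
    rw [Real.log_sqrt hr.le]
    unfold LL
    refine Tendsto.div_const ?_ 2
    have h3 : Tendsto (fun n : ℕ => z.1 ^ 2 + z.2 ^ 2 + (1 / ((n : ℝ) + 1)) ^ 2) atTop
        (𝓝 (z.1 ^ 2 + z.2 ^ 2 + 0 ^ 2)) :=
      tendsto_const_nhds.add (tendsto_one_div_add_atTop_nhds_zero_nat.pow 2)
    rw [zero_pow two_ne_zero, add_zero] at h3
    exact h3.log hr.ne'

/-- The logarithm is a fundamental solution. -/
theorem log_lap {φ : ℝ × ℝ → ℝ} (hφ : TestOn univ φ) :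
    ∫ z, Real.log (Real.sqrt (z.1 ^ 2 + z.2 ^ 2)) * lap φ z = 2 * Real.pi * φ 0 := by
  have h1 := log_lim hφ.lap.cont hφ.lap.cs
  have h2 := ker_lim hφ.cont hφ.cs
  refine tendsto_nhds_unique h1 (h2.congr fun n => ?_)
  rw [lap_swap hφ (LL_sm (by (clear * -; positivity)))]
  refine integral_congr_ae (Eventually.of_forall fun z => ?_)
  simp only
  rw [LL_lap (by positivity)]

theorem green_int {ψ : ℝ × ℝ → ℝ} (hψ : TestOn univ ψ) (y : ℝ × ℝ) :
    ∫ x, green x y * (- lap ψ x) = ψ y := by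
  have hφ : TestOn univ (fun z => ψ (y + z)) := by
    refine ⟨hψ.1.comp (contDiff_const.add contDiff_id), ?_, Set.subset_univ _⟩
    exact hψ.2.1.comp_homeomorph (Homeomorph.addLeft y)
  have h1 := log_lap hφ
  have hlap : ∀ z, lap (fun z => ψ (y + z)) z = lap ψ (y + z) := by
    intro z
    have e1 : PT.dx (fun z => ψ (y + z)) = fun z => PT.dx ψ (y + z) := by
      funext w; unfold PT.dx; rw [fderiv_comp_add_left]
    have e2 : PT.dy (fun z => ψ (y + z)) = fun z => PT.dy ψ (y + z) := by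
      funext w; unfold PT.dy; rw [fderiv_comp_add_left]
    unfold lap
    rw [e1, e2]
    congr 1
    · show fderiv ℝ (fun z => PT.dx ψ (y + z)) z (1, 0) = fderiv ℝ (PT.dx ψ) (y + z) (1, 0)
      rw [fderiv_comp_add_left]
    · show fderiv ℝ (fun z => PT.dy ψ (y + z)) z (0, 1) = fderiv ℝ (PT.dy ψ) (y + z) (0, 1)
      rw [fderiv_comp_add_left]
  simp_rw [hlap] at h1
  rw [← integral_add_left_eq_self (μ := volume) (fun x => green x y * (- lap ψ x)) y]
  have h2 : ∀ z : ℝ × ℝ, green (y + z) y * (- lap ψ (y + z)) =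
      (2 * Real.pi)⁻¹ * (Real.log (Real.sqrt (z.1 ^ 2 + z.2 ^ 2)) * lap ψ (y + z)) := by
    intro z
    unfold green
    rw [Prod.fst_add, Prod.snd_add, add_sub_cancel_left, add_sub_cancel_left]
    ring
  simp_rw [h2]
  rw [integral_const_mul, h1, add_zero, ← mul_assoc, inv_mul_cancel₀ (by positivity), one_mul]

/-- Green's identity for the covariance of the free field. -/
theorem green_lap {ψ g : ℝ × ℝ → ℝ} (hψ : ContDiff ℝ ((⊤ : ℕ∞) : WithTop ℕ∞) ψ)
    (cψ : HasCompactSupport ψ) (hg : Continuous g) (cg : HasCompactSupport g) :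
    gffCov (fun x => - lap ψ x) g = ∫ x, ψ x * g x := by
  have hT : TestOn univ ψ := ⟨hψ, cψ, Set.subset_univ _⟩
  have h := green_integrable (f := fun x => - lap ψ x) hT.lap.cont.neg hg hT.lap.cs.neg cg
  rw [Measure.volume_eq_prod] at h
  unfold gffCov
  rw [integral_integral_swap h]
  refine integral_congr_ae (Eventually.of_forall fun y => ?_)
  simp only
  rw [integral_mul_const, green_int hT]

end Vale.Agent.P145W85.P145.FA
end
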