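import Mathlib
import Vale.Agent.P145W85.Bd.B8
import Vale.Agent.P145W85.Bd.B1
import Vale.Agent.P145W85.Bd.B4
import Vale.Agent.P145W85.Bd.B5
import Vale.Agent.P145W85.Bd.B7
import Vale.Agent.P145W85.Bd.B2

set_option linter.all false

section

/-!
P153, block A3, step (22): the domains (hexagons and rectangles) have connected complements and
exhaust the lattice.
-/

namespace Vale.Agent.P145W85.P153.A

open Vale.Agent.P145W85.P153.GFF (hexa)
open Vale.Agent.P145W85.P153.Topo (Conn)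

namespace Cc22

lemma mem_hexa {n : ℕ} {x : ℤ × ℤ} :
    x ∈ hexa n ↔ (-(n : ℤ) ≤ x.1 ∧ x.1 ≤ n) ∧ (-(n : ℤ) ≤ x.2 ∧ x.2 ≤ n) ∧ |x.1 + x.2| ≤ n := by
  simp only [hexa, Finset.mem_filter, Finset.mem_product, Finset.mem_Icc]
  tauto

/-- If from every vertex outside `D` one of the two horizontal rays avoids `D`, and `D` is in a
box, then the complement of `D` is connected. -/
lemma cc_of_rays {D : Finset (ℤ × ℤ)} (N : ℤ)
    (hN : ∀ x : ℤ × ℤ, N ≤ |x.1| ∨ N ≤ |x.2| → x ∉ D)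
    (h : ∀ x : ℤ × ℤ, x ∉ D → (∀ i, x.1 ≤ i → (i, x.2) ∉ D) ∨ ∀ i, i ≤ x.1 → (i, x.2) ∉ D) :
    Cc D := by
  have key : ∀ x : ℤ × ℤ, x ∉ D → Conn ((D : Set (ℤ × ℤ))ᶜ) x (N, 0) := by
    rintro ⟨a, b⟩ hx
    have hS : ∀ x : ℤ × ℤ, N ≤ |x.1| ∨ N ≤ |x.2| → x ∈ ((D : Set (ℤ × ℤ))ᶜ) := fun x hx =>
      by simpa using hN x hx
    rcases h _ hx with h | h
    · have e1 : Conn ((D : Set (ℤ × ℤ))ᶜ) (a, b) (max a N, b) :=
        Topo.conn_row fun i h1 _ => by
          have := h i (by simpa using h1)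
          simpa using this
      refine e1.trans (Topo.conn_compl_box hS (Or.inl ?_) le_rfl)
      exact (le_max_right a N).trans (le_abs_self _)
    · have e1 : Conn ((D : Set (ℤ × ℤ))ᶜ) (a, b) (min a (-N), b) :=
        Topo.conn_row fun i _ h1 => by
          have := h i (by simpa using h1)
          simpa using this
      refine e1.trans (Topo.conn_compl_box hS (Or.inl ?_) le_rfl)
      have h2 : min a (-N) ≤ -N := min_le_right _ _
      have h3 := neg_abs_le (min a (-N))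
      show N ≤ |min a (-N)|
      omega
  intro x y hx hy
  exact (key x hx).trans (key y hy).symm

lemma cc_hexa (n : ℕ) : Cc (hexa n) := by
  refine cc_of_rays (n + 1) (fun x hx hx' => ?_) fun x hx => ?_
  · rw [mem_hexa] at hx'
    rcases hx with hx | hx
    · have := abs_le.2 hx'.1
      omega
    · have := abs_le.2 hx'.2.1
      omega
  · simp only [mem_hexa, abs_le] at hx ⊢
    by_cases h : (x.2 < -(n : ℤ) ∨ (n : ℤ) < x.2) ∨ (n : ℤ) < x.1 ∨ (n : ℤ) < x.1 + x.2
    · left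
      intro i hi
      omega
    · right
      intro i hi
      omega

lemma cc_rect (N H H' : ℕ) : Cc (Fv.rect N H H') := by
  refine cc_of_rays (N + H + H' + 1) (fun x hx hx' => ?_) fun x hx => ?_
  · rw [Fv.mem_rect, abs_le] at hx'
    rcases hx with hx | hx
    · rcases abs_cases x.1 with h | h <;> omega
    · rcases abs_cases x.2 with h | h <;> omega
  · simp only [Fv.mem_rect, abs_le] at hx ⊢
    by_cases h : (x.2 < -(H : ℤ) ∨ (H' : ℤ) < x.2) ∨ (2 * (N : ℤ)) < 2 * x.1 + x.2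
    · left
      intro i hi
      omega
    · right
      intro i hi
      omega

end Cc22

open Cc22 in
theorem s_cc : S_cc := by
  refine ⟨cc_hexa, cc_rect, fun B => ?_⟩
  obtain ⟨n, hn⟩ := (B.image (fun x : ℤ × ℤ => (|x.1| + |x.2|).toNat)).bddAbove
  have hB : ∀ x ∈ B, |x.1| + |x.2| ≤ n := fun x hx => by
    have := hn (Finset.mem_coe.mpr (Finset.mem_image_of_mem _ hx))
    have h0 : 0 ≤ |x.1| + |x.2| := by positivity
    omega
  refine ⟨n, fun m hm x hx => ?_, fun N H H' h1 h2 h3 x hx => ?_⟩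
  · have := hB x hx
    have h4 : (n : ℤ) ≤ m := by exact_mod_cast hm
    rw [mem_hexa, abs_le]
    rcases abs_cases x.1 with h | h <;> rcases abs_cases x.2 with h' | h' <;> omega
  · have := hB x hx
    have h4 : (n : ℤ) ≤ N := by exact_mod_cast h1
    have h5 : (n : ℤ) ≤ H := by exact_mod_cast h2
    have h6 : (n : ℤ) ≤ H' := by exact_mod_cast h3
    rw [Fv.mem_rect, abs_le]
    rcases abs_cases x.1 with h | h <;> rcases abs_cases x.2 with h' | h' <;> omega

end Vale.Agent.P145W85.P153.A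
end

section

/-!
P153, block A3, leaf (12): local form of the absence of two infinite bichromatic clusters.
-/

namespace Vale.Agent.P145W85.P153.A

open MeasureTheory Filter Topology Relation
open Vale.Agent.P145W85.P153.GFF (Adj)

private theorem mem_bx_far {R : ℕ} {x : Pt} :
    x ∈ bx R ↔ (-(R : ℤ) ≤ x.1 ∧ x.1 ≤ R) ∧ (-(R : ℤ) ≤ x.2 ∧ x.2 ≤ R) := by
  simp only [bx, Finset.mem_product, Finset.mem_Icc]

private theorem bx_mono_far {R R' : ℕ} (h : R ≤ R') : bx R ⊆ bx R' := by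
  intro x hx
  rw [mem_bx_far] at hx ⊢
  have : (R : ℤ) ≤ R' := by exact_mod_cast h
  omega

theorem adj_bound {x y : Pt} (h : Adj x y) : |y.1 - x.1| ≤ 1 ∧ |y.2 - x.2| ≤ 1 := by
  simp only [Adj, Set.mem_insert_iff, Set.mem_singleton_iff, Prod.mk.injEq] at h
  rcases h with h | h | h | h | h | h <;> (obtain ⟨h1, h2⟩ := h; rw [h1, h2]; simp)

theorem adj_bx {R : ℕ} {x y : Pt} (h : Adj x y) (hx : x ∈ bx R) : y ∈ bx (R + 1) := by
  obtain ⟨h1, h2⟩ := adj_bound h
  rw [mem_bx_far] at hx ⊢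
  rw [abs_le] at h1 h2
  push_cast
  omega

theorem exists_bx (x : Pt) : ∃ R : ℕ, x ∈ bx R := by
  refine ⟨(x.1).natAbs + (x.2).natAbs, ?_⟩
  rw [mem_bx_far]
  omega

theorem bich_mono {S S' : Set Pt} (h : S ⊆ S') {τ : Sp} {x y : Pt} (hb : Bich S τ x y) :
    Bich S' τ x y :=
  ReflTransGen.mono (r := fun u v => Adj u v ∧ τ u ≠ τ v ∧ u ∈ S ∧ v ∈ S)
    (fun _ _ hab => ⟨hab.1, hab.2.1, h hab.2.2.1, h hab.2.2.2⟩) _ _ hb

theorem bx_subset {R R' : ℕ} (h : R ≤ R') : (bx R : Set Pt) ⊆ bx R' :=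
  fun _ hx => bx_mono_far h hx

/-- a path leaving `bx R` has an initial piece inside `bx (R + 1)` which leaves `bx R` -/
theorem exit_bx {S : Set Pt} {τ : Sp} {R : ℕ} {x u : Pt} (hb : Bich S τ x u) (hu : u ∉ bx R) :
    ∃ u', u' ∉ bx R ∧ Bich (bx (R + 1)) τ x u' := by
  induction hb using ReflTransGen.head_induction_on with
  | refl => exact ⟨u, hu, ReflTransGen.refl⟩
  | @head a c hab _ ih =>
    by_cases ha : a ∈ bx R
    · obtain ⟨u', hu', hb'⟩ := ih
      refine ⟨u', hu', ReflTransGen.head ⟨hab.1, hab.2.1, ?_, ?_⟩ hb'⟩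
      · exact bx_mono_far (Nat.le_succ R) ha
      · exact adj_bx hab.1 ha
    · exact ⟨a, ha, ReflTransGen.refl⟩

/-- a path is contained in a box -/
theorem bich_bx {τ : Sp} {x y : Pt} (hb : Bich Set.univ τ x y) :
    ∃ R : ℕ, Bich (bx (R + 1)) τ x y := by
  induction hb with
  | refl => exact ⟨0, ReflTransGen.refl⟩
  | @tail b c _ hbc ih =>
    obtain ⟨R, hR⟩ := ih
    obtain ⟨R1, h1⟩ := exists_bx b
    obtain ⟨R2, h2⟩ := exists_bx c
    refine ⟨R + R1 + R2, ?_⟩
    refine ReflTransGen.tail (bich_mono (bx_subset (by omega)) hR) ⟨hbc.1, hbc.2.1, ?_, ?_⟩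
    · exact bx_mono_far (R := R1) (R' := R + R1 + R2 + 1) (by omega) h1
    · exact bx_mono_far (R := R2) (R' := R + R1 + R2 + 1) (by omega) h2

theorem far_antitone (x y : Pt) : Antitone fun R => Far R x y := by
  refine antitone_nat_of_succ_le fun R => ?_
  rintro τ ⟨h1, ⟨u, hu, hxu⟩, ⟨v, hv, hyv⟩⟩
  refine ⟨fun h => h1 (bich_mono (bx_subset (by omega)) h), ?_, ?_⟩
  · exact exit_bx hxu (fun h => hu (bx_mono_far (Nat.le_succ R) h))
  · exact exit_bx hyv (fun h => hv (bx_mono_far (Nat.le_succ R) h))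

theorem infinite_of {τ : Sp} {x : Pt}
    (h : ∀ R : ℕ, ∃ u, u ∉ bx R ∧ Bich (bx (R + 1)) τ x u) :
    {u | Bich Set.univ τ x u}.Infinite := by
  intro hfin
  have h1 : ∃ R : ℕ, ∀ u, Bich Set.univ τ x u → u ∈ bx R := by
    choose r hr using exists_bx
    refine ⟨hfin.toFinset.sup r, fun u hu => ?_⟩
    exact bx_mono_far (Finset.le_sup (f := r) ((Set.Finite.mem_toFinset hfin).2 hu)) (hr u)
  obtain ⟨R, hR⟩ := h1
  obtain ⟨u, hu, hxu⟩ := h R
  exact hu (hR u (bich_mono (Set.subset_univ _) hxu))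

theorem iInter_far (x y : Pt) : ⋂ R, Far R x y ⊆ TwoInf := by
  intro τ hτ
  rw [Set.mem_iInter] at hτ
  refine ⟨x, y, infinite_of fun R => (hτ R).2.1, infinite_of fun R => (hτ R).2.2, fun h => ?_⟩
  obtain ⟨R, hR⟩ := bich_bx h
  exact (hτ R).1 hR

theorem bich_congr {B : Finset Pt} {τ τ' : Sp} (h : ∀ z ∈ B, τ z = τ' z) (x y : Pt) :
    Bich B τ x y ↔ Bich B τ' x y := by
  have key : ∀ {τ τ' : Sp}, (∀ z ∈ B, τ z = τ' z) → Bich B τ x y → Bich B τ' x y := by
    intro τ τ' h hb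
    refine ReflTransGen.mono (r := fun u v => Adj u v ∧ τ u ≠ τ v ∧ u ∈ (B : Set Pt) ∧
      v ∈ (B : Set Pt)) (fun a b hab => ⟨hab.1, ?_, hab.2.2.1, hab.2.2.2⟩) _ _ hb
    rw [← h a hab.2.2.1, ← h b hab.2.2.2]
    exact hab.2.1
  exact ⟨key h, key fun z hz => (h z hz).symm⟩

theorem measurableSet_of_loc (B : Finset Pt) {A : Set Sp}
    (h : ∀ τ τ' : Sp, (∀ z ∈ B, τ z = τ' z) → τ ∈ A → τ' ∈ A) : MeasurableSet A := by
  have h1 : A = (fun (τ : Sp) (z : B) => τ z) ⁻¹' ((fun (τ : Sp) (z : B) => τ z) '' A) := by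
    refine Set.Subset.antisymm (Set.subset_preimage_image _ _) ?_
    rintro τ ⟨τ', hτ', he⟩
    exact h τ' τ (fun z hz => congrFun he ⟨z, hz⟩) hτ'
  rw [h1]
  refine MeasurableSet.preimage (Set.toFinite _).measurableSet ?_
  exact measurable_pi_lambda _ fun z => measurable_pi_apply _

theorem measurableSet_far (R : ℕ) (x y : Pt) : MeasurableSet (Far R x y) := by
  refine measurableSet_of_loc (bx (R + 1)) fun τ τ' h hτ => ?_
  obtain ⟨h1, ⟨u, hu, hxu⟩, ⟨v, hv, hyv⟩⟩ := hτ
  refine ⟨fun hb => h1 ((bich_congr h x y).2 hb), ⟨u, hu, (bich_congr h x u).1 hxu⟩,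
    ⟨v, hv, (bich_congr h y v).1 hyv⟩⟩

/-- (12) local form. -/
theorem s_far : S_far := by
  intro μ hμ h0 x y
  have h1 := tendsto_measure_iInter_atTop (μ := μ) (s := fun R => Far R x y)
    (fun R => (measurableSet_far R x y).nullMeasurableSet) (far_antitone x y)
    ⟨0, measure_ne_top μ _⟩
  have h2 : μ (⋂ R, Far R x y) = 0 := measure_mono_null (iInter_far x y) h0
  rw [h2] at h1
  have h3 := (ENNReal.tendsto_toReal ENNReal.zero_ne_top).comp h1
  exact h3

end Vale.Agent.P145W85.P153.A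
end

section

/-!
P153, block A3, leaves (7), (8), (9): the limit law of tau, its translation invariance and mixing.
-/

namespace Vale.Agent.P145W85.P153.A

open MeasureTheory Filter Topology Relation
open Vale.Agent.P145W85.P153.GFF (Adj)

/-! ### local functions on a product of finite sets -/

theorem Loc.mono {X : Type} {B B' : Finset Pt} (h : B ⊆ B') {F : (Pt → X) → ℝ} (hF : Loc B F) :
    Loc B' F := fun ω ω' h' => hF ω ω' fun x hx => h' x (h hx)

theorem Loc.tr {X : Type} {B : Finset Pt} {F : (Pt → X) → ℝ} (hF : Loc B F) (z : Pt) :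
    Loc (B.image (· + z)) (fun ω => F (tr z ω)) := by
  intro ω ω' h
  apply hF
  intro x hx
  exact h _ (Finset.mem_image_of_mem _ hx)

theorem Loc.measurable {X : Type} [Fintype X] [MeasurableSpace X] [MeasurableSingletonClass X]
    {B : Finset Pt} {F : (Pt → X) → ℝ} (hF : Loc B F) : Measurable F := by
  classical
  by_cases hX : Nonempty X
  · obtain ⟨x0⟩ := hX
    let r : (Pt → X) → (B → X) := fun ω x => ω x
    let e : (B → X) → (Pt → X) := fun u x => if h : x ∈ B then u ⟨x, h⟩ else x0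
    have hr : Measurable r := measurable_pi_lambda _ fun x => measurable_pi_apply _
    have h1 : F = (fun u => F (e u)) ∘ r := by
      funext ω
      apply hF
      intro x hx
      simp [e, r, hx]
    rw [h1]
    exact (measurable_of_finite _).comp hr
  · have : IsEmpty (Pt → X) := ⟨fun f => hX ⟨f 0⟩⟩
    exact measurable_of_empty _

theorem Loc.bdd {X : Type} [Fintype X] {B : Finset Pt} {F : (Pt → X) → ℝ} (hF : Loc B F) :
    ∃ C : ℝ, 0 ≤ C ∧ ∀ ω, |F ω| ≤ C := by
  classical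
  by_cases hX : Nonempty X
  · obtain ⟨x0⟩ := hX
    let e : (B → X) → (Pt → X) := fun u x => if h : x ∈ B then u ⟨x, h⟩ else x0
    refine ⟨∑ u : B → X, |F (e u)|, Finset.sum_nonneg fun _ _ => abs_nonneg _, fun ω => ?_⟩
    have h1 : F ω = F (e fun x => ω x) := by
      apply hF
      intro x hx
      simp [e, hx]
    rw [h1]
    exact Finset.single_le_sum (f := fun u : B → X => |F (e u)|) (fun _ _ => abs_nonneg _)
      (Finset.mem_univ (fun x : B => ω x))
  · have : IsEmpty (Pt → X) := ⟨fun f => hX ⟨f 0⟩⟩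
    exact ⟨0, le_rfl, fun ω => this.elim ω⟩

theorem Loc.integrable {X : Type} [Fintype X] [MeasurableSpace X] [MeasurableSingletonClass X]
    {B : Finset Pt} {F : (Pt → X) → ℝ} (hF : Loc B F) (P : Measure (Pt → X))
    [IsProbabilityMeasure P] : Integrable F P := by
  obtain ⟨C, _, hC⟩ := hF.bdd
  exact Integrable.of_bound hF.measurable.aestronglyMeasurable C (Eventually.of_forall hC)

/-- two laws which agree on local functions are equal -/
theorem ext_loc {X : Type} [Fintype X] [MeasurableSpace X] [MeasurableSingletonClass X]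
    {P Q : Measure (Pt → X)} [IsProbabilityMeasure P] [IsProbabilityMeasure Q]
    (h : ∀ (B : Finset Pt) (F : (Pt → X) → ℝ), Loc B F → ∫ ω, F ω ∂P = ∫ ω, F ω ∂Q) : P = Q := by
  classical
  refine ext_of_generate_finite (measurableCylinders fun _ : Pt => X)
    generateFrom_measurableCylinders.symm isPiSystem_measurableCylinders ?_ ?_
  · intro S hS
    obtain ⟨B, T, hT, rfl⟩ := (mem_measurableCylinders S).1 hS
    have hm : MeasurableSet (cylinder B T) := MeasurableSet.cylinder (α := fun _ : Pt => X) B hT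
    have h1 := h B ((cylinder B T).indicator fun _ => (1 : ℝ)) (by
      intro ω ω' hω
      have : B.restrict ω = B.restrict ω' := by
        funext x
        exact hω x x.2
      simp only [Set.indicator, mem_cylinder, this])
    rw [integral_indicator hm, integral_indicator hm] at h1
    simp only [integral_const, MeasurableSet.univ, measureReal_restrict_apply, Set.univ_inter,
      smul_eq_mul, mul_one] at h1
    have h2 : (P (cylinder B T)).toReal = (Q (cylinder B T)).toReal := h1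
    exact (ENNReal.toReal_eq_toReal_iff' (measure_ne_top _ _) (measure_ne_top _ _)).1 h2
  · simp

/-! ### uniform laws on finite sets -/

section unif

variable {α : Type*} [MeasurableSpace α] [MeasurableSingletonClass α]

/-- uniform probability on a finite set -/
noncomputable def uM {S : Set α} (hS : S.Finite) : Measure α :=
  ∑ x ∈ hS.toFinset, ((S.ncard : ENNReal)⁻¹) • Measure.dirac x

omit [MeasurableSingletonClass α] in
theorem uM_prob {S : Set α} (hS : S.Finite) (hne : S.Nonempty) :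
    IsProbabilityMeasure (uM hS) := by
  constructor
  have h0 : (S.ncard : ENNReal) ≠ 0 := by
    have := (Set.ncard_pos hS).2 hne
    exact_mod_cast this.ne'
  simp only [uM, Measure.coe_finsetSum, Finset.sum_apply, Measure.smul_apply, measure_univ,
    smul_eq_mul, mul_one, Finset.sum_const, nsmul_eq_mul]
  rw [← Set.ncard_eq_toFinset_card S hS]
  exact ENNReal.mul_inv_cancel h0 (ENNReal.natCast_ne_top _)

theorem uM_integral {S : Set α} (hS : S.Finite) (hne : S.Nonempty) (F : α → ℝ) :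
    ∫ x, F x ∂(uM hS) = (∑ᶠ x ∈ S, F x) / S.ncard := by
  have h0 : (S.ncard : ENNReal) ≠ 0 := by
    have := (Set.ncard_pos hS).2 hne
    exact_mod_cast this.ne'
  have h1 : (S.ncard : ENNReal)⁻¹ ≠ ⊤ := ENNReal.inv_ne_top.2 h0
  unfold uM
  rw [integral_finsetSum_measure]
  · rw [finsum_mem_eq_finite_toFinset_sum _ hS, Finset.sum_div]
    refine Finset.sum_congr rfl fun x _ => ?_
    rw [integral_smul_measure, integral_dirac]
    simp only [ENNReal.toReal_inv, ENNReal.toReal_natCast, smul_eq_mul, div_eq_inv_mul]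
  · intro x _
    exact (integrable_dirac (by simp)).smul_measure h1

end unif

/-! ### the expectations -/

variable {D : Finset Pt}

/-- the law of the pair on `D` -/
noncomputable def nu2 (h : S_e1) (D : Finset Pt) : Measure Om := uM (h D).2.1

theorem nu2_prob (h : S_e1) (D : Finset Pt) : IsProbabilityMeasure (nu2 h D) :=
  uM_prob _ (h D).2.2.1

theorem nu2_integral (h : S_e1) (D : Finset Pt) (F : Om → ℝ) : ∫ ω, F ω ∂(nu2 h D) = E2 D F :=
  uM_integral _ (h D).2.2.1 F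

theorem measurable_tau : Measurable tau :=
  measurable_pi_lambda _ fun x => measurable_fst.comp (measurable_pi_apply x)

/-- the law of tau on `D` -/
noncomputable def nu1 (h : S_e1) (D : Finset Pt) : Measure Sp := (nu2 h D).map tau

theorem nu1_prob (h : S_e1) (D : Finset Pt) : IsProbabilityMeasure (nu1 h D) := by
  have := nu2_prob h D
  exact Measure.isProbabilityMeasure_map measurable_tau.aemeasurable

theorem nu1_integral (h : S_e1) (D : Finset Pt) {B : Finset Pt} {f : Sp → ℝ} (hf : Loc B f) :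
    ∫ τ, f τ ∂(nu1 h D) = E1 D f := by
  rw [nu1, integral_map measurable_tau.aemeasurable hf.measurable.aestronglyMeasurable,
    nu2_integral, E1]

theorem E1_sub (h : S_e1) (D : Finset Pt) {B : Finset Pt} {f g : Sp → ℝ} (hf : Loc B f)
    (hg : Loc B g) : E1 D (fun τ => f τ - g τ) = E1 D f - E1 D g := by
  have := nu1_prob h D
  rw [← nu1_integral h D hf, ← nu1_integral h D hg, ← nu1_integral h D (B := B),
    integral_sub (hf.integrable _) (hg.integrable _)]
  intro τ τ' hh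
  simp only [hf τ τ' hh, hg τ τ' hh]

/-- number of plus spins in `B` -/
noncomputable def cnt (B : Finset Pt) (τ : Sp) : ℝ := ∑ x ∈ B, if τ x then 1 else 0

theorem cnt_loc (B : Finset Pt) : Loc B (cnt B) := by
  intro τ τ' h
  exact Finset.sum_congr rfl fun x hx => by rw [h x hx]

theorem cnt_mono (B : Finset Pt) : Monotone (cnt B) := by
  intro τ τ' h
  refine Finset.sum_le_sum fun x _ => ?_
  have := h x
  revert this
  cases τ x <;> cases τ' x <;> simp

theorem cnt_nonneg (B : Finset Pt) (τ : Sp) : 0 ≤ cnt B τ :=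
  Finset.sum_nonneg fun x _ => by split_ifs <;> simp

/-- a strict increase of tau somewhere in `B` increases the number of plus spins -/
theorem cnt_lt {B : Finset Pt} {τ τ' : Sp} (h : τ ≤ τ') {x : Pt} (hx : x ∈ B)
    (hne : τ x ≠ τ' x) : cnt B τ + 1 ≤ cnt B τ' := by
  classical
  unfold cnt
  rw [← Finset.add_sum_erase _ _ hx, ← Finset.add_sum_erase B (fun x => if τ' x then (1 : ℝ) else 0) hx]
  have h1 : ∑ y ∈ B.erase x, (if τ y then (1 : ℝ) else 0) ≤
      ∑ y ∈ B.erase x, (if τ' y then (1 : ℝ) else 0) := by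
    refine Finset.sum_le_sum fun y _ => ?_
    have := h y
    revert this
    cases τ y <;> cases τ' y <;> simp
  have h2 : (if τ x then (1 : ℝ) else 0) + 1 ≤ (if τ' x then (1 : ℝ) else 0) := by
    have h3 := h x
    revert h3 hne
    cases τ x <;> cases τ' x <;> simp
  linarith only [h1, h2]

/-- every local function is a difference of nonnegative monotone local functions -/
theorem Loc.split {B : Finset Pt} {f : Sp → ℝ} (hf : Loc B f) :
    ∃ f1 f2 : Sp → ℝ, Loc B f1 ∧ Loc B f2 ∧ Monotone f1 ∧ Monotone f2 ∧ (∀ τ, 0 ≤ f1 τ) ∧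
      (∀ τ, 0 ≤ f2 τ) ∧ ∀ τ, f τ = f1 τ - f2 τ := by
  obtain ⟨C, hC0, hC⟩ := hf.bdd
  refine ⟨fun τ => f τ + (2 * C * cnt B τ + C), fun τ => 2 * C * cnt B τ + C, ?_, ?_, ?_, ?_, ?_,
    ?_, ?_⟩
  · intro τ τ' h
    simp only [hf τ τ' h, cnt_loc B τ τ' h]
  · intro τ τ' h
    simp only [cnt_loc B τ τ' h]
  · intro τ τ' h
    by_cases h1 : ∀ x ∈ B, τ x = τ' x
    · simp only [hf τ τ' h1, cnt_loc B τ τ' h1, le_refl]
    · push Not at h1
      obtain ⟨x, hx, hne⟩ := h1
      have h2 := cnt_lt h hx hne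
      have h3 := (abs_le.1 (hC τ)).2
      have h4 := (abs_le.1 (hC τ')).1
      show f τ + (2 * C * cnt B τ + C) ≤ f τ' + (2 * C * cnt B τ' + C)
      nlinarith only [h3, h4, hC0, h2]
  · intro τ τ' h
    have := cnt_mono B h
    show 2 * C * cnt B τ + C ≤ 2 * C * cnt B τ' + C
    nlinarith
  · intro τ
    have h1 := (abs_le.1 (hC τ)).1
    have h2 := mul_nonneg (mul_nonneg zero_le_two hC0) (cnt_nonneg B τ)
    linarith
  · intro τ
    have h2 := mul_nonneg (mul_nonneg zero_le_two hC0) (cnt_nonneg B τ)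
    show 0 ≤ 2 * C * cnt B τ + C
    linarith
  · intro τ
    ring

theorem E1_nonneg (h : S_e1) (D : Finset Pt) {B : Finset Pt} {f : Sp → ℝ} (hf : Loc B f)
    (h0 : ∀ τ, 0 ≤ f τ) : 0 ≤ E1 D f := by
  rw [← nu1_integral h D hf]
  exact integral_nonneg h0

/-- existence of the limits -/
theorem E1_lim (h1 : S_e1) (h4 : S_dom) {B : Finset Pt} {f : Sp → ℝ} (hf : Loc B f) :
    ∃ l : ℝ, Tendsto (fun D => E1 D f) atTop (𝓝 l) := by
  obtain ⟨f1, f2, l1, l2, m1, m2, p1, p2, he⟩ := hf.split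
  have key : ∀ g : Sp → ℝ, Loc B g → Monotone g → (∀ τ, 0 ≤ g τ) →
      ∃ l : ℝ, Tendsto (fun D => E1 D g) atTop (𝓝 l) := by
    intro g hg hm hp
    refine ⟨_, tendsto_atTop_ciInf (fun D D' hD => h4 D D' hD g hm) ⟨0, ?_⟩⟩
    rintro _ ⟨D, rfl⟩
    exact E1_nonneg h1 D hg hp
  obtain ⟨a, ha⟩ := key f1 l1 m1 p1
  obtain ⟨b, hb⟩ := key f2 l2 m2 p2
  refine ⟨a - b, (ha.sub hb).congr fun D => ?_⟩
  rw [← E1_sub h1 D l1 l2]
  congr 1
  funext τ
  exact (he τ).symm

/-- (7) -/
theorem s_mu (h1 : S_e1) (h4 : S_dom) (h6 : S_comp) : S_mu := by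
  obtain ⟨μ, hμ, hlim⟩ := h6 Bool (nu1 h1) (nu1_prob h1) (fun B F hF => by
    obtain ⟨l, hl⟩ := E1_lim h1 h4 hF
    exact ⟨l, hl.congr fun D => (nu1_integral h1 D hF).symm⟩)
  exact ⟨μ, hμ, fun B f hf => (hlim B f hf).congr fun D => nu1_integral h1 D hf⟩

end Vale.Agent.P145W85.P153.A
end

section

/-!
P153, block A3, leaf (8): translation invariance of the limit law of tau.
-/

namespace Vale.Agent.P145W85.P153.A

open MeasureTheory Filter Topology Relation

theorem tr_tr {X : Type} (z z' : Pt) (ω : Pt → X) : tr z (tr z' ω) = tr (z + z') ω := by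
  funext x
  simp [tr, add_assoc]

theorem tr_zero {X : Type} (ω : Pt → X) : tr 0 ω = ω := by
  funext x
  simp [tr]

theorem tr_inj {X : Type} (z : Pt) : Function.Injective (tr (X := X) z) := by
  intro ω ω' h
  have : tr (-z) (tr z ω) = tr (-z) (tr z ω') := by rw [h]
  simpa [tr_tr, tr_zero] using this

theorem measurable_tr {X : Type} [MeasurableSpace X] (z : Pt) : Measurable (tr (X := X) z) :=
  measurable_pi_lambda _ fun _ => measurable_pi_apply _

theorem Adj_add (z x y : Pt) : Adj (x + z) (y + z) ↔ Adj x y := by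
  unfold Adj
  simp [Prod.fst_add, Prod.snd_add]

theorem mem_img (D : Finset Pt) (z x : Pt) : x + z ∈ D.image (· + z) ↔ x ∈ D := by
  simp

theorem mem_inn_img (D : Finset Pt) (z x : Pt) : x + z ∈ inn (D.image (· + z)) ↔ x ∈ inn D := by
  unfold inn
  simp only [Set.mem_ofPred_eq, mem_img]
  constructor
  · rintro ⟨h1, h2⟩
    refine ⟨h1, fun w hw => ?_⟩
    have := h2 (w + z) ((Adj_add z x w).2 hw)
    rwa [mem_img] at this
  · rintro ⟨h1, h2⟩
    refine ⟨h1, fun w hw => ?_⟩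
    have h3 : w = (w - z) + z := by abel
    rw [h3] at hw ⊢
    rw [mem_img]
    exact h2 _ ((Adj_add z x (w - z)).1 hw)

theorem cf_tr (D : Finset Pt) (z : Pt) (ω : Om) : ω ∈ Cf (D.image (· + z)) ↔ tr z ω ∈ Cf D := by
  unfold Cf Comp
  simp only [Set.mem_ofPred_eq, tr]
  constructor
  · rintro ⟨h1, h2, h3⟩
    refine ⟨fun x y h => h1 _ _ ((Adj_add z x y).2 h), fun x hx => h2 _ ?_, fun x hx => h3 _ ?_⟩
    · rwa [mem_inn_img]
    · rwa [mem_img]
  · rintro ⟨h1, h2, h3⟩
    have e : ∀ x : Pt, x = (x - z) + z := fun x => by abel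
    refine ⟨fun x y h => ?_, fun x hx => ?_, fun x hx => ?_⟩
    · have := h1 (x - z) (y - z) (by rw [← Adj_add z]; simpa using h)
      simpa using this
    · have := h2 (x - z) (by rw [← mem_inn_img D z]; simpa using hx)
      simpa using this
    · have := h3 (x - z) (by rw [← mem_img D z]; simpa using hx)
      simpa using this

theorem cf_tr_image (D : Finset Pt) (z : Pt) : tr z '' Cf (D.image (· + z)) = Cf D := by
  ext ω
  constructor
  · rintro ⟨ω', h, rfl⟩
    exact (cf_tr D z ω').1 h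
  · intro h
    refine ⟨tr (-z) ω, (cf_tr D z _).2 ?_, ?_⟩
    · rwa [tr_tr, add_neg_cancel, tr_zero]
    · rw [tr_tr, add_neg_cancel, tr_zero]

theorem E2_tr (D : Finset Pt) (z : Pt) (F : Om → ℝ) :
    E2 (D.image (· + z)) (fun ω => F (tr z ω)) = E2 D F := by
  unfold E2
  have h1 : ∑ᶠ ω ∈ Cf (D.image (· + z)), F (tr z ω) = ∑ᶠ ω ∈ Cf D, F ω := by
    rw [← cf_tr_image D z, finsum_mem_image (tr_inj z).injOn]
  have h2 : (Cf (D.image (· + z))).ncard = (Cf D).ncard := by
    rw [← cf_tr_image D z, Set.ncard_image_of_injective _ (tr_inj z)]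
  rw [h1, h2]

theorem E1_tr (D : Finset Pt) (z : Pt) (f : Sp → ℝ) :
    E1 (D.image (· + z)) (fun τ => f (tr z τ)) = E1 D f := by
  unfold E1
  exact E2_tr D z fun ω => f (tau ω)

theorem tendsto_img (z : Pt) : Tendsto (fun D : Finset Pt => D.image (· + z)) atTop atTop := by
  apply tendsto_atTop_atTop_of_monotone
  · intro D D' h
    exact Finset.image_subset_image h
  · intro B
    refine ⟨B.image (· + (-z)), ?_⟩
    intro x hx
    rw [Finset.image_image]
    exact Finset.mem_image.2 ⟨x, hx, by simp⟩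

theorem IsMu.integral_tr {μ : Measure Sp} (hμ : IsMu μ) (z : Pt) {B : Finset Pt} {f : Sp → ℝ}
    (hf : Loc B f) : ∫ τ, f (tr z τ) ∂μ = ∫ τ, f τ ∂μ := by
  have h1 := (hμ.lim _ _ (hf.tr z)).comp (tendsto_img z)
  have h2 : Tendsto (fun D => E1 D f) atTop (𝓝 (∫ τ, f (tr z τ) ∂μ)) :=
    h1.congr fun D => E1_tr D z f
  exact tendsto_nhds_unique h2 (hμ.lim B f hf)

/-- (8) -/
theorem s_muInv : S_muInv := by
  intro μ hμ z
  have := hμ.prob
  have h1 : IsProbabilityMeasure (μ.map (tr z)) :=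
    Measure.isProbabilityMeasure_map (measurable_tr z).aemeasurable
  apply ext_loc
  intro B f hf
  rw [integral_map (measurable_tr z).aemeasurable hf.measurable.aestronglyMeasurable]
  exact hμ.integral_tr z hf

end Vale.Agent.P145W85.P153.A
end

section

/-!
P153, block A3, step (10): finite energy of the limit law of tau.
-/

namespace Vale.Agent.P145W85.P153.A

open MeasureTheory Filter Topology Relation
open Vale.Agent.P145W85.P153.GFF (Adj)
open Vale.Agent.P145W85.P153.Topo (adj_symm)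
open scoped ENNReal

namespace Fl

theorem flip_same (x : Pt) (τ : Sp) : flipAt x τ x = !τ x := by simp [flipAt]

theorem flip_ne {x y : Pt} (h : y ≠ x) (τ : Sp) : flipAt x τ y = τ y := by simp [flipAt, h]

theorem flip_flip (x : Pt) (τ : Sp) : flipAt x (flipAt x τ) = τ := by
  funext y
  by_cases h : y = x
  · subst h
    rw [flip_same, flip_same, Bool.not_not]
  · rw [flip_ne h, flip_ne h]

theorem meas_flip (x : Pt) : Measurable (flipAt x) := by
  refine measurable_pi_lambda _ fun y => ?_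
  by_cases h : y = x
  · subst h
    simp only [flip_same]
    exact (measurable_of_finite (fun b : Bool => !b)).comp (measurable_pi_apply _)
  · simp only [flip_ne h]
    exact measurable_pi_apply _

/-- The neighbours. -/
def nb (x : Pt) : Fin 6 → Pt :=
  ![(x.1 + 1, x.2), (x.1 - 1, x.2), (x.1, x.2 + 1), (x.1, x.2 - 1), (x.1 + 1, x.2 - 1),
    (x.1 - 1, x.2 + 1)]

theorem nb_all {x y : Pt} (h : Adj x y) : ∃ i, nb x i = y := by
  obtain ⟨x1, x2⟩ := x
  obtain ⟨y1, y2⟩ := y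
  have h : (y1 - x1, y2 - x2) ∈
    ({(1, 0), (-1, 0), (0, 1), (0, -1), (1, -1), (-1, 1)} : Set (ℤ × ℤ)) := h
  simp only [Set.mem_insert_iff, Set.mem_singleton_iff, Prod.mk.injEq] at h
  rcases h with h | h | h | h | h | h
  · exact ⟨0, by simp only [nb, Matrix.cons_val, Prod.mk.injEq]; omega⟩
  · exact ⟨1, by simp only [nb, Matrix.cons_val, Prod.mk.injEq]; omega⟩
  · exact ⟨2, by simp only [nb, Matrix.cons_val, Prod.mk.injEq]; omega⟩
  · exact ⟨3, by simp only [nb, Matrix.cons_val, Prod.mk.injEq]; omega⟩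
  · exact ⟨4, by simp only [nb, Matrix.cons_val, Prod.mk.injEq]; omega⟩
  · exact ⟨5, by simp only [nb, Matrix.cons_val, Prod.mk.injEq]; omega⟩

/-- The pattern of the differences of `s` at `x`. -/
def pat (x : Pt) (s : Sp) : Fin 6 → Bool := fun i => xor (s x) (s (nb x i))

theorem mem_of_pat {D : Finset Pt} {x : Pt} {τ : Sp} {s s' : Sp} (hs : s ∈ G D (flipAt x τ))
    (hs' : s' ∈ G D (flipAt x τ)) (h : pat x s = pat x s') : s + s' ∈ G D τ := by
  have h0 : s + s' ∈ G D (flipAt x τ) := (G D (flipAt x τ)).add_mem hs hs'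
  have hx : ∀ y, Adj x y → (s + s') x = (s + s') y := by
    intro y hy
    obtain ⟨i, rfl⟩ := nb_all hy
    have h1 := congrFun h i
    unfold pat at h1
    show xor (s x) (s' x) = xor (s (nb x i)) (s' (nb x i))
    revert h1
    cases s x <;> cases s' x <;> cases s (nb x i) <;> cases s' (nb x i) <;> simp
  refine ⟨h0.1, fun u v huv hne => ?_⟩
  by_cases hu : u = x
  · subst hu
    exact hx v huv
  · by_cases hv : v = x
    · subst hv
      exact (hx u (adj_symm huv)).symm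
    · refine h0.2 u v huv ?_
      rw [flip_ne hu, flip_ne hv]
      exact hne

theorem w_flip_le (D : Finset Pt) (x : Pt) (τ : Sp) : w D (flipAt x τ) ≤ 64 * w D τ := by
  classical
  have hfin : Finite (G D τ) := (E1f.g_finite D τ).to_subtype
  let rep : (Fin 6 → Bool) → G D (flipAt x τ) := fun p =>
    if h : ∃ s : G D (flipAt x τ), pat x s.1 = p then h.choose else 0
  have hrep : ∀ s : G D (flipAt x τ), pat x (rep (pat x s.1)).1 = pat x s.1 := by
    intro s
    have h : ∃ s' : G D (flipAt x τ), pat x s'.1 = pat x s.1 := ⟨s, rfl⟩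
    simp only [rep, dif_pos h]
    exact h.choose_spec
  let f : G D (flipAt x τ) → G D τ × (Fin 6 → Bool) := fun s =>
    (⟨s.1 + (rep (pat x s.1)).1, mem_of_pat s.2 (rep (pat x s.1)).2 (hrep s).symm⟩, pat x s.1)
  have hf : Function.Injective f := by
    intro s s' h
    have h2 : pat x s.1 = pat x s'.1 := congrArg Prod.snd h
    have h1 : s.1 + (rep (pat x s.1)).1 = s'.1 + (rep (pat x s'.1)).1 :=
      congrArg (fun p : G D τ × (Fin 6 → Bool) => p.1.1) h
    rw [h2] at h1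
    exact Subtype.ext (add_right_cancel h1)
  have h1 := Nat.card_le_card_of_injective f hf
  rw [Nat.card_prod, Nat.card_eq_fintype_card (α := Fin 6 → Bool), Fintype.card_fun,
    Fintype.card_bool, Fintype.card_fin] at h1
  unfold w
  linarith

theorem adm_flip {D : Finset Pt} {x : Pt} (hx : x ∈ inn D) {τ : Sp} (h : τ ∈ Adm D) :
    flipAt x τ ∈ Adm D := by
  intro y hy
  have : y ≠ x := by
    rintro rfl
    exact hy hx
  rw [flip_ne this]
  exact h y hy

theorem E1_flip_le {D : Finset Pt} {x : Pt} (hx : x ∈ inn D) {f : Sp → ℝ} (hf : ∀ τ, 0 ≤ f τ) :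
    E1 D (fun τ => f (flipAt x τ)) ≤ 64 * E1 D f := by
  rw [fkg_E1_eq s_e1, fkg_E1_eq s_e1, ← mul_div_assoc]
  refine div_le_div_of_nonneg_right ?_ (fkg_Z_pos s_e1 D).le
  have h1 : ∑ τ ∈ (s_e1 D).1.toFinset, (w D τ : ℝ) * f (flipAt x τ) =
      ∑ τ ∈ (s_e1 D).1.toFinset, (w D (flipAt x τ) : ℝ) * f τ := by
    refine Finset.sum_nbij' (flipAt x) (flipAt x) ?_ ?_ ?_ ?_ ?_
    · intro τ hτ
      rw [Set.Finite.mem_toFinset] at hτ ⊢
      exact adm_flip hx hτ
    · intro τ hτ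
      rw [Set.Finite.mem_toFinset] at hτ ⊢
      exact adm_flip hx hτ
    · intro τ _
      exact flip_flip x τ
    · intro τ _
      exact flip_flip x τ
    · intro τ _
      rw [flip_flip]
  rw [h1, Finset.mul_sum]
  refine Finset.sum_le_sum fun τ _ => ?_
  rw [← mul_assoc]
  refine mul_le_mul_of_nonneg_right ?_ (hf τ)
  exact_mod_cast w_flip_le D x τ

/-- Comparison of two finite measures on cylinders. -/
theorem le_of_cyl {X : Type} [Fintype X] [MeasurableSpace X] [MeasurableSingletonClass X]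
    {P Q : Measure (Pt → X)} [IsFiniteMeasure P] [IsFiniteMeasure Q]
    (h : ∀ S ∈ measurableCylinders fun _ : Pt => X, P S ≤ Q S) {S : Set (Pt → X)}
    (hS : MeasurableSet S) : P S ≤ Q S := by
  have hd : (P + Q).MeasureDense (measurableCylinders fun _ : Pt => X) :=
    Measure.MeasureDense.of_generateFrom_isSetAlgebra_finite _ isSetAlgebra_measurableCylinders
      generateFrom_measurableCylinders.symm
  refine ENNReal.le_of_forall_pos_le_add fun ε hε _ => ?_
  obtain ⟨T, hT, hTS⟩ := hd.approx S hS (measure_ne_top _ _) (ε / 2 : ℝ) (by positivity)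
  have hTm := hd.measurable T hT
  have e1 : P (symmDiff S T) ≤ ENNReal.ofReal (ε / 2) :=
    (le_trans (by rw [Measure.add_apply]; exact le_self_add) hTS.le)
  have e2 : Q (symmDiff S T) ≤ ENNReal.ofReal (ε / 2) :=
    (le_trans (by rw [Measure.add_apply]; exact le_add_self) hTS.le)
  have h1 : P S ≤ P T + P (symmDiff S T) := by
    refine (measure_mono ?_).trans (measure_union_le T (symmDiff S T))
    intro a ha
    by_cases haT : a ∈ T
    · exact Or.inl haT
    · exact Or.inr (Or.inl ⟨ha, haT⟩)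
  have h2 : Q T ≤ Q S + Q (symmDiff S T) := by
    refine (measure_mono ?_).trans (measure_union_le S (symmDiff S T))
    intro a ha
    by_cases haT : a ∈ S
    · exact Or.inl haT
    · exact Or.inr (Or.inr ⟨ha, haT⟩)
  calc P S ≤ P T + P (symmDiff S T) := h1
    _ ≤ Q T + ENNReal.ofReal (ε / 2) := add_le_add (h T hT) e1
    _ ≤ (Q S + ENNReal.ofReal (ε / 2)) + ENNReal.ofReal (ε / 2) :=
        add_le_add (h2.trans (add_le_add le_rfl e2)) le_rfl
    _ = Q S + ε := by
        rw [add_assoc, ← ENNReal.ofReal_add (by positivity) (by positivity), add_halves,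
          ENNReal.ofReal_coe_nnreal]

end Fl

open Fl in
/-- (10) finite energy. -/
theorem s_muFlip : S_muFlip := by
  classical
  intro μ hμ x S hS
  have := hμ.prob
  have hp : IsProbabilityMeasure (μ.map (flipAt x)) :=
    Measure.isProbabilityMeasure_map (meas_flip x).aemeasurable
  have hfm : IsFiniteMeasure ((64 : ℝ≥0∞) • μ) := by
    have h := Measure.smul_finite μ (c := (64 : ℝ≥0∞)) (by simp)
    exact h
  have key : ∀ S ∈ measurableCylinders fun _ : Pt => Bool,
      (μ.map (flipAt x)) S ≤ ((64 : ℝ≥0∞) • μ) S := by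
    intro S hS
    obtain ⟨B, T, hT, rfl⟩ := (mem_measurableCylinders S).1 hS
    have hm : MeasurableSet (cylinder B T) := MeasurableSet.cylinder (α := fun _ : Pt => Bool) B hT
    set f : Sp → ℝ := (cylinder B T).indicator fun _ => (1 : ℝ) with hf
    have hfl : Loc B f := by
      intro ω ω' hω
      have : B.restrict ω = B.restrict ω' := by
        funext x
        exact hω x x.2
      simp only [f, Set.indicator, mem_cylinder, this]
    have hfl' : Loc B (fun τ => f (flipAt x τ)) := by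
      intro ω ω' hω
      apply hfl
      intro y hy
      by_cases hyx : y = x
      · subst hyx
        rw [flip_same, flip_same, hω y hy]
      · rw [flip_ne hyx, flip_ne hyx, hω y hy]
    have l1 := hμ.lim B _ hfl'
    have l2 := (hμ.lim B _ hfl).const_mul 64
    have hle : ∫ τ, f (flipAt x τ) ∂μ ≤ 64 * ∫ τ, f τ ∂μ := by
      refine le_of_tendsto_of_tendsto l1 l2 ?_
      filter_upwards [eventually_ge_atTop (insert x (Finset.univ.image (nb x)))] with D hD
      refine E1_flip_le ⟨hD (Finset.mem_insert_self _ _), fun y hy => ?_⟩ ?_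
      · obtain ⟨i, rfl⟩ := nb_all hy
        exact hD (Finset.mem_insert_of_mem (Finset.mem_image_of_mem _ (Finset.mem_univ _)))
      · intro τ
        exact Set.indicator_nonneg (fun _ _ => zero_le_one) _
    have i1 : ∫ τ, f (flipAt x τ) ∂μ = (μ.map (flipAt x)).real (cylinder B T) := by
      rw [← integral_indicator_one hm]
      exact (integral_map (meas_flip x).aemeasurable
        (measurable_const.indicator hm).aestronglyMeasurable).symm
    have i2 : ∫ τ, f τ ∂μ = μ.real (cylinder B T) := by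
      rw [← integral_indicator_one hm]
      rfl
    rw [i1, i2] at hle
    rw [Measure.smul_apply, smul_eq_mul]
    have h3 : (μ.map (flipAt x)) (cylinder B T) =
        ENNReal.ofReal ((μ.map (flipAt x)).real (cylinder B T)) := by
      rw [Measure.real, ENNReal.ofReal_toReal (measure_ne_top _ _)]
    have h4 : (64 : ℝ≥0∞) * μ (cylinder B T) = ENNReal.ofReal (64 * μ.real (cylinder B T)) := by
      rw [ENNReal.ofReal_mul (by norm_num), Measure.real, ENNReal.ofReal_toReal (measure_ne_top _ _)]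
      norm_num
    rw [h3, h4]
    exact ENNReal.ofReal_le_ofReal hle
  have h5 := le_of_cyl key hS
  rwa [Measure.map_apply (meas_flip x) hS, Measure.smul_apply, smul_eq_mul] at h5

end Vale.Agent.P145W85.P153.A
end

section

/-!
P153, block A3, leaf (25): the gradient Gibbs property of the limit.
-/

namespace Vale.Agent.P145W85.P153.A

open MeasureTheory Filter Topology Relation
open Vale.Agent.P145W85.P153.GFF (Adj Ht Pat LocLim hexa Plane)

namespace GibbsPf

theorem adj_symm {x y : Pt} (h : Adj x y) : Adj y x := by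
  unfold Adj at *
  simp only [Set.mem_insert_iff, Set.mem_singleton_iff, Prod.mk.injEq] at *
  rcases h with h | h | h | h | h | h <;> omega

/-- the exchange of the pattern -/
noncomputable def ex (A : Finset Pt) (a a' : Pt → ℤ) (φ : Pt → ℤ) : Pt → ℤ := fun x =>
  open Classical in if x ∈ A then φ x + (a' x - a x) else φ x

theorem ex_ex (A : Finset Pt) (a a' φ : Pt → ℤ) : ex A a' a (ex A a a' φ) = φ := by
  funext x
  unfold ex
  by_cases hx : x ∈ A
  · simp only [hx, if_true]; ring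
  · simp only [hx, if_false]

/-- for large `n` the finite set is inside the hexagon, with its neighbours -/
theorem large (A : Finset Pt) : ∃ n0 : ℕ, ∀ n, n0 ≤ n → ∀ v ∈ A, v ∈ hexa n ∧
    ∀ w, Adj v w → w ∈ hexa n := by
  refine ⟨A.sup (fun v => v.1.natAbs + v.2.natAbs) + 2, fun n hn v hv => ?_⟩
  have h1 : v.1.natAbs + v.2.natAbs ≤ A.sup (fun v => v.1.natAbs + v.2.natAbs) :=
    Finset.le_sup (f := fun v : Pt => v.1.natAbs + v.2.natAbs) hv
  have key : ∀ w : Pt, (w.1 - v.1).natAbs ≤ 1 → (w.2 - v.2).natAbs ≤ 1 → w ∈ hexa n := by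
    intro w h2 h3
    unfold hexa
    rw [Finset.mem_filter, Finset.mem_product, Finset.mem_Icc, Finset.mem_Icc, abs_le]
    refine ⟨⟨⟨?_, ?_⟩, ⟨?_, ?_⟩⟩, ?_, ?_⟩ <;> omega
  refine ⟨key v (by simp) (by simp), fun w hw => ?_⟩
  unfold Adj at hw
  simp only [Set.mem_insert_iff, Set.mem_singleton_iff, Prod.mk.injEq] at hw
  exact key w (by omega) (by omega)

theorem maps {D A B : Finset Pt} {a a' : Pt → ℤ} (hAB : A ⊆ B)
    (hA : ∀ x ∈ A, ∀ y, Adj x y → y ∈ B) (hD : ∀ v ∈ A, v ∈ D ∧ ∀ w, Adj v w → w ∈ D)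
    (ha' : ∀ x ∈ B, ∀ y ∈ B, Adj x y → |a' x - a' y| ≤ 1) (he : ∀ x ∈ B, x ∉ A → a x = a' x)
    {φ : Pt → ℤ} (hφ : φ ∈ Ht D ∩ Pat B a) : ex A a a' φ ∈ Ht D ∩ Pat B a' := by
  obtain ⟨⟨h1, h2⟩, h3⟩ := hφ
  have hB : ∀ x ∈ B, ex A a a' φ x = φ x + (a' x - a x) := by
    intro x hx
    unfold ex
    by_cases hxA : x ∈ A
    · simp only [hxA, if_true]
    · simp only [hxA, if_false, he x hx hxA]; ring
  have hP : ∀ x ∈ B, ∀ y ∈ B, ex A a a' φ x - ex A a a' φ y = a' x - a' y := by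
    intro x hx y hy
    rw [hB x hx, hB y hy]
    have := h3 x hx y hy
    linarith
  refine ⟨⟨fun v => ?_, fun x y hxy => ?_⟩, hP⟩
  · by_cases hv : v ∈ A
    · refine ⟨fun h => absurd (hD v hv).1 h, ?_⟩
      rintro ⟨w, hw, hw'⟩
      exact absurd ((hD v hv).2 w hw) hw'
    · have : ex A a a' φ v = φ v := by unfold ex; simp only [hv, if_false]
      rw [this]
      exact h1 v
  · by_cases hx : x ∈ A
    · rw [hP x (hAB hx) y (hA x hx y hxy)]
      exact ha' x (hAB hx) y (hA x hx y hxy) hxy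
    · by_cases hy : y ∈ A
      · rw [hP x (hA y hy x (adj_symm hxy)) y (hAB hy)]
        exact ha' x (hA y hy x (adj_symm hxy)) y (hAB hy) hxy
      · have e1 : ex A a a' φ x = φ x := by unfold ex; simp only [hx, if_false]
        have e2 : ex A a a' φ y = φ y := by unfold ex; simp only [hy, if_false]
        rw [e1, e2]
        exact h2 x y hxy

end GibbsPf

open GibbsPf

theorem s_gibbs : S_gibbs := by
  intro P hP hL A B a a' hAB hA ha ha' he
  obtain ⟨n0, hn0⟩ := large A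
  have hev : ∀ n, n0 ≤ n → (Ht (hexa n) ∩ Pat B a).ncard = (Ht (hexa n) ∩ Pat B a').ncard := by
    intro n hn
    have hD := hn0 n hn
    have himg : ex A a a' '' (Ht (hexa n) ∩ Pat B a) = Ht (hexa n) ∩ Pat B a' := by
      ext ψ
      constructor
      · rintro ⟨φ, hφ, rfl⟩
        exact maps hAB hA hD ha' he hφ
      · intro hψ
        exact ⟨ex A a' a ψ, maps hAB hA hD ha (fun x hx hxA => (he x hx hxA).symm) hψ,
          ex_ex A a' a ψ⟩
    rw [← himg, Set.ncard_image_of_injective]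
    exact Function.LeftInverse.injective (g := ex A a' a) fun φ => ex_ex A a a' φ
  have h1 := hL B a
  have h2 := hL B a'
  have h3 : P.real (Pat B a) = P.real (Pat B a') := by
    refine tendsto_nhds_unique h1 (h2.congr' ?_)
    filter_upwards [eventually_ge_atTop n0] with n hn
    rw [hev n hn]
  rw [measureReal_def, measureReal_def] at h3
  exact (ENNReal.toReal_eq_toReal_iff' (measure_ne_top P _) (measure_ne_top P _)).1 h3

end Vale.Agent.P145W85.P153.A
end

section

/-!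
# P153, strips: the window law as a measure, conditional expectations
-/

namespace Vale.Agent.P145W85.P153.Strip

open Finset MeasureTheory

variable {X : Type*}

/-- The rows `0, ..., l` of a path. -/
def rstr {n : ℕ} (l : ℤ) (q : Fin (n + 1) → X) : Fin (n + 1) → Option X :=
  fun i => if (i : ℤ) ≤ l then some (q i) else none

theorem rstr_eq_iff {n : ℕ} {l : ℤ} {q q' : Fin (n + 1) → X} :
    rstr l q = rstr l q' ↔ ∀ i : Fin (n + 1), (i : ℤ) ≤ l → q i = q' i := by
  constructor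
  · intro h i hi
    have h1 := congrFun h i
    simp only [rstr, hi, if_true] at h1
    exact Option.some.inj h1
  · intro h
    funext i
    unfold rstr
    by_cases hi : (i : ℤ) ≤ l
    · rw [if_pos hi, if_pos hi, h i hi]
    · rw [if_neg hi, if_neg hi]

theorem measurable_path {n : ℕ} {β : Type*} [MeasurableSpace β] (F : Path X n → β) :
    Measurable F := fun _ _ => trivial

theorem Fl_le (n : ℕ) (l : ℤ) : Fl X n l ≤ (inferInstance : MeasurableSpace (Path X n)) :=
  fun _ _ => trivial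

theorem measurableSet_Fl {n : ℕ} {l : ℤ} {s : Set (Path X n)} :
    MeasurableSet[Fl X n l] s ↔ ∀ q q' : Fin (n + 1) → X,
      (∀ i : Fin (n + 1), (i : ℤ) ≤ l → q i = q' i) → (q ∈ s ↔ q' ∈ s) := by
  constructor
  · rintro ⟨t, _, rfl⟩ q q' h
    have h1 : rstr l q = rstr l q' := rstr_eq_iff.2 h
    show rstr l q ∈ t ↔ rstr l q' ∈ t
    rw [h1]
  · intro h
    refine ⟨(rstr l) '' s, trivial, ?_⟩
    ext q
    constructor
    · rintro ⟨q', hq', e⟩
      have e' : rstr l q' = rstr l q := e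
      exact (h q' q (rstr_eq_iff.1 e')).1 hq'
    · intro hq
      exact ⟨q, hq, rfl⟩

theorem measurable_Fl {n : ℕ} {β : Type*} [MeasurableSpace β] {l : ℤ} {F : Path X n → β}
    (h : ∀ q q' : Fin (n + 1) → X, (∀ i : Fin (n + 1), (i : ℤ) ≤ l → q i = q' i) →
      F q = F q') : Measurable[Fl X n l] F := by
  intro s _
  rw [measurableSet_Fl]
  intro q q' hq
  show F q ∈ s ↔ F q' ∈ s
  rw [h q q' hq]

theorem Fl_mono (n : ℕ) : Monotone (Fl X n) := by
  intro l l' hll s hs
  rw [measurableSet_Fl] at hs ⊢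
  intro q q' hq
  exact hs q q' fun i hi => hq i (hi.trans hll)

variable [Fintype X] (D : PData X)

theorem PData.integral_mu (e : ZMod 2) (n : ℕ) (F : Path X n → ℝ) :
    ∫ q, F q ∂(D.mu e n) = D.EE e n F := by
  unfold PData.mu
  rw [integral_finsetSum_measure]
  · unfold PData.EE
    apply Finset.sum_congr rfl
    intro q _
    rw [integral_smul_measure, integral_dirac' _ _ (measurable_path F).stronglyMeasurable,
      ENNReal.toReal_ofReal (D.W_nn e n q), smul_eq_mul]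
  · intro q _
    apply Integrable.smul_measure
    · exact integrable_dirac (by simp)
    · exact ENNReal.ofReal_ne_top

instance PData.prob (e : ZMod 2) (n : ℕ) : IsProbabilityMeasure (D.mu e n) := by
  constructor
  unfold PData.mu
  rw [Measure.finsetSum_apply]
  simp only [Measure.smul_apply, measure_univ, smul_eq_mul, mul_one]
  have := D.EE_one e n
  unfold PData.EE at this
  simp only [mul_one] at this
  have h2 : ∑ q : Path X n, D.W e n q = 1 := this
  have h3 : ∑ q : Path X n, ENNReal.ofReal (D.W e n q) =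
      ENNReal.ofReal (∑ q : Path X n, D.W e n q) :=
    (ENNReal.ofReal_sum_of_nonneg fun q _ => D.W_nn e n q).symm
  exact h3.trans (by rw [h2, ENNReal.ofReal_one])

theorem PData.integrable (e : ZMod 2) (n : ℕ) (F : Path X n → ℝ) : Integrable F (D.mu e n) := by
  obtain ⟨C, hC⟩ : ∃ C, ∀ q, ‖F q‖ ≤ C := by
    obtain ⟨C, hC⟩ := (Set.finite_range fun q => ‖F q‖).bddAbove
    exact ⟨C, fun q => hC ⟨q, rfl⟩⟩
  exact Integrable.of_bound (measurable_path F).aestronglyMeasurable C (ae_of_all _ hC)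

/-- Conditional expectations given the rows `≤ l`, from the identity for all test functions. -/
theorem PData.condExp_of (e : ZMod 2) (n : ℕ) (l : Fin (n + 1)) (F G : Path X n → ℝ)
    (hG : ∀ q q' : Fin (n + 1) → X, (∀ i : Fin (n + 1), (i : ℕ) ≤ l → q i = q' i) → G q = G q')
    (h : ∀ u : (Fin (n + 1) → X) → ℝ, PData.DepLe (l : ℕ) u →
      D.EE e n (fun q => u q * F q) = D.EE e n (fun q => u q * G q)) :
    (D.mu e n)[F | Fl X n (l : ℕ)] =ᵐ[D.mu e n] G := by
  symm
  have hG' : Measurable[Fl X n (l : ℕ)] G := by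
    apply measurable_Fl
    intro q q' hq
    exact hG q q' fun i hi => hq i (by exact_mod_cast hi)
  refine ae_eq_condExp_of_forall_setIntegral_eq (Fl_le n _) (D.integrable e n F)
    (fun s _ _ => (D.integrable e n G).integrableOn) (fun s hs _ => ?_)
    hG'.stronglyMeasurable.aestronglyMeasurable
  classical
  have hs' : MeasurableSet s := trivial
  rw [← integral_indicator hs', ← integral_indicator hs', D.integral_mu, D.integral_mu]
  have h1 := h (fun q => if (q : Path X n) ∈ s then 1 else 0) (by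
    intro q q' hq
    have h2 := (measurableSet_Fl.1 hs) q q' fun i hi => hq i (by exact_mod_cast hi)
    simp only [h2])
  have e1 : ∀ H : Path X n → ℝ, (s.indicator H) =
      fun q : Path X n => (if q ∈ s then 1 else 0) * H q := by
    intro H
    funext q
    by_cases hq : q ∈ s
    · rw [Set.indicator_of_mem hq, if_pos hq, one_mul]
    · rw [Set.indicator_of_notMem hq, if_neg hq, zero_mul]
  rw [e1 G, e1 F]
  exact h1.symm

theorem PData.condExp_row (e : ZMod 2) (n : ℕ) (l m : Fin (n + 1)) (hlm : l ≤ m) (f : X → ℝ) :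
    (D.mu e n)[fun q : Path X n => f ((q : Fin (n + 1) → X) m) | Fl X n (l : ℕ)]
      =ᵐ[D.mu e n] fun q => (D.T)^[(m : ℕ) - l] f ((q : Fin (n + 1) → X) l) := by
  refine D.condExp_of e n l _ _ (fun q q' hq => ?_) fun u hu => ?_
  · show (D.T)^[(m : ℕ) - l] f (q l) = (D.T)^[(m : ℕ) - l] f (q' l)
    rw [hq l le_rfl]
  · exact D.EE_markov e f n l m hlm u hu

/-- The reflection identity. -/
theorem PData.refl (e : ZMod 2) (n : ℕ) (l a b k : Fin (n + 1)) (ha : l ≤ a) (hb : l ≤ b)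
    (hk : (k : ℕ) + b = 2 * l) (f g : X → ℝ) :
    ∫ q, ((D.mu e n)[fun q : Path X n => f ((q : Fin (n + 1) → X) a) | Fl X n (l : ℕ)]) q *
      ((D.mu e n)[fun q : Path X n => g ((q : Fin (n + 1) → X) b) | Fl X n (l : ℕ)]) q
        ∂(D.mu e n) =
    ∫ q : Path X n, f ((q : Fin (n + 1) → X) a) * g ((q : Fin (n + 1) → X) k) ∂(D.mu e n) := by
  have h1 := D.condExp_row e n l a ha f
  have h2 := D.condExp_row e n l b hb g
  have h3 : ∫ q, ((D.mu e n)[fun q : Path X n => f ((q : Fin (n + 1) → X) a) | Fl X n (l : ℕ)]) q *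
      ((D.mu e n)[fun q : Path X n => g ((q : Fin (n + 1) → X) b) | Fl X n (l : ℕ)]) q
        ∂(D.mu e n) = ∫ q : Path X n, (D.T)^[(a : ℕ) - l] f ((q : Fin (n + 1) → X) l) *
          (D.T)^[(b : ℕ) - l] g ((q : Fin (n + 1) → X) l) ∂(D.mu e n) := by
    apply integral_congr_ae
    filter_upwards [h1, h2] with q e1 e2
    rw [e1, e2]
  rw [h3, D.integral_mu, D.integral_mu]
  exact D.EE_mr e n l a b k ha hb hk f g

/-- Invariance under the reflection in a row. -/
theorem PData.inv (e : ZMod 2) (n : ℕ) (l : ℕ) (a b a' b' : Fin (n + 1))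
    (ha : (a' : ℕ) + a = 2 * l) (hb : (b' : ℕ) + b = 2 * l) (f g : X → ℝ) :
    ∫ q : Path X n, f ((q : Fin (n + 1) → X) a') * g ((q : Fin (n + 1) → X) b') ∂(D.mu e n) =
    ∫ q : Path X n, f ((q : Fin (n + 1) → X) a) * g ((q : Fin (n + 1) → X) b) ∂(D.mu e n) := by
  rw [D.integral_mu, D.integral_mu]
  exact D.EE_inv e n l a b a' b' ha hb f g

end Vale.Agent.P145W85.P153.Strip
end

section

namespace Vale.Agent.P145W85.P153

open MeasureTheory ProbabilityTheory

theorem integral_uniformOn (S : Finset (ℤ × ℤ → ℤ))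
    (F : (ℤ × ℤ → ℤ) → ℝ) :
    ∫ h, F h ∂(uniformOn (S : Set (ℤ × ℤ → ℤ))) = ev S F := by
  unfold uniformOn
  rw [ProbabilityTheory.cond, integral_smul_measure, setIntegral_finset]
  · unfold ev
    rw [Measure.count_apply_finset, div_eq_inv_mul, smul_eq_mul]
    congr 1
    · simp
    · apply Finset.sum_congr rfl
      intro h _
      simp [Measure.real]
  · rw [← (S : Set (ℤ × ℤ → ℤ)).biUnion_of_singleton]
    simp [integrableOn_finset_iUnion]

theorem variance_uniformOn (D : Finset (ℤ × ℤ)) (η : ℤ × ℤ → ℤ)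
    (hη : ∀ x, η x = 1 ∨ η x = -1) (F : (ℤ × ℤ → ℤ) → ℝ) (hF : Measurable F) :
    variance F (uniformOn (Conf D η)) = vr (ConfF D η hη) F := by
  have e : Conf D η = ((ConfF D η hη : Finset (ℤ × ℤ → ℤ)) : Set (ℤ × ℤ → ℤ)) := by
    simp [ConfF]
  rw [e, variance_eq_integral hF.aemeasurable, integral_uniformOn,
    integral_uniformOn]
  rfl

theorem measurable_lin (V : Finset (ℤ × ℤ)) (g : ℤ × ℤ → ℝ) :
    Measurable (fun h : ℤ × ℤ → ℤ => ∑ x ∈ V, g x * (h x : ℝ)) := by
  apply Finset.measurable_sum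
  intro x _
  apply Measurable.const_mul
  exact (measurable_of_countable (fun n : ℤ => (n : ℝ))).comp (measurable_pi_apply x)

/-- Domain comparison. -/
theorem domain_comparison (D D' : Finset (ℤ × ℤ)) (hD : D' ⊆ D) (η η' : ℤ × ℤ → ℤ)
    (hη : ∀ x, η x = 1 ∨ η x = -1) (hη' : ∀ x, η' x = 1 ∨ η' x = -1) (f : ℤ × ℤ → ℝ) :
    √(variance (fun h : ℤ × ℤ → ℤ => ∑ x ∈ D', f x * (h x : ℝ)) (uniformOn (Conf D' η')))
      ≤ √(variance (fun h : ℤ × ℤ → ℤ => ∑ x ∈ D', |f x| * (h x : ℝ)) (uniformOn (Conf D η)))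
        + 4 * ∑ x ∈ D', |f x| := by
  rw [variance_uniformOn D' η' hη' _ (measurable_lin D' f),
    variance_uniformOn D η hη _ (measurable_lin D' (fun x => |f x|))]
  exact main_vr D D' hD η η' hη hη' f

end Vale.Agent.P145W85.P153
end

section

/-!
# Null lines of the spectral measures, from mixing of even functionals
-/

open MeasureTheory Filter Topology UnitAddTorus
open scoped NNReal ENNReal

namespace Vale.Agent.P145W85.P153.RP

open Vale.Agent.P145W85.P153.GFF (Plane var2 shift Adj)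

/-! ### Fejér kernels -/

/-- Fejér kernel in direction `v` -/
noncomputable def FN (N : ℕ) (v : Fin 2 → ℤ) (θ : UnitAddTorus (Fin 2)) : ℝ :=
  ((N : ℝ)⁻¹) ^ 2 * ∑ a ∈ Finset.range N, ∑ b ∈ Finset.range N, cs (((a : ℤ) - b) • v) θ

theorem FN_eq (N : ℕ) (v : Fin 2 → ℤ) (θ : UnitAddTorus (Fin 2)) :
    FN N v θ = ‖(N : ℂ)⁻¹ * ∑ a ∈ Finset.range N, (mFourier v θ) ^ a‖ ^ 2 := by
  have hpow : ∀ a : ℕ, mFourier ((a : ℤ) • v) θ = (mFourier v θ) ^ a := by
    intro a
    induction a with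
    | zero => simp [mFourier_zero]
    | succ a ih =>
      rw [pow_succ, ← ih, ← mFourier_add]
      congr 1
      push_cast
      rw [add_smul, one_smul]
  have hcs : ∀ a b : ℕ, cs (((a : ℤ) - b) • v) θ =
      ((mFourier v θ) ^ a * (starRingEnd ℂ) ((mFourier v θ) ^ b)).re := by
    intro a b
    rw [cs, sub_smul, sub_eq_add_neg, mFourier_add, mFourier_neg, hpow, hpow]
  unfold FN
  simp_rw [hcs]
  rw [norm_mul, mul_pow, ← Complex.normSq_eq_norm_sq (∑ a ∈ Finset.range N, (mFourier v θ) ^ a)]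
  have h1 : ((Complex.normSq (∑ a ∈ Finset.range N, (mFourier v θ) ^ a) : ℝ) : ℂ) =
      ∑ a ∈ Finset.range N, ∑ b ∈ Finset.range N,
        ((mFourier v θ) ^ a * (starRingEnd ℂ) ((mFourier v θ) ^ b)) := by
    rw [← Complex.mul_conj, map_sum, Finset.sum_mul_sum]
  have h2 := congrArg Complex.re h1
  rw [Complex.ofReal_re, Complex.re_sum] at h2
  rw [h2]
  simp_rw [Complex.re_sum]
  congr 1
  rw [norm_inv, Complex.norm_natCast]

theorem norm_mF (v : Fin 2 → ℤ) (θ : UnitAddTorus (Fin 2)) : ‖mFourier v θ‖ ≤ 1 := by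
  refine ((mFourier v).norm_coe_le_norm θ).trans ?_
  rw [mFourier_norm]

theorem FN_nonneg (N : ℕ) (v : Fin 2 → ℤ) (θ : UnitAddTorus (Fin 2)) : 0 ≤ FN N v θ := by
  rw [FN_eq]; positivity

theorem FN_le (N : ℕ) (v : Fin 2 → ℤ) (θ : UnitAddTorus (Fin 2)) : FN N v θ ≤ 1 := by
  rw [FN_eq]
  have h1 : ‖(N : ℂ)⁻¹ * ∑ a ∈ Finset.range N, (mFourier v θ) ^ a‖ ≤ 1 := by
    rw [norm_mul, norm_inv, Complex.norm_natCast]
    rcases Nat.eq_zero_or_pos N with rfl | hN
    · simp only [CharP.cast_eq_zero, inv_zero, Finset.range_zero, Finset.sum_empty, norm_zero, mul_zero, zero_le_one]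
    · have hN' : (0 : ℝ) < N := by exact_mod_cast hN
      rw [inv_mul_le_iff₀ hN', mul_one]
      refine (norm_sum_le _ _).trans ?_
      refine (Finset.sum_le_sum (g := fun _ => (1 : ℝ)) fun a _ => ?_).trans ?_
      · rw [norm_pow]; exact pow_le_one₀ (norm_nonneg _) (norm_mF v θ)
      · simp only [Finset.sum_const, Finset.card_range, nsmul_eq_mul, mul_one, Std.le_refl]
  exact pow_le_one₀ (norm_nonneg _) h1

theorem FN_continuous (N : ℕ) (v : Fin 2 → ℤ) : Continuous (FN N v) := by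
  unfold FN
  exact continuous_const.mul (continuous_finsetSum _ fun a _ => continuous_finsetSum _ fun b _ =>
    cs_continuous _)

theorem FN_tendsto (v : Fin 2 → ℤ) (θ : UnitAddTorus (Fin 2)) :
    Tendsto (fun N : ℕ => FN N v θ) atTop (𝓝 (if mFourier v θ = 1 then 1 else 0)) := by
  by_cases h1 : mFourier v θ = 1
  · rw [if_pos h1]
    refine tendsto_const_nhds.congr' ?_
    filter_upwards [eventually_gt_atTop 0] with N hN
    have : (N : ℂ) ≠ 0 := by exact_mod_cast hN.ne'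
    rw [FN_eq, h1]
    simp only [one_pow, Finset.sum_const, Finset.card_range, nsmul_eq_mul, mul_one, ne_eq, this, not_false_eq_true, inv_mul_cancel₀, norm_one]
  · rw [if_neg h1]
    have hne : mFourier v θ - 1 ≠ 0 := sub_ne_zero.2 h1
    have hb : ∀ N : ℕ, FN N v θ ≤ ((N : ℝ)⁻¹ * (2 / ‖mFourier v θ - 1‖)) ^ 2 := by
      intro N
      rw [FN_eq, norm_mul, norm_inv, Complex.norm_natCast]
      apply pow_le_pow_left₀ (by (clear * -; positivity))
      apply mul_le_mul_of_nonneg_left _ (by positivity)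
      rw [geom_sum_eq h1, norm_div]
      apply div_le_div_of_nonneg_right _ (norm_nonneg _)
      refine (norm_sub_le _ _).trans ?_
      rw [norm_pow, norm_one]
      have := pow_le_one₀ (n := N) (norm_nonneg _) (norm_mF v θ)
      linarith
    have hlim : Tendsto (fun N : ℕ => ((N : ℝ)⁻¹ * (2 / ‖mFourier v θ - 1‖)) ^ 2) atTop (𝓝 0) := by
      have := ((tendsto_inv_atTop_nhds_zero_nat (𝕜 := ℝ)).mul_const (2 / ‖mFourier v θ - 1‖)).pow 2
      simpa only [zero_mul, ne_eq, OfNat.ofNat_ne_zero, not_false_eq_true, zero_pow] using this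
    exact squeeze_zero (fun N => FN_nonneg N v θ) hb hlim

theorem FN_sum (N : ℕ) (v u : Fin 2 → ℤ) (θ : UnitAddTorus (Fin 2)) :
    ((N : ℝ)⁻¹) ^ 2 * ∑ a ∈ Finset.range N, ∑ b ∈ Finset.range N, cs (((a : ℤ) - b) • v + u) θ =
      FN N v θ * cs u θ := by
  unfold FN
  rw [mul_assoc]
  congr 1
  have h1 : ∑ a ∈ Finset.range N, ∑ b ∈ Finset.range N, cs (((a : ℤ) - b) • v + u) θ =
      ∑ a ∈ Finset.range N, ∑ b ∈ Finset.range N, cs (((a : ℤ) - b) • v - u) θ := by
    rw [Finset.sum_comm]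
    apply Finset.sum_congr rfl
    intro a _
    apply Finset.sum_congr rfl
    intro b _
    rw [← cs_neg]
    congr 1
    rw [neg_add, ← neg_smul, neg_sub, sub_eq_add_neg (((a : ℤ) - b) • v)]
  have h2 : (∑ a ∈ Finset.range N, ∑ b ∈ Finset.range N, cs (((a : ℤ) - b) • v) θ) * cs u θ =
      (∑ a ∈ Finset.range N, ∑ b ∈ Finset.range N, cs (((a : ℤ) - b) • v + u) θ +
        ∑ a ∈ Finset.range N, ∑ b ∈ Finset.range N, cs (((a : ℤ) - b) • v - u) θ) / 2 := by
    rw [Finset.sum_mul, ← Finset.sum_add_distrib, Finset.sum_div]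
    apply Finset.sum_congr rfl
    intro a _
    rw [Finset.sum_mul, ← Finset.sum_add_distrib, Finset.sum_div]
    apply Finset.sum_congr rfl
    intro b _
    rw [cs_mul]
  rw [h2, ← h1]
  ring

/-! ### the spectral side -/

variable {V : (Fin 2 → ℤ) → ℝ}

theorem FN_int (μ : Measure (UnitAddTorus (Fin 2))) [IsFiniteMeasure μ] (N : ℕ) (v : Fin 2 → ℤ)
    {g : UnitAddTorus (Fin 2) → ℝ} (hg : Continuous g) {K : ℝ} (hK : ∀ θ, |g θ| ≤ K) :
    Integrable (fun θ => FN N v θ * g θ) μ := by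
  refine Integrable.of_bound (C := 1 * K) ((FN_continuous N v).mul hg).aestronglyMeasurable
    (Eventually.of_forall fun θ => ?_)
  rw [norm_mul, Real.norm_eq_abs, Real.norm_eq_abs, abs_of_nonneg (FN_nonneg N v θ)]
  exact mul_le_mul (FN_le N v θ) (hK θ) (abs_nonneg _) (by norm_num)

theorem meas_line (v : Fin 2 → ℤ) : MeasurableSet {θ : UnitAddTorus (Fin 2) | mFourier v θ = 1} :=
  measurableSet_eq_fun (mFourier v).continuous.measurable measurable_const

/-- the remainder of the Fejér kernel off the line -/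
noncomputable def eps (h : VH0 V) (e v : Fin 2 → ℤ) (N : ℕ) : ℝ :=
  ∫ θ in {θ | mFourier v θ = 1}ᶜ, FN N v θ ∂(PE h e)

theorem eps_nonneg (h : VH0 V) (e v : Fin 2 → ℤ) (N : ℕ) : 0 ≤ eps h e v N :=
  integral_nonneg fun θ => FN_nonneg N v θ

theorem eps_tendsto (h : VH0 V) (e v : Fin 2 → ℤ) : Tendsto (eps h e v) atTop (𝓝 0) := by
  have h1 : Tendsto (fun N : ℕ => ∫ θ in {θ | mFourier v θ = 1}ᶜ, FN N v θ ∂(PE h e)) atTop
      (𝓝 (∫ θ in {θ | mFourier v θ = 1}ᶜ, (if mFourier v θ = 1 then (1 : ℝ) else 0) ∂(PE h e))) := by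
    apply tendsto_integral_of_dominated_convergence (fun _ => (1 : ℝ))
    · intro N
      exact (FN_continuous N v).aestronglyMeasurable
    · exact integrable_const _
    · intro N
      refine Eventually.of_forall fun θ => ?_
      rw [Real.norm_eq_abs, abs_of_nonneg (FN_nonneg N v θ)]
      exact FN_le N v θ
    · exact Eventually.of_forall fun θ => FN_tendsto v θ
  have h2 : ∫ θ in {θ | mFourier v θ = 1}ᶜ, (if mFourier v θ = 1 then (1 : ℝ) else 0) ∂(PE h e) = 0 := by
    rw [setIntegral_congr_fun (g := fun _ => (0 : ℝ)) (meas_line v).compl]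
    · simp only [integral_zero]
    · intro θ hθ
      exact if_neg hθ
  rw [h2] at h1
  exact h1

theorem FN_cs_tendsto (h : VH0 V) (e v u : Fin 2 → ℤ) :
    Tendsto (fun N : ℕ => ∫ θ, FN N v θ * cs u θ ∂(PE h e)) atTop
      (𝓝 (∫ θ in {θ | mFourier v θ = 1}, cs u θ ∂(PE h e))) := by
  have h1 : Tendsto (fun N : ℕ => ∫ θ, FN N v θ * cs u θ ∂(PE h e)) atTop
      (𝓝 (∫ θ, (if mFourier v θ = 1 then (1 : ℝ) else 0) * cs u θ ∂(PE h e))) := by
    apply tendsto_integral_of_dominated_convergence (fun _ => (1 : ℝ))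
    · intro N
      exact ((FN_continuous N v).mul (cs_continuous u)).aestronglyMeasurable
    · exact integrable_const _
    · intro N
      refine Eventually.of_forall fun θ => ?_
      rw [norm_mul, Real.norm_eq_abs, Real.norm_eq_abs, abs_of_nonneg (FN_nonneg N v θ)]
      exact mul_le_one₀ (FN_le N v θ) (abs_nonneg _) (abs_cs_le _ _)
    · exact Eventually.of_forall fun θ => (FN_tendsto v θ).mul_const _
  have h2 : ∫ θ, (if mFourier v θ = 1 then (1 : ℝ) else 0) * cs u θ ∂(PE h e) =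
      ∫ θ in {θ | mFourier v θ = 1}, cs u θ ∂(PE h e) := by
    rw [← integral_indicator (meas_line v)]
    apply integral_congr_ae
    refine Eventually.of_forall fun θ => ?_
    by_cases hθ : mFourier v θ = 1
    · simp only [hθ, ↓reduceIte, one_mul, Set.mem_ofPred_eq, Set.indicator_of_mem]
    · simp only [hθ, ↓reduceIte, zero_mul, Set.mem_ofPred_eq, not_false_eq_true, Set.indicator_of_notMem]
  rw [h2] at h1
  exact h1

theorem FN_diff_le (h : VH0 V) (e v s : Fin 2 → ℤ) (N : ℕ)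
    (H : ∀ᵐ θ ∂(PE h e), mFourier v θ = 1 → cs s θ = 1) :
    ∫ θ, FN N v θ * (2 - 2 * cs s θ) ∂(PE h e) ≤ 4 * eps h e v N := by
  have hg : Continuous fun θ : UnitAddTorus (Fin 2) => 2 - 2 * cs s θ :=
    continuous_const.sub (continuous_const.mul (cs_continuous s))
  have hK : ∀ θ : UnitAddTorus (Fin 2), |2 - 2 * cs s θ| ≤ 4 := by
    intro θ
    have := abs_le.1 (abs_cs_le s θ)
    rw [abs_le]; constructor <;> linarith only [this]
  have hi := FN_int (PE h e) N v hg hK
  rw [← integral_add_compl (meas_line v) hi]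
  have h1 : ∫ θ in {θ | mFourier v θ = 1}, FN N v θ * (2 - 2 * cs s θ) ∂(PE h e) = 0 := by
    rw [setIntegral_congr_ae (g := fun _ => (0 : ℝ)) (meas_line v)]
    · simp only [integral_zero]
    · filter_upwards [H] with θ hθ hv
      rw [hθ hv]; ring
  rw [h1, zero_add]
  unfold eps
  rw [← integral_const_mul]
  apply integral_mono
  · exact hi.restrict
  · refine Integrable.const_mul ?_ 4
    refine Integrable.of_bound (C := 1) (FN_continuous N v).aestronglyMeasurable
      (Eventually.of_forall fun θ => ?_)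
    rw [Real.norm_eq_abs, abs_of_nonneg (FN_nonneg N v θ)]
    exact FN_le N v θ
  · intro θ
    show FN N v θ * (2 - 2 * cs s θ) ≤ 4 * FN N v θ
    rw [mul_comm 4]
    exact mul_le_mul_of_nonneg_left ((le_abs_self _).trans (hK θ)) (FN_nonneg N v θ)

/-- on the line of `e`, the measure `PE e` lives at `0` -/
theorem PE_line_cs (h : VH0 V) (e s : Fin 2 → ℤ) :
    ∀ᵐ θ ∂(PE h e), mFourier e θ = 1 → cs s θ = 1 := by
  have h1 := PE_comm h e s
  set L := {θ : UnitAddTorus (Fin 2) | mFourier e θ = 1}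
  have hL : MeasurableSet L := meas_line e
  have h2 : ((PE h s).withDensity (xe e)) L = 0 := by
    rw [withDensity_apply _ hL]
    rw [lintegral_eq_zero_iff (xe_measurable e)]
    rw [EventuallyEq, ae_restrict_iff' hL]
    refine Eventually.of_forall fun θ hθ => ?_
    have : mFourier e θ = 1 := hθ
    simp [xe, XX, cs, this]
  rw [← h1, withDensity_apply _ hL, lintegral_eq_zero_iff (xe_measurable s), EventuallyEq,
    ae_restrict_iff' hL] at h2
  filter_upwards [h2] with θ hθ he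
  have h3 := hθ he
  simp only [Pi.zero_apply, xe, ENNReal.ofReal_eq_zero, XX] at h3
  have := (abs_le.1 (abs_cs_le s θ)).2
  linarith only [h3, this]

end Vale.Agent.P145W85.P153.RP
end

section

/-!
# B5, part 2: the row function is approximately a finite Stieltjes function
-/

open MeasureTheory Filter Topology Set
open scoped BigOperators

namespace Vale.Agent.P145W85.P153.Iso

theorem continuous_inv_den {θ : ℝ} (hθ : Real.sin θ ≠ 0) : Continuous fun τ => 1 / den τ θ := by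
  apply Continuous.div continuous_const
  · unfold den; fun_prop
  · intro τ; exact (den_pos hθ).ne'

/-- A common modulus of continuity. -/
theorem common_modulus (T : Finset ℝ) (hT : ∀ θ ∈ T, Real.sin θ ≠ 0) {ε : ℝ} (hε : 0 < ε) :
    ∃ δ, 0 < δ ∧ ∀ θ ∈ T, ∀ s ∈ Icc (0:ℝ) 1, ∀ t ∈ Icc (0:ℝ) 1, |s - t| < δ →
      |1 / den s θ - 1 / den t θ| ≤ ε := by
  classical
  induction T using Finset.induction_on with
  | empty => exact ⟨1, one_pos, by simp only [Finset.notMem_empty, mem_Icc, one_div, and_imp, IsEmpty.forall_iff, implies_true]⟩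
  | insert a T ha ih =>
    obtain ⟨δ1, hδ1, h1⟩ := ih (fun θ hθ => hT θ (Finset.mem_insert_of_mem hθ))
    have hc := (continuous_inv_den (hT a (Finset.mem_insert_self a T))).continuousOn (s := Icc (0:ℝ) 1)
    have hu := isCompact_Icc.uniformContinuousOn_of_continuous hc
    rw [Metric.uniformContinuousOn_iff] at hu
    obtain ⟨δ2, hδ2, h2⟩ := hu ε hε
    refine ⟨min δ1 δ2, lt_min hδ1 hδ2, ?_⟩
    intro θ hθ s hs t ht hst
    rcases Finset.mem_insert.1 hθ with rfl | hθ'
    · have := h2 s hs t ht (by rw [Real.dist_eq]; exact lt_of_lt_of_le hst (min_le_right _ _))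
      rw [Real.dist_eq] at this
      exact this.le
    · exact h1 θ hθ' s hs t ht (lt_of_lt_of_le hst (min_le_left _ _))

theorem riemann {μ : Measure ℝ} [IsFiniteMeasure μ] (hs : ∀ᵐ τ ∂μ, 0 ≤ τ ∧ τ < 1)
    (T : Finset ℝ) (hT : ∀ θ ∈ T, Real.sin θ ≠ 0) {ε : ℝ} (hε : 0 < ε) :
    ∃ (n : ℕ) (w t : Fin n → ℝ), (∀ i, 0 ≤ w i) ∧ (∀ i, 0 < t i ∧ t i < 1) ∧
      ∀ θ ∈ T, |(∫ τ, 1 / den τ θ ∂μ) - ∑ i, w i * (1 / den (t i) θ)| ≤ ε := by
  set M : ℝ := μ.real univ with hM
  have hM0 : 0 ≤ M := measureReal_nonneg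
  obtain ⟨δ, hδ, hmod⟩ := common_modulus T hT (ε := ε / (M + 1)) (by positivity)
  obtain ⟨N, hN⟩ := exists_nat_gt (1 / δ)
  have hNpos : (0:ℝ) < N := lt_trans (by positivity) hN
  have hdN : 1 / (N:ℝ) < δ := by
    rw [div_lt_iff₀ hδ] at hN
    rw [div_lt_iff₀ hNpos]; linarith
  set I : Fin N → Set ℝ := fun i => Ico ((i:ℝ) / N) (((i:ℝ) + 1) / N) with hI
  set t : Fin N → ℝ := fun i => ((i:ℝ) + 1 / 2) / N with ht
  have hI' : ∀ i, MeasurableSet (I i) := fun i => measurableSet_Ico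
  have htpos : ∀ i, 0 < t i ∧ t i < 1 := by
    intro i
    have hi : ((i:ℕ):ℝ) + 1 ≤ N := by exact_mod_cast i.2
    constructor
    · simp only [ht]; (clear * - hNpos; positivity)
    · simp only [ht]; rw [div_lt_one hNpos]; linarith only [hi]
  refine ⟨N, fun i => μ.real (I i), t, fun i => measureReal_nonneg, htpos, ?_⟩
  intro θ hθ
  have hsθ := hT θ hθ
  set f : ℝ → ℝ := fun τ => 1 / den τ θ with hf
  set g : ℝ → ℝ := fun τ => ∑ i : Fin N, (I i).indicator (fun _ => f (t i)) τ with hg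
  have hgint : Integrable g μ := by
    apply integrable_finsetSum
    intro i _
    exact (integrable_const _).indicator (hI' i)
  have hgval : ∫ τ, g τ ∂μ = ∑ i : Fin N, μ.real (I i) * f (t i) := by
    rw [hg, integral_finsetSum]
    · refine Finset.sum_congr rfl fun i _ => ?_
      rw [integral_indicator_const _ (hI' i), smul_eq_mul]
    · intro i _
      exact (integrable_const _).indicator (hI' i)
  rw [← hgval, ← integral_sub (integrable_den hsθ) hgint]
  have hpt : ∀ τ, 0 ≤ τ → τ < 1 → |f τ - g τ| ≤ ε / (M + 1) := by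
    intro τ h0 h1
    set j : ℕ := ⌊τ * N⌋₊ with hj
    have hj1 : (j:ℝ) ≤ τ * N := Nat.floor_le (by (clear * - h0 hNpos; positivity))
    have hj2 : τ * N < j + 1 := Nat.lt_floor_add_one _
    have hjN : j < N := by
      have : (j:ℝ) < N := lt_of_le_of_lt hj1 (by nlinarith only [hNpos, h1])
      exact_mod_cast this
    have hmem : τ ∈ I ⟨j, hjN⟩ := by
      simp only [hI, mem_Ico]
      exact ⟨by rw [div_le_iff₀ hNpos]; exact hj1, by rw [lt_div_iff₀ hNpos]; exact hj2⟩
    have hgτ : g τ = f (t ⟨j, hjN⟩) := by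
      rw [hg]
      simp only
      rw [Finset.sum_eq_single (⟨j, hjN⟩ : Fin N)]
      · rw [indicator_of_mem hmem]
      · intro i _ hi
        apply indicator_of_notMem
        intro hmem'
        simp only [hI, mem_Ico] at hmem'
        rw [div_le_iff₀ hNpos, lt_div_iff₀ hNpos] at hmem'
        apply hi
        have a1 : ((i:ℕ):ℝ) < j + 1 := by linarith only [hj2, hmem']
        have a2 : (j:ℝ) < ((i:ℕ):ℝ) + 1 := by linarith only [hj1, hmem']
        have b1 : (i:ℕ) < j + 1 := by exact_mod_cast a1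
        have b2 : j < (i:ℕ) + 1 := by exact_mod_cast a2
        apply Fin.ext
        simp only
        omega
      · simp only [Finset.mem_univ, not_true_eq_false, indicator_apply_eq_zero, IsEmpty.forall_iff]
    rw [hgτ]
    apply hmod θ hθ τ ⟨h0, h1.le⟩ _ ⟨(htpos _).1.le, (htpos _).2.le⟩
    simp only [ht]
    have e1 : τ - ((j:ℝ) + 1 / 2) / N = (τ * N - (j + 1 / 2)) / N := by (clear * - hNpos; field_simp)
    rw [e1, abs_div, abs_of_pos hNpos, div_lt_iff₀ hNpos]
    rw [div_lt_iff₀ hNpos] at hdN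
    rw [abs_lt]
    constructor <;> nlinarith only [hdN, hj1, hj2]
  calc |∫ τ, (f τ - g τ) ∂μ| = ‖∫ τ, (f τ - g τ) ∂μ‖ := (Real.norm_eq_abs _).symm
    _ ≤ (ε / (M + 1)) * μ.real univ := by
        apply norm_integral_le_of_norm_le_const
        filter_upwards [hs] with τ hτ
        exact hpt τ hτ.1 hτ.2
    _ ≤ ε := by
        rw [← hM, div_mul_eq_mul_div, div_le_iff₀ (by (clear * -; positivity))]
        nlinarith only [hε]

/-- `1/den` as a Stieltjes kernel in `X = 2 - 2 cos θ`. -/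
theorem inv_den_eq {τ θ : ℝ} (h0 : 0 < τ) (h1 : τ < 1) :
    1 / den τ θ = (1 / τ) / ((1 - τ) ^ 2 / τ + (2 - 2 * Real.cos θ)) := by
  have p := den_pos' (θ := θ) h0.le h1
  have hX : 0 ≤ 2 - 2 * Real.cos θ := by (clear * -; linarith [Real.cos_le_one θ])
  have h2 : 0 < (1 - τ) ^ 2 := by have : 0 < 1 - τ := by linarith
                                  positivity
  have h3 : 0 < (1 - τ) ^ 2 / τ + (2 - 2 * Real.cos θ) := by positivity
  unfold den at p ⊢
  field_simp

end Vale.Agent.P145W85.P153.Iso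
end

section

/-!
# Isotropy from reflection positivity in two directions: the algebraic core

`G nu z x = ∑ nu i / (z i + x)` is a (finite) Stieltjes function.  The inequality `core` relates its
values at `0`, `1/3`, `3`, `x0` and an arbitrary `x ≥ 0`; it is the only place where positivity is
used.
-/

open scoped BigOperators

namespace Vale.Agent.P145W85.P153.Iso

/-- A finite Stieltjes function. -/
noncomputable def G {n : ℕ} (nu z : Fin n → ℝ) (x : ℝ) : ℝ := ∑ i, nu i / (z i + x)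

/-- The deficit weight. -/
noncomputable def W (x0 z : ℝ) : ℝ :=
  (z - 1) ^ 2 * (z + 1) * x0 / (z * (z + 3) * (z + 1 / 3) * (z + x0))

theorem W_nonneg {x0 z : ℝ} (hx : 0 < x0) (hz : 0 < z) : 0 ≤ W x0 z := by
  unfold W; positivity

/-- Pointwise inequality: the deficit. -/
theorem W_le {x0 z : ℝ} (hx : 0 < x0) (hz : 0 < z) :
    W x0 z ≤ 1 / (z + 0) - 4 * (1 / (z + 3)) + x0 * (1 / (z + x0)) - 4 / 3 * (1 / (z + 1 / 3))
      + 13 / 3 * (1 / (z + x0)) := by
  have key : 1 / (z + 0) - 4 * (1 / (z + 3)) + x0 * (1 / (z + x0)) - 4 / 3 * (1 / (z + 1 / 3))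
      + 13 / 3 * (1 / (z + x0)) - W x0 z
      = (112 / 9 * z + 16 / 3) / ((z + 3) * (z + 1 / 3) * (z + x0)) := by
    unfold W
    rw [add_zero]
    have h1 : z ≠ 0 := ne_of_gt hz
    have h2 : z + 3 ≠ 0 := by positivity
    have h3 : z + 1 / 3 ≠ 0 := by positivity
    have h4 : z + x0 ≠ 0 := by positivity
    field_simp
    ring
  have : 0 ≤ (112 / 9 * z + 16 / 3) / ((z + 3) * (z + 1 / 3) * (z + x0)) := by positivity
  linarith

/-- The other Cauchy-Schwarz weight. -/
noncomputable def V (x0 x z : ℝ) : ℝ :=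
  x0 * z * (z + 3) * (z + 1 / 3) / ((z + 1) * (z + x) ^ 2 * (1 + x) ^ 2 * (z + x0))

theorem V_nonneg {x0 x z : ℝ} (hx0 : 0 < x0) (hx : 0 ≤ x) (hz : 0 < z) : 0 ≤ V x0 x z := by
  unfold V; positivity

theorem V_le {x0 x z : ℝ} (hx0 : 0 < x0) (hx : 0 ≤ x) (hz : 0 < z) :
    V x0 x z ≤ x0 * (1 / (z + x0)) + 7 / 3 * (1 / (z + 0)) := by
  have h1 : V x0 x z ≤ x0 * z * (z + 3) * (z + 1 / 3) / ((z + 1) * z ^ 2 * 1 * (z + x0)) := by
    unfold V
    apply div_le_div_of_nonneg_left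
    · positivity
    · positivity
    · have a1 : z ^ 2 ≤ (z + x) ^ 2 := by nlinarith only [hx, hz]
      have a2 : (1 : ℝ) ≤ (1 + x) ^ 2 := by nlinarith only [hx]
      have a3 : 0 < z + 1 := by positivity
      have a4 : 0 < z + x0 := by positivity
      apply mul_le_mul_of_nonneg_right _ a4.le
      apply mul_le_mul
      · exact mul_le_mul_of_nonneg_left a1 a3.le
      · exact a2
      · norm_num
      · positivity
  refine h1.trans ?_
  have key : x0 * (1 / (z + x0)) + 7 / 3 * (1 / (z + 0))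
      - x0 * z * (z + 3) * (z + 1 / 3) / ((z + 1) * z ^ 2 * 1 * (z + x0))
      = (7 / 3 * z ^ 2 + 7 / 3 * z + 4 / 3 * x0) / ((z + 1) * z * (z + x0)) := by
    rw [add_zero]
    have h1 : z ≠ 0 := ne_of_gt hz
    have h2 : z + 1 ≠ 0 := by positivity
    have h4 : z + x0 ≠ 0 := by positivity
    field_simp
    ring
  have : 0 ≤ (7 / 3 * z ^ 2 + 7 / 3 * z + 4 / 3 * x0) / ((z + 1) * z * (z + x0)) := by positivity
  linarith

theorem G_nonneg {n : ℕ} {nu z : Fin n → ℝ} (hnu : ∀ i, 0 ≤ nu i) (hz : ∀ i, 0 < z i) {x : ℝ}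
    (hx : 0 ≤ x) : 0 ≤ G nu z x := by
  unfold G
  exact Finset.sum_nonneg fun i _ => div_nonneg (hnu i) (by linarith [hz i])

/-- The deficit `D = ∑ nu W`. -/
noncomputable def D {n : ℕ} (nu z : Fin n → ℝ) (x0 : ℝ) : ℝ := ∑ i, nu i * W x0 (z i)

theorem D_nonneg {n : ℕ} {nu z : Fin n → ℝ} (hnu : ∀ i, 0 ≤ nu i) (hz : ∀ i, 0 < z i) {x0 : ℝ}
    (hx : 0 < x0) : 0 ≤ D nu z x0 :=
  Finset.sum_nonneg fun i _ => mul_nonneg (hnu i) (W_nonneg hx (hz i))

theorem D_le {n : ℕ} {nu z : Fin n → ℝ} (hnu : ∀ i, 0 ≤ nu i) (hz : ∀ i, 0 < z i) {x0 : ℝ}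
    (hx : 0 < x0) :
    D nu z x0 ≤ G nu z 0 - 4 * G nu z 3 + x0 * G nu z x0 - 4 / 3 * G nu z (1 / 3)
      + 13 / 3 * G nu z x0 := by
  have h : ∀ i, nu i * W x0 (z i) ≤ nu i / (z i + 0) - 4 * (nu i / (z i + 3))
      + x0 * (nu i / (z i + x0)) - 4 / 3 * (nu i / (z i + 1 / 3))
      + 13 / 3 * (nu i / (z i + x0)) := by
    intro i
    have := mul_le_mul_of_nonneg_left (W_le hx (hz i)) (hnu i)
    refine this.trans (le_of_eq ?_)
    ring
  calc D nu z x0 ≤ ∑ i, (nu i / (z i + 0) - 4 * (nu i / (z i + 3))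
      + x0 * (nu i / (z i + x0)) - 4 / 3 * (nu i / (z i + 1 / 3))
      + 13 / 3 * (nu i / (z i + x0))) := Finset.sum_le_sum fun i _ => h i
    _ = _ := by
      simp only [Finset.sum_add_distrib, Finset.sum_sub_distrib, ← Finset.mul_sum, G]

/-- **Core inequality.**  If the deficit is small then the Stieltjes function is close to
`H / (1 + x)`, `H = x0 * G x0`. -/
theorem core {n : ℕ} {nu z : Fin n → ℝ} (hnu : ∀ i, 0 ≤ nu i) (hz : ∀ i, 0 < z i) {x0 : ℝ}
    (hx0 : 0 < x0) {x : ℝ} (hx : 0 ≤ x) :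
    ∃ e : ℝ, 0 ≤ e ∧ e ≤ G nu z x0 ∧
      (G nu z x - x0 * G nu z x0 / (1 + x) - e) ^ 2
        ≤ D nu z x0 * (x0 * G nu z x0 + 7 / 3 * G nu z 0) := by
  refine ⟨∑ i, nu i * (z i / ((z i + x) * (z i + x0))), ?_, ?_, ?_⟩
  · exact Finset.sum_nonneg fun i _ => mul_nonneg (hnu i)
      (by have := hz i; positivity)
  · unfold G
    refine Finset.sum_le_sum fun i _ => ?_
    have hzi := hz i
    have h4 : 0 < z i + x0 := by positivity
    have h5 : 0 < z i + x := by positivity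
    have : nu i * (z i / ((z i + x) * (z i + x0))) = nu i / (z i + x0) * (z i / (z i + x)) := by
      field_simp
    rw [this]
    refine mul_le_of_le_one_right (div_nonneg (hnu i) h4.le) ?_
    rw [div_le_one h5]; linarith only [hx]
  · have hid : G nu z x - x0 * G nu z x0 / (1 + x)
        - ∑ i, nu i * (z i / ((z i + x) * (z i + x0)))
        = ∑ i, nu i * (x0 * (1 - z i) / ((z i + x) * (1 + x) * (z i + x0))) := by
      unfold G
      rw [Finset.mul_sum, Finset.sum_div, ← Finset.sum_sub_distrib, ← Finset.sum_sub_distrib]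
      refine Finset.sum_congr rfl fun i _ => ?_
      have hzi := hz i
      have h1 : z i + x ≠ 0 := by positivity
      have h2 : z i + x0 ≠ 0 := by positivity
      have h3 : 1 + x ≠ 0 := by positivity
      field_simp
      ring
    rw [hid]
    have hcs := Finset.sum_sq_le_sum_mul_sum_of_sq_le_mul (Finset.univ : Finset (Fin n))
      (r := fun i => nu i * (x0 * (1 - z i) / ((z i + x) * (1 + x) * (z i + x0))))
      (f := fun i => nu i * W x0 (z i)) (g := fun i => nu i * V x0 x (z i))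
      (fun i _ => mul_nonneg (hnu i) (W_nonneg hx0 (hz i)))
      (fun i _ => mul_nonneg (hnu i) (V_nonneg hx0 hx (hz i)))
      (fun i _ => by
        have hzi := hz i
        unfold W V
        have h1 : z i + x ≠ 0 := by positivity
        have h2 : z i + x0 ≠ 0 := by positivity
        have h3 : 1 + x ≠ 0 := by positivity
        have h4 : z i ≠ 0 := by positivity
        have h5 : z i + 3 ≠ 0 := by positivity
        have h6 : z i + 1 / 3 ≠ 0 := by positivity
        have h7 : z i + 1 ≠ 0 := by positivity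
        apply le_of_eq
        field_simp
        ring)
    refine hcs.trans ?_
    refine mul_le_mul_of_nonneg_left ?_ (D_nonneg hnu hz hx0)
    calc ∑ i, nu i * V x0 x (z i)
        ≤ ∑ i, nu i * (x0 * (1 / (z i + x0)) + 7 / 3 * (1 / (z i + 0))) :=
          Finset.sum_le_sum fun i _ => mul_le_mul_of_nonneg_left (V_le hx0 hx (hz i)) (hnu i)
      _ = x0 * G nu z x0 + 7 / 3 * G nu z 0 := by
          unfold G
          rw [Finset.mul_sum, Finset.mul_sum, ← Finset.sum_add_distrib]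
          refine Finset.sum_congr rfl fun i _ => ?_
          ring

end Vale.Agent.P145W85.P153.Iso
end

section

/-!
P145: paths through a shell. A path which crosses a shell can only use the corridors, so it has to
pass one of the sparse points of the corridors.
-/

namespace Vale.Agent.P145W85.P145.X

open Relation

/-- The faces joined by `E`-paths to the box of radius `r` around `x` are in the box of radius `R`
around `x`. -/
def CBox (E : ℤ × ℤ → ℤ × ℤ → Prop) (x : ℤ × ℤ) (r R : ℤ) : Prop :=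
  ∀ u v, |u.1 - x.1| ≤ r → |u.2 - x.2| ≤ r → ReflTransGen E u v →
    |v.1 - x.1| ≤ R ∧ |v.2 - x.2| ≤ R

theorem shell_symm {V : Type*} {E : V → V → Prop} (hs : ∀ u v, E u v → E v u) {u v : V}
    (h : ReflTransGen E u v) : ReflTransGen E v u := by
  induction h with
  | refl => exact ReflTransGen.refl
  | tail _ h ih => exact ReflTransGen.head (hs _ _ h) ih

theorem shell_floor {x y l p q W a : ℝ} (hl : 0 < l) (h : ⌊x / l⌋ = ⌊y / l⌋)
    (hpq : |p - q| ≤ |x - y| + W) (hp : p ≤ a) : q < a + l + W := by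
  have h1 := Int.floor_le (x / l)
  have h2 := Int.lt_floor_add_one (x / l)
  have h3 := Int.floor_le (y / l)
  have h4 := Int.lt_floor_add_one (y / l)
  rw [h] at h1 h2
  have h5 : |x / l - y / l| < 1 := by
    rw [abs_lt]
    constructor <;> linarith only [h1, h4, h2, h3]
  have h6 : |x - y| < l := by
    have : |x - y| = |x / l - y / l| * l := by
      rw [← sub_div, abs_div, abs_of_pos hl]
      field_simp
    rw [this]
    nlinarith only [hl, h5]
  have h7 := (abs_le.1 (hpq.trans (add_le_add_left h6.le W))).1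
  have h8 := (abs_le.1 hpq).1
  linarith only [hp, h6, h8]

theorem shell_step {x y l τ : ℝ} (hl : 0 < l) (hxy : |x - y| ≤ τ)
    (h : ∀ k : ℤ, τ < |y - k * l|) : ⌊x / l⌋ = ⌊y / l⌋ := by
  have h3 := Int.floor_le (y / l)
  have h4 := Int.lt_floor_add_one (y / l)
  rw [le_div_iff₀ hl] at h3
  rw [div_lt_iff₀ hl] at h4
  have h5 := h ⌊y / l⌋
  have h6 := h (⌊y / l⌋ + 1)
  push_cast at h6
  rw [abs_of_nonneg (by linarith only [h3])] at h5
  rw [abs_of_nonpos (by linarith only [h4])] at h6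
  have h7 := abs_le.1 hxy
  rw [Int.floor_eq_iff, le_div_iff₀ hl, div_lt_iff₀ hl]
  constructor <;> linarith only [h5, h7, h6]

/-- **Shell lemma, abstract form.** `ρ` is the distance from the inner domain, `K i` the corridors,
`t i` the coordinate along the corridor `i`. In the shell `a ≤ ρ ≤ b` the clusters of the vertices
off the corridors, and of the vertices of the corridors with `t i` close to a multiple of `l`, do
not change `ρ` by `h`. Then the shell is not crossed. -/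
theorem shell_abs {V I : Type*} {E : V → V → Prop} (hs : ∀ u v, E u v → E v u) {ρ : V → ℝ}
    {K : I → Set V} {t : I → V → ℝ} {a b d τ l W h : ℝ} (hl : 0 < l) (hh : 0 < h) (hd : 0 ≤ d)
    (hW : 0 ≤ W) (hab : a + 2 * d + l + W ≤ b)
    (hρ : ∀ u v, E u v → |ρ u - ρ v| ≤ d)
    (ht : ∀ i u v, E u v → |t i u - t i v| ≤ τ)
    (hK : ∀ i j u v, E u v → u ∈ K i → v ∈ K j → a ≤ ρ u → a ≤ ρ v → i = j)
    (hlip : ∀ i u v, u ∈ K i → v ∈ K i → |ρ u - ρ v| ≤ |t i u - t i v| + W)
    (h1 : ∀ v, a ≤ ρ v → ρ v ≤ b → (∀ i, v ∉ K i) → ∀ w, ReflTransGen E v w → |ρ v - ρ w| < h)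
    (h2 : ∀ i v, v ∈ K i → a ≤ ρ v → ρ v ≤ b → (∃ k : ℤ, |t i v - k * l| ≤ τ) →
      ∀ w, ReflTransGen E v w → |ρ v - ρ w| < h)
    {u v : V} (hu : ρ u ≤ a - h) (hv : b ≤ ρ v) : ¬ ReflTransGen E u v := by
  intro huv
  -- the vertices of the cluster in the shell
  have hC : ∀ x, ReflTransGen E u x → a ≤ ρ x → ρ x ≤ b →
      ∃ i, x ∈ K i ∧ ∀ k : ℤ, τ < |t i x - k * l| := by
    intro x hux hax hxb
    have hfar : ¬ |ρ x - ρ u| < h := by
      intro hlt
      have := (abs_lt.1 hlt).2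
      linarith
    by_cases hx : ∀ i, x ∉ K i
    · exact absurd (h1 x hax hxb hx u (shell_symm hs hux)) hfar
    · push Not at hx
      obtain ⟨i, hi⟩ := hx
      refine ⟨i, hi, fun k => ?_⟩
      by_contra hk
      push Not at hk
      exact hfar (h2 i x hi hax hxb ⟨k, hk⟩ u (shell_symm hs hux))
  have key : ρ v < a ∨ ∃ i e, e ∈ K i ∧ v ∈ K i ∧ ρ e ≤ a + d ∧ a ≤ ρ v ∧
      ⌊t i e / l⌋ = ⌊t i v / l⌋ := by
    clear hv
    induction huv with
    | refl => exact Or.inl (by linarith only [hh, hu])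
    | @tail x y hux hxy ih =>
      by_cases hya : ρ y < a
      · exact Or.inl hya
      push Not at hya
      right
      have h3 := abs_le.1 (hρ x y hxy)
      rcases ih with ih | ⟨i, e, he, hx, hea, hax, hfl⟩
      · obtain ⟨i, hi, -⟩ := hC y (hux.tail hxy) hya (by linarith)
        exact ⟨i, y, hi, hi, by linarith only [h3, ih], hya, rfl⟩
      · have h4 : ρ x < a + d + l + W := shell_floor hl hfl (hlip i e x he hx) hea
        obtain ⟨j, hj, hy⟩ := hC y (hux.tail hxy) hya (by linarith)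
        have hij := hK i j x y hxy hx hj hax hya
        subst hij
        refine ⟨i, e, he, hj, hea, hya, hfl.trans ?_⟩
        obtain ⟨i', hi', hx'⟩ := hC x hux hax (by linarith only [hd, hab, h4])
        exact shell_step hl (ht i x y hxy) hy
  rcases key with h | ⟨i, e, he, hx, hea, hax, hfl⟩
  · linarith
  · have h4 : ρ v < a + d + l + W := shell_floor hl hfl (hlip i e v he hx) hea
    linarith only [hd, hab, hv, h4]

/-! ### Geometry -/

/-- The point of the plane of the face `f` in the mesh `δ`. -/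
def fpt (δ : ℝ) (f : ℤ × ℤ) : ℝ × ℝ := (δ * f.1, δ * f.2)

theorem dist_fpt_le {δ : ℝ} (hδ : 0 ≤ δ) {u v : ℤ × ℤ} {R : ℤ} (h1 : |u.1 - v.1| ≤ R)
    (h2 : |u.2 - v.2| ≤ R) : dist (fpt δ u) (fpt δ v) ≤ δ * R := by
  have key : ∀ x y : ℤ, |x - y| ≤ R → dist (δ * (x : ℝ)) (δ * (y : ℝ)) ≤ δ * R := by
    intro x y hxy
    rw [Real.dist_eq, ← mul_sub, abs_mul, abs_of_nonneg hδ]
    refine mul_le_mul_of_nonneg_left ?_ hδ
    exact_mod_cast hxy
  rw [Prod.dist_eq]
  exact max_le (key _ _ h1) (key _ _ h2)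

end Vale.Agent.P145W85.P145.X
end

section

/-!
# P153, block F-B: Tassion's argument on the triangular lattice, the scale induction
-/

namespace Vale.Agent.P145W85.P153.F.RSW

open Relation

namespace PT

variable (P : PT)

/-- The bound for the cross event. -/
noncomputable def cX (c0 : ℝ) : ℝ := (c0 / 8) ^ 4 * c0

/-- The bound for the crossings at a good scale. -/
noncomputable def c1 (c0 : ℝ) : ℝ := (c0 / 4) ^ 2 * cX c0 * cX c0

theorem cX_nonneg {c0 : ℝ} (h0 : 0 ≤ c0) : 0 ≤ cX c0 := by unfold cX; positivity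

theorem cX_pos {c0 : ℝ} (h0 : 0 < c0) : 0 < cX c0 := by unfold cX; positivity

theorem c1_pos {c0 : ℝ} (h0 : 0 < c0) : 0 < c1 c0 := by
  have := cX_pos h0
  unfold c1; positivity

theorem cX_le {c0 : ℝ} (h0 : 0 ≤ c0) (h1 : c0 ≤ 1) : cX c0 ≤ 1 := by
  unfold cX
  have h2 : (c0 / 8) ^ 4 ≤ 1 := pow_le_one₀ (by positivity) (by (clear * - h1; linarith))
  calc (c0 / 8) ^ 4 * c0 ≤ 1 * 1 := mul_le_mul h2 h1 h0 zero_le_one
    _ = 1 := one_mul 1

/-- Good scales. -/
def Good (c0 : ℝ) (n : ℕ) : Prop := c1 c0 ≤ P.L (5 * n - 3) (4 * n + 2 * (n / 3 : ℕ))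

/-- Rhombi of side at least `N` are crossed with probability at least `c0`. -/
def Sq (c0 : ℝ) (N : ℕ) : Prop := ∀ n : ℤ, (N : ℤ) ≤ n → c0 ≤ P.L n n

/-- Hexagons of index at least `N` are crossed with probability at least `c0`. -/
def Hx (c0 : ℝ) (N : ℕ) : Prop := ∀ n : ℤ, (N : ℤ) ≤ n → c0 ≤ P.H n (-n) n

variable {P} {c0 : ℝ} {N : ℕ}

/-- First case of a good scale. -/
theorem good1 (G : Geo) (h0 : 0 < c0) (hc : c0 ≤ 1) (hhx : P.Hx c0 N) {n : ℕ} (hn : 2 * N ≤ n)
    (hn1 : 1 ≤ n) (ha : P.al c0 n < n / 2) (hb : P.al c0 n + 1 ≤ 2 * P.al c0 (n - n / 3)) :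
    P.Good c0 n := by
  obtain ⟨m, hm⟩ : ∃ m : ℕ, m = n - n / 3 := ⟨_, rfl⟩
  rw [← hm] at hb
  obtain ⟨v, hv⟩ : ∃ v : ℕ, v = (P.al c0 n + 1) / 2 := ⟨_, rfl⟩
  have hsm : c0 ≤ P.H m (-m) m := hhx _ (by (clear * - hn hm; omega))
  have e0 : c0 / 4 ≤ P.H n (-(P.al c0 m : ℤ) - (-(v : ℤ))) (P.al c0 m - (-(v : ℤ))) := by
    have h1 := P.H_gt ha (a := (P.al c0 n : ℤ) + 1) (by omega)
    have h2 := P.H_nonneg n ((P.al c0 n : ℤ) + 1) n
    have h4 : P.H n 0 ((P.al c0 n : ℤ) + 1) ≤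
        P.H n (-(P.al c0 m : ℤ) - (-(v : ℤ))) (P.al c0 m - (-(v : ℤ))) :=
      P.H_mono (by omega) (by (clear * - hb hv; omega))
    linarith only [h1, h2, h4]
  have e1 : c0 / 4 ≤ P.p (HT ((m : ℤ) - n) (-(v : ℤ)) n (-(P.al c0 m : ℤ)) (P.al c0 m)) := by
    rw [P.HT_eq]; exact e0
  have e2 : c0 / 4 ≤ P.p (HM ((n : ℤ) - m) (-(v : ℤ)) n (-(P.al c0 m : ℤ)) (P.al c0 m)) := by
    rw [P.HM_eq]; exact e0
  have e3 : cX c0 ≤ P.p (XX 0 0 m (P.al c0 m)) := P.XX_ge h0.le hsm 0 0 le_rfl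
  have key := P.fkg3 (T := BTp (-(v : ℤ) - (3 * n - m)) (-(v : ℤ) + (3 * n - m))
      (-(4 * n - 2 * m)) (4 * n - 2 * m))
    (IL_HT _ _ _ _ _) (IL_HM _ _ _ _ _) (IL_XX _ _ _ _)
    (fun S _ h1 h2 h3 => G.f1 n m v (P.al c0 m) S (by omega) (by omega) (by omega) (by omega)
      (by (clear * - hn hn1 ha hm hv; omega)) h1 h2 h3) (by positivity) (by positivity) (cX_nonneg h0.le) e1 e2 e3
  rw [P.B_eq'] at key
  have key2 := key.trans (P.L_mono G (w' := 5 * n - 3) (h' := 4 * n + 2 * (n / 3 : ℕ)) (by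
    by_contra hcon
    omega) (by omega) (by omega))
  refine le_trans ?_ key2
  unfold c1
  have := cX_le h0.le hc
  have h7 : 0 ≤ (c0 / 4) ^ 2 * cX c0 := mul_nonneg (by positivity) (cX_nonneg h0.le)
  calc (c0 / 4) ^ 2 * cX c0 * cX c0 ≤ (c0 / 4) ^ 2 * cX c0 * 1 :=
        mul_le_mul_of_nonneg_left this h7
    _ = c0 / 4 * (c0 / 4) * cX c0 := by ring

/-- Second case of a good scale. -/
theorem good2 (G : Geo) (h0 : 0 < c0) (hc : c0 ≤ 1) (hhx : P.Hx c0 N) {n : ℕ} (hn : 2 * N ≤ n)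
    (hn1 : 1 ≤ n) (ha : P.al c0 n = n / 2) : P.Good c0 n := by
  obtain ⟨h, hh⟩ : ∃ h : ℕ, h = n / 2 := ⟨_, rfl⟩
  have hsn : c0 ≤ P.H n (-n) n := hhx _ (by omega)
  have e1 : cX c0 ≤ P.p (XX 0 0 n h) := P.XX_ge h0.le hsn 0 0 (by omega)
  have e2 : cX c0 ≤ P.p (XX 0 (-(2 * h)) n h) := P.XX_ge h0.le hsn 0 _ (by omega)
  have key := P.fkg2 (T := LRp (-(2 * (h : ℤ)) - 2 * n) (2 * n) (-(2 * n)) (2 * n))
    (IL_XX _ _ _ _) (IL_XX _ _ _ _)
    (fun S _ h1 h2 => G.zig n h S (by omega) (by omega) (by omega) h1 h2) (cX_nonneg h0.le)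
    (cX_nonneg h0.le) e1 e2
  rw [P.L_eq'] at key
  have key2 := key.trans (P.L_mono G (w' := 5 * n - 3) (h' := 4 * n + 2 * (n / 3 : ℕ)) (by
    by_contra hcon
    omega) (by omega) (by omega))
  refine le_trans ?_ key2
  unfold c1
  have h7 : (c0 / 4) ^ 2 ≤ 1 := pow_le_one₀ (by positivity) (by linarith only [hc])
  have h8 := cX_nonneg h0.le
  calc (c0 / 4) ^ 2 * cX c0 * cX c0 = (c0 / 4) ^ 2 * (cX c0 * cX c0) := by ring
    _ ≤ 1 * (cX c0 * cX c0) := mul_le_mul_of_nonneg_right h7 (mul_nonneg h8 h8)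
    _ = cX c0 * cX c0 := one_mul _

/-- At a bad scale the threshold has doubled. -/
theorem not_good (G : Geo) (h0 : 0 < c0) (hc : c0 ≤ 1) (hhx : P.Hx c0 N) {n : ℕ} (hn : 2 * N ≤ n)
    (hn1 : 1 ≤ n) (hg : ¬ P.Good c0 n) :
    P.al c0 n < n / 2 ∧ 2 * P.al c0 (n - n / 3) ≤ P.al c0 n := by
  have h1 : P.al c0 n < n / 2 := by
    rcases (P.al_le c0 n).lt_or_eq with h | h
    · exact h
    · exact absurd (good2 G h0 hc hhx hn hn1 h) hg
  refine ⟨h1, ?_⟩
  by_contra h2
  exact hg (good1 G h0 hc hhx hn hn1 h1 (by omega))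

/-- Landing paths joined by an annulus. -/
theorem long_of_ann (G : Geo) (h0 : 0 < c0) {s t : ℕ} (hs : 0 < s) (hst : 2 * s ≤ t)
    (ha : P.al c0 t < s) {b : ℝ} (hb : 0 ≤ b) (hA : b ≤ P.p (Ann 0 0 s)) :
    (c0 / 4) * (c0 / 4) * b ≤ P.L (8 * t) (6 * t) := by
  have h1 := P.H_gt (c0 := c0) (n := t) (by omega) (a := (s : ℤ)) (by omega)
  have h2 := P.H_nonneg t (s : ℤ) t
  have h3 : c0 / 4 ≤ P.H t 0 s := by linarith only [h1, h2]
  have h4 : c0 / 4 ≤ P.p (HT (-(t : ℤ)) 0 t 0 s) := by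
    rw [P.HT_eq]; simpa only [sub_self, sub_zero] using h3
  have h5 : c0 / 4 ≤ P.p (HM (t : ℤ) 0 t 0 s) := by
    rw [P.HM_eq]; simpa only [sub_self, sub_zero] using h3
  have key := P.fkg3 (T := BTp (-(3 * (t : ℤ))) (3 * t) (-(4 * t)) (4 * t)) (IL_HT _ _ _ _ _)
    (IL_HM _ _ _ _ _) (IL_Ann _ _ _)
    (fun S _ h1 h2 h3 => G.f2 s t S (by omega) (by omega) h1 h2 h3) (by (clear * - h0; positivity))
    (by positivity) hb h4 h5 hA
  rw [P.B_eq'] at key
  have e1 : 4 * (t : ℤ) - (-(4 * (t : ℤ))) = 8 * t := by ring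
  have e2 : 3 * (t : ℤ) - (-(3 * (t : ℤ))) = 6 * t := by ring
  rwa [e1, e2] at key

/-- Landing paths joined at the point `(1, 0)`. -/
theorem long_of_edge (G : Geo) (h0 : 0 < c0) {t : ℕ} (ht : 2 ≤ t) (ha : P.al c0 t = 0) :
    (c0 / 4) * (c0 / 4) ≤ P.L (8 * t) (6 * t) := by
  have h1 := P.H_gt (c0 := c0) (n := t) (by omega) (a := 1) (by omega)
  have h2 := P.H_nonneg t 1 t
  have h3 : c0 / 4 ≤ P.H t 0 1 := by linarith
  have h4 : c0 / 4 ≤ P.p (HT (-(t : ℤ)) 0 t 0 1) := by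
    rw [P.HT_eq]; simpa only [sub_self, sub_zero] using h3
  have h5 : c0 / 4 ≤ P.p (HM (t : ℤ) 0 t 0 1) := by
    rw [P.HM_eq]; simpa only [sub_self, sub_zero] using h3
  have key := P.fkg2 (T := BTp (-(3 * (t : ℤ))) (3 * t) (-(4 * t)) (4 * t)) (IL_HT _ _ _ _ _)
    (IL_HM _ _ _ _ _) (fun S hM h1 h2 => G.f2' t S hM (by omega) h1 h2) (by positivity)
    (by positivity) h4 h5
  rw [P.B_eq'] at key
  have e1 : 4 * (t : ℤ) - (-(4 * (t : ℤ))) = 8 * t := by ring
  have e2 : 3 * (t : ℤ) - (-(3 * (t : ℤ))) = 6 * t := by ring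
  rwa [e1, e2] at key

/-- From ratio `4 / 3` to parallelograms `4 r × r`. -/
theorem ratio4 (G : Geo) (h0 : 0 < c0) (hsq : P.Sq c0 N) {t : ℕ} (ht : N ≤ t) {a : ℝ}
    (ha : 0 ≤ a) (h : a ≤ P.L (8 * t) (6 * t)) {r : ℤ} (hr : 6 * (t : ℤ) ≤ r)
    (hr2 : r ≤ 12 * (t : ℤ)) : a * (c0 * a) ^ 20 ≤ P.L (4 * r) r := by
  have hs : c0 ≤ P.L (6 * t) (6 * t) := hsq _ (by omega)
  have e : (8 : ℤ) * t = 6 * t + 2 * t := by ring
  rw [e] at h
  have h1 := P.L_iter G h0.le (h := 6 * t) (k := 2 * t) (by omega) (by omega) hs ha h 20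
  refine h1.trans (P.L_mono G (by omega) ?_ hr)
  push_cast
  omega

/-- A good scale gives long crossings. -/
theorem long_of_good (G : Geo) (h0 : 0 < c0) (hsq : P.Sq c0 N) {n : ℕ} (hn : N ≤ n)
    (hn8 : 36 ≤ n) (hg : P.Good c0 n) (j : ℕ) (w : ℤ) (hw : 0 ≤ w) (hwj : 4 * w ≤ (j + 1) * n) :
    c1 c0 * (c0 * c1 c0) ^ j ≤ P.L w (5 * n) := by
  have hs : c0 ≤ P.L (4 * n + 2 * (n / 3 : ℕ)) (4 * n + 2 * (n / 3 : ℕ)) := hsq _ (by omega)
  have e : (5 * (n : ℤ) - 3) = 4 * n + 2 * (n / 3 : ℕ) + (n - 3 - 2 * (n / 3 : ℕ)) := by ring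
  have hg' : c1 c0 ≤ P.L (4 * n + 2 * (n / 3 : ℕ) + (n - 3 - 2 * (n / 3 : ℕ)))
      (4 * n + 2 * (n / 3 : ℕ)) := by rw [← e]; exact hg
  have h1 := P.L_iter G h0.le (h := 4 * n + 2 * (n / 3 : ℕ)) (k := n - 3 - 2 * (n / 3 : ℕ))
    (by omega) (by omega) hs (c1_pos h0).le hg' j
  refine h1.trans (P.L_mono G hw ?_ (by omega))
  have h2 : (n : ℤ) ≤ 4 * (n - 3 - 2 * (n / 3 : ℕ)) := by omega
  have h3 : (n : ℤ) * (j + 1 : ℕ) ≤ 4 * (n - 3 - 2 * (n / 3 : ℕ)) * (j + 1 : ℕ) :=
    mul_le_mul_of_nonneg_right h2 (by positivity)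
  push_cast at h3 ⊢
  nlinarith only [hn8, hwj, h3]

end PT

end Vale.Agent.P145W85.P153.F.RSW
end

section

/-!
P145, block F-B: anti-concentration from characteristic functions.
-/

namespace Vale.Agent.P145W85.P145.FB.AC

open MeasureTheory Filter Topology

/-- The Gaussian as a superposition of characters. -/
lemma gauss_rep {K : ℝ} (hK : 0 < K) (x : ℝ) :
    ((Real.exp (-(x ^ 2 / (2 * K ^ 2))) : ℝ) : ℂ) =
      ((K / Real.sqrt (2 * Real.pi) : ℝ) : ℂ) * ∫ t : ℝ, Complex.exp (Complex.I * (x : ℂ) * t) *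
        Complex.exp (-((K ^ 2 / 2 : ℝ) : ℂ) * (t : ℂ) ^ 2) := by
  have hb : 0 < (((K ^ 2 / 2 : ℝ) : ℂ)).re := by
    rw [Complex.ofReal_re]
    positivity
  rw [fourierIntegral_gaussian hb]
  have hpi : (0 : ℝ) ≤ Real.pi / (K ^ 2 / 2) := by positivity
  have e1 : ((Real.pi : ℂ) / ((K ^ 2 / 2 : ℝ) : ℂ)) ^ (1 / 2 : ℂ) =
      ((Real.sqrt (Real.pi / (K ^ 2 / 2)) : ℝ) : ℂ) := by
    rw [Real.sqrt_eq_rpow, Complex.ofReal_cpow hpi]
    push_cast
    rfl
  rw [e1]
  have e2 : Real.sqrt (Real.pi / (K ^ 2 / 2)) = Real.sqrt (2 * Real.pi) / K := by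
    rw [show Real.pi / (K ^ 2 / 2) = (2 * Real.pi) / K ^ 2 by field_simp, Real.sqrt_div' _ (by positivity),
      Real.sqrt_sq hK.le]
  rw [e2]
  have e3 : Complex.exp (-(x : ℂ) ^ 2 / (4 * ((K ^ 2 / 2 : ℝ) : ℂ))) =
      ((Real.exp (-(x ^ 2 / (2 * K ^ 2))) : ℝ) : ℂ) := by
    rw [Complex.ofReal_exp]
    congr 1
    push_cast
    have hK' : (K : ℂ) ≠ 0 := by exact_mod_cast hK.ne'
    field_simp
    ring
  rw [e3, ← mul_assoc, ← Complex.ofReal_mul]
  have hs : Real.sqrt (2 * Real.pi) ≠ 0 := by positivity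
  have e4 : K / Real.sqrt (2 * Real.pi) * (Real.sqrt (2 * Real.pi) / K) = 1 := by
    field_simp
  rw [e4, Complex.ofReal_one, one_mul]

variable {Ω : Type*} [MeasurableSpace Ω] {P : Measure Ω} [IsProbabilityMeasure P]

lemma norm_char (a : ℝ) : ‖Complex.exp (Complex.I * (a : ℂ))‖ = 1 := by
  rw [Complex.norm_exp]
  simp

lemma exp_real (K t : ℝ) : Complex.exp (-((K ^ 2 / 2 : ℝ) : ℂ) * (t : ℂ) ^ 2) =
    ((Real.exp (-(K ^ 2 / 2) * t ^ 2) : ℝ) : ℂ) := by
  rw [Complex.ofReal_exp]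
  push_cast
  rfl

/-- The expectation of a Gaussian of `X` in terms of its characteristic function. -/
lemma exp_gauss {K : ℝ} (hK : 0 < K) {X : Ω → ℝ} (hX : AEMeasurable X P) :
    ((∫ ω, Real.exp (-(X ω ^ 2 / (2 * K ^ 2))) ∂P : ℝ) : ℂ) =
      ((K / Real.sqrt (2 * Real.pi) : ℝ) : ℂ) *
        ∫ t : ℝ, ((Real.exp (-(K ^ 2 / 2) * t ^ 2) : ℝ) : ℂ) *
          ∫ ω, Complex.exp (Complex.I * ((t * X ω : ℝ) : ℂ)) ∂P := by
  rw [← integral_complex_ofReal]
  have e1 : ∀ ω, ((Real.exp (-(X ω ^ 2 / (2 * K ^ 2))) : ℝ) : ℂ) =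
      ((K / Real.sqrt (2 * Real.pi) : ℝ) : ℂ) * ∫ t : ℝ,
        ((Real.exp (-(K ^ 2 / 2) * t ^ 2) : ℝ) : ℂ) *
          Complex.exp (Complex.I * ((t * X ω : ℝ) : ℂ)) := by
    intro ω
    rw [gauss_rep hK (X ω)]
    congr 1
    refine integral_congr_ae (Eventually.of_forall fun t => ?_)
    simp only
    rw [exp_real, mul_comm]
    congr 2
    push_cast
    ring
  simp_rw [e1]
  rw [integral_const_mul]
  congr 1
  have hg : Integrable (fun t : ℝ => Real.exp (-(K ^ 2 / 2) * t ^ 2)) :=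
    integrable_exp_neg_mul_sq (by positivity)
  have hg' : Integrable (fun p : Ω × ℝ => Real.exp (-(K ^ 2 / 2) * p.2 ^ 2)) (P.prod volume) := by
    have := (integrable_const (1 : ℝ) (μ := P)).mul_prod hg
    simpa using this
  have hint : Integrable (fun p : Ω × ℝ => ((Real.exp (-(K ^ 2 / 2) * p.2 ^ 2) : ℝ) : ℂ) *
      Complex.exp (Complex.I * ((p.2 * X p.1 : ℝ) : ℂ))) (P.prod volume) := by
    refine hg'.mono' ?_ (Eventually.of_forall fun p => ?_)
    · refine AEStronglyMeasurable.mul ?_ ?_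
      · exact (Complex.continuous_ofReal.measurable.comp
          (Real.measurable_exp.comp ((measurable_snd.pow_const 2).const_mul _))).aestronglyMeasurable
      · have h1 : AEMeasurable (fun p : Ω × ℝ => p.2 * X p.1) (P.prod volume) :=
          measurable_snd.aemeasurable.mul (hX.comp_quasiMeasurePreserving
            Measure.quasiMeasurePreserving_fst)
        have h2 : AEMeasurable (fun p : Ω × ℝ =>
            Complex.exp (Complex.I * ((p.2 * X p.1 : ℝ) : ℂ))) (P.prod volume) :=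
          Complex.measurable_exp.comp_aemeasurable
            ((Complex.continuous_ofReal.measurable.comp_aemeasurable h1).const_mul _)
        exact h2.aestronglyMeasurable
    · rw [norm_mul, norm_char, mul_one, Complex.norm_real, Real.norm_eq_abs, abs_of_pos (Real.exp_pos _)]
  rw [integral_integral_swap hint]
  refine integral_congr_ae (Eventually.of_forall fun t => ?_)
  simp only
  rw [integral_const_mul]

/-- **Anti-concentration in the limit.** If the characteristic functions of `X δ` converge to that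
of a Gaussian of variance `v`, then `P(|X δ| ≤ K) ≤ 2 K / √v + η` for small `δ`. -/
theorem anti {X : ℝ → Ω → ℝ} (hX : ∀ δ, AEMeasurable (X δ) P) {v : ℝ} (hv : 0 < v)
    (hlim : ∀ t : ℝ, Tendsto (fun δ => ∫ ω, Complex.exp (Complex.I * ((t * X δ ω : ℝ) : ℂ)) ∂P)
      (𝓝[>] 0) (𝓝 (Complex.exp (-((v / 2 * t ^ 2 : ℝ) : ℂ))))) {K : ℝ} (hK : 0 < K) {η : ℝ}
    (hη : 0 < η) :
    ∀ᶠ δ : ℝ in 𝓝[>] 0, P.real {ω | |X δ ω| ≤ K} ≤ 2 * K / Real.sqrt v + η := by
  have hg : Integrable (fun t : ℝ => Real.exp (-(K ^ 2 / 2) * t ^ 2)) :=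
    integrable_exp_neg_mul_sq (by positivity)
  have h1 : Tendsto (fun δ => ∫ t : ℝ, ((Real.exp (-(K ^ 2 / 2) * t ^ 2) : ℝ) : ℂ) *
          ∫ ω, Complex.exp (Complex.I * ((t * X δ ω : ℝ) : ℂ)) ∂P) (𝓝[>] 0)
      (𝓝 (∫ t : ℝ, ((Real.exp (-(K ^ 2 / 2) * t ^ 2) : ℝ) : ℂ) *
        Complex.exp (-((v / 2 * t ^ 2 : ℝ) : ℂ)))) := by
    refine tendsto_integral_filter_of_dominated_convergence
      (fun t : ℝ => Real.exp (-(K ^ 2 / 2) * t ^ 2)) (Eventually.of_forall fun δ => ?_)
      (Eventually.of_forall fun δ => Eventually.of_forall fun t => ?_) hg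
      (Eventually.of_forall fun t => (hlim t).const_mul _)
    · refine AEStronglyMeasurable.mul ?_ ?_
      · exact (Complex.continuous_ofReal.measurable.comp
          (Real.measurable_exp.comp ((measurable_id.pow_const 2).const_mul _))).aestronglyMeasurable
      · have h1 : AEMeasurable (fun p : ℝ × Ω => p.1 * X δ p.2) (volume.prod P) :=
          measurable_fst.aemeasurable.mul ((hX δ).comp_quasiMeasurePreserving
            Measure.quasiMeasurePreserving_snd)
        have h2 : AEMeasurable (fun p : ℝ × Ω =>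
            Complex.exp (Complex.I * ((p.1 * X δ p.2 : ℝ) : ℂ))) (volume.prod P) :=
          Complex.measurable_exp.comp_aemeasurable
            ((Complex.continuous_ofReal.measurable.comp_aemeasurable h1).const_mul _)
        exact h2.aestronglyMeasurable.integral_prod_right'
    · rw [norm_mul, Complex.norm_real, Real.norm_eq_abs, abs_of_pos (Real.exp_pos _)]
      refine mul_le_of_le_one_right (Real.exp_pos _).le ?_
      refine (norm_integral_le_integral_norm _).trans ?_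
      simp_rw [norm_char]
      simp
  have h2 : (∫ t : ℝ, ((Real.exp (-(K ^ 2 / 2) * t ^ 2) : ℝ) : ℂ) *
        Complex.exp (-((v / 2 * t ^ 2 : ℝ) : ℂ))) =
      ((Real.sqrt (Real.pi / ((K ^ 2 + v) / 2)) : ℝ) : ℂ) := by
    rw [← integral_gaussian, ← integral_complex_ofReal]
    refine integral_congr_ae (Eventually.of_forall fun t => ?_)
    simp only
    rw [show -((v / 2 * t ^ 2 : ℝ) : ℂ) = ((-(v / 2 * t ^ 2) : ℝ) : ℂ) by push_cast; ring,
      ← Complex.ofReal_exp, ← Complex.ofReal_mul, ← Real.exp_add]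
    congr 2
    ring
  rw [h2] at h1
  have h3 := h1.const_mul ((K / Real.sqrt (2 * Real.pi) : ℝ) : ℂ)
  simp_rw [← exp_gauss hK (hX _)] at h3
  rw [← Complex.ofReal_mul] at h3
  have h4 : Tendsto (fun δ => ∫ ω, Real.exp (-(X δ ω ^ 2 / (2 * K ^ 2))) ∂P) (𝓝[>] 0)
      (𝓝 (K / Real.sqrt (2 * Real.pi) * Real.sqrt (Real.pi / ((K ^ 2 + v) / 2)))) := by
    have := (Complex.continuous_re.tendsto _).comp h3
    simpa only [Function.comp_def, Complex.ofReal_re] using this
  have h5 : K / Real.sqrt (2 * Real.pi) * Real.sqrt (Real.pi / ((K ^ 2 + v) / 2)) ≤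
      K / Real.sqrt v := by
    rw [show Real.pi / ((K ^ 2 + v) / 2) = (2 * Real.pi) / (K ^ 2 + v) by field_simp,
      Real.sqrt_div' _ (by positivity)]
    have hs : (0 : ℝ) < Real.sqrt (2 * Real.pi) := by positivity
    have hsv : (0 : ℝ) < Real.sqrt v := Real.sqrt_pos.2 hv
    have hle : Real.sqrt v ≤ Real.sqrt (K ^ 2 + v) := Real.sqrt_le_sqrt (by nlinarith [sq_nonneg K])
    have e : K / Real.sqrt (2 * Real.pi) * (Real.sqrt (2 * Real.pi) / Real.sqrt (K ^ 2 + v)) =
        K / Real.sqrt (K ^ 2 + v) := by field_simp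
    rw [e]
    exact div_le_div_of_nonneg_left hK.le hsv hle
  have h6 : ∀ᶠ δ : ℝ in 𝓝[>] 0, ∫ ω, Real.exp (-(X δ ω ^ 2 / (2 * K ^ 2))) ∂P <
      K / Real.sqrt v + η / 2 := by
    refine h4.eventually_lt_const (lt_of_le_of_lt h5 ?_)
    linarith
  filter_upwards [h6] with δ hδ
  -- Markov
  set Y : Ω → ℝ := fun ω => Real.exp (-(X δ ω ^ 2 / (2 * K ^ 2))) with hY
  have hY0 : ∀ ω, 0 ≤ Y ω := fun ω => (Real.exp_pos _).le
  have hYm : AEStronglyMeasurable Y P :=
    (Real.measurable_exp.comp_aemeasurable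
      (((hX δ).pow_const 2).div_const _).neg).aestronglyMeasurable
  have hYi : Integrable Y P := by
    refine Integrable.of_bound hYm 1 (Eventually.of_forall fun ω => ?_)
    rw [Real.norm_eq_abs, abs_of_nonneg (hY0 ω), hY]
    simp only
    rw [Real.exp_le_one_iff]
    have : 0 ≤ X δ ω ^ 2 / (2 * K ^ 2) := by positivity
    linarith
  have hsub : {ω | |X δ ω| ≤ K} ⊆ {ω | (1 / 2 : ℝ) ≤ Y ω} := by
    intro ω hω
    have hω' : |X δ ω| ≤ K := hω
    have hsq : X δ ω ^ 2 ≤ K ^ 2 := by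
      rw [← sq_abs]
      exact pow_le_pow_left₀ (abs_nonneg _) hω' 2
    have hq : X δ ω ^ 2 / (2 * K ^ 2) ≤ 1 / 2 := by
      rw [div_le_div_iff₀ (by positivity) (by norm_num)]
      nlinarith
    show (1 / 2 : ℝ) ≤ Real.exp (-(X δ ω ^ 2 / (2 * K ^ 2)))
    have := Real.add_one_le_exp (-(X δ ω ^ 2 / (2 * K ^ 2)))
    linarith
  have hmark := mul_meas_ge_le_integral_of_nonneg (Eventually.of_forall hY0) hYi (1 / 2)
  have hmono : P.real {ω | |X δ ω| ≤ K} ≤ P.real {ω | (1 / 2 : ℝ) ≤ Y ω} :=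
    measureReal_mono hsub
  have e2 : 2 * K / Real.sqrt v = 2 * (K / Real.sqrt v) := by ring
  rw [e2]
  have hδ' : ∫ ω, Y ω ∂P < K / Real.sqrt v + η / 2 := hδ
  have h7 : 1 / 2 * P.real {ω | (1 / 2 : ℝ) ≤ Y ω} ≤ ∫ ω, Y ω ∂P := hmark
  linarith

end Vale.Agent.P145W85.P145.FB.AC
end

section

/-!
P145, block F-B, (ARM), abstract part: on each piece `A i` of a family of disjoint events, a flip
which preserves the restricted measure, maps `X - l i` to its negative and fixes `O - l i` makes the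
cross term vanish, so the second moments of `X - l i` on the pieces sum to at most the second moment
of `X - O`. Two such flips with the same level bound the probability of the union by an
anti-concentration probability.
-/

namespace Vale.Agent.P145W85.P145.FB

open MeasureTheory Set

variable {Ω : Type*} [MeasurableSpace Ω]

lemma integrable_of_bdd {μ : Measure Ω} [IsFiniteMeasure μ] {f : Ω → ℝ} (hf : Measurable f)
    {B : ℝ} (hB : ∀ᵐ ω ∂μ, |f ω| ≤ B) : Integrable f μ :=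
  Integrable.mono' (integrable_const B) hf.aestronglyMeasurable
    (hB.mono fun ω h => by rwa [Real.norm_eq_abs])

/-- One piece, one flip: the second moment of `X - l` is at most the second moment of `X - O`. -/
theorem flip_piece {ν : Measure Ω} [IsFiniteMeasure ν] {X O l : Ω → ℝ} (hX : Measurable X)
    (hO : Measurable O) (hl : Measurable l) {Φ : Ω → Ω} (hΦ : Measurable Φ)
    {B : ℝ} (hB : ∀ᵐ ω ∂ν, |X ω| ≤ B ∧ |O ω| ≤ B ∧ |l ω| ≤ B)
    (hm : ν.map Φ = ν)
    (h1 : ∀ᵐ ω ∂ν, X (Φ ω) - l (Φ ω) = -(X ω - l ω) ∧ O (Φ ω) - l (Φ ω) = O ω - l ω) :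
    Integrable (fun ω => (X ω - l ω) ^ 2) ν ∧
      ∫ ω, (X ω - l ω) ^ 2 ∂ν ≤ ∫ ω, (X ω - O ω) ^ 2 ∂ν := by
  have i1 : Integrable (fun ω => (X ω - l ω) ^ 2) ν := by
    refine integrable_of_bdd ((hX.sub hl).pow_const 2) (B := (2 * B) ^ 2) ?_
    filter_upwards [hB] with ω h
    have h2 : |X ω - l ω| ≤ 2 * B := (abs_sub _ _).trans (by linarith [h.1, h.2.2])
    rw [abs_pow]
    exact pow_le_pow_left₀ (abs_nonneg _) h2 2
  have i2 : Integrable (fun ω => (l ω - O ω) ^ 2) ν := by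
    refine integrable_of_bdd ((hl.sub hO).pow_const 2) (B := (2 * B) ^ 2) ?_
    filter_upwards [hB] with ω h
    have h2 : |l ω - O ω| ≤ 2 * B := (abs_sub _ _).trans (by linarith [h.2.1, h.2.2])
    rw [abs_pow]
    exact pow_le_pow_left₀ (abs_nonneg _) h2 2
  have i3 : Integrable (fun ω => (X ω - l ω) * (l ω - O ω)) ν := by
    refine integrable_of_bdd ((hX.sub hl).mul (hl.sub hO)) (B := (2 * B) * (2 * B)) ?_
    filter_upwards [hB] with ω h
    have h2 : |X ω - l ω| ≤ 2 * B := (abs_sub _ _).trans (by linarith [h.1, h.2.2])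
    have h3 : |l ω - O ω| ≤ 2 * B := (abs_sub _ _).trans (by linarith [h.2.1, h.2.2])
    rw [abs_mul]
    exact mul_le_mul h2 h3 (abs_nonneg _) ((abs_nonneg _).trans h2)
  refine ⟨i1, ?_⟩
  have hcross : ∫ ω, (X ω - l ω) * (l ω - O ω) ∂ν = 0 := by
    have e1 : ∫ ω, (X ω - l ω) * (l ω - O ω) ∂ν =
        ∫ ω, (X (Φ ω) - l (Φ ω)) * (l (Φ ω) - O (Φ ω)) ∂ν := by
      conv_lhs => rw [← hm]
      exact integral_map hΦ.aemeasurable
        ((hX.sub hl).mul (hl.sub hO)).aestronglyMeasurable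
    have e2 : ∫ ω, (X (Φ ω) - l (Φ ω)) * (l (Φ ω) - O (Φ ω)) ∂ν =
        ∫ ω, -((X ω - l ω) * (l ω - O ω)) ∂ν := by
      refine integral_congr_ae ?_
      filter_upwards [h1] with ω h
      have h3 : l (Φ ω) - O (Φ ω) = l ω - O ω := by linarith only [h]
      rw [h.1, h3]
      ring
    rw [integral_neg] at e2
    linarith
  have e3 : ∫ ω, (X ω - O ω) ^ 2 ∂ν =
      ∫ ω, (X ω - l ω) ^ 2 ∂ν + 2 * ∫ ω, (X ω - l ω) * (l ω - O ω) ∂ν +
        ∫ ω, (l ω - O ω) ^ 2 ∂ν := by
    have e4 : ∀ ω, (X ω - O ω) ^ 2 =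
        ((X ω - l ω) ^ 2 + 2 * ((X ω - l ω) * (l ω - O ω))) + (l ω - O ω) ^ 2 := fun ω => by ring
    have i4 : Integrable (fun ω => (X ω - l ω) ^ 2 + 2 * ((X ω - l ω) * (l ω - O ω))) ν :=
      i1.add (i3.const_mul 2)
    simp only [e4]
    rw [integral_add i4 i2, integral_add i1 (i3.const_mul 2), integral_const_mul]
  have h0 : 0 ≤ ∫ ω, (l ω - O ω) ^ 2 ∂ν := integral_nonneg fun ω => sq_nonneg _
  rw [e3, hcross]
  linarith

/-- Chebyshev on a piece. -/
lemma cheb_piece {ν : Measure Ω} [IsFiniteMeasure ν] {f : Ω → ℝ}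
    (hi : Integrable (fun ω => f ω ^ 2) ν) {T : ℝ} (hT : 0 < T) :
    ν.real {ω | T < |f ω|} ≤ (∫ ω, f ω ^ 2 ∂ν) / T ^ 2 := by
  have hT2 : 0 < T ^ 2 := by positivity
  rw [le_div_iff₀ hT2, mul_comm]
  have h1 := mul_meas_ge_le_integral_of_nonneg
    (μ := ν) (f := fun ω => f ω ^ 2) (Filter.Eventually.of_forall fun ω => sq_nonneg _) hi (T ^ 2)
  refine le_trans (mul_le_mul_of_nonneg_left (measureReal_mono ?_) hT2.le) h1
  intro ω hω
  simp only [mem_ofPred_eq] at hω ⊢
  calc T ^ 2 ≤ |f ω| ^ 2 := pow_le_pow_left₀ hT.le (le_of_lt hω) 2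
    _ = f ω ^ 2 := sq_abs _

/-- Pieces summed, one flip. -/
theorem flip_sum {μ : Measure Ω} [IsFiniteMeasure μ] {ι : Type*} (I : Finset ι)
    (A : ι → Set Ω) (hA : ∀ i ∈ I, MeasurableSet (A i)) (hd : (I : Set ι).PairwiseDisjoint A)
    {X O : Ω → ℝ} (hX : Measurable X) (hO : Measurable O)
    (l : ι → Ω → ℝ) (hl : ∀ i ∈ I, Measurable (l i))
    (Φ : ι → Ω → Ω) (hΦ : ∀ i ∈ I, Measurable (Φ i))
    (B : ℝ) (hB : ∀ᵐ ω ∂μ, |X ω| ≤ B ∧ |O ω| ≤ B ∧ ∀ i ∈ I, |l i ω| ≤ B)
    (hm : ∀ i ∈ I, (μ.restrict (A i)).map (Φ i) = μ.restrict (A i))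
    (h1 : ∀ i ∈ I, ∀ᵐ ω ∂(μ.restrict (A i)), X (Φ i ω) - l i (Φ i ω) = -(X ω - l i ω) ∧
      O (Φ i ω) - l i (Φ i ω) = O ω - l i ω)
    {V : ℝ} (hV : ∫ ω, (X ω - O ω) ^ 2 ∂μ ≤ V) {T : ℝ} (hT : 0 < T) :
    ∑ i ∈ I, (μ.restrict (A i)).real {ω | T < |X ω - l i ω|} ≤ V / T ^ 2 := by
  have hT2 : 0 < T ^ 2 := by positivity
  have hBi : ∀ i ∈ I, ∀ᵐ ω ∂(μ.restrict (A i)), |X ω| ≤ B ∧ |O ω| ≤ B ∧ |l i ω| ≤ B :=
    fun i hi => (ae_restrict_of_ae hB).mono fun ω h => ⟨h.1, h.2.1, h.2.2 i hi⟩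
  have hXO : Integrable (fun ω => (X ω - O ω) ^ 2) μ := by
    refine integrable_of_bdd ((hX.sub hO).pow_const 2) (B := (2 * B) ^ 2) ?_
    filter_upwards [hB] with ω h
    have h2 : |X ω - O ω| ≤ 2 * B := (abs_sub _ _).trans (by linarith [h.1, h.2.1])
    rw [abs_pow]
    exact pow_le_pow_left₀ (abs_nonneg _) h2 2
  have hstep : ∀ i ∈ I, (μ.restrict (A i)).real {ω | T < |X ω - l i ω|} ≤
      (∫ ω in A i, (X ω - O ω) ^ 2 ∂μ) / T ^ 2 := by
    intro i hi
    obtain ⟨a1, a2⟩ := flip_piece hX hO (hl i hi) (hΦ i hi) (hBi i hi) (hm i hi) (h1 i hi)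
    refine (cheb_piece a1 hT).trans ?_
    gcongr
  refine (Finset.sum_le_sum hstep).trans ?_
  rw [← Finset.sum_div]
  gcongr
  have hU : ∫ ω in ⋃ i ∈ I, A i, (X ω - O ω) ^ 2 ∂μ = ∑ i ∈ I, ∫ ω in A i, (X ω - O ω) ^ 2 ∂μ :=
    integral_biUnion_finset I hA hd fun i _ => hXO.integrableOn
  rw [← hU]
  exact (setIntegral_le_integral hXO (Filter.Eventually.of_forall fun ω => sq_nonneg _)).trans hV

/-- The abstract arm bound. -/
theorem abs_arm (μ : Measure Ω) [IsProbabilityMeasure μ] {ι : Type*}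
    (I : Finset ι) (A : ι → Set Ω) (hA : ∀ i ∈ I, MeasurableSet (A i))
    (hd : (I : Set ι).PairwiseDisjoint A) (X O X' O' : Ω → ℝ) (hX : Measurable X)
    (hO : Measurable O) (hX' : Measurable X') (hO' : Measurable O') (l : ι → Ω → ℝ)
    (hl : ∀ i ∈ I, Measurable (l i)) (Φ Φ' : ι → Ω → Ω) (hΦ : ∀ i ∈ I, Measurable (Φ i))
    (hΦ' : ∀ i ∈ I, Measurable (Φ' i)) (B : ℝ)
    (hB : ∀ᵐ ω ∂μ, |X ω| ≤ B ∧ |O ω| ≤ B ∧ |X' ω| ≤ B ∧ |O' ω| ≤ B ∧ ∀ i ∈ I, |l i ω| ≤ B)
    (hm : ∀ i ∈ I, (μ.restrict (A i)).map (Φ i) = μ.restrict (A i))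
    (hm' : ∀ i ∈ I, (μ.restrict (A i)).map (Φ' i) = μ.restrict (A i))
    (h1 : ∀ i ∈ I, ∀ᵐ ω ∂(μ.restrict (A i)), X (Φ i ω) - l i (Φ i ω) = -(X ω - l i ω) ∧
      O (Φ i ω) - l i (Φ i ω) = O ω - l i ω)
    (h1' : ∀ i ∈ I, ∀ᵐ ω ∂(μ.restrict (A i)), X' (Φ' i ω) - l i (Φ' i ω) = -(X' ω - l i ω) ∧
      O' (Φ' i ω) - l i (Φ' i ω) = O' ω - l i ω)
    (V : ℝ) (hV : ∫ ω, (X ω - O ω) ^ 2 ∂μ ≤ V) (hV' : ∫ ω, (X' ω - O' ω) ^ 2 ∂μ ≤ V)
    (T : ℝ) (hT : 0 < T) :
    μ.real (⋃ i ∈ I, A i) ≤ μ.real {ω | |X ω - X' ω| ≤ 2 * T} + 2 * V / T ^ 2 := by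
  have s1 := flip_sum I A hA hd hX hO l hl Φ hΦ B
    (hB.mono fun ω h => ⟨h.1, h.2.1, h.2.2.2.2⟩) hm h1 hV hT
  have s2 := flip_sum I A hA hd hX' hO' l hl Φ' hΦ' B
    (hB.mono fun ω h => ⟨h.2.2.1, h.2.2.2.1, h.2.2.2.2⟩) hm' h1' hV' hT
  set G : Set Ω := {ω | |X ω - X' ω| ≤ 2 * T} with hG
  have habs : ∀ {f : Ω → ℝ}, Measurable f → Measurable fun ω => |f ω| := fun hf =>
    continuous_abs.measurable.comp hf
  have hGm : MeasurableSet G := measurableSet_le (habs (hX.sub hX')) measurable_const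
  have e1 : μ.real (⋃ i ∈ I, A i) = ∑ i ∈ I, μ.real (A i) :=
    measureReal_biUnion_finset hd hA
  have e2 : ∑ i ∈ I, μ.real (A i ∩ G) ≤ μ.real G := by
    have hd' : (I : Set ι).PairwiseDisjoint fun i => A i ∩ G := fun i hi j hj hij =>
      (hd hi hj hij).mono inter_subset_left inter_subset_left
    rw [← measureReal_biUnion_finset hd' fun i hi => (hA i hi).inter hGm]
    exact measureReal_mono (iUnion₂_subset fun i _ => inter_subset_right)
  have e3 : ∀ i ∈ I, μ.real (A i) ≤ μ.real (A i ∩ G) +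
      ((μ.restrict (A i)).real {ω | T < |X ω - l i ω|} +
        (μ.restrict (A i)).real {ω | T < |X' ω - l i ω|}) := by
    intro i hi
    have m1 : MeasurableSet {ω | T < |X ω - l i ω|} :=
      measurableSet_lt measurable_const (habs (hX.sub (hl i hi)))
    have m2 : MeasurableSet {ω | T < |X' ω - l i ω|} :=
      measurableSet_lt measurable_const (habs (hX'.sub (hl i hi)))
    rw [measureReal_restrict_apply m1, measureReal_restrict_apply m2]
    have hsub : A i ⊆ (A i ∩ G) ∪ (({ω | T < |X ω - l i ω|} ∩ A i) ∪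
        ({ω | T < |X' ω - l i ω|} ∩ A i)) := by
      intro ω hω
      by_cases hg : ω ∈ G
      · exact Or.inl ⟨hω, hg⟩
      · refine Or.inr ?_
        by_cases h2 : T < |X ω - l i ω|
        · exact Or.inl ⟨h2, hω⟩
        · refine Or.inr ⟨?_, hω⟩
          simp only [hG, mem_ofPred_eq, not_le] at hg
          push Not at h2
          simp only [mem_ofPred_eq]
          have h3 : |X ω - X' ω| ≤ |X ω - l i ω| + |X' ω - l i ω| := by
            have h4 : X ω - X' ω = (X ω - l i ω) - (X' ω - l i ω) := by ring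
            rw [h4]
            exact abs_sub _ _
          linarith only [hg, h2, h3]
    exact (measureReal_mono hsub).trans ((measureReal_union_le _ _).trans
      (add_le_add le_rfl (measureReal_union_le _ _)))
  rw [e1]
  refine (Finset.sum_le_sum e3).trans ?_
  rw [Finset.sum_add_distrib, Finset.sum_add_distrib]
  have e4 : 2 * V / T ^ 2 = V / T ^ 2 + V / T ^ 2 := by ring
  rw [e4]
  exact add_le_add e2 (add_le_add s1 s2)

end Vale.Agent.P145W85.P145.FB
end
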