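import Mathlib
import Vale.Agent.P145W85.Bd.B7
import Vale.Agent.P145W85.Bd.B5
import Vale.Agent.P145W85.Bd.B6
import Vale.Agent.P145W85.Bd.B8
import Vale.Agent.P145W85.Bd.B1

set_option linter.all false

section

/-!
P153-F (copy of `P145.Top.Cone`, triangular lattice): polynomials in the vertex heights, the cone of polynomials with nonnegative coefficients, and
their integrals.
-/

namespace Vale.Agent.P145W85.P153.F.Top

open MeasureTheory

/-- Real heights at the vertices of the lattice. -/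
abbrev Om := ℤ × ℤ → ℝ

/-- Polynomials in the heights, with coefficients generated by `P`. -/
inductive Pol (P : ℝ → Prop) : (Om → ℝ) → Prop
  | mon (v : List (ℤ × ℤ)) : Pol P (fun ω => (v.map ω).prod)
  | zero : Pol P (fun _ => 0)
  | add {f g : Om → ℝ} : Pol P f → Pol P g → Pol P (fun ω => f ω + g ω)
  | smul {f : Om → ℝ} (c : ℝ) : P c → Pol P f → Pol P (fun ω => c * f ω)

/-- A test function in lattice coordinates, times the area `√3/2` of a lattice cell. -/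
noncomputable def tl (f : ℝ × ℝ → ℝ) (z : ℝ × ℝ) : ℝ := √3 / 2 * f (z.1 + z.2 / 2, √3 / 2 * z.2)

theorem tl_nonneg {f : ℝ × ℝ → ℝ} (h : ∀ z, 0 ≤ f z) (z : ℝ × ℝ) : 0 ≤ tl f z :=
  mul_nonneg (by (clear * -; positivity)) (h _)

/-- `√3/2 δ² ∑_{v ∈ B} ω(v) f(δ v)`. -/
noncomputable def hB (B : Finset (ℤ × ℤ)) (δ : ℝ) (f : ℝ × ℝ → ℝ) (ω : Om) : ℝ :=
  δ ^ 2 * ∑ v ∈ B, ω v * tl f (δ * v.1, δ * v.2)

/-- Product over a list of test functions. -/
noncomputable def hl (B : Finset (ℤ × ℤ)) (δ : ℝ) (l : List (ℝ × ℝ → ℝ)) (ω : Om) : ℝ :=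
  (l.map fun f => hB B δ f ω).prod

theorem Pol.of_eq {P : ℝ → Prop} {f g : Om → ℝ} (hf : Pol P f) (h : ∀ ω, f ω = g ω) : Pol P g := by
  have : f = g := funext h
  rwa [← this]

theorem Pol.cons {P : ℝ → Prop} {g : Om → ℝ} (hg : Pol P g) (v : ℤ × ℤ) :
    Pol P (fun ω => ω v * g ω) := by
  induction hg with
  | mon l => exact (Pol.mon (P := P) (v :: l)).of_eq fun ω => by simp
  | zero => exact Pol.zero.of_eq fun ω => by simp
  | add _ _ h1 h2 => exact (h1.add h2).of_eq fun ω => by ring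
  | smul c hc _ h1 => exact (h1.smul c hc).of_eq fun ω => by ring

theorem Pol.sum {P : ℝ → Prop} {ι : Type*} (s : Finset ι) (g : ι → Om → ℝ)
    (h : ∀ i ∈ s, Pol P (g i)) : Pol P (fun ω => ∑ i ∈ s, g i ω) := by
  classical
  induction s using Finset.induction_on with
  | empty => exact Pol.zero.of_eq fun ω => by simp
  | insert a s ha ih =>
    refine ((h a (Finset.mem_insert_self _ _)).add
      (ih fun i hi => h i (Finset.mem_insert_of_mem hi))).of_eq fun ω => ?_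
    rw [Finset.sum_insert ha]

theorem Pol.hB {P : ℝ → Prop} {g : Om → ℝ} (hg : Pol P g) {B : Finset (ℤ × ℤ)} {δ : ℝ}
    {f : ℝ × ℝ → ℝ} (h : ∀ v ∈ B, P (δ ^ 2 * tl f (δ * v.1, δ * v.2))) :
    Pol P (fun ω => hB B δ f ω * g ω) := by
  refine (Pol.sum B (fun v ω => (δ ^ 2 * tl f (δ * v.1, δ * v.2)) * (ω v * g ω))
    fun v hv => (hg.cons v).smul _ (h v hv)).of_eq fun ω => ?_
  unfold Top.hB
  rw [Finset.mul_sum, Finset.sum_mul]
  exact Finset.sum_congr rfl fun v _ => by ring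

theorem Pol.one {P : ℝ → Prop} : Pol P (fun _ => 1) := (Pol.mon (P := P) []).of_eq fun ω => by simp

/-- The cone. -/
abbrev Cone : (Om → ℝ) → Prop := Pol (fun c => 0 ≤ c)

/-- The algebra. -/
abbrev Alg : (Om → ℝ) → Prop := Pol (fun _ => True)

theorem Pol.alg {P : ℝ → Prop} {g : Om → ℝ} (hg : Pol P g) : Alg g := by
  induction hg with
  | mon l => exact Pol.mon l
  | zero => exact Pol.zero
  | add _ _ h1 h2 => exact h1.add h2
  | smul c _ _ h1 => exact h1.smul c trivial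

theorem Cone.hB {g : Om → ℝ} (hg : Cone g) {B : Finset (ℤ × ℤ)} {δ : ℝ}
    {f : ℝ × ℝ → ℝ} (h : ∀ z, 0 ≤ f z) : Cone (fun ω => Top.hB B δ f ω * g ω) :=
  Pol.hB hg fun _ _ => mul_nonneg (sq_nonneg _) (tl_nonneg h _)

theorem Alg.hB {g : Om → ℝ} (hg : Alg g) {B : Finset (ℤ × ℤ)} {δ : ℝ}
    {f : ℝ × ℝ → ℝ} : Alg (fun ω => Top.hB B δ f ω * g ω) :=
  Pol.hB hg fun _ _ => trivial

theorem Alg.mul {f g : Om → ℝ} (hf : Alg f) (hg : Alg g) : Alg (fun ω => f ω * g ω) := by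
  induction hf with
  | mon l =>
    induction l with
    | nil => exact hg.of_eq fun ω => by simp
    | cons v l ih => exact (ih.cons v).of_eq fun ω => by simp; ring
  | zero => exact Pol.zero.of_eq fun ω => by simp
  | add _ _ h1 h2 => exact (h1.add h2).of_eq fun ω => by ring
  | smul c hc _ h1 => exact (h1.smul c hc).of_eq fun ω => by ring

theorem alg_hB {B : Finset (ℤ × ℤ)} {δ : ℝ} {f : ℝ × ℝ → ℝ} : Alg (hB B δ f) :=
  (Alg.hB (g := fun _ => 1) Pol.one).of_eq fun ω => by ring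

theorem Alg.pow {f : Om → ℝ} (hf : Alg f) (k : ℕ) : Alg (fun ω => f ω ^ k) := by
  induction k with
  | zero => exact Pol.one.of_eq fun ω => by simp
  | succ k ih => exact (hf.mul ih).of_eq fun ω => by ring

theorem alg_hl {B : Finset (ℤ × ℤ)} {δ : ℝ} (l : List (ℝ × ℝ → ℝ)) : Alg (hl B δ l) := by
  induction l with
  | nil => exact Pol.one.of_eq fun ω => by simp [hl]
  | cons f l ih => exact (Alg.hB (B := B) (δ := δ) ih (f := f)).of_eq fun ω => by simp [hl]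

theorem cone_hl {B : Finset (ℤ × ℤ)} {δ : ℝ} (l : List (ℝ × ℝ → ℝ)) (h : ∀ f ∈ l, ∀ z, 0 ≤ f z) :
    Cone (hl B δ l) := by
  induction l with
  | nil => exact Pol.one.of_eq fun ω => by simp [hl]
  | cons f l ih =>
    exact (Cone.hB (B := B) (δ := δ) (ih fun g hg => h g (List.mem_cons_of_mem _ hg))
      (h f List.mem_cons_self)).of_eq fun ω => by simp [hl]

theorem cone_pow {B : Finset (ℤ × ℤ)} {δ : ℝ} {f : ℝ × ℝ → ℝ} (h : ∀ z, 0 ≤ f z) (k : ℕ) :
    Cone (fun ω => hB B δ f ω ^ k) := by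
  induction k with
  | zero => exact Pol.one.of_eq fun ω => by simp
  | succ k ih => exact (Cone.hB ih h).of_eq fun ω => by ring

theorem hB_add {B : Finset (ℤ × ℤ)} {δ : ℝ} (f g : ℝ × ℝ → ℝ) (ω : Om) :
    hB B δ (fun z => f z + g z) ω = hB B δ f ω + hB B δ g ω := by
  unfold hB
  rw [← mul_add, ← Finset.sum_add_distrib]
  congr 1
  exact Finset.sum_congr rfl fun v _ => by unfold tl; ring

theorem hB_smul {B : Finset (ℤ × ℤ)} {δ : ℝ} (c : ℝ) (f : ℝ × ℝ → ℝ) (ω : Om) :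
    hB B δ (fun z => c * f z) ω = c * hB B δ f ω := by
  unfold hB
  rw [Finset.mul_sum, Finset.mul_sum, Finset.mul_sum]
  exact Finset.sum_congr rfl fun v _ => by unfold tl; ring

theorem hB_sub {B : Finset (ℤ × ℤ)} {δ : ℝ} (f g : ℝ × ℝ → ℝ) (ω : Om) :
    hB B δ (fun z => f z - g z) ω = hB B δ f ω - hB B δ g ω := by
  unfold hB
  rw [← mul_sub, ← Finset.sum_sub_distrib]
  congr 1
  exact Finset.sum_congr rfl fun v _ => by unfold tl; ring

/-- Domination of the products by the powers of a fixed function. -/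
theorem cone_dom {B : Finset (ℤ × ℤ)} {δ : ℝ} {f0 : ℝ × ℝ → ℝ} (h0 : ∀ z, 0 ≤ f0 z) {C : ℝ}
    (hC : 0 ≤ C) (l : List (ℝ × ℝ → ℝ)) (h : ∀ f ∈ l, ∀ z, 0 ≤ f z ∧ f z ≤ C * f0 z) :
    Cone (fun ω => C ^ l.length * hB B δ f0 ω ^ l.length - hl B δ l ω) := by
  induction l with
  | nil => exact Pol.zero.of_eq fun ω => by simp [hl]
  | cons f l ih =>
    have h1 := ih fun g hg => h g (List.mem_cons_of_mem _ hg)
    have hf := h f List.mem_cons_self
    have h2 := Cone.hB (B := B) (δ := δ) h1 (f := f) fun z => (hf z).1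
    have h3 := Cone.hB (B := B) (δ := δ) ((cone_pow (B := B) (δ := δ) h0 l.length).smul
      (C ^ l.length) (pow_nonneg hC _)) (f := fun z => C * f0 z - f z)
      fun z => sub_nonneg.2 (hf z).2
    refine (h2.add h3).of_eq fun ω => ?_
    rw [hB_sub, hB_smul]
    simp only [List.length_cons, hl, List.map_cons, List.prod_cons]
    ring

/-- All moments of the heights are finite. -/
structure Mom (μ : Measure Om) : Prop where
  prob : IsProbabilityMeasure μ
  int : ∀ v : List (ℤ × ℤ), Integrable (fun ω => (v.map ω).prod) μ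

theorem Mom.integrable {μ : Measure Om} (hμ : Mom μ) {P : ℝ → Prop} {g : Om → ℝ} (hg : Pol P g) :
    Integrable g μ := by
  induction hg with
  | mon l => exact hμ.int l
  | zero => exact integrable_zero _ _ _
  | add _ _ h1 h2 => exact h1.add h2
  | smul c _ _ h1 => exact h1.const_mul c

theorem Mom.nonneg {μ : Measure Om} (hμ : Mom μ)
    (hpos : ∀ v : List (ℤ × ℤ), 0 ≤ ∫ ω, (v.map ω).prod ∂μ) {g : Om → ℝ} (hg : Cone g) :
    0 ≤ ∫ ω, g ω ∂μ := by
  induction hg with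
  | mon l => exact hpos l
  | zero => simp
  | add h1 h2 i1 i2 =>
    rw [integral_add (hμ.integrable h1) (hμ.integrable h2)]
    exact add_nonneg i1 i2
  | smul c hc _ i1 =>
    rw [integral_const_mul]
    exact mul_nonneg hc i1

theorem Mom.mono {μ ν : Measure Om} (hμ : Mom μ) (hν : Mom ν)
    (hm : ∀ v : List (ℤ × ℤ), ∫ ω, (v.map ω).prod ∂μ ≤ ∫ ω, (v.map ω).prod ∂ν) {g : Om → ℝ}
    (hg : Cone g) : ∫ ω, g ω ∂μ ≤ ∫ ω, g ω ∂ν := by
  induction hg with
  | mon l => exact hm l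
  | zero => simp
  | add h1 h2 i1 i2 =>
    rw [integral_add (hμ.integrable h1) (hμ.integrable h2),
      integral_add (hν.integrable h1) (hν.integrable h2)]
    exact add_le_add i1 i2
  | smul c hc _ i1 =>
    rw [integral_const_mul, integral_const_mul]
    exact mul_le_mul_of_nonneg_left i1 hc

/-- Cauchy-Schwarz. -/
theorem Mom.cs {μ : Measure Om} (hμ : Mom μ) {f g : Om → ℝ} (hf : Alg f) (hg : Alg g) :
    (∫ ω, f ω * g ω ∂μ) ^ 2 ≤ (∫ ω, f ω ^ 2 ∂μ) * ∫ ω, g ω ^ 2 ∂μ := by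
  have i1 := hμ.integrable (hf.pow 2)
  have i2 := hμ.integrable (hg.pow 2)
  have i3 := hμ.integrable (hf.mul hg)
  set a := ∫ ω, f ω ^ 2 ∂μ with ha
  set b := ∫ ω, f ω * g ω ∂μ with hb
  set c := ∫ ω, g ω ^ 2 ∂μ with hc
  have hc0 : 0 ≤ c := integral_nonneg fun ω => sq_nonneg _
  have ha0 : 0 ≤ a := integral_nonneg fun ω => sq_nonneg _
  have key : ∀ t : ℝ, 0 ≤ a * (t * t) + 2 * b * t + c := by
    intro t
    have h1 : 0 ≤ ∫ ω, (t * f ω + g ω) ^ 2 ∂μ := integral_nonneg fun ω => sq_nonneg _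
    have h2 : ∫ ω, (t * f ω + g ω) ^ 2 ∂μ = a * (t * t) + 2 * b * t + c := by
      have : ∀ ω, (t * f ω + g ω) ^ 2 = (t * t) * f ω ^ 2 + (2 * t) * (f ω * g ω) + g ω ^ 2 :=
        fun ω => by ring
      simp_rw [this]
      have i4 : Integrable (fun ω => t * t * f ω ^ 2 + 2 * t * (f ω * g ω)) μ :=
        (i1.const_mul _).add (i3.const_mul _)
      rw [integral_add i4 i2, integral_add (i1.const_mul _) (i3.const_mul _),
        integral_const_mul, integral_const_mul]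
      ring
    rwa [h2] at h1
  have := discrim_le_zero key
  unfold discrim at this
  linarith

end Vale.Agent.P145W85.P153.F.Top
end

section

/-!
Gaussian moments: the recursion for the limit moments, and the method of moments.
-/

namespace Vale.Agent.P145W85.P145.PT

open MeasureTheory Set Filter Topology

/-- Moments of the centred Gaussian law of variance `v`. -/
noncomputable def gm (v : ℝ) : ℕ → ℝ
  | 0 => 1
  | 1 => 0
  | n + 2 => (n + 1) * v * gm v n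

/-- The limit moments are Gaussian. `A n θ` is the limit of `E[H(θ) H(φ)^n]`, `a n` the limit of
`E[H(φ)^n]`. -/
theorem moments_gauss {D : Set (ℝ × ℝ)} (hD : IsOpen D) (hb : Bornology.IsBounded D) {κ : ℝ}
    (hκ : 0 < κ) {φ : ℝ × ℝ → ℝ} (hφ : TestOn D φ) {M : (ℝ × ℝ → ℝ) → (ℝ × ℝ → ℝ) → ℝ}
    (hM : Cov D κ M) (A : ℕ → (ℝ × ℝ → ℝ) → ℝ) (a : ℕ → ℝ)
    (hA1 : A 1 φ = M φ φ) (ha0 : a 0 = 1) (ha : ∀ n, a (n + 1) = A n φ)
    (hbd : ∀ n, ∃ C, L2Fn D (A n) C)
    (hsd0 : ∀ ψ, TestOn D ψ → A 0 (lap ψ) = 0)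
    (hsd : ∀ n ψ, TestOn D ψ →
      A (n + 1) (lap ψ) = - (κ * (n + 1) * (∫ z, ψ z * φ z) * a n))
    (hdec : ∀ n, ∀ ε : ℝ, 0 < ε → ∃ r : ℝ, 0 < r ∧ ∀ x ∈ D, dd D x < r →
      |A n (bump (dd D x / 2) x)| ≤ ε) :
    ∀ n, a n = gm (κ * V D φ) n := by
  have h1 : a 1 = 0 := by
    obtain ⟨C, hC⟩ := hbd 0
    rw [ha 0]
    exact uniq hD hb hC hsd0 (hdec 0) hφ
  have h2 : ∀ n, a (n + 2) = (n + 1) * (κ * V D φ) * a n := by
    intro n
    obtain ⟨C, hC⟩ := hbd (n + 1)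
    obtain ⟨C1, hC1⟩ := hbd 1
    have hT := hC.comb hC1 (-((n + 1) * a n))
    have h := uniq hD hb hT (fun ψ hψ => by
      have e1 := hsd n ψ hψ
      have e2 := hsd 0 ψ hψ
      rw [zero_add] at e2
      rw [e1, e2, ha0]; push_cast; ring) (fun ε hε => by
      set c : ℝ := |(-((n + 1) * a n))| with hc
      have hc0 : 0 ≤ c := abs_nonneg _
      obtain ⟨r1, hr1, hd1⟩ := hdec (n + 1) (ε / 2) (by (clear * - hε; positivity))
      obtain ⟨r2, hr2, hd2⟩ := hdec 1 (ε / (2 * (c + 1))) (by (clear * - hε; positivity))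
      refine ⟨min r1 r2, lt_min hr1 hr2, fun x hx hxr => ?_⟩
      have e1 := hd1 x hx (lt_of_lt_of_le hxr (min_le_left _ _))
      have e2 := hd2 x hx (lt_of_lt_of_le hxr (min_le_right _ _))
      calc |A (n + 1) (bump (dd D x / 2) x) + -((n + 1) * a n) * A 1 (bump (dd D x / 2) x)|
          ≤ |A (n + 1) (bump (dd D x / 2) x)|
            + |(-((n + 1) * a n)) * A 1 (bump (dd D x / 2) x)| := abs_add_le _ _
        _ ≤ ε / 2 + c * (ε / (2 * (c + 1))) := by
            rw [abs_mul]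
            exact add_le_add e1 (mul_le_mul_of_nonneg_left e2 hc0)
        _ ≤ ε := by
            have : c * (ε / (2 * (c + 1))) = ε / 2 * (c / (c + 1)) := by (clear * - hc0 hε; field_simp)
            rw [this]
            have : c / (c + 1) ≤ 1 := by rw [div_le_one (by linarith only [hc0])]; linarith only []
            nlinarith only [hε, this]) hφ
    rw [hA1, hM.eq_V hD hb hκ hφ] at h
    rw [ha (n + 1)]
    linarith only [h]
  have h3 : ∀ n, a n = gm (κ * V D φ) n ∧ a (n + 1) = gm (κ * V D φ) (n + 1) := by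
    intro n
    induction n with
    | zero => exact ⟨ha0, h1⟩
    | succ n ih =>
      refine ⟨ih.2, ?_⟩
      rw [h2 n, ih.1]; rfl
  exact fun n => (h3 n).1

/-! Method of moments. -/

/-- Taylor remainder of `exp (I x)`. -/
noncomputable def RR (n : ℕ) (x : ℝ) : ℂ :=
  Complex.exp (Complex.I * x) - ∑ k ∈ Finset.range n, (Complex.I * x) ^ k / (k.factorial : ℂ)

theorem RR_zero_val (n : ℕ) : RR (n + 1) 0 = 0 := by
  unfold RR
  rw [Finset.sum_range_succ']
  simp only [Complex.ofReal_zero, mul_zero, Complex.exp_zero, ne_eq, Nat.add_eq_zero_iff, one_ne_zero, and_false, not_false_eq_true, zero_pow, zero_div, Finset.sum_const_zero, pow_zero, Nat.factorial_zero, Nat.cast_one, div_self, zero_add, sub_self]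

theorem RR_hasDeriv (n : ℕ) (x : ℝ) : HasDerivAt (RR (n + 1)) (Complex.I * RR n x) x := by
  unfold RR
  have hl : HasDerivAt (fun x : ℝ => Complex.I * (x : ℂ)) Complex.I x := by
    have := (Complex.ofRealCLM.hasDerivAt (x := x)).const_mul Complex.I
    simpa only [Complex.ofRealCLM_apply, Complex.ofReal_one, mul_one] using this
  have h1 : HasDerivAt (fun x : ℝ => Complex.exp (Complex.I * x))
      (Complex.exp (Complex.I * x) * Complex.I) x := by
    exact (Complex.hasDerivAt_exp _).comp x hl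
  have h2 : HasDerivAt (fun x : ℝ => ∑ k ∈ Finset.range (n + 1),
      (Complex.I * (x : ℂ)) ^ k / (k.factorial : ℂ))
      (Complex.I * ∑ k ∈ Finset.range n, (Complex.I * x) ^ k / (k.factorial : ℂ)) x := by
    have e1 : (fun x : ℝ => ∑ k ∈ Finset.range (n + 1),
        (Complex.I * (x : ℂ)) ^ k / (k.factorial : ℂ))
        = fun x : ℝ => (∑ k ∈ Finset.range n,
        (Complex.I * (x : ℂ)) ^ (k + 1) / ((k + 1).factorial : ℂ)) + 1 := by
      funext y; rw [Finset.sum_range_succ']; simp only [pow_zero, Nat.factorial_zero, Nat.cast_one, ne_eq, one_ne_zero, not_false_eq_true, div_self]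
    rw [e1, Finset.mul_sum]
    refine HasDerivAt.add_const _ ?_
    refine HasDerivAt.fun_sum fun k _ => ?_
    have h3 := (hl.pow (k + 1)).div_const ((k + 1).factorial : ℂ)
    refine h3.congr_deriv ?_
    rw [Nat.factorial_succ]
    push_cast
    have hk : ((k : ℂ) + 1) ≠ 0 := by exact_mod_cast Nat.succ_ne_zero k
    have hf : (k.factorial : ℂ) ≠ 0 := by exact_mod_cast Nat.factorial_ne_zero k
    (clear * - hk hf; field_simp)
  refine (h1.sub h2).congr_deriv ?_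
  ring

theorem RR_bound_nonneg (n : ℕ) : ∀ x : ℝ, 0 ≤ x → ‖RR n x‖ ≤ x ^ n / n.factorial := by
  induction n with
  | zero =>
    intro x hx
    simp only [RR, mul_comm Complex.I, Finset.range_zero, Finset.sum_empty, sub_zero, Complex.norm_exp_ofReal_mul_I, pow_zero, Nat.factorial_zero, Nat.cast_one, ne_eq, one_ne_zero, not_false_eq_true, div_self, Std.le_refl]
  | succ n ih =>
    intro x hx
    have key := image_norm_le_of_norm_deriv_right_le_deriv_boundary (a := 0) (b := x)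
      (f := RR (n + 1)) (f' := fun x => Complex.I * RR n x)
      (B := fun x => x ^ (n + 1) / (n + 1).factorial) (B' := fun x => x ^ n / n.factorial)
      (fun y _ => (RR_hasDeriv n y).continuousAt.continuousWithinAt)
      (fun y _ => (RR_hasDeriv n y).hasDerivWithinAt)
      (by rw [RR_zero_val]; simp only [norm_zero, ne_eq, Nat.add_eq_zero_iff, one_ne_zero, and_false, not_false_eq_true, zero_pow, zero_div, Std.le_refl])
      (fun y => by
        have := (hasDerivAt_pow (n + 1) y).div_const ((n + 1).factorial : ℝ)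
        refine this.congr_deriv ?_
        rw [Nat.factorial_succ]; push_cast
        have hk : ((n : ℝ) + 1) ≠ 0 := by positivity
        have hf : (n.factorial : ℝ) ≠ 0 := by positivity
        field_simp)
      (fun y hy => by
        simp only [norm_mul, Complex.norm_I, one_mul]
        exact ih y hy.1)
    exact key ⟨hx, le_rfl⟩

theorem RR_bound (n : ℕ) (x : ℝ) : ‖RR n x‖ ≤ |x| ^ n / n.factorial := by
  rcases le_total 0 x with h | h
  · rw [abs_of_nonneg h]; exact RR_bound_nonneg n x h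
  · rw [abs_of_nonpos h]
    have h1 := RR_bound_nonneg n (-x) (by linarith)
    have h2 : RR n (-x) = (starRingEnd ℂ) (RR n x) := by
      unfold RR
      rw [map_sub, ← Complex.exp_conj, map_sum]
      congr 1
      · simp only [Complex.ofReal_neg, mul_neg, map_mul, Complex.conj_I, Complex.conj_ofReal, neg_mul]
      · refine Finset.sum_congr rfl fun k _ => ?_
        simp only [Complex.ofReal_neg, mul_neg, map_div₀, map_pow, map_mul, Complex.conj_I, Complex.conj_ofReal, neg_mul, map_natCast]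
    rw [h2, Complex.norm_conj] at h1
    exact h1

theorem gm_even (v : ℝ) (k : ℕ) : gm v (2 * k) / (2 * k).factorial = (v / 2) ^ k / k.factorial := by
  induction k with
  | zero => simp only [gm, mul_zero, Nat.factorial_zero, Nat.cast_one, ne_eq, one_ne_zero, not_false_eq_true, div_self, pow_zero]
  | succ k ih =>
    have e : 2 * (k + 1) = 2 * k + 2 := by ring
    rw [e]
    change ((2 * k : ℕ) + 1) * v * gm v (2 * k) / _ = _
    rw [Nat.factorial_succ (2 * k + 1), Nat.factorial_succ (2 * k), Nat.factorial_succ k, pow_succ]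
    have hf : ((2 * k).factorial : ℝ) ≠ 0 := by positivity
    have hf2 : (k.factorial : ℝ) ≠ 0 := by positivity
    rw [div_eq_div_iff hf hf2] at ih
    push_cast
    rw [div_eq_div_iff (by (clear * -; positivity)) (by positivity)]
    linear_combination (2 * (k : ℝ) + 1) * v * (k + 1) * ih

theorem gm_odd (v : ℝ) (k : ℕ) : gm v (2 * k + 1) = 0 := by
  induction k with
  | zero => rfl
  | succ k ih =>
    have e : 2 * (k + 1) + 1 = (2 * k + 1) + 2 := by ring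
    rw [e]
    change _ * v * gm v (2 * k + 1) = 0
    rw [ih, mul_zero]

/-- The Taylor polynomial with the Gaussian moments. -/
theorem gm_taylor (v : ℝ) (m : ℕ) :
    ∑ k ∈ Finset.range (2 * m), Complex.I ^ k * (gm v k : ℂ) / (k.factorial : ℂ)
      = ∑ k ∈ Finset.range m, ((-(v / 2) : ℝ) : ℂ) ^ k / (k.factorial : ℂ) := by
  induction m with
  | zero => simp only [mul_zero, Finset.range_zero, Finset.sum_empty, Complex.ofReal_neg, Complex.ofReal_div, Complex.ofReal_ofNat]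
  | succ m ih =>
    have e : 2 * (m + 1) = 2 * m + 1 + 1 := by ring
    rw [e, Finset.sum_range_succ, Finset.sum_range_succ, ih, Finset.sum_range_succ, gm_odd]
    have h := gm_even v m
    have h' : (gm v (2 * m) : ℂ) / ((2 * m).factorial : ℂ)
        = ((v / 2 : ℝ) : ℂ) ^ m / (m.factorial : ℂ) := by exact_mod_cast congrArg Complex.ofReal h
    rw [mul_div_assoc, h', pow_mul, Complex.I_sq]
    simp only [Complex.ofReal_zero, mul_zero, zero_div, add_zero]
    congr 1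
    rw [Complex.ofReal_neg, neg_pow ((v / 2 : ℝ) : ℂ)]
    ring

/-- Method of moments for a centred Gaussian limit. -/
theorem charfun_of_moments {ι : Type*} {l : Filter ι} {Ω : ι → Type*}
    [∀ i, MeasurableSpace (Ω i)] (μ : ∀ i, Measure (Ω i)) [∀ i, IsProbabilityMeasure (μ i)]
    (X : ∀ i, Ω i → ℝ) (hint : ∀ i n, Integrable (fun ω => X i ω ^ n) (μ i)) {v : ℝ}
    (hmom : ∀ n, Tendsto (fun i => ∫ ω, X i ω ^ n ∂μ i) l (𝓝 (gm v n))) :
    Tendsto (fun i => ∫ ω, Complex.exp (Complex.I * (X i ω : ℂ)) ∂μ i) l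
      (𝓝 (Complex.exp ((-(v / 2) : ℝ) : ℂ))) := by
  rw [Metric.tendsto_nhds]
  intro ε hε
  -- choose m
  have t1 : Tendsto (fun m : ℕ => (v / 2) ^ m / (m.factorial : ℝ)) atTop (𝓝 0) :=
    FloorSemiring.tendsto_pow_div_factorial_atTop (v / 2)
  have t2 : Tendsto (fun m : ℕ => ∑ k ∈ Finset.range m,
      ((-(v / 2) : ℝ) : ℂ) ^ k / (k.factorial : ℂ)) atTop
      (𝓝 (Complex.exp ((-(v / 2) : ℝ) : ℂ))) := by
    have := (NormedSpace.expSeries_div_hasSum_exp (𝔸 := ℂ)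
      ((-(v / 2) : ℝ) : ℂ)).tendsto_sum_nat
    rwa [← Complex.exp_eq_exp_ℂ] at this
  obtain ⟨m, hm1, hm2⟩ := ((t1.eventually (gt_mem_nhds (show (0 : ℝ) < ε / 8 by positivity))).and
    (Metric.tendsto_nhds.1 t2 (ε / 4) (by positivity))).exists
  -- moment conditions
  have t3 : Tendsto (fun i => (∫ ω, X i ω ^ (2 * m) ∂μ i) / ((2 * m).factorial : ℝ)) l
      (𝓝 (gm v (2 * m) / ((2 * m).factorial : ℝ))) := (hmom (2 * m)).div_const _
  rw [gm_even] at t3
  have t4 : Tendsto (fun i => ∑ k ∈ Finset.range (2 * m),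
      Complex.I ^ k * ((∫ ω, X i ω ^ k ∂μ i : ℝ) : ℂ) / (k.factorial : ℂ)) l
      (𝓝 (∑ k ∈ Finset.range (2 * m), Complex.I ^ k * (gm v k : ℂ) / (k.factorial : ℂ))) := by
    refine tendsto_finsetSum _ fun k _ => ?_
    exact ((Complex.continuous_ofReal.tendsto _ |>.comp (hmom k)).const_mul _).div_const _
  rw [gm_taylor] at t4
  filter_upwards [t3.eventually (gt_mem_nhds (show (v / 2) ^ m / (m.factorial : ℝ) < ε / 4 by
    linarith only [hε, hm1])), Metric.tendsto_nhds.1 t4 (ε / 4) (by positivity)] with i hi3 hi4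
  have hXm : AEStronglyMeasurable (X i) (μ i) := by
    have := (hint i 1).aestronglyMeasurable
    simpa using this
  have hXc : AEStronglyMeasurable (fun ω => (X i ω : ℂ)) (μ i) :=
    Complex.continuous_ofReal.comp_aestronglyMeasurable hXm
  have ie : Integrable (fun ω => Complex.exp (Complex.I * (X i ω : ℂ))) (μ i) := by
    refine Integrable.of_bound (C := 1) ?_ (ae_of_all _ fun ω => ?_)
    · exact Complex.continuous_exp.comp_aestronglyMeasurable (hXc.const_mul _)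
    · rw [mul_comm, Complex.norm_exp_ofReal_mul_I]
  have ik : ∀ k, Integrable (fun ω => (Complex.I * (X i ω : ℂ)) ^ k / (k.factorial : ℂ)) (μ i) := by
    intro k
    have h1 : Integrable (fun ω => ((X i ω ^ k : ℝ) : ℂ)) (μ i) := (hint i k).ofReal
    have h2 := (h1.const_mul (Complex.I ^ k)).div_const (k.factorial : ℂ)
    refine h2.congr (ae_of_all _ fun ω => ?_)
    simp only [mul_pow, Complex.ofReal_pow]
  have es : ∫ ω, ∑ k ∈ Finset.range (2 * m), (Complex.I * (X i ω : ℂ)) ^ k / (k.factorial : ℂ) ∂μ i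
      = ∑ k ∈ Finset.range (2 * m),
        Complex.I ^ k * ((∫ ω, X i ω ^ k ∂μ i : ℝ) : ℂ) / (k.factorial : ℂ) := by
    rw [integral_finsetSum _ fun k _ => ik k]
    refine Finset.sum_congr rfl fun k _ => ?_
    rw [integral_div]
    congr 1
    have : ∀ ω, (Complex.I * (X i ω : ℂ)) ^ k = Complex.I ^ k * ((X i ω ^ k : ℝ) : ℂ) := by
      intro ω; rw [mul_pow]; push_cast; ring
    simp_rw [this]
    rw [integral_const_mul, integral_complex_ofReal]
  have e1 : ‖(∫ ω, Complex.exp (Complex.I * (X i ω : ℂ)) ∂μ i) - ∑ k ∈ Finset.range (2 * m),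
      Complex.I ^ k * ((∫ ω, X i ω ^ k ∂μ i : ℝ) : ℂ) / (k.factorial : ℂ)‖
      ≤ (∫ ω, X i ω ^ (2 * m) ∂μ i) / ((2 * m).factorial : ℝ) := by
    rw [← es, ← integral_sub ie (integrable_finsetSum _ fun k _ => ik k)]
    calc _ ≤ ∫ ω, ‖RR (2 * m) (X i ω)‖ ∂μ i := norm_integral_le_integral_norm _
      _ ≤ ∫ ω, X i ω ^ (2 * m) / ((2 * m).factorial : ℝ) ∂μ i := by
          refine integral_mono_of_nonneg (ae_of_all _ fun ω => norm_nonneg _)
            ((hint i (2 * m)).div_const _) (ae_of_all _ fun ω => ?_)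
          have := RR_bound (2 * m) (X i ω)
          rwa [pow_mul, sq_abs, ← pow_mul] at this
      _ = _ := integral_div _ _
  rw [dist_eq_norm] at hi4 hm2 ⊢
  calc ‖(∫ ω, Complex.exp (Complex.I * (X i ω : ℂ)) ∂μ i) - Complex.exp ((-(v / 2) : ℝ) : ℂ)‖
      ≤ ‖(∫ ω, Complex.exp (Complex.I * (X i ω : ℂ)) ∂μ i) - ∑ k ∈ Finset.range (2 * m),
      Complex.I ^ k * ((∫ ω, X i ω ^ k ∂μ i : ℝ) : ℂ) / (k.factorial : ℂ)‖
      + ‖(∑ k ∈ Finset.range (2 * m),
      Complex.I ^ k * ((∫ ω, X i ω ^ k ∂μ i : ℝ) : ℂ) / (k.factorial : ℂ))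
        - ∑ k ∈ Finset.range m, ((-(v / 2) : ℝ) : ℂ) ^ k / (k.factorial : ℂ)‖
      + ‖(∑ k ∈ Finset.range m, ((-(v / 2) : ℝ) : ℂ) ^ k / (k.factorial : ℂ))
        - Complex.exp ((-(v / 2) : ℝ) : ℂ)‖ := by
        refine (norm_sub_le_norm_sub_add_norm_sub _ (∑ k ∈ Finset.range m,
          ((-(v / 2) : ℝ) : ℂ) ^ k / (k.factorial : ℂ)) _).trans ?_
        gcongr
        exact norm_sub_le_norm_sub_add_norm_sub _ _ _
    _ < ε := by linarith only [hε, hm2, hi3, hi4, e1]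

end Vale.Agent.P145W85.P145.PT
end

section

/-!
P153-F, top block: the interface between the lattice blocks and the identification of the limit
(triangular lattice; same structure as `P145.Top.Stmt`). Odd heights, free boundary values `±1`.
The domain with the finite set `I` of inner vertices: heights with `|h| = 1` off `I`.
-/

namespace Vale.Agent.P145W85.P153.F.Top

open Filter Topology Set MeasureTheory
open Vale.Agent.P145W85.P145.PT Vale.Agent.P145W85.P153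

/-- The point `δ v` of the plane. -/
noncomputable def dp (δ : ℝ) (v : ℤ × ℤ) : ℝ × ℝ :=
  (δ * (v.1 + v.2 / 2), δ * (√3 / 2 * v.2))

open Classical in
/-- The vertices of the lattice of mesh `δ` at sup-distance more than `2 δ` from the complement of
`D` (for bounded `D` and `0 < δ`). -/
noncomputable def Vs (δ : ℝ) (D : Set (ℝ × ℝ)) : Finset (ℤ × ℤ) :=
  if h : {v : ℤ × ℤ | Metric.closedBall (dp δ v) (2 * δ) ⊆ D}.Finite then h.toFinset else ∅

/-- The heights at the inner vertices. -/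
noncomputable def vh (I : Finset (ℤ × ℤ)) (h : Hg) : Om := fun v => if v ∈ I then (h v : ℝ) else 0

/-- Expectation in the domain with inner vertices `I`. -/
noncomputable def ze (I : Finset (ℤ × ℤ)) (A : Om → ℝ) : ℝ := ev (FreeF I (clo I)) fun h => A (vh I h)

/-- `√3/2 δ² ∑_v ω(v) f(δ v)`, for `f` of compact support. -/
noncomputable def hv (δ : ℝ) (f : ℝ × ℝ → ℝ) (ω : Om) : ℝ :=
  δ ^ 2 * ∑ᶠ v : ℤ × ℤ, ω v * tl f (δ * v.1, δ * v.2)

/-- Product over a list of test functions. -/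
noncomputable def hvl (δ : ℝ) (l : List (ℝ × ℝ → ℝ)) (ω : Om) : ℝ :=
  (l.map fun f => hv δ f ω).prod

/-- Expectation in the lattice version of the domain `D`. -/
noncomputable def EE (δ : ℝ) (D : Set (ℝ × ℝ)) (A : Om → ℝ) : ℝ := ze (Vs δ D) A

/-- First lattice coordinate. -/
noncomputable def c1 (z : ℝ × ℝ) : ℝ := z.1 - z.2 / √3

/-- Second lattice coordinate. -/
noncomputable def c2 (z : ℝ × ℝ) : ℝ := 2 * z.2 / √3

/-- The open triangle `a < q₁`, `b < q₂`, `q₁ + q₂ < c` (lattice coordinates). -/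
def cell (a b c : ℝ) : Set (ℝ × ℝ) := {z | a < c1 z ∧ b < c2 z ∧ c1 z + c2 z < c}

/-- The closed triangle. -/
def ccell (a b c : ℝ) : Set (ℝ × ℝ) := {z | a ≤ c1 z ∧ b ≤ c2 z ∧ c1 z + c2 z ≤ c}

/-- Exterior squares: the complement of `D` is a union of closed axis-parallel squares of a fixed
size (balls of the sup norm). -/
def ThickC (D : Set (ℝ × ℝ)) : Prop :=
  ∃ g : ℝ, 0 < g ∧ ∀ x ∉ D, ∃ y : ℝ × ℝ, x ∈ Metric.closedBall y g ∧
    Disjoint (Metric.closedBall y g) D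

/-- MONO: the moments of the heights are nonnegative and increasing in the set of inner vertices,
and the heights are centred. -/
def S_mono : Prop := ∀ F F' : Finset (ℤ × ℤ), F ⊆ F' → ∀ v : List (ℤ × ℤ),
  0 ≤ ze F (fun ω => (v.map ω).prod) ∧
  ze F (fun ω => (v.map ω).prod) ≤ ze F' (fun ω => (v.map ω).prod) ∧
  ∀ u : ℤ × ℤ, ze F (fun ω => ω u) = 0

/-- MB: the moments are bounded. -/
def S_mb (δ : ℕ → ℝ) : Prop := ∀ D : Set (ℝ × ℝ), IsOpen D → Bornology.IsBounded D →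
  ∀ f : ℝ × ℝ → ℝ, TestOn univ f → (∀ z, 0 ≤ f z) → ∀ k : ℕ,
    ∃ C : ℝ, ∀ᶠ n in atTop, EE (δ n) D (fun ω => hv (δ n) f ω ^ k) ≤ C

/-- L2B: the second moments are bounded in `L²`. -/
def S_l2 (δ : ℕ → ℝ) : Prop := ∀ R : ℝ, 0 < R → ∃ C : ℝ, 0 ≤ C ∧
  ∀ D : Set (ℝ × ℝ), IsOpen D → D ⊆ Metric.ball 0 R →
  ∀ f : ℝ × ℝ → ℝ, TestOn (Metric.ball 0 R) f → (∀ z, 0 ≤ f z) → ∀ ε : ℝ, 0 < ε →
    ∀ᶠ n in atTop, EE (δ n) D (fun ω => hv (δ n) f ω ^ 2) ≤ C * (∫ z, f z ^ 2) + ε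

/-- DEC': decay at the boundary, for domains with exterior squares. -/
def S_dec (δ : ℕ → ℝ) : Prop := ∀ D : Set (ℝ × ℝ), IsOpen D → Bornology.IsBounded D →
  ThickC D → ∀ f : ℝ × ℝ → ℝ, TestOn D f → (∀ z, 0 ≤ f z) → ∀ (k : ℕ) (ε : ℝ), 0 < ε →
    ∃ r : ℝ, 0 < r ∧ ∀ x ∈ D, dd D x < r → ∀ᶠ n in atTop,
      EE (δ n) D (fun ω => hv (δ n) (bump (dd D x / 2) x) ω * hv (δ n) f ω ^ k) ≤ ε

/-- XST: the measures `ν n` with the sandwich and the Schwinger-Dyson equation, up to an error `η`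
and for finitely many test functions. -/
def S_xst (κ : ℝ) (δ : ℕ → ℝ) : Prop := ∀ D₁ D₂ : Set (ℝ × ℝ), IsOpen D₁ → IsOpen D₂ →
  Bornology.IsBounded D₂ → closure D₁ ⊆ D₂ → ∀ a b c : ℝ, a + b < c →
  ccell a b c ⊆ D₁ → ∀ (ψ f : ℝ × ℝ → ℝ) (k : ℕ), TestOn (cell a b c) ψ → TestOn D₁ f →
  (∀ z, 0 ≤ f z) → ∀ L : List (List (ℝ × ℝ → ℝ)),
  (∀ l ∈ L, ∀ g ∈ l, TestOn D₁ g ∧ ∀ z, 0 ≤ g z) → ∀ η : ℝ, 0 < η →
    ∃ ν : ℕ → Measure Om, (∀ᶠ n in atTop, Mom (ν n)) ∧
    (∀ l ∈ L, ∀ᶠ n in atTop,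
      EE (δ n) D₁ (hvl (δ n) l) ≤ (∫ ω, hvl (δ n) l ω ∂(ν n)) + η ∧
      ∫ ω, hvl (δ n) l ω ∂(ν n) ≤ EE (δ n) D₂ (hvl (δ n) l) + η) ∧
    ∀ᶠ n in atTop, |(∫ ω, hv (δ n) (lap ψ) ω * hv (δ n) f ω ^ (k + 1) ∂(ν n)) +
        κ * (k + 1) * (∫ z, ψ z * f z) * ∫ ω, hv (δ n) f ω ^ k ∂(ν n)| ≤ η

/-- All inputs. -/
structure Inputs (κ : ℝ) (δ : ℕ → ℝ) : Prop where
  κpos : 0 < κ
  δpos : ∀ n, 0 < δ n
  δlim : Tendsto δ atTop (𝓝 0)
  mono : S_mono
  mb : S_mb δ
  l2 : S_l2 δ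
  dec : S_dec δ
  xst : S_xst κ δ

/-- A strictly nested family of domains. -/
structure Nest (a b : ℝ) (D : ℝ → Set (ℝ × ℝ)) : Prop where
  lt : a < b
  op : ∀ s ∈ Ioo a b, IsOpen (D s)
  bdd : ∀ s ∈ Ioo a b, Bornology.IsBounded (D s)
  thick : ∀ s ∈ Ioo a b, ThickC (D s)
  nest : ∀ s ∈ Ioo a b, ∀ t ∈ Ioo a b, s < t → closure (D s) ⊆ D t
  exh : ∀ s ∈ Ioo a b, ∀ K ⊆ D s, IsCompact K → ∃ t ∈ Ioo a b, t < s ∧ K ⊆ D t

/-- The output of this block: along every ultrafilter, for some parameter of every nested family,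
all moments of nonnegative test functions converge to the moments of the Gaussian free field. -/
def S_key (κ : ℝ) (δ : ℕ → ℝ) : Prop := ∀ (a b : ℝ) (D : ℝ → Set (ℝ × ℝ)), Nest a b D →
  (∃ R : ℝ, ∀ s ∈ Ioo a b, D s ⊆ Metric.ball 0 R) →
  ∀ U : Ultrafilter ℕ, (U : Filter ℕ) ≤ atTop → ∃ s ∈ Ioo a b,
    ∀ f : ℝ × ℝ → ℝ, TestOn (D s) f → (∀ z, 0 ≤ f z) → ∀ k : ℕ,
      Tendsto (fun n => EE (δ n) (D s) (fun ω => hv (δ n) f ω ^ k)) U
        (𝓝 (gm (κ * V (D s) f) k))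

end Vale.Agent.P145W85.P153.F.Top
end

section

/-!
Consequences of positivity and monotonicity of the moments.
-/

namespace Vale.Agent.P145W85.P153.F.Top

open MeasureTheory

/-- Nonnegative moments. -/
structure Pos (μ : Measure Om) : Prop where
  mom : Mom μ
  pos : ∀ v : List (ℤ × ℤ), 0 ≤ ∫ ω, (v.map ω).prod ∂μ

variable {B : Finset (ℤ × ℤ)} {δ : ℝ}

theorem Pos.hl_nonneg {μ : Measure Om} (h : Pos μ) {l : List (ℝ × ℝ → ℝ)}
    (hl0 : ∀ f ∈ l, ∀ z, 0 ≤ f z) : 0 ≤ ∫ ω, hl B δ l ω ∂μ :=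
  h.mom.nonneg h.pos (cone_hl l hl0)

theorem Pos.pow_nonneg {μ : Measure Om} (h : Pos μ) {f : ℝ × ℝ → ℝ}
    (hf : ∀ z, 0 ≤ f z) (k : ℕ) : 0 ≤ ∫ ω, hB B δ f ω ^ k ∂μ :=
  h.mom.nonneg h.pos (cone_pow hf k)

theorem Pos.hl_le {μ : Measure Om} (h : Pos μ) {f0 : ℝ × ℝ → ℝ} (h0 : ∀ z, 0 ≤ f0 z) {C : ℝ}
    (hC : 0 ≤ C) (l : List (ℝ × ℝ → ℝ)) (hd : ∀ f ∈ l, ∀ z, 0 ≤ f z ∧ f z ≤ C * f0 z) :
    ∫ ω, hl B δ l ω ∂μ ≤ C ^ l.length * ∫ ω, hB B δ f0 ω ^ l.length ∂μ := by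
  have h1 := h.mom.nonneg h.pos (cone_dom (B := B) (δ := δ) h0 hC l hd)
  rw [integral_sub ((h.mom.integrable (cone_pow h0 _)).const_mul _)
    (h.mom.integrable (alg_hl l)), integral_const_mul] at h1
  linarith only [h1]

theorem dom_diff {μ ν : Measure Om} (hμ : Mom μ) (hν : Mom ν)
    (hm : ∀ v : List (ℤ × ℤ), ∫ ω, (v.map ω).prod ∂μ ≤ ∫ ω, (v.map ω).prod ∂ν)
    {f0 : ℝ × ℝ → ℝ} (h0 : ∀ z, 0 ≤ f0 z) {C : ℝ}
    (hC : 0 ≤ C) (l : List (ℝ × ℝ → ℝ)) (hd : ∀ f ∈ l, ∀ z, 0 ≤ f z ∧ f z ≤ C * f0 z) :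
    (∫ ω, hl B δ l ω ∂ν) - ∫ ω, hl B δ l ω ∂μ ≤
      C ^ l.length * ((∫ ω, hB B δ f0 ω ^ l.length ∂ν) - ∫ ω, hB B δ f0 ω ^ l.length ∂μ) := by
  have h1 := Mom.mono hμ hν hm (cone_dom (B := B) (δ := δ) h0 hC l hd)
  rw [integral_sub ((hμ.integrable (cone_pow h0 _)).const_mul _)
    (hμ.integrable (alg_hl l)), integral_const_mul,
    integral_sub ((hν.integrable (cone_pow h0 _)).const_mul _)
    (hν.integrable (alg_hl l)), integral_const_mul] at h1
  linarith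

theorem hl_mono {μ ν : Measure Om} (hμ : Mom μ) (hν : Mom ν)
    (hm : ∀ v : List (ℤ × ℤ), ∫ ω, (v.map ω).prod ∂μ ≤ ∫ ω, (v.map ω).prod ∂ν)
    (l : List (ℝ × ℝ → ℝ)) (hd : ∀ f ∈ l, ∀ z, 0 ≤ f z) :
    ∫ ω, hl B δ l ω ∂μ ≤ ∫ ω, hl B δ l ω ∂ν := Mom.mono hμ hν hm (cone_hl l hd)

theorem pow_mono' {μ ν : Measure Om} (hμ : Mom μ) (hν : Mom ν)
    (hm : ∀ v : List (ℤ × ℤ), ∫ ω, (v.map ω).prod ∂μ ≤ ∫ ω, (v.map ω).prod ∂ν)
    {f0 : ℝ × ℝ → ℝ} (h0 : ∀ z, 0 ≤ f0 z) (k : ℕ) :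
    ∫ ω, hB B δ f0 ω ^ k ∂μ ≤ ∫ ω, hB B δ f0 ω ^ k ∂ν := Mom.mono hμ hν hm (cone_pow h0 k)

/-- Second moments of signed functions. -/
theorem Pos.sq_le {μ : Measure Om} (h : Pos μ) {g G : ℝ × ℝ → ℝ} (hg : ∀ z, |g z| ≤ G z) :
    ∫ ω, hB B δ g ω ^ 2 ∂μ ≤ ∫ ω, hB B δ G ω ^ 2 ∂μ := by
  have h1 : Cone (hB B δ fun z => G z + g z) :=
    (Cone.hB (B := B) (δ := δ) (g := fun _ => 1) Pol.one (f := fun z => G z + g z)
      fun z => by linarith only [neg_abs_le (g z), hg z]).of_eq fun ω => by ring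
  have h2 := Cone.hB (B := B) (δ := δ) h1 (f := fun z => G z - g z)
    fun z => by linarith [le_abs_self (g z), hg z]
  have h3 := h.mom.nonneg h.pos h2
  have h4 : ∀ ω, hB B δ (fun z => G z - g z) ω * hB B δ (fun z => G z + g z) ω =
      hB B δ G ω ^ 2 - hB B δ g ω ^ 2 := fun ω => by rw [hB_sub, hB_add]; ring
  simp_rw [h4] at h3
  rw [integral_sub (h.mom.integrable (alg_hB.pow 2)) (h.mom.integrable (alg_hB.pow 2))] at h3
  linarith

/-- Mixed moments of a signed function. -/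
theorem Pos.mixed_sq_le {μ : Measure Om} (h : Pos μ) (g f : ℝ × ℝ → ℝ) (k : ℕ) :
    (∫ ω, hB B δ g ω * hB B δ f ω ^ k ∂μ) ^ 2 ≤
      (∫ ω, hB B δ g ω ^ 2 ∂μ) * ∫ ω, hB B δ f ω ^ (2 * k) ∂μ := by
  have := h.mom.cs (alg_hB (B := B) (δ := δ) (f := g)) (alg_hB (B := B) (δ := δ) (f := f) |>.pow k)
  have e : ∀ ω, (hB B δ f ω ^ k) ^ 2 = hB B δ f ω ^ (2 * k) := fun ω => by
    rw [← pow_mul, mul_comm]
  simp_rw [e] at this
  exact this

theorem hl_cons (f : ℝ × ℝ → ℝ) (l : List (ℝ × ℝ → ℝ)) (ω : Om) :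
    hl B δ (f :: l) ω = hB B δ f ω * hl B δ l ω := by simp [hl]

theorem hl_replicate (f : ℝ × ℝ → ℝ) (k : ℕ) (ω : Om) :
    hl B δ (List.replicate k f) ω = hB B δ f ω ^ k := by simp [hl]

end Vale.Agent.P145W85.P153.F.Top
end

section

/-!
P153-F, top block: the law with free boundary values as a measure on the heights; vertices inside
a set; finite sums.
-/

namespace Vale.Agent.P145W85.P153.F.Top

open Filter Topology Set MeasureTheory
open Vale.Agent.P145W85.P145.PT Vale.Agent.P145W85.P153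

theorem free_nonempty (I U : Finset (ℤ × ℤ)) : (FreeF I U).Nonempty := by
  refine ⟨fun _ => 1, ?_⟩
  rw [mem_FreeF]
  exact ⟨⟨fun _ => odd_one, fun x y _ => by simp only [sub_self, abs_zero, Nat.ofNat_nonneg]⟩, fun x _ => by simp, fun x _ => rfl⟩

theorem ze_eq (I : Finset (ℤ × ℤ)) (A : Om → ℝ) :
    ze I A = (∑ h ∈ FreeF I (clo I), A (vh I h)) / ((FreeF I (clo I)).card : ℝ) := rfl

theorem exists_meas (I : Finset (ℤ × ℤ)) :
    ∃ μ : Measure Om, Mom μ ∧ ∀ A : Om → ℝ, ∫ ω, A ω ∂μ = ze I A := by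
  classical
  set T := FreeF I (clo I) with hT
  set Z : ℝ := (T.card : ℝ) with hZd
  have hZ : 0 < Z := by
    have : 0 < T.card := (free_nonempty I (clo I)).card_pos
    rw [hZd]
    exact_mod_cast this
  have hw : 0 ≤ 1 / Z := by positivity
  have hint : ∀ (A : Om → ℝ) (x : Hg),
      Integrable A (ENNReal.ofReal (1 / Z) • Measure.dirac (vh I x)) :=
    fun A x => (integrable_dirac (by simp)).smul_measure ENNReal.ofReal_ne_top
  refine ⟨∑ x ∈ T, ENNReal.ofReal (1 / Z) • Measure.dirac (vh I x), ⟨⟨?_⟩, ?_⟩, ?_⟩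
  · rw [Measure.coe_finsetSum, Finset.sum_apply]
    simp only [Measure.smul_apply, measure_univ, smul_eq_mul, mul_one]
    rw [← ENNReal.ofReal_sum_of_nonneg (fun x _ => hw), Finset.sum_const, nsmul_eq_mul, ← hZd,
      mul_one_div_cancel hZ.ne', ENNReal.ofReal_one]
  · intro v
    exact integrable_finsetSum_measure.2 fun x _ => hint _ x
  · intro A
    rw [integral_finsetSum_measure fun x _ => hint A x]
    have h1 : ∀ x ∈ T, ∫ ω, A ω ∂(ENNReal.ofReal (1 / Z) • Measure.dirac (vh I x)) =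
        A (vh I x) / Z := by
      intro x _
      rw [integral_smul_measure, integral_dirac, ENNReal.toReal_ofReal hw, smul_eq_mul]
      ring
    rw [Finset.sum_congr rfl h1, ← Finset.sum_div, ze_eq]

/-- The linear coordinates. -/
theorem tl_eq (f : ℝ × ℝ → ℝ) (δ : ℝ) (v : ℤ × ℤ) :
    tl f (δ * v.1, δ * v.2) = √3 / 2 * f (dp δ v) := by
  unfold tl dp
  congr 2
  ext <;> simp only <;> ring

theorem lat_finite {δ : ℝ} (hδ : 0 < δ) (R : ℝ) :
    {v : ℤ × ℤ | dp δ v ∈ Metric.ball (0 : ℝ × ℝ) R}.Finite := by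
  refine (Set.finite_Icc ((-⌈3 * R / δ⌉, -⌈3 * R / δ⌉) : ℤ × ℤ)
    (⌈3 * R / δ⌉, ⌈3 * R / δ⌉)).subset ?_
  intro v hv
  have hv' : max |δ * ((v.1 : ℝ) + v.2 / 2)| |δ * (√3 / 2 * v.2)| < R := by
    have := mem_ball_zero_iff.1 hv
    rwa [dp, Prod.norm_mk, Real.norm_eq_abs, Real.norm_eq_abs] at this
  have hs : (1.7 : ℝ) < √3 := by
    rw [Real.lt_sqrt (by norm_num)]; norm_num
  have h1 := (le_max_left _ _).trans_lt hv'
  have h2 := (le_max_right _ _).trans_lt hv'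
  have h3 : δ * |(v.2 : ℝ)| < 2 * R := by
    rw [abs_mul, abs_mul, abs_of_pos hδ, abs_of_pos (by positivity : (0 : ℝ) < √3 / 2)] at h2
    nlinarith only [h2, hs, mul_nonneg hδ.le (abs_nonneg (v.2 : ℝ))]
  have h4 : δ * |(v.1 : ℝ)| < 3 * R := by
    rw [abs_mul, abs_of_pos hδ] at h1
    have h5 : |(v.1 : ℝ)| ≤ |(v.1 : ℝ) + v.2 / 2| + |(v.2 : ℝ)| / 2 := by
      have : (v.1 : ℝ) = (v.1 + v.2 / 2) - v.2 / 2 := by ring
      calc |(v.1 : ℝ)| = |((v.1 : ℝ) + v.2 / 2) - v.2 / 2| := by rw [← this]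
        _ ≤ |(v.1 : ℝ) + v.2 / 2| + |(v.2 : ℝ) / 2| := abs_sub _ _
        _ = _ := by rw [abs_div, abs_two]
    have h6 := mul_le_mul_of_nonneg_left h5 hδ.le
    have h7 : 0 ≤ δ * |(v.2 : ℝ)| := by (clear * - hδ; positivity)
    have h8 : δ * (|(v.1 : ℝ) + v.2 / 2| + |(v.2 : ℝ)| / 2) =
        δ * |(v.1 : ℝ) + v.2 / 2| + δ * |(v.2 : ℝ)| / 2 := by ring
    linarith only [h1, h3, h6, h7]
  have h3' : δ * |(v.2 : ℝ)| < 3 * R := by
    have : 0 ≤ δ * |(v.2 : ℝ)| := by (clear * - hδ; positivity)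
    linarith only [h3, this]
  have key : ∀ a : ℤ, δ * |(a : ℝ)| < 3 * R → -⌈3 * R / δ⌉ ≤ a ∧ a ≤ ⌈3 * R / δ⌉ := by
    intro a ha
    have h1 : |(a : ℝ)| < 3 * R / δ := by
      rw [lt_div_iff₀ hδ]
      linarith only [ha]
    have h2 : |(a : ℝ)| ≤ (⌈3 * R / δ⌉ : ℝ) := h1.le.trans (Int.le_ceil _)
    have h3 : |a| ≤ ⌈3 * R / δ⌉ := by exact_mod_cast h2
    exact abs_le.1 h3
  obtain ⟨a1, a2⟩ := key v.1 h4
  obtain ⟨b1, b2⟩ := key v.2 h3'
  exact ⟨⟨a1, b1⟩, ⟨a2, b2⟩⟩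

theorem Vs_finite {δ : ℝ} (hδ : 0 < δ) {D : Set (ℝ × ℝ)} (hb : Bornology.IsBounded D) :
    {v : ℤ × ℤ | Metric.closedBall (dp δ v) (2 * δ) ⊆ D}.Finite := by
  obtain ⟨R, hR⟩ := hb.subset_ball (0 : ℝ × ℝ)
  exact (lat_finite hδ R).subset fun v hv =>
    hR (hv (Metric.mem_closedBall_self (by (clear * - hδ; positivity))))

theorem mem_Vs {δ : ℝ} (hδ : 0 < δ) {D : Set (ℝ × ℝ)} (hb : Bornology.IsBounded D)
    {v : ℤ × ℤ} : v ∈ Vs δ D ↔ Metric.closedBall (dp δ v) (2 * δ) ⊆ D := by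
  unfold Vs
  rw [dif_pos (Vs_finite hδ hb), Set.Finite.mem_toFinset]
  rfl

theorem Vs_mono {δ : ℝ} (hδ : 0 < δ) {D D' : Set (ℝ × ℝ)} (h : D ⊆ D')
    (hb : Bornology.IsBounded D') : Vs δ D ⊆ Vs δ D' := by
  intro f hf
  rw [mem_Vs hδ (hb.subset h)] at hf
  rw [mem_Vs hδ hb]
  exact hf.trans h

theorem hv_eq_hB {δ R : ℝ} (hδ : 0 < δ) : ∃ B : Finset (ℤ × ℤ), ∀ f : ℝ × ℝ → ℝ,
    (∀ z, f z ≠ 0 → z ∈ Metric.ball (0 : ℝ × ℝ) R) → ∀ ω, hv δ f ω = hB B δ f ω := by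
  refine ⟨(lat_finite hδ R).toFinset, fun f hf ω => ?_⟩
  unfold hv hB
  rw [finsum_eq_sum_of_support_subset]
  intro v hv
  rw [Finset.mem_coe, Set.Finite.mem_toFinset]
  refine hf _ ?_
  have h1 := right_ne_zero_of_mul hv
  rw [tl_eq] at h1
  exact right_ne_zero_of_mul h1

end Vale.Agent.P145W85.P153.F.Top
end

section

/-!
# P153, block F: the sandwich

Heights on the lattice, frozen (`= ξ`) off the finite set `Λ`. `O` contains everything off `Λ`;
`S'` is a finite set off `O`. On the event that the clusters of `O` do not meet `S'`, the moments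
of nonnegative linear functionals supported in `S'` are between those of the free ensembles on
`S'` and on the complement `S` of `O`, also in the presence of a function `X ≥ 0` which depends on
the signed heights on `O` and on the absolute values off `S'`, and is decreasing in the latter.
-/

namespace Vale.Agent.P145W85.P153.F

open Finset Vale.Agent.P145W85.P153

/-- Configurations with frozen outside. -/
def Fz (Λ : Finset Pt) (ξ : Hg) : Set Hg := {h | Lip h ∧ ∀ x, x ∉ Λ → h x = ξ x}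

theorem exists_out (Λ : Finset Pt) (v : Pt) : ∃ n : ℕ, n ≤ #Λ ∧ (v.1 + (n : ℤ), v.2) ∉ Λ := by
  by_contra hcon
  push Not at hcon
  have h1 : (Finset.range (#Λ + 1)).image (fun n : ℕ => (v.1 + (n : ℤ), v.2)) ⊆ Λ := by
    intro x hx
    obtain ⟨n, hn, rfl⟩ := Finset.mem_image.1 hx
    exact hcon n (Nat.lt_succ_iff.1 (Finset.mem_range.1 hn))
  have h2 := Finset.card_le_card h1
  rw [Finset.card_image_of_injective, Finset.card_range] at h2
  · omega
  · intro a b hab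
    have := congrArg Prod.fst hab
    simp only [add_right_inj, Nat.cast_inj] at this
    exact this

theorem lip_path {h : Hg} (hh : Lip h) (v : Pt) (n : ℕ) :
    |h v - h (v.1 + (n : ℤ), v.2)| ≤ 2 * n := by
  induction n with
  | zero => simp
  | succ n ih =>
    have h1 := hh.2 _ _ (adj_right v n)
    have h2 : |h v - h (v.1 + ((n + 1 : ℕ) : ℤ), v.2)| ≤
        |h v - h (v.1 + (n : ℤ), v.2)| +
          |h (v.1 + (n : ℤ), v.2) - h (v.1 + ((n + 1 : ℕ) : ℤ), v.2)| := abs_sub_le _ _ _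
    push_cast at h1 h2 ⊢
    linarith

theorem finite_fz (Λ : Finset Pt) (ξ : Hg) : (Fz Λ ξ).Finite := by
  classical
  set B : ℤ := ∑ x ∈ Λ, ∑ n ∈ Finset.range (#Λ + 1), |ξ (x.1 + (n : ℤ), x.2)| + 2 * #Λ with hB
  apply Set.Finite.of_finite_image (f := fun h : Hg => fun x : Λ => h x)
  · apply Set.Finite.subset (s := Set.pi Set.univ (fun _ : Λ => Set.Icc (-B) B))
    · exact Set.Finite.pi fun _ => Set.finite_Icc _ _
    · rintro g ⟨h, hh, rfl⟩
      intro x _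
      rw [Set.mem_Icc, ← abs_le]
      obtain ⟨n, hn, hout⟩ := exists_out Λ x.1
      have h1 := lip_path hh.1 x.1 n
      rw [hh.2 _ hout] at h1
      have h2 : |ξ (x.1.1 + (n : ℤ), x.1.2)| ≤
          ∑ x ∈ Λ, ∑ n ∈ Finset.range (#Λ + 1), |ξ (x.1 + (n : ℤ), x.2)| := by
        refine le_trans ?_ (Finset.single_le_sum (f := fun x : Pt =>
          ∑ n ∈ Finset.range (#Λ + 1), |ξ (x.1 + (n : ℤ), x.2)|)
          (fun y _ => Finset.sum_nonneg fun _ _ => abs_nonneg _) x.2)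
        exact Finset.single_le_sum (f := fun n : ℕ => |ξ (x.1.1 + (n : ℤ), x.1.2)|)
          (fun _ _ => abs_nonneg _) (Finset.mem_range.2 (Nat.lt_succ_of_le hn))
      have h3 : |h x.1| ≤ |h x.1 - ξ (x.1.1 + (n : ℤ), x.1.2)| + |ξ (x.1.1 + (n : ℤ), x.1.2)| := by
        have := abs_add_le (h x.1 - ξ (x.1.1 + (n : ℤ), x.1.2)) (ξ (x.1.1 + (n : ℤ), x.1.2))
        simpa only [ge_iff_le, sub_add_cancel] using this
      have h4 : (n : ℤ) ≤ #Λ := by exact_mod_cast hn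
      show |h x.1| ≤ B
      linarith
  · intro h hh g hg hhg
    funext x
    by_cases hx : x ∈ Λ
    · exact congrFun hhg ⟨x, hx⟩
    · rw [hh.2 x hx, hg.2 x hx]

/-- The event that the clusters of `O` do not meet `S'`. -/
def Av (O : Set Pt) (S' : Finset Pt) : Set Hg := {h | ∀ x ∈ S', x ∉ Clu O h}

open Classical in
/-- The configurations with frozen outside in the event. -/
noncomputable def CF (Λ : Finset Pt) (ξ : Hg) (O : Set Pt) (S' : Finset Pt) : Finset Hg :=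
  (finite_fz Λ ξ).toFinset.filter fun h => h ∈ Av O S'

theorem mem_CF {Λ : Finset Pt} {ξ : Hg} {O : Set Pt} {S' : Finset Pt} {h : Hg} :
    h ∈ CF Λ ξ O S' ↔ h ∈ Fz Λ ξ ∧ h ∈ Av O S' := by
  classical
  simp only [CF, mem_filter, Set.Finite.mem_toFinset]

/-- What is assumed of the weight. -/
structure Wt (O : Set Pt) (S' : Finset Pt) (X : Hg → ℝ) : Prop where
  nonneg : ∀ h, 0 ≤ X h
  dep : ∀ h h' : Hg, (∀ x ∈ O, h x = h' x) → (∀ x, x ∉ S' → |h x| = |h' x|) → X h = X h'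
  anti : ∀ h h' : Hg, (∀ x ∈ O, h x = h' x) → (∀ x, |h x| ≤ |h' x|) → X h' ≤ X h

variable {k : ℕ} {Λ S S' I : Finset Pt} {ξ : Hg} {O : Set Pt} {φ : Fin k → Pt → ℝ} {X : Hg → ℝ}

open Classical in
/-- The unexplored part of `Λ`. -/
noncomputable def Un (Λ : Finset Pt) (O : Set Pt) (h : Hg) : Finset Pt :=
  Λ.filter fun x => x ∉ Clu O h

theorem coe_un (hO : ∀ x, x ∉ Λ → x ∈ O) (h : Hg) : ((Un Λ O h : Finset Pt) : Set Pt) =
    (Clu O h)ᶜ := by
  classical
  ext x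
  simp only [Un, Finset.coe_filter, Set.mem_ofPred_eq, Set.mem_compl_iff, and_iff_right_iff_imp]
  intro hx
  by_contra hcon
  exact hx (subset_clu (hO x hcon))

/-- One explored set: the sum over the configurations is a sum over the explored part and the free
ensemble on the rest. -/
theorem fiber (hO : ∀ x, x ∉ Λ → x ∈ O) (T : Finset Pt) (hT : T ⊆ Λ) (hS' : S' ⊆ T) :
    ∃ Y : Finset Hg, (∀ y ∈ Y, y ∈ Exp O ((T : Set Pt)ᶜ)) ∧ ∀ G : Hg → ℝ,
      ∑ h ∈ CF Λ ξ O S' with Un Λ O h = T, G h =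
        ∑ y ∈ Y, ∑ z ∈ FreeF (innF T) T, G (comb ((T : Set Pt)ᶜ) y z) := by
  classical
  set κ : Set Pt := (T : Set Pt)ᶜ with hκ
  have hκc : κᶜ = (T : Set Pt) := by rw [hκ, compl_compl]
  set E : Finset Hg := (CF Λ ξ O S').filter fun h => Un Λ O h = T with hE
  have hEmem : ∀ h, h ∈ E ↔ (Lip h ∧ Clu O h = κ) ∧ ∀ x, x ∉ Λ → h x = ξ x := by
    intro h
    rw [hE, Finset.mem_filter, mem_CF]
    constructor
    · rintro ⟨⟨h1, h2⟩, h3⟩
      refine ⟨⟨h1.1, ?_⟩, h1.2⟩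
      have h4 := coe_un hO h
      rw [h3] at h4
      rw [hκ, h4, compl_compl]
    · rintro ⟨⟨h1, h2⟩, h3⟩
      have h4 : Un Λ O h = T := by
        apply Finset.coe_injective
        rw [coe_un hO, h2, hκc]
      refine ⟨⟨⟨h1, h3⟩, fun x hx => ?_⟩, h4⟩
      rw [h2, hκ]
      exact fun h => h (hS' hx)
  set Y : Finset Hg := E.image fun h => comb κ h (fun _ => 1) with hY
  have hsplit : ∀ h ∈ E, comb κ h (fun _ => 1) ∈ Exp O κ ∧ comb κ (fun _ => 1) h ∈ Fre κᶜ := by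
    intro h hh
    obtain ⟨⟨h1, h2⟩, -⟩ := (hEmem h).1 hh
    have hT' : ∀ x y, x ∈ κ → y ∉ κ → Adj x y → |h x| = 1 ∧ |h y| = 1 := by
      intro x y hx hy hxy
      rw [← h2] at hx hy
      exact closed_of_cross hx hy hxy
    exact ⟨⟨comb_mem_left h1 hT', clu_comb_left h2⟩, comb_mem_right h1 hT'⟩
  have hYmem : ∀ y, y ∈ Y → y ∈ Exp O κ ∧ ∀ x, x ∉ Λ → y x = ξ x := by
    intro y hy
    obtain ⟨h, hh, rfl⟩ := Finset.mem_image.1 hy
    refine ⟨(hsplit h hh).1, fun x hx => ?_⟩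
    have hxκ : x ∈ κ := by
      rw [hκ]
      exact fun h => hx (hT h)
    rw [comb_in hxκ]
    exact ((hEmem h).1 hh).2 x hx
  refine ⟨Y, fun y hy => (hYmem y hy).1, fun G => ?_⟩
  rw [← Finset.sum_product']
  symm
  have hfree : ∀ z, z ∈ FreeF (innF T) T ↔ z ∈ Fre κᶜ := by
    intro z
    rw [mem_free_inn, hκc]
  refine Finset.sum_nbij' (i := fun p : Hg × Hg => comb κ p.1 p.2)
    (j := fun h => (comb κ h (fun _ => 1), comb κ (fun _ => 1) h)) ?_ ?_ ?_ ?_ ?_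
  · rintro ⟨y, z⟩ hp
    obtain ⟨hy, hz⟩ := Finset.mem_product.1 hp
    simp only at hy hz
    obtain ⟨hy1, hy2⟩ := hYmem y hy
    have hz' := (hfree z).1 hz
    rw [hEmem]
    refine ⟨⟨lip_comb hy1.1 hz', clu_comb hy1.1 hy1.2 hz'⟩, fun x hx => ?_⟩
    have hxκ : x ∈ κ := by
      rw [hκ]
      exact fun h => hx (hT h)
    rw [comb_in hxκ]
    exact hy2 x hx
  · intro h hh
    exact Finset.mem_product.2 ⟨Finset.mem_image_of_mem _ hh, (hfree _).2 (hsplit h hh).2⟩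
  · rintro ⟨y, z⟩ hp
    obtain ⟨hy, hz⟩ := Finset.mem_product.1 hp
    simp only at hy hz
    exact Prod.ext (comb_self_left (hYmem y hy).1.1) (comb_self_right ((hfree z).1 hz))
  · intro h _
    exact comb_comb
  · intro p _
    rfl

theorem abs_comb_ab {κ : Set Pt} {y z : Hg} (x : Pt) :
    |comb κ y z x| = |comb κ y (ab z) x| := by
  by_cases hx : x ∈ κ
  · rw [comb_in hx, comb_in hx]
  · rw [comb_out hx, comb_out hx, ab, abs_abs]

/-- The sandwich. -/
theorem sandwich (hO : ∀ x, x ∉ Λ → x ∈ O) (hS : ∀ x, x ∈ S ↔ x ∉ O) (hI : I ⊆ S')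
    (hX : Wt O S' X) (hφ : ∀ i, ∀ x ∈ I, 0 ≤ φ i x) :
    Mo S' I φ * ∑ h ∈ CF Λ ξ O S', X h ≤ ∑ h ∈ CF Λ ξ O S', X h * pl I φ h ∧
    ∑ h ∈ CF Λ ξ O S', X h * pl I φ h ≤ Mo S I φ * ∑ h ∈ CF Λ ξ O S', X h := by
  classical
  have hmaps : ∀ h ∈ CF Λ ξ O S', Un Λ O h ∈ Λ.powerset := fun h _ =>
    Finset.mem_powerset.2 (Finset.filter_subset _ _)
  rw [← Finset.sum_fiberwise_of_maps_to hmaps X,
    ← Finset.sum_fiberwise_of_maps_to hmaps fun h => X h * pl I φ h, Finset.mul_sum, Finset.mul_sum]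
  have key : ∀ T ∈ Λ.powerset,
      Mo S' I φ * ∑ h ∈ CF Λ ξ O S' with Un Λ O h = T, X h ≤
        ∑ h ∈ CF Λ ξ O S' with Un Λ O h = T, X h * pl I φ h ∧
      ∑ h ∈ CF Λ ξ O S' with Un Λ O h = T, X h * pl I φ h ≤
        Mo S I φ * ∑ h ∈ CF Λ ξ O S' with Un Λ O h = T, X h := by
    intro T hT
    have hTΛ := Finset.mem_powerset.1 hT
    by_cases hne : ∃ h ∈ CF Λ ξ O S', Un Λ O h = T
    · obtain ⟨h₀, hh₀, hUn⟩ := hne
      have hcoe := coe_un hO h₀
      rw [hUn] at hcoe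
      have hS'T : S' ⊆ T := by
        intro x hx
        have h1 := (mem_CF.1 hh₀).2 x hx
        have h2 : x ∈ (T : Set Pt) := by rw [hcoe]; exact h1
        exact h2
      have hTS : T ⊆ S := by
        intro x hx
        have h2 : x ∈ (T : Set Pt) := hx
        rw [hcoe] at h2
        exact (hS x).2 fun h => h2 (subset_clu h)
      have hOκ : O ⊆ (T : Set Pt)ᶜ := by
        intro x hx hxT
        exact (hS x).1 (hTS hxT) hx
      obtain ⟨Y, hY, hfib⟩ := fiber (ξ := ξ) hO T hTΛ hS'T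
      rw [hfib, hfib]
      have hpl : ∀ y z : Hg, pl I φ (comb ((T : Set Pt)ᶜ) y z) = pl I φ z := by
        intro y z
        refine pl_congr fun x hx => comb_out fun h => h (hS'T (hI hx))
      have hab : ∀ y z : Hg, X (comb ((T : Set Pt)ᶜ) y z) =
          X (comb ((T : Set Pt)ᶜ) y (ab (ab z))) := by
        intro y z
        refine hX.dep _ _ (fun x hx => ?_) fun x _ => ?_
        · rw [comb_in (hOκ hx), comb_in (hOκ hx)]
        · rw [← abs_comb_ab, ← abs_comb_ab]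
      have e1 : ∑ y ∈ Y, ∑ z ∈ FreeF (innF T) T, X (comb ((T : Set Pt)ᶜ) y z) =
          ∑ y ∈ Y, ∑ z ∈ FreeF (innF T) T, X (comb ((T : Set Pt)ᶜ) y (ab (ab z))) :=
        Finset.sum_congr rfl fun y _ => Finset.sum_congr rfl fun z _ => hab y z
      have e2 : ∑ y ∈ Y, ∑ z ∈ FreeF (innF T) T, X (comb ((T : Set Pt)ᶜ) y z) *
          pl I φ (comb ((T : Set Pt)ᶜ) y z) =
          ∑ y ∈ Y, ∑ z ∈ FreeF (innF T) T, X (comb ((T : Set Pt)ᶜ) y (ab (ab z))) *
            pl I φ z :=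
        Finset.sum_congr rfl fun y _ => Finset.sum_congr rfl fun z _ => by rw [← hab, hpl]
      rw [e1, e2, Finset.mul_sum, Finset.mul_sum]
      constructor
      · refine Finset.sum_le_sum fun y _ => ?_
        refine lower hS'T hI hφ (fun a => X (comb ((T : Set Pt)ᶜ) y (ab a)))
          (fun a => hX.nonneg _) fun a b hab' => ?_
        refine hX.dep _ _ (fun x hx => ?_) fun x hx => ?_
        · rw [comb_in (hOκ hx), comb_in (hOκ hx)]
        · by_cases hxκ : x ∈ (T : Set Pt)ᶜ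
          · rw [comb_in hxκ, comb_in hxκ]
          · rw [comb_out hxκ, comb_out hxκ, ab, ab, hab' x hx]
      · refine Finset.sum_le_sum fun y _ => ?_
        refine upper hTS (hI.trans hS'T) hφ (fun a => X (comb ((T : Set Pt)ᶜ) y (ab a)))
          (fun a => hX.nonneg _) fun a b ha hab' => ?_
        refine hX.anti _ _ (fun x hx => ?_) fun x => ?_
        · rw [comb_in (hOκ hx), comb_in (hOκ hx)]
        · by_cases hxκ : x ∈ (T : Set Pt)ᶜ
          · rw [comb_in hxκ, comb_in hxκ]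
          · rw [comb_out hxκ, comb_out hxκ, ab, ab, abs_abs, abs_abs,
              abs_of_nonneg (zero_le_one.trans (ha x)),
              abs_of_nonneg (zero_le_one.trans ((ha x).trans (hab' x)))]
            exact hab' x
    · have hempty : (CF Λ ξ O S').filter (fun h => Un Λ O h = T) = ∅ := by
        rw [Finset.filter_eq_empty_iff]
        intro h hh hUn
        exact hne ⟨h, hh, hUn⟩
      simp only [hempty, Finset.sum_empty, mul_zero, le_refl, and_self]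
  exact ⟨Finset.sum_le_sum fun T hT => (key T hT).1, Finset.sum_le_sum fun T hT => (key T hT).2⟩

end Vale.Agent.P145W85.P153.F
end

section

/-!
# P153, block F: the sandwich in the plane

`Gb mu`: `mu` is a (possibly infinite) Gibbs measure of absolute odd heights.
-/

namespace Vale.Agent.P145W85.P153.F

open Finset MeasureTheory Vale.Agent.P145W85.P153

/-- The configurations which agree with `a` on `B`. -/
def Cyl (B : Finset Pt) (a : Hg) : Set Hg := {h | ∀ x ∈ B, h x = a x}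

/-- Gibbs measures of absolute heights. -/
structure Gb (mu : Measure Hg) : Prop where
  lip : ∀ᵐ h ∂mu, Lip h
  fin : ∀ (B : Finset Pt) (a : Hg), B.Nonempty → mu (Cyl B a) ≠ ⊤
  eq : ∀ (L B : Finset Pt) (a b : Hg), L ⊆ B → (∀ x ∈ L, ∀ y, Adj x y → y ∈ B) → Lip a → Lip b →
    (∀ x, x ∉ L → a x = b x) → mu (Cyl B a) = mu (Cyl B b)

theorem measurable_cyl (B : Finset Pt) (a : Hg) : MeasurableSet (Cyl B a) := by
  have : Cyl B a = ⋂ x ∈ B, (fun h : Hg => h x) ⁻¹' {a x} := by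
    ext h
    simp only [Cyl, Prod.forall, Set.mem_ofPred_eq, Set.mem_iInter, Set.mem_preimage, Set.mem_singleton_iff]
  rw [this]
  exact B.measurableSet_biInter fun x _ => measurable_pi_apply x (measurableSet_singleton _)

/-- One frozen pattern. -/
theorem integral_cyl {mu : Measure Hg} (hmu : Gb mu) {L B : Finset Pt}
    (hLB : L ⊆ B) (hN : ∀ x ∈ L, ∀ y, Adj x y → y ∈ B) {ξ : Hg} (hξ : Lip ξ) (f : Hg → ℝ)
    (hf : ∀ h h' : Hg, (∀ x ∈ B, h x = h' x) → f h = f h') (hint : Integrable f mu) :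
    ∫ h in Cyl (B \ L) ξ, f h ∂mu =
      mu.real (Cyl B ξ) * ∑ g ∈ (finite_fz L ξ).toFinset, f g := by
  classical
  set Q : Finset Hg := (finite_fz L ξ).toFinset with hQ
  have hQmem : ∀ g, g ∈ Q ↔ Lip g ∧ ∀ x, x ∉ L → g x = ξ x := by
    intro g
    rw [hQ, Set.Finite.mem_toFinset]
    rfl
  have hae : (Cyl (B \ L) ξ : Set Hg) =ᵐ[mu] ⋃ g ∈ Q, Cyl B g := by
    filter_upwards [hmu.lip] with h hh
    apply propext
    constructor
    · intro hc
      have hc' : ∀ x ∈ B \ L, h x = ξ x := hc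
      have hg : comb (L : Set Pt) h ξ ∈ Q := by
        rw [hQmem]
        refine ⟨⟨fun x => ?_, fun x y hxy => ?_⟩, fun x hx => comb_out hx⟩
        · by_cases hx : x ∈ (L : Set Pt)
          · rw [comb_in hx]; exact hh.1 x
          · rw [comb_out hx]; exact hξ.1 x
        · have key : ∀ x y, Adj x y → x ∈ (L : Set Pt) → y ∉ (L : Set Pt) → |h x - ξ y| ≤ 2 := by
            intro x y hxy hx hy
            rw [← hc' y (Finset.mem_sdiff.2 ⟨hN x hx y hxy, hy⟩)]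
            exact hh.2 x y hxy
          by_cases hx : x ∈ (L : Set Pt) <;> by_cases hy : y ∈ (L : Set Pt)
          · rw [comb_in hx, comb_in hy]; exact hh.2 x y hxy
          · rw [comb_in hx, comb_out hy]; exact key x y hxy hx hy
          · rw [comb_out hx, comb_in hy, abs_sub_comm]; exact key y x hxy.symm hy hx
          · rw [comb_out hx, comb_out hy]; exact hξ.2 x y hxy
      have hm : h ∈ ⋃ g ∈ Q, Cyl B g := by
        refine Set.mem_biUnion hg fun x hx => ?_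
        by_cases hxL : x ∈ (L : Set Pt)
        · rw [comb_in hxL]
        · rw [comb_out hxL]
          exact hc' x (Finset.mem_sdiff.2 ⟨hx, hxL⟩)
      exact hm
    · intro hc
      have hc' : h ∈ ⋃ g ∈ Q, Cyl B g := hc
      rw [Set.mem_iUnion₂] at hc'
      obtain ⟨g, hg, hhg⟩ := hc'
      intro x hx
      rw [Finset.mem_sdiff] at hx
      rw [hhg x hx.1, ((hQmem g).1 hg).2 x hx.2]
  rw [setIntegral_congr_set hae, integral_biUnion_finset Q
    (fun g _ => measurable_cyl B g) ?_ fun g _ => hint.integrableOn, Finset.mul_sum]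
  · refine Finset.sum_congr rfl fun g hg => ?_
    have h1 : ∫ h in Cyl B g, f h ∂mu = ∫ h in Cyl B g, f g ∂mu := by
      refine setIntegral_congr_fun (measurable_cyl B g) fun h hh => ?_
      exact hf h g hh
    have h2 : mu (Cyl B g) = mu (Cyl B ξ) :=
      hmu.eq L B g ξ hLB hN ((hQmem g).1 hg).1 hξ ((hQmem g).1 hg).2
    rw [h1, setIntegral_const, smul_eq_mul, Measure.real, h2, Measure.real]
  · intro g hg g' hg' hne
    rw [Function.onFun, Set.disjoint_left]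
    intro h hh hh'
    apply hne
    funext x
    by_cases hx : x ∈ L
    · rw [← hh x (hLB hx), hh' x (hLB hx)]
    · rw [((hQmem g).1 hg).2 x hx, ((hQmem g').1 hg').2 x hx]

/-- Inequalities between integrals of local functions follow from the frozen ones. -/
theorem integral_nonneg_of_frozen {mu : Measure Hg} (hmu : Gb mu) (L : Finset Pt) (f : Hg → ℝ)
    (B₀ : Finset Pt) (hf : ∀ h h' : Hg, (∀ x ∈ B₀, h x = h' x) → f h = f h')
    (hint : Integrable f mu)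
    (h0 : ∀ ξ : Hg, Lip ξ → 0 ≤ ∑ g ∈ (finite_fz L ξ).toFinset, f g) : 0 ≤ ∫ h, f h ∂mu := by
  classical
  set B : Finset Pt := insert (0, 0) (B₀ ∪ L ∪ L.biUnion fun x =>
    {(x.1 + 1, x.2), (x.1 - 1, x.2), (x.1, x.2 + 1), (x.1, x.2 - 1), (x.1 + 1, x.2 - 1),
      (x.1 - 1, x.2 + 1)}) with hB
  have hB0 : ∀ x ∈ B₀, x ∈ B := fun x hx => by simp only [hB, union_assoc, mem_insert, mem_union, hx, mem_biUnion, mem_singleton, Prod.exists, true_or, or_true]
  have hLB : L ⊆ B := fun x hx => by simp only [hB, union_assoc, mem_insert, mem_union, hx, mem_biUnion, mem_singleton, Prod.exists, true_or, or_true]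
  have hN : ∀ x ∈ L, ∀ y, Adj x y → y ∈ B := by
    intro x hx y hxy
    rw [hB]
    refine Finset.mem_insert_of_mem (Finset.mem_union_right _ (Finset.mem_biUnion.2 ⟨x, hx, ?_⟩))
    rw [Fv.adj_iff] at hxy
    simp only [Finset.mem_insert, Finset.mem_singleton, Prod.ext_iff]
    omega
  have hfB : ∀ h h' : Hg, (∀ x ∈ B, h x = h' x) → f h = f h' := fun h h' hh =>
    hf h h' fun x hx => hh x (hB0 x hx)
  -- partition according to the pattern on `B \ L`
  set π : Hg → (↥(B \ L) → ℤ) := fun h x => h x with hπ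
  have hmeas : Measurable π := measurable_pi_iff.2 fun x => measurable_pi_apply _
  have hpart : ∫ h, f h ∂mu = ∑' ζ : ↥(B \ L) → ℤ, ∫ h in π ⁻¹' {ζ}, f h ∂mu := by
    have hU : (⋃ ζ : ↥(B \ L) → ℤ, π ⁻¹' {ζ}) = Set.univ := by
      ext h
      simp only [Set.mem_iUnion, Set.mem_preimage, Set.mem_singleton_iff, exists_eq', Set.mem_univ]
    rw [← setIntegral_univ, ← hU]
    refine integral_iUnion (fun ζ => hmeas (measurableSet_singleton ζ)) ?_ ?_
    · intro ζ ζ' hne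
      rw [Function.onFun, Set.disjoint_left]
      intro h h1 h2
      exact hne (h1.symm.trans h2)
    · rw [hU, integrableOn_univ]
      exact hint
  rw [hpart]
  refine tsum_nonneg fun ζ => ?_
  by_cases hex : ∃ ξ : Hg, Lip ξ ∧ π ξ = ζ
  · obtain ⟨ξ, hξ, rfl⟩ := hex
    have hset : π ⁻¹' {π ξ} = Cyl (B \ L) ξ := by
      ext h
      simp only [Set.mem_preimage, Set.mem_singleton_iff, Cyl, Set.mem_ofPred_eq]
      constructor
      · intro h1 x hx
        exact congrFun h1 ⟨x, hx⟩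
      · intro h1
        funext x
        exact h1 x.1 x.2
    rw [hset, integral_cyl hmu hLB hN hξ f hfB hint]
    exact mul_nonneg measureReal_nonneg (h0 ξ hξ)
  · have hz : mu (π ⁻¹' {ζ}) = 0 := by
      have h1 : (π ⁻¹' {ζ}) ⊆ {h | ¬ Lip h} := by
        intro h hh hlip
        exact hex ⟨h, hlip, hh⟩
      exact measure_mono_null h1 (ae_iff.1 hmu.lip)
    rw [Measure.restrict_eq_zero.2 hz, integral_zero_measure]

/-- Bound for the heights on the event. -/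
theorem bound_of_av {S S' : Finset Pt} {h : Hg} (hh : Lip h) (hav : h ∈ Av ((S : Set Pt)ᶜ) S')
    {x : Pt} (hx : x ∈ S') : |h x| ≤ 1 + 2 * #S := by
  classical
  have hO : ∀ x, x ∉ S → x ∈ (S : Set Pt)ᶜ := fun x hx => hx
  have hcoe := coe_un hO h
  set T := Un S ((S : Set Pt)ᶜ) h with hT
  have hcl : ∀ x y, x ∈ Clu ((S : Set Pt)ᶜ) h → y ∉ Clu ((S : Set Pt)ᶜ) h → Adj x y →
      |h x| = 1 ∧ |h y| = 1 := fun x y hx hy hxy => closed_of_cross hx hy hxy
  have h1 := comb_mem_right hh hcl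
  have h2 : |comb (Clu ((S : Set Pt)ᶜ) h) (fun _ => 1) h x| ≤ 1 + 2 * (#T : ℤ) := by
    refine h1.1.bdd (D := T) (fun y hy => ?_) x
    have hy' : y ∈ Clu ((S : Set Pt)ᶜ) h := by
      by_contra hcon
      have : y ∈ (T : Set Pt) := by rw [hcoe]; exact hcon
      exact hy this
    rw [comb_in hy', abs_one]
  rw [comb_out (hav x hx)] at h2
  have h3 : #T ≤ #S := Finset.card_le_card (Finset.filter_subset _ _)
  have h4 : (#T : ℤ) ≤ #S := by exact_mod_cast h3
  linarith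

theorem measurable_pl {k : ℕ} (I : Finset Pt) (φ : Fin k → Pt → ℝ) : Measurable (pl I φ) := by
  unfold pl
  refine Finset.measurable_fun_prod _ fun i _ => Finset.measurable_fun_sum _ fun x _ => ?_
  exact (measurable_from_top.comp (measurable_pi_apply x)).const_mul _

/-- Integrability of the weighted moments. -/
theorem integrable_mul_pl {mu : Measure Hg} (hmu : Gb mu) {k : ℕ} {S S' I : Finset Pt}
    {φ : Fin k → Pt → ℝ} {X : Hg → ℝ} (hI : I ⊆ S')
    (hAv : ∀ h, Lip h → X h ≠ 0 → h ∈ Av ((S : Set Pt)ᶜ) S') (hint : Integrable X mu) :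
    Integrable (fun h => X h * pl I φ h) mu := by
  classical
  set C : ℝ := ∏ i : Fin k, ∑ x ∈ I, |φ i x| * (1 + 2 * #S) with hC
  refine Integrable.mono' (hint.norm.mul_const C)
    (hint.aestronglyMeasurable.mul (measurable_pl I φ).aestronglyMeasurable) ?_
  filter_upwards [hmu.lip] with h hh
  rw [norm_mul]
  by_cases hX : X h = 0
  · rw [hX, norm_zero, zero_mul, zero_mul]
  · refine mul_le_mul_of_nonneg_left ?_ (norm_nonneg _)
    rw [Real.norm_eq_abs, pl, Finset.abs_prod]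
    refine Finset.prod_le_prod (fun i _ => abs_nonneg _) fun i _ => ?_
    refine (Finset.abs_sum_le_sum_abs _ _).trans (Finset.sum_le_sum fun x hx => ?_)
    rw [abs_mul]
    refine mul_le_mul_of_nonneg_left ?_ (abs_nonneg _)
    have h1 := bound_of_av hh (hAv h hh hX) (hI hx)
    have h2 : ((|h x| : ℤ) : ℝ) ≤ ((1 + 2 * #S : ℤ) : ℝ) := by exact_mod_cast h1
    push_cast at h2
    exact h2

/-- The sandwich in the plane. -/
theorem plane_sandwich {mu : Measure Hg} (hmu : Gb mu) {k : ℕ} {S S' I : Finset Pt}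
    {φ : Fin k → Pt → ℝ} {X : Hg → ℝ} (hI : I ⊆ S') (hX : Wt ((S : Set Pt)ᶜ) S' X)
    (hloc : ∃ B : Finset Pt, ∀ h h' : Hg, (∀ x ∈ B, h x = h' x) → X h = X h')
    (hAv : ∀ h, Lip h → X h ≠ 0 → h ∈ Av ((S : Set Pt)ᶜ) S') (hint : Integrable X mu)
    (hφ : ∀ i, ∀ x ∈ I, 0 ≤ φ i x) :
    Mo S' I φ * ∫ h, X h ∂mu ≤ ∫ h, X h * pl I φ h ∂mu ∧
    ∫ h, X h * pl I φ h ∂mu ≤ Mo S I φ * ∫ h, X h ∂mu := by
  classical
  obtain ⟨B, hB⟩ := hloc
  have hint2 := integrable_mul_pl (φ := φ) hmu hI hAv hint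
  have hsum : ∀ (ξ : Hg) (f : Hg → ℝ), (∀ h, X h = 0 → f h = 0) →
      ∑ g ∈ (finite_fz S ξ).toFinset, f g = ∑ g ∈ CF S ξ ((S : Set Pt)ᶜ) S', f g := by
    intro ξ f hf
    symm
    refine Finset.sum_subset (fun g hg => ?_) fun g hg hg' => ?_
    · rw [Set.Finite.mem_toFinset]
      exact (mem_CF.1 hg).1
    · rw [Set.Finite.mem_toFinset] at hg
      apply hf
      by_contra hne
      exact hg' (mem_CF.2 ⟨hg, hAv g hg.1 hne⟩)
  have hO : ∀ x, x ∉ S → x ∈ (S : Set Pt)ᶜ := fun x hx => hx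
  have hSO : ∀ x, x ∈ S ↔ x ∉ (S : Set Pt)ᶜ := by
    intro x
    simp
  have hloc2 : ∀ h h' : Hg, (∀ x ∈ B ∪ I, h x = h' x) → X h = X h' ∧ pl I φ h = pl I φ h' := by
    intro h h' hh
    exact ⟨hB h h' fun x hx => hh x (Finset.mem_union_left _ hx),
      pl_congr fun x hx => hh x (Finset.mem_union_right _ hx)⟩
  constructor
  · have h1 := integral_nonneg_of_frozen hmu S (fun h => X h * pl I φ h - Mo S' I φ * X h)
      (B ∪ I) (fun h h' hh => by
        obtain ⟨e1, e2⟩ := hloc2 h h' hh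
        simp only [e1, e2]) (hint2.sub (hint.const_mul _)) fun ξ _ => by
        rw [hsum ξ _ fun h hh => by simp only [hh, zero_mul, mul_zero, sub_zero],
          Finset.sum_sub_distrib, ← Finset.mul_sum, sub_nonneg]
        exact (sandwich (ξ := ξ) hO hSO hI hX hφ).1
    rw [integral_sub hint2 (hint.const_mul _), integral_const_mul] at h1
    linarith
  · have h1 := integral_nonneg_of_frozen hmu S (fun h => Mo S I φ * X h - X h * pl I φ h)
      (B ∪ I) (fun h h' hh => by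
        obtain ⟨e1, e2⟩ := hloc2 h h' hh
        simp only [e1, e2]) ((hint.const_mul _).sub hint2) fun ξ _ => by
        rw [hsum ξ _ fun h hh => by simp only [hh, zero_mul, mul_zero, sub_zero],
          Finset.sum_sub_distrib, ← Finset.mul_sum, sub_nonneg]
        exact (sandwich (ξ := ξ) hO hSO hI hX hφ).2
    rw [integral_sub (hint.const_mul _) hint2, integral_const_mul] at h1
    linarith

end Vale.Agent.P145W85.P153.F
end

section

/-!
# P153, block F: the law of the absolute odd heights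

`muT P` is the law of `2 φ + 2 k - 1`, `φ` with law `P`, `k` with counting measure.
-/

namespace Vale.Agent.P145W85.P153.F

open Finset MeasureTheory Vale.Agent.P145W85.P153

/-- Odd heights. -/
def odd (k : ℤ) (φ : Pt → ℤ) : Hg := fun x => 2 * φ x + 2 * k - 1

/-- The law of the absolute odd heights. -/
noncomputable def muT (P : Measure (Pt → ℤ)) : Measure Hg := Measure.sum fun k : ℤ => P.map (odd k)

theorem measurable_odd (k : ℤ) : Measurable (odd k) := by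
  refine measurable_pi_iff.2 fun x => ?_
  exact measurable_from_top (f := fun n : ℤ => 2 * n + 2 * k - 1).comp (measurable_pi_apply x)

/-- Half of an odd height. -/
def half (a : Hg) : Pt → ℤ := fun x => (a x + 1) / 2

theorem half_eq {a : Hg} (ha : ∀ x, Odd (a x)) (x : Pt) : 2 * half a x - 1 = a x := by
  obtain ⟨m, hm⟩ := ha x
  unfold half
  omega

theorem muT_cyl (P : Measure (Pt → ℤ)) {B : Finset Pt} (hB : B.Nonempty) {a : Hg}
    (ha : ∀ x, Odd (a x)) : muT P (Cyl B a) = P (GFF.Pat B (half a)) := by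
  obtain ⟨x₀, hx₀⟩ := hB
  have hU : GFF.Pat B (half a) = ⋃ k : ℤ, odd k ⁻¹' Cyl B a := by
    ext φ
    rw [Set.mem_iUnion]
    constructor
    · intro h
      refine ⟨half a x₀ - φ x₀, fun x hx => ?_⟩
      have h1 := h x hx x₀ hx₀
      have h2 := half_eq ha x
      unfold odd
      linarith
    · rintro ⟨k, hk⟩ x hx y hy
      have h1 := hk x hx
      have h2 := hk y hy
      have h3 := half_eq ha x
      have h4 := half_eq ha y
      unfold odd at h1 h2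
      linarith only [h1, h2, h3, h4]
  rw [muT, Measure.sum_apply _ (measurable_cyl B a), hU, measure_iUnion]
  · refine tsum_congr fun k => ?_
    rw [Measure.map_apply (measurable_odd k) (measurable_cyl B a)]
  · intro k k' hne
    rw [Function.onFun, Set.disjoint_left]
    intro φ h1 h2
    have e1 := h1 x₀ hx₀
    have e2 := h2 x₀ hx₀
    unfold odd at e1 e2
    exact hne (by linarith only [e1, e2])
  · intro k
    exact measurable_odd k (measurable_cyl B a)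

theorem adj_gff {x y : Pt} : GFF.Adj x y ↔ Adj x y := Iff.rfl

theorem muT_lip {P : Measure (Pt → ℤ)} (h : ∀ᵐ φ ∂P, ∀ x y, GFF.Adj x y → |φ x - φ y| ≤ 1) :
    ∀ᵐ h ∂muT P, Lip h := by
  have hL : MeasurableSet {h : Hg | Lip h} := by
    have : {h : Hg | Lip h} = (⋂ x, {h : Hg | Odd (h x)}) ∩
        ⋂ x, ⋂ y, {h : Hg | Adj x y → |h x - h y| ≤ 2} := by
      ext h
      simp only [Lip, Set.mem_ofPred_eq, Set.mem_inter_iff, Set.mem_iInter]
    rw [this]
    refine (MeasurableSet.iInter fun x => ?_).inter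
      (MeasurableSet.iInter fun x => MeasurableSet.iInter fun y => ?_)
    · have h1 : MeasurableSet {n : ℤ | Odd n} := trivial
      have h2 : Measurable fun h : Hg => h x := measurable_pi_apply x
      exact h2 h1
    · by_cases hxy : Adj x y
      · simp only [hxy, true_imp_iff]
        have h1 : MeasurableSet {n : ℤ | |n| ≤ 2} := trivial
        have h2 : Measurable fun h : Hg => h x - h y :=
          (measurable_pi_apply x).sub (measurable_pi_apply y)
        exact h2 h1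
      · simp only [hxy, false_imp_iff]
        exact MeasurableSet.univ
  rw [ae_iff, muT, Measure.sum_apply]
  · rw [ENNReal.tsum_eq_zero]
    intro k
    have h0 : {a : Hg | ¬ Lip a} = {h : Hg | Lip h}ᶜ := rfl
    rw [h0, Measure.map_apply (measurable_odd k) hL.compl]
    refine measure_mono_null ?_ (ae_iff.1 h)
    intro φ hφ hcon
    apply hφ
    refine ⟨fun x => ⟨φ x + k - 1, by unfold odd; ring⟩, fun x y hxy => ?_⟩
    have h1 := hcon x y hxy
    have h2 : odd k φ x - odd k φ y = 2 * (φ x - φ y) := by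
      unfold odd
      ring
    rw [h2, abs_mul]
    have h3 : |(2 : ℤ)| = 2 := rfl
    rw [h3]
    linarith only [h1]
  · exact hL.compl

theorem half_sub {a : Hg} (ha : Lip a) {x y : Pt} (hxy : Adj x y) : |half a x - half a y| ≤ 1 := by
  have h1 := ha.2 x y hxy
  have h2 := half_eq ha.1 x
  have h3 := half_eq ha.1 y
  rw [abs_le] at h1 ⊢
  omega

/-- The law of the absolute heights is a Gibbs measure. -/
theorem gb_muT {P : Measure (Pt → ℤ)} [IsProbabilityMeasure P]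
    (hlip : ∀ᵐ φ ∂P, ∀ x y, GFF.Adj x y → |φ x - φ y| ≤ 1) (hG : GFF.Gibbs P) : Gb (muT P) := by
  refine ⟨muT_lip hlip, fun B a hB => ?_, fun L B a b hLB hN ha hb hab => ?_⟩
  · by_cases ha : ∀ x ∈ B, Odd (a x)
    · classical
      set a' : Hg := fun x => if x ∈ B then a x else 1 with ha'
      have h1 : Cyl B a = Cyl B a' := by
        ext h
        constructor
        · intro hh x hx
          rw [hh x hx, ha']
          simp [hx]
        · intro hh x hx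
          rw [hh x hx, ha']
          simp [hx]
      have h2 : ∀ x, Odd (a' x) := by
        intro x
        by_cases hx : x ∈ B
        · simp only [ha', hx, if_true]
          exact ha x hx
        · simp only [ha', hx, if_false]
          exact odd_one
      rw [h1, muT_cyl P hB h2]
      exact measure_ne_top P _
    · push Not at ha
      obtain ⟨x, hx, hodd⟩ := ha
      have h1 : muT P (Cyl B a) = 0 := by
        refine measure_mono_null ?_ (ae_iff.1 (muT_lip hlip))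
        intro h hh hl
        have h2 := hl.1 x
        rw [hh x hx] at h2
        exact hodd h2
      rw [h1]
      exact ENNReal.zero_ne_top
  · rcases B.eq_empty_or_nonempty with hB | hB
    · have h1 : Cyl B a = Cyl B b := by
        subst hB
        ext h
        simp [Cyl]
      rw [h1]
    · rw [muT_cyl P hB ha.1, muT_cyl P hB hb.1]
      refine hG L B (half a) (half b) hLB (fun x hx y hxy => hN x hx y hxy)
        (fun x _ y _ hxy => half_sub ha hxy) (fun x _ y _ hxy => half_sub hb hxy)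
        fun x _ hx => ?_
      unfold half
      rw [hab x hx]

theorem gb_of_plane {P : Measure (Pt → ℤ)} (hP : GFF.Plane P) : Gb (muT P) := by
  have := hP.prob
  exact gb_muT hP.lip hP.gibbs

end Vale.Agent.P145W85.P153.F
end

section

/-!
P153-F, block X (triangular lattice; mirror of `P145.X.Stmt`): objects and statements between the
percolation input and the interface `F/Top/Stmt.lean`.

Coordinates: the vertex `x` of the triangular lattice is the point `2 x` of the fine lattice of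
`F/RSW/Defs.lean`; the edge between `x` and `y` is its midpoint `x + y`.
-/

namespace Vale.Agent.P145W85.P153.F.X

open Filter Topology Set MeasureTheory
open Vale.Agent.P145W85.P153
open Vale.Agent.P145W85.P153.F.RSW (Ann)
open Vale.Agent.P145W85.P153.F.Top (Om Cone EE hv hvl ze dp c1 c2)
open Vale.Agent.P145W85.P145.PT (TestOn)

/-- The midpoints of the edges with `|h| = 1` at both ends. -/
def bl (h : Hg) : Set Pt := {w | ∃ x y, Adj x y ∧ w = x + y ∧ |h x| = 1 ∧ |h y| = 1}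

/-- Circuit of edges in the annulus with centre `p` and radii `r`, `2 r`. -/
def Zr (p : Pt) (r : ℤ) (B : Set Pt) : Prop := Ann p.1 p.2 r (B ∩ RSW.Mid)

/-- Edges with both ends in `F`. -/
def iE (F : Set Pt) : Set Pt := {w | ∃ x ∈ F, ∃ y ∈ F, Adj x y ∧ w = x + y}

/-- Edges with an end in `F`. -/
def tE (F : Set Pt) : Set Pt := {w | ∃ x ∈ F, ∃ y, Adj x y ∧ w = x + y}

/-- A step which is not blocked by `B`. -/
def stp (B : Set Pt) (x y : Pt) : Prop := Adj x y ∧ x + y ∉ B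

/-- The vertices joined to `S` by paths avoiding `B` are in `T`. -/
def Conf (B : Set Pt) (S T : Set Pt) : Prop :=
  ∀ x ∈ S, ∀ y, Relation.ReflTransGen (stp B) x y → y ∈ T

/-- The vertices in the box (parallelogram) `[p - r, p + r]`. -/
def bx (p : Pt) (r : ℤ) : Set Pt := {x | |x.1 - p.1| ≤ r ∧ |x.2 - p.2| ≤ r}

/-- `g` depends only on finitely many edges, in `A`. -/
def LocS (A : Set Pt) (g : Set Pt → ℝ) : Prop :=
  ∃ Λ : Finset Pt, (∀ w ∈ Λ, w ∈ A) ∧ ∀ B B' : Set Pt, (∀ w ∈ Λ, w ∈ B ↔ w ∈ B') → g B = g B'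

/-- Nonnegative local function of the set of blocked edges which vanishes on the empty set. -/
structure Fn (A : Set Pt) (g : Set Pt → ℝ) : Prop where
  nonneg : ∀ B, 0 ≤ g B
  loc : LocS A g
  pin : g ∅ = 0

/-- The real heights. -/
noncomputable def vm (h : Hg) : Om := fun v => (h v : ℝ)

/-- `A` depends only on the heights of the vertices of `V`. -/
def On (V : Set Pt) (A : Om → ℝ) : Prop := ∀ ω ω' : Om, (∀ v ∈ V, ω v = ω' v) → A ω = A ω'

/-- `∫ g(bl) A(heights) dmuT`. -/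
noncomputable def II (P : Measure (Pt → ℤ)) (g : Set Pt → ℝ) (A : Om → ℝ) : ℝ :=
  ∫ h, g (bl h) * A (vm h) ∂(muT P)

open Classical in
/-- Indicator of a property of sets of edges. -/
noncomputable def ind (Q : Set Pt → Prop) : Set Pt → ℝ := fun B => if Q B then 1 else 0

/-! ### Positive association in the plane -/

/-- Integrability. -/
def S_int (P : Measure (Pt → ℤ)) : Prop :=
  ∀ (g : Set Pt → ℝ) (A : Om → ℝ), LocS univ g → g ∅ = 0 → Top.Alg A →
    Integrable (fun h => g (bl h) * A (vm h)) (muT P)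

/-- LOW. -/
def S_low (P : Measure (Pt → ℤ)) : Prop :=
  ∀ (F : Finset Pt) (Θ : Set Pt → ℝ) (A : Om → ℝ), Fn (tE (F : Set Pt))ᶜ Θ → Cone A →
    ze F A * II P Θ (fun _ => 1) ≤ II P Θ A

/-- UP. -/
def S_up (P : Measure (Pt → ℤ)) : Prop :=
  ∀ (F F' : Finset Pt) (g : Set Pt → ℝ) (A : Om → ℝ), F ⊆ F' → Fn (tE (F : Set Pt))ᶜ g →
    Monotone g → (∀ B, g B ≠ 0 → Conf B (F' : Set Pt)ᶜ (F : Set Pt)ᶜ) → Cone A →
    On (F : Set Pt) A → II P g A ≤ ze F' A * II P g (fun _ => 1)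

/-- EXT: the cluster of the box `bx p r` is explored from inside. -/
def S_ext (P : Measure (Pt → ℤ)) : Prop :=
  ∀ (p : Pt) (r : ℤ) (X Θ a : Set Pt → ℝ) (A : Om → ℝ), 1 ≤ r →
    Fn univ X → Monotone X → (∀ B, X B ≠ 0 → Conf B (bx p r) (bx p (2 * r))) →
    Fn (iE (bx p r)) Θ →
    (∀ B, 0 ≤ a B) → LocS (tE (bx p (3 * r)))ᶜ a → Antitone a →
    Cone A → On (bx p (2 * r))ᶜ A →
    II P (fun B => X B * a B) A * II P Θ (fun _ => 1) ≤
      II P X (fun _ => 1) * II P (fun B => Θ B * a B) A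

/-! ### Circuits -/

/-- RSW: circuits at level `0` exist with positive mass at all scales. -/
def S_rsw (P : Measure (Pt → ℤ)) : Prop :=
  ∃ c₁ : ℝ, 0 < c₁ ∧ ∃ r₀ : ℤ, 1 ≤ r₀ ∧ ∀ r, r₀ ≤ r → ∀ p : Pt,
    c₁ ≤ II P (ind (Zr p r)) (fun _ => 1) ∧ II P (ind (Zr p r)) (fun _ => 1) ≤ 2

/-- A circuit confines the box inside (deterministic). -/
def S_conf : Prop := ∀ (p : Pt) (r : ℤ) (B : Set Pt), 1 ≤ r → Zr p r B →
  Conf B (bx p r) (bx p (2 * r))

/-- Locality of `Zr` (deterministic). -/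
def S_loc : Prop := ∀ (p : Pt) (r : ℤ), 1 ≤ r →
  Monotone (ind (Zr p r)) ∧
    Fn {w | w ∈ iE (bx p (2 * r)) ∧ w ∉ iE (bx p (r - 1))} (ind (Zr p r))

/-- MOM: moments near a circuit, uniformly in the scale. -/
def S_mom (P : Measure (Pt → ℤ)) : Prop :=
  ∀ (K : ℝ) (k : ℕ), 0 < K → ∃ C : ℝ, ∃ s₀ : ℤ, 1 ≤ s₀ ∧ ∀ s, s₀ ≤ s → ∀ (p : Pt)
    (u : Pt →₀ ℝ), (∀ v, 0 ≤ u v ∧ u v ≤ K / (s : ℝ) ^ 2) →
    (∀ v, u v ≠ 0 → |((v.1 - p.1 : ℤ) : ℝ)| ≤ K * s ∧ |((v.2 - p.2 : ℤ) : ℝ)| ≤ K * s) →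
    II P (ind (Zr p s)) (fun ω => (u.sum fun v a => a * ω v) ^ (2 * k)) ≤ C

/-- COUNT: at one of the first `n` scales, given a circuit at level `0`, there is another one at a
larger scale, except with relative probability `η`. -/
def S_cnt (P : Measure (Pt → ℤ)) : Prop :=
  ∀ η : ℝ, 0 < η → ∀ N : ℕ, ∃ n : ℕ, N ≤ n ∧ ∃ s₀ : ℤ, 1 ≤ s₀ ∧ ∀ s, s₀ ≤ s → ∃ j < n,
    ∀ p : Pt,
      II P (ind fun B => Zr p (4 ^ j * s) B ∧ ∀ i, j + 4 ≤ i → i ≤ 2 * n → ¬ Zr p (4 ^ i * s) B)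
        (fun _ => 1) ≤ η * II P (ind (Zr p (4 ^ j * s))) (fun _ => 1)

/-- GAP (from `S_ext`, `S_cnt`, `S_conf`, `S_loc`). -/
def S_gap (P : Measure (Pt → ℤ)) : Prop :=
  ∀ η : ℝ, 0 < η → ∀ N : ℕ, ∃ n : ℕ, N ≤ n ∧ ∃ s₀ : ℤ, 1 ≤ s₀ ∧ ∀ s, s₀ ≤ s → ∃ j < n,
    ∀ (p : Pt) (X : Set Pt → ℝ), Fn univ X → Monotone X →
      (∀ B, X B ≠ 0 → Zr p (4 ^ (j + 1) * s) B) →
      II P (fun B => X B * ind (fun B => ∀ i, j + 4 ≤ i → i ≤ 2 * n → ¬ Zr p (4 ^ i * s) B) B)
        (fun _ => 1) ≤ η * II P X (fun _ => 1)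

/-- POS: the full grid of circuits, all at level `0`, together with a big one. -/
def S_pos (P : Measure (Pt → ℤ)) : Prop :=
  ∀ N : ℕ, ∃ c : ℝ, 0 < c ∧ ∃ s₀ : ℤ, 1 ≤ s₀ ∧ ∀ s, s₀ ≤ s → ∀ (y₀ : Pt) (m : ℤ), 1 ≤ m →
    |y₀.1| + 2 * m ≤ N → |y₀.2| + 2 * m ≤ N →
    c ≤ II P (ind fun B => (∀ y : Pt, |y.1| ≤ N → |y.2| ≤ N → Zr (s * y.1, s * y.2) s B) ∧
      Zr (s * y₀.1, s * y₀.2) (m * s) B) (fun _ => 1)

/-- Moments given a monotone event which contains a circuit (from `S_ext`). -/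
def S_emom (P : Measure (Pt → ℤ)) : Prop :=
  ∀ (p : Pt) (s : ℤ) (X : Set Pt → ℝ) (A : Om → ℝ), 1 ≤ s → Fn univ X → Monotone X →
    (∀ B, X B ≠ 0 → Zr p (4 * s) B) → Cone A → On (bx p (8 * s))ᶜ A →
    II P X A * II P (ind (Zr p s)) (fun _ => 1) ≤
      II P X (fun _ => 1) * II P (ind (Zr p s)) A

/-- MM: moments of the heights given a macroscopic circuit at level `0`. -/
def S_mm (P : Measure (Pt → ℤ)) (δ : ℕ → ℝ) : Prop := ∀ R : ℝ, 1 ≤ R → ∀ k : ℕ,
  ∃ C : ℝ, 0 ≤ C ∧ ∀ f : ℝ × ℝ → ℝ, TestOn (Metric.ball 0 R) f → ∀ ε : ℝ, 0 < ε →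
    ∀ᶠ n in atTop, ∀ (p : Pt) (s : ℤ), |δ n * p.1| ≤ R → |δ n * p.2| ≤ R →
      R⁻¹ ≤ δ n * s → δ n * s ≤ R →
        II P (ind (Zr p s)) (fun ω => hv (δ n) f ω ^ (2 * k)) ≤ C * ((∫ z, f z ^ 2) + ε) ^ k

/-! ### Geometry -/

/-- The regions of the pinwheel of the triangle `a ≤ q₁`, `b ≤ q₂`, `q₁ + q₂ ≤ c`. -/
def Kq (a b c e : ℝ) (i : Fin 3) : Set (ℝ × ℝ) :=
  {z | (i = 0 ∧ c1 z ≤ a - e) ∨ (i = 1 ∧ a ≤ c1 z ∧ c + e ≤ c1 z + c2 z) ∨
    (i = 2 ∧ a ≤ c1 z ∧ c1 z + c2 z ≤ c ∧ c2 z ≤ b - e)}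

/-- The ends of the edges of `A` are in the region `K`. -/
def FinT (δ : ℝ) (A : Set Pt) (K : Set (ℝ × ℝ)) : Prop :=
  ∀ w ∈ A, ∀ x y : Pt, Adj x y → w = x + y → dp δ x ∈ K

/-- The scales: `sc ε δ i = 4 ^ i ⌊ε / δ⌋`. -/
noncomputable def sc (ε δ : ℝ) (i : ℕ) : ℤ := 4 ^ i * ⌊ε / δ⌋

/-- The centre `y`, for the spacing `w`. -/
def ce (w : ℤ) (y : Pt) : Pt := (w * y.1, w * y.2)

/-- SHELL: the net `Y` of circuits and the closing circuits at the centres `Q`. -/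
def S_geom : Prop := ∀ D₁ D₂ : Set (ℝ × ℝ), IsOpen D₁ → IsOpen D₂ → Bornology.IsBounded D₂ →
  closure D₁ ⊆ D₂ → ∀ a b c : ℝ, a + b < c → Top.ccell a b c ⊆ D₁ →
  ∃ N₀ : ℕ, ∀ m : ℕ, ∃ ε₀ : ℝ, 0 < ε₀ ∧ ∀ ε : ℝ, 0 < ε → ε ≤ ε₀ → ∃ N : ℕ, ∃ e : ℝ, 0 < e ∧
  ∀ j : ℕ, j + 4 ≤ m → ∀ᶠ δ in 𝓝[>] (0 : ℝ), ∃ Y Q : Finset Pt, Q ⊆ Y ∧ Q.card ≤ N₀ ∧
    (∀ y ∈ Y, |y.1| ≤ N ∧ |y.2| ≤ N) ∧
    (∀ y ∈ Y, iE (bx (ce (sc ε δ (j + 1)) y) (2 * sc ε δ (j + 1))) ⊆
        (tE (Top.Vs δ D₁ : Set Pt))ᶜ ∧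
      ∃ i, FinT δ (iE (bx (ce (sc ε δ (j + 1)) y) (2 * sc ε δ (j + 1)))) (Kq a b c e i)) ∧
    (∀ y ∈ Q, iE (bx (ce (sc ε δ (j + 1)) y) (2 * sc ε δ m)) ⊆ (tE (Top.Vs δ D₁ : Set Pt))ᶜ) ∧
    ∀ B : Set Pt, (∀ y ∈ Y, Zr (ce (sc ε δ (j + 1)) y) (sc ε δ (j + 1)) B) →
      (∀ y ∈ Q, ∃ i, j + 4 ≤ i ∧ i ≤ m ∧ Zr (ce (sc ε δ (j + 1)) y) (sc ε δ i) B) →
      Conf B (Top.Vs δ D₂ : Set Pt)ᶜ (Top.Vs δ D₁ : Set Pt)ᶜ

/-- FAR: a big circuit far away on the left, at a centre of the same net; `R` does not depend on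
the spacing. -/
def S_far : Prop := ∀ (D : Set (ℝ × ℝ)) (a : ℝ), Bornology.IsBounded D →
  ∃ R : ℝ, 1 ≤ R ∧ D ⊆ Metric.ball 0 R ∧ ∀ (m : ℕ) (ε : ℝ), 0 < ε → 4 ^ (m + 2) * ε ≤ 1 →
  ∃ N : ℕ, ∀ j : ℕ, j ≤ m → ∀ᶠ δ in 𝓝[>] (0 : ℝ), ∃ (y : Pt) (l : ℤ), 1 ≤ l ∧
    |y.1| + 8 * l ≤ N ∧ |y.2| + 8 * l ≤ N ∧
    |δ * ((ce (sc ε δ (j + 1)) y).1 : ℝ)| ≤ R ∧ |δ * ((ce (sc ε δ (j + 1)) y).2 : ℝ)| ≤ R ∧
    R⁻¹ ≤ δ * ((l * sc ε δ (j + 1) : ℤ) : ℝ) ∧ δ * ((l * sc ε δ (j + 1) : ℤ) : ℝ) ≤ R ∧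
    FinT δ (iE (bx (ce (sc ε δ (j + 1)) y) (8 * (l * sc ε δ (j + 1))))) {z | c1 z ≤ a - 1} ∧
    ∀ v : Pt, dp δ v ∈ D → v ∈ (bx (ce (sc ε δ (j + 1)) y) (8 * (l * sc ε δ (j + 1))))ᶜ

end Vale.Agent.P145W85.P153.F.X
end

section

/-!
P153-F, block X: the interface between the frame and the Schwinger-Dyson half (mirror of `SdH` of
`P145.X.Frame`).
-/

namespace Vale.Agent.P145W85.P153.F.X

open Filter Topology Set MeasureTheory
open Vale.Agent.P145W85.P153
open Vale.Agent.P145W85.P153.F.Top (Om hv c1 c2 cell ccell)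
open Vale.Agent.P145W85.P145.PT (TestOn lap)

/-- The outer regions of the pinwheel of the triangle `a ≤ q₁`, `b ≤ q₂`, `q₁ + q₂ ≤ c`, with
corridors of width `e`. -/
def Pin (a b c e : ℝ) : Set (ℝ × ℝ) :=
  {z | c1 z ≤ a - e ∨ (a ≤ c1 z ∧ c + e ≤ c1 z + c2 z) ∨
    (a ≤ c1 z ∧ c1 z + c2 z ≤ c ∧ c2 z ≤ b - e)}

/-- The family of circuits. -/
def Fy (w : ℤ) (Y : Finset (ℤ × ℤ)) (p : ℤ × ℤ) (r : ℤ) (B : Set Pt) : Prop :=
  (∀ y ∈ Y, Zr (ce w y) w B) ∧ Zr p r B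

/-- The family of circuits: the net `Y` at scale `w`, and a far circuit. -/
def QQ (w : ℤ) (Y : Finset (ℤ × ℤ)) (y0 : ℤ × ℤ) (l : ℤ) : Set Pt → Prop :=
  Fy w Y (ce w y0) (4 * (l * w))

/-- The Schwinger-Dyson half. -/
def SdH (κ : ℝ) (P : Measure (Pt → ℤ)) (δ : ℕ → ℝ) : Prop :=
  ∀ D₁ : Set (ℝ × ℝ), IsOpen D₁ → Bornology.IsBounded D₁ → ∀ a b c : ℝ, a + b < c →
  ccell a b c ⊆ D₁ → ∀ e : ℝ, 0 < e → ∀ (ψ f0 g : ℝ × ℝ → ℝ) (k : ℕ),
  TestOn (cell a b c) ψ → TestOn (cell a b c) f0 → TestOn D₁ g →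
  (∀ z, g z ≠ 0 → z ∈ Pin a b c e) → ∀ ε : ℝ, 0 < ε → ∀ (j N : ℕ) (e₁ : ℝ), 0 < e₁ →
  ∀ (Y : ℕ → Finset (ℤ × ℤ)) (y0 : ℕ → ℤ × ℤ) (l : ℕ → ℤ),
  (∀ᶠ n in atTop, (∀ y ∈ Y n, |y.1| ≤ N ∧ |y.2| ≤ N ∧
      ∃ i, FinT (δ n) (iE (bx (ce (sc ε (δ n) (j + 1)) y) (2 * sc ε (δ n) (j + 1))))
        (Kq a b c e₁ i)) ∧
    1 ≤ l n ∧ |(y0 n).1| + 8 * l n ≤ N ∧ |(y0 n).2| + 8 * l n ≤ N ∧
    FinT (δ n) (iE (bx (ce (sc ε (δ n) (j + 1)) (y0 n)) (8 * (l n * sc ε (δ n) (j + 1)))))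
      {z | c1 z ≤ a - 1}) →
  ∀ c₀ : ℝ, 0 < c₀ →
  (∀ᶠ n in atTop, c₀ ≤ II P (ind (QQ (sc ε (δ n) (j + 1)) (Y n) (y0 n) (l n))) (fun _ => 1)) →
  (∀ f : ℝ × ℝ → ℝ, TestOn D₁ f → (∀ z, 0 ≤ f z) → ∀ k : ℕ, ∃ C : ℝ, ∀ᶠ n in atTop,
    II P (ind (QQ (sc ε (δ n) (j + 1)) (Y n) (y0 n) (l n))) (fun ω => hv (δ n) f ω ^ (2 * k)) ≤
      C * II P (ind (QQ (sc ε (δ n) (j + 1)) (Y n) (y0 n) (l n))) (fun _ => 1)) →
  Tendsto (fun n =>
    (II P (ind (QQ (sc ε (δ n) (j + 1)) (Y n) (y0 n) (l n)))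
        (fun ω => hv (δ n) (lap ψ) ω * hv (δ n) (fun z => f0 z + g z) ω ^ (k + 1)) +
      κ * (k + 1) * (∫ z, ψ z * (f0 z + g z)) *
        II P (ind (QQ (sc ε (δ n) (j + 1)) (Y n) (y0 n) (l n)))
          (fun ω => hv (δ n) (fun z => f0 z + g z) ω ^ k)) /
      II P (ind (QQ (sc ε (δ n) (j + 1)) (Y n) (y0 n) (l n))) (fun _ => 1)) atTop (𝓝 0)

end Vale.Agent.P145W85.P153.F.X
end

section

/-!
# Chains of circuits

Circuits (`Ann`) of a random subset `S` of the fine lattice around neighbouring centres meet; a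
chain of them lies in one cluster of `S` and meets every set which separates its two ends. If a
level is attached to the points of `S`, constant along the steps of `S`, all these objects have the
same level.
-/

namespace Vale.Agent.P145W85.P153.F.RSW

open Vale.Agent.P145W85.P153 Vale.Agent.P145W85.P153.Topo

/-! ### One circuit -/

/-- `o` belongs to the cluster of the four crossings of the annulus. -/
structure Base (S : Set (ℤ × ℤ)) (p q t : ℤ) (o : ℤ × ℤ) : Prop where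
  top : ∃ x y, Conn (S ∩ pr (p - 2 * t) (p + 2 * t) (q + t) (q + 2 * t)) x y ∧
    x.1 = 2 * (p - 2 * t) ∧ y.1 = 2 * (p + 2 * t) ∧ Conn (S ∩ annR p q t) o x
  bot : ∃ x y, Conn (S ∩ pr (p - 2 * t) (p + 2 * t) (q - 2 * t) (q - t)) x y ∧
    x.1 = 2 * (p - 2 * t) ∧ y.1 = 2 * (p + 2 * t) ∧ Conn (S ∩ annR p q t) o x
  left : ∃ x y, Conn (S ∩ pr (p - 2 * t) (p - t) (q - 2 * t) (q + 2 * t)) x y ∧
    x.2 = 2 * (q - 2 * t) ∧ y.2 = 2 * (q + 2 * t) ∧ Conn (S ∩ annR p q t) o x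
  right : ∃ x y, Conn (S ∩ pr (p + t) (p + 2 * t) (q - 2 * t) (q + 2 * t)) x y ∧
    x.2 = 2 * (q - 2 * t) ∧ y.2 = 2 * (q + 2 * t) ∧ Conn (S ∩ annR p q t) o x

theorem annR_top {p q t : ℤ} (_ht : 0 < t) :
    pr (p - 2 * t) (p + 2 * t) (q + t) (q + 2 * t) ⊆ annR p q t := by
  intro z hz
  rw [mem_pr] at hz
  refine ⟨by rw [mem_pr]; omega, ?_⟩
  right; right; right; omega

theorem annR_bot {p q t : ℤ} (_ht : 0 < t) :
    pr (p - 2 * t) (p + 2 * t) (q - 2 * t) (q - t) ⊆ annR p q t := by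
  intro z hz
  rw [mem_pr] at hz
  refine ⟨by rw [mem_pr]; omega, ?_⟩
  right; right; left; omega

theorem annR_left {p q t : ℤ} (_ht : 0 < t) :
    pr (p - 2 * t) (p - t) (q - 2 * t) (q + 2 * t) ⊆ annR p q t := by
  intro z hz
  rw [mem_pr] at hz
  refine ⟨by rw [mem_pr]; omega, ?_⟩
  left; omega

theorem annR_right {p q t : ℤ} (_ht : 0 < t) :
    pr (p + t) (p + 2 * t) (q - 2 * t) (q + 2 * t) ⊆ annR p q t := by
  intro z hz
  rw [mem_pr] at hz
  refine ⟨by rw [mem_pr]; omega, ?_⟩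
  right; left; omega

/-- A horizontal crossing and a vertical crossing of a shorter and higher rectangle meet. -/
theorem meetHV {S T : Set (ℤ × ℤ)} {a b c d a' b' c' d' : ℤ} (h1 : a ≤ a') (h2 : b' ≤ b)
    (h3 : c' ≤ c) (h4 : d ≤ d') {x x' y y' : ℤ × ℤ} (hx : Conn (S ∩ pr a b c d) x x')
    (hxa : x.1 = 2 * a) (hxb : x'.1 = 2 * b) (hy : Conn (T ∩ pr a' b' c' d') y y')
    (hyc : y.2 = 2 * c') (hyd : y'.2 = 2 * d') :
    ∃ z, Conn (S ∩ pr a b c d) x z ∧ Conn (T ∩ pr a' b' c' d') y z :=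
  ccross (a := 2 * a) (b := 2 * b) (c := 2 * c') (d := 2 * d')
    (Set.inter_subset_right.trans (pr_mono le_rfl le_rfl h3 h4))
    (Set.inter_subset_right.trans (pr_mono h1 h2 le_rfl le_rfl)) hx hxa hxb hy hyc hyd

theorem Ann.base {p q t : ℤ} (ht : 0 < t) {S : Set (ℤ × ℤ)} (hA : Ann p q t S) :
    ∃ o, Base S p q t o := by
  obtain ⟨⟨a1, b1, h1, h1a, h1b⟩, ⟨a2, b2, h2, h2a, h2b⟩, ⟨a3, b3, h3, h3a, h3b⟩,
    ⟨a4, b4, h4, h4a, h4b⟩⟩ := hA
  obtain ⟨z13, c13, d13⟩ := meetHV (by omega) (by omega) (by omega) (by omega) h1 h1a h1b h3 h3a h3b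
  obtain ⟨z14, c14, d14⟩ := meetHV (by omega) (by omega) (by omega) (by omega) h1 h1a h1b h4 h4a h4b
  obtain ⟨z23, c23, d23⟩ := meetHV (by omega) (by omega) (by omega) (by omega) h2 h2a h2b h3 h3a h3b
  have j13 : Conn (S ∩ annR p q t) a1 a3 := c_join (annR_top ht) (annR_left ht) c13 d13
  have j14 : Conn (S ∩ annR p q t) a1 a4 := c_join (annR_top ht) (annR_right ht) c14 d14
  have j12 : Conn (S ∩ annR p q t) a1 a2 :=
    j13.trans (c_join (annR_bot ht) (annR_left ht) c23 d23).symm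
  exact ⟨a1, ⟨a1, b1, h1, h1a, h1b, Conn.refl j13.1⟩, ⟨a2, b2, h2, h2a, h2b, j12⟩,
    ⟨a3, b3, h3, h3a, h3b, j13⟩, ⟨a4, b4, h4, h4a, h4b, j14⟩⟩

theorem Base.ann {S : Set (ℤ × ℤ)} {p q t : ℤ} {o : ℤ × ℤ} (h : Base S p q t o) :
    Ann p q t S := by
  obtain ⟨⟨a1, b1, h1, h1a, h1b, _⟩, ⟨a2, b2, h2, h2a, h2b, _⟩, ⟨a3, b3, h3, h3a, h3b, _⟩,
    ⟨a4, b4, h4, h4a, h4b, _⟩⟩ := h
  exact ⟨⟨a1, b1, h1, h1a, h1b⟩, ⟨a2, b2, h2, h2a, h2b⟩, ⟨a3, b3, h3, h3a, h3b⟩,
    ⟨a4, b4, h4, h4a, h4b⟩⟩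

/-! ### Chains -/

/-! ### Separating sets -/

/-- `C` meets every path of the triangular lattice from the box with centre `(p, q)` and half side
`a` to the complement of the interior of the box with half side `b`. -/
def SepG (C : Set (ℤ × ℤ)) (p q a b : ℤ) : Prop :=
  ∀ (D : Set (ℤ × ℤ)) (x y : ℤ × ℤ), Conn D x y → x ∈ pr (p - a) (p + a) (q - a) (q + a) →
    (y.1 ≤ 2 * (p - b) ∨ 2 * (p + b) ≤ y.1 ∨ y.2 ≤ 2 * (q - b) ∨ 2 * (q + b) ≤ y.2) →
    (D ∩ C).Nonempty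

/-- The circuit at the centre `(p, q)` separates. -/
theorem Base.sep {S : Set (ℤ × ℤ)} {p q t : ℤ} (ht : 0 < t) {o : ℤ × ℤ} (h : Base S p q t o) :
    SepG {z | Conn (S ∩ annR p q t) o z} p q t (2 * t) := by
  have key : ∀ {B : Set (ℤ × ℤ)} {x y : ℤ × ℤ}, B ⊆ annR p q t → Conn (S ∩ B) x y →
      Conn (S ∩ annR p q t) o x → Conn ({z | Conn (S ∩ annR p q t) o z} ∩ B) x y := by
    intro B x y hB h1 h2
    refine Conn.mono ?_ (c_cluster h1)
    intro z hz
    exact ⟨h2.trans (hz.mono (Set.inter_subset_inter_right S hB)), hz.right_mem.2⟩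
  have hA : Ann p q t {z | Conn (S ∩ annR p q t) o z} := by
    obtain ⟨⟨a1, b1, h1, h1a, h1b, k1⟩, ⟨a2, b2, h2, h2a, h2b, k2⟩, ⟨a3, b3, h3, h3a, h3b, k3⟩,
      ⟨a4, b4, h4, h4a, h4b, k4⟩⟩ := h
    exact ⟨⟨a1, b1, key (annR_top ht) h1 k1, h1a, h1b⟩, ⟨a2, b2, key (annR_bot ht) h2 k2, h2a, h2b⟩,
      ⟨a3, b3, key (annR_left ht) h3 k3, h3a, h3b⟩, ⟨a4, b4, key (annR_right ht) h4 k4, h4a, h4b⟩⟩
  obtain ⟨o', ho', h1⟩ := hA.cluster ht
  intro D x y hD hx hy
  obtain ⟨w, hw, hw'⟩ := h1 D x y hD hx hy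
  exact ⟨w, hw, hw'.right_mem.1⟩

/-! ### Levels -/

/-- A function which is constant along the steps of `S`. -/
def Lev (S : Set (ℤ × ℤ)) (lev : ℤ × ℤ → ℤ) : Prop :=
  ∀ u v, Adj u v → u ∈ S → v ∈ S → lev u = lev v

theorem Lev.mono {S T : Set (ℤ × ℤ)} {lev : ℤ × ℤ → ℤ} (h : Lev T lev) (hST : S ⊆ T) :
    Lev S lev := fun u v huv hu hv => h u v huv (hST hu) (hST hv)

theorem c_lev {S : Set (ℤ × ℤ)} {lev : ℤ × ℤ → ℤ} (hl : Lev S lev) {x y : ℤ × ℤ} (h : Conn S x y) :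
    lev y = lev x :=
  Conn.ind (fun z => lev z = lev x) rfl
    (fun u v hu huv hv ih => (hl u v huv hu.right_mem hv).symm.trans ih) h

/-- A path of `S` is a path of its level set. -/
theorem c_to_lev {S B : Set (ℤ × ℤ)} {lev : ℤ × ℤ → ℤ} (hl : Lev S lev) {x y : ℤ × ℤ}
    (h : Conn (S ∩ B) x y) {l : ℤ} (hx : lev x = l) : Conn ((S ∩ {z | lev z = l}) ∩ B) x y := by
  refine Conn.mono ?_ (c_cluster h)
  intro z hz
  exact ⟨⟨hz.right_mem.1, (c_lev (hl.mono Set.inter_subset_left) hz).trans hx⟩, hz.right_mem.2⟩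

theorem Base.to_lev {S : Set (ℤ × ℤ)} {lev : ℤ × ℤ → ℤ} (hl : Lev S lev) {p q t : ℤ} {o : ℤ × ℤ}
    (h : Base S p q t o) : Base (S ∩ {z | lev z = lev o}) p q t o := by
  have key : ∀ {B : Set (ℤ × ℤ)} {x y : ℤ × ℤ}, Conn (S ∩ B) x y → Conn (S ∩ annR p q t) o x →
      Conn ((S ∩ {z | lev z = lev o}) ∩ B) x y ∧ Conn ((S ∩ {z | lev z = lev o}) ∩ annR p q t) o x := by
    intro B x y h1 h2
    exact ⟨c_to_lev hl h1 (c_lev (hl.mono Set.inter_subset_left) h2), c_to_lev hl h2 rfl⟩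
  obtain ⟨⟨a1, b1, h1, h1a, h1b, k1⟩, ⟨a2, b2, h2, h2a, h2b, k2⟩, ⟨a3, b3, h3, h3a, h3b, k3⟩,
    ⟨a4, b4, h4, h4a, h4b, k4⟩⟩ := h
  exact ⟨⟨a1, b1, (key h1 k1).1, h1a, h1b, (key h1 k1).2⟩,
    ⟨a2, b2, (key h2 k2).1, h2a, h2b, (key h2 k2).2⟩,
    ⟨a3, b3, (key h3 k3).1, h3a, h3b, (key h3 k3).2⟩,
    ⟨a4, b4, (key h4 k4).1, h4a, h4b, (key h4 k4).2⟩⟩

/-- Two circuits of neighbouring centres have the same level. -/
theorem lev_unique {S : Set (ℤ × ℤ)} {lev : ℤ × ℤ → ℤ} {p q t p' q' l l' : ℤ} (_ht : 0 < t)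
    (h : Ann p q t (S ∩ {z | lev z = l})) (h' : Ann p' q' t (S ∩ {z | lev z = l'}))
    (hp : |p' - p| ≤ 3 * t) (hq : |q' - q| ≤ 3 * t) : l = l' := by
  obtain ⟨hp1, hp2⟩ := abs_le.1 hp
  obtain ⟨hq1, hq2⟩ := abs_le.1 hq
  have key : ∀ {a b c d : ℤ}, p' - 2 * t ≤ a → b ≤ p' + 2 * t → q - 2 * t ≤ c → d ≤ q + 2 * t →
      BTp a b (q - 2 * t) (q + 2 * t) (S ∩ {z | lev z = l}) →
      LRp (p' - 2 * t) (p' + 2 * t) c d (S ∩ {z | lev z = l'}) → l = l' := by
    rintro a b c d ha hb hc hd ⟨y, y', hy, hyc, hyd⟩ ⟨x, x', hx, hxa, hxb⟩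
    obtain ⟨z, hz1, hz2⟩ := meetHV ha hb hc hd hx hxa hxb hy hyc hyd
    exact hz2.right_mem.1.2.symm.trans hz1.right_mem.1.2
  rcases le_total 0 (p' - p) with h1 | h1 <;> rcases le_total 0 (q' - q) with h2 | h2
  · exact key (by omega) (by omega) (by omega) (by omega) h.2.2.2 h'.2.1
  · exact key (by omega) (by omega) (by omega) (by omega) h.2.2.2 h'.1
  · exact key (by omega) (by omega) (by omega) (by omega) h.2.2.1 h'.2.1
  · exact key (by omega) (by omega) (by omega) (by omega) h.2.2.1 h'.1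

/-- A circuit has a level. -/
theorem Ann.lev {S : Set (ℤ × ℤ)} {lev : ℤ × ℤ → ℤ} (hl : Lev S lev) {p q t : ℤ} (ht : 0 < t)
    (h : Ann p q t S) : ∃ l, Ann p q t (S ∩ {z | lev z = l}) := by
  obtain ⟨o, ho⟩ := h.base ht
  exact ⟨lev o, (ho.to_lev hl).ann⟩

end Vale.Agent.P145W85.P153.F.RSW
end

section

/-!
# P153, block F-X: vertex paths which avoid the blocked edges

A path of vertices of the triangular lattice which does not use the edges of `B` cannot leave a box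
surrounded by a circuit of edges of `B`.
-/

namespace Vale.Agent.P145W85.P153.F.RSW

open Relation Vale.Agent.P145W85.P153 Vale.Agent.P145W85.P153.Topo

/-- A step between two vertices along an edge which is not in `B`. -/
def VStep (B : Set (ℤ × ℤ)) (x y : ℤ × ℤ) : Prop := Adj x y ∧ x + y ∉ B

theorem dbl_notMem {B : Set (ℤ × ℤ)} (x : ℤ × ℤ) : x + x ∉ B ∩ Mid := by
  rintro ⟨_, h⟩
  have h' : Odd (x + x).1 ∨ Odd (x + x).2 := h
  rw [Prod.fst_add, Prod.snd_add, Int.odd_iff, Int.odd_iff] at h'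
  omega

theorem adj_half {x y : ℤ × ℤ} (h : Adj x y) : Adj (x + x) (x + y) ∧ Adj (x + y) (y + y) := by
  rw [adj_iff] at h
  rw [adj_iff, adj_iff]
  simp only [Prod.fst_add, Prod.snd_add]
  rcases h with h | h | h | h | h | h <;> constructor <;> omega

/-- A vertex path avoiding `B` is a path of the fine lattice avoiding the edges of `B`. -/
theorem conn_of_vpath {B : Set (ℤ × ℤ)} {x y : ℤ × ℤ} (h : ReflTransGen (VStep B) x y) :
    Conn (B ∩ Mid)ᶜ (x + x) (y + y) := by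
  induction h with
  | refl => exact Conn.refl (dbl_notMem x)
  | @tail u v _ huv ih =>
    obtain ⟨h1, h2⟩ := huv
    obtain ⟨h3, h4⟩ := adj_half h1
    exact (ih.tail h3 fun h => h2 h.1).tail h4 (dbl_notMem v)

/-- Confinement by a separating set. -/
theorem SepG.vconf {B C : Set (ℤ × ℤ)} {p q a b : ℤ} (hC : SepG C p q a b) (hCB : C ⊆ B ∩ Mid)
    {x y : ℤ × ℤ} (hx : |x.1 - p| ≤ a ∧ |x.2 - q| ≤ a) (h : ReflTransGen (VStep B) x y) :
    |y.1 - p| < b ∧ |y.2 - q| < b := by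
  obtain ⟨hx1, hx2⟩ := hx
  rw [abs_le] at hx1 hx2
  rw [abs_lt, abs_lt]
  by_contra hc
  obtain ⟨z, hz1, hz2⟩ := hC _ _ _ (conn_of_vpath h)
    (by rw [mem_pr, Prod.fst_add, Prod.snd_add]; omega)
    (by rw [Prod.fst_add, Prod.snd_add]; omega)
  exact hz1 (hCB hz2)

/-- Confinement by a circuit. -/
theorem vconf_of_ann {B : Set (ℤ × ℤ)} {p q r : ℤ} (hr : 0 < r) (hA : Ann p q r (B ∩ Mid))
    {x y : ℤ × ℤ} (hx : |x.1 - p| ≤ r ∧ |x.2 - q| ≤ r) (h : ReflTransGen (VStep B) x y) :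
    |y.1 - p| < 2 * r ∧ |y.2 - q| < 2 * r := by
  obtain ⟨o, ho⟩ := hA.base hr
  exact (ho.sep hr).vconf (fun z hz => hz.right_mem.1) hx h

/-- Locality of the circuit event: it depends on the points in the annulus. -/
theorem ann_congr {p q r : ℤ} (hr : 0 < r) {S T : Set (ℤ × ℤ)} (hST : S ∩ annR p q r ⊆ T)
    (hA : Ann p q r S) : Ann p q r T := by
  obtain ⟨⟨a1, b1, h1, h1a, h1b⟩, ⟨a2, b2, h2, h2a, h2b⟩, ⟨a3, b3, h3, h3a, h3b⟩,
    ⟨a4, b4, h4, h4a, h4b⟩⟩ := hA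
  have key : ∀ {R : Set (ℤ × ℤ)}, R ⊆ annR p q r → ∀ {x y : ℤ × ℤ}, Conn (S ∩ R) x y →
      Conn (T ∩ R) x y := by
    intro R hR x y h
    refine Conn.mono ?_ h
    intro z hz
    exact ⟨hST ⟨hz.1, hR hz.2⟩, hz.2⟩
  exact ⟨⟨a1, b1, key (annR_top hr) h1, h1a, h1b⟩, ⟨a2, b2, key (annR_bot hr) h2, h2a, h2b⟩,
    ⟨a3, b3, key (annR_left hr) h3, h3a, h3b⟩, ⟨a4, b4, key (annR_right hr) h4, h4a, h4b⟩⟩

end Vale.Agent.P145W85.P153.F.RSW
end

section

/-!
Finite unions of grid squares: the complement of a small thickening is a union of large squares;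
outer and inner approximations of a bounded open set.
-/

namespace Vale.Agent.P145W85.P145.PT

open MeasureTheory Set Filter Topology

/-- The closed grid square. -/
def gsq (g : ℝ) (q : ℤ × ℤ) : Set (ℝ × ℝ) :=
  {z | g * q.1 ≤ z.1 ∧ z.1 ≤ g * (q.1 + 1) ∧ g * q.2 ≤ z.2 ∧ z.2 ≤ g * (q.2 + 1)}

/-- The union of the grid squares of `S`. -/
def gun (g : ℝ) (S : Set (ℤ × ℤ)) : Set (ℝ × ℝ) := {z | ∃ q ∈ S, z ∈ gsq g q}

/-- One-dimensional version: the columns which are `s`-close to `x` cover an interval which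
contains an interval of length `g - 2 s` around `x`. -/
theorem column {g s : ℝ} (hs : 0 < s) (hsg : s < g / 2) (x : ℝ) :
    ∃ c : ℝ, |x - c| ≤ g / 2 - s ∧ ∀ w y : ℝ, |w - c| ≤ g / 2 - s → |w - y| < s →
      ∀ q : ℤ, g * q ≤ y → y ≤ g * (q + 1) → ∃ y' : ℝ, |x - y'| < s ∧ g * q ≤ y' ∧
        y' ≤ g * (q + 1) := by
  have hg : 0 < g := by linarith
  set i : ℤ := ⌊x / g⌋ with hi
  have h1 : g * i ≤ x := by
    have := Int.floor_le (x / g)
    rw [← hi, le_div_iff₀ hg] at this; linarith only [this]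
  have h2 : x < g * (i + 1) := by
    have := Int.lt_floor_add_one (x / g)
    rw [← hi, div_lt_iff₀ hg] at this; linarith only [this]
  rcases lt_or_ge (x - g * i) s with ha | ha
  · -- columns i - 1 and i
    refine ⟨g * i - (g / 2 - s) + (x - g * i), ?_, ?_⟩
    · rw [abs_le]; constructor <;> linarith
    · intro w y hw hwy q hq1 hq2
      rw [abs_le] at hw
      rw [abs_lt] at hwy
      have hq3 : (i : ℝ) - 1 < q + 1 := by
        by_contra h; push Not at h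
        have : g * (q + 1) ≤ g * (i - 1) := mul_le_mul_of_nonneg_left h hg.le
        linarith
      have hq4 : (q : ℝ) < i + 1 := by
        by_contra h; push Not at h
        have : g * (i + 1) ≤ g * q := mul_le_mul_of_nonneg_left h hg.le
        linarith
      have hq5 : i - 1 < q + 1 := by exact_mod_cast hq3
      have hq6 : q < i + 1 := by exact_mod_cast hq4
      have hq7 : q = i - 1 ∨ q = i := by omega
      rcases hq7 with rfl | rfl
      · refine ⟨g * i, ?_, ?_, ?_⟩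
        · rw [abs_lt]; constructor <;> linarith only [ha, hs, h1]
        · push_cast; nlinarith only [hs, hsg]
        · push_cast; nlinarith only []
      · refine ⟨x, ?_, h1, h2.le⟩
        simpa using hs
  · rcases le_or_gt x (g * (i + 1) - s) with hb | hb
    · -- column i
      refine ⟨g * i + g / 2, ?_, ?_⟩
      · rw [abs_le]; constructor <;> linarith only [ha, hb]
      · intro w y hw hwy q hq1 hq2
        rw [abs_le] at hw
        rw [abs_lt] at hwy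
        have hq3 : (i : ℝ) < q + 1 := by
          by_contra h; push Not at h
          have : g * (q + 1) ≤ g * i := mul_le_mul_of_nonneg_left h hg.le
          nlinarith only [hw, hwy, hq2, this]
        have hq4 : (q : ℝ) < i + 1 := by
          by_contra h; push Not at h
          have : g * (i + 1) ≤ g * q := mul_le_mul_of_nonneg_left h hg.le
          linarith
        have hq5 : i < q + 1 := by exact_mod_cast hq3
        have hq6 : q < i + 1 := by exact_mod_cast hq4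
        have hq7 : q = i := by omega
        subst hq7
        refine ⟨x, ?_, h1, h2.le⟩
        simpa using hs
    · -- columns i and i + 1
      refine ⟨g * (i + 1) + (g / 2 - s) - (g * (i + 1) - x), ?_, ?_⟩
      · rw [abs_le]; constructor <;> linarith only [hsg]
      · intro w y hw hwy q hq1 hq2
        rw [abs_le] at hw
        rw [abs_lt] at hwy
        have hq3 : (i : ℝ) < q + 1 := by
          by_contra h; push Not at h
          have : g * (q + 1) ≤ g * i := mul_le_mul_of_nonneg_left h hg.le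
          linarith
        have hq4 : (q : ℝ) < i + 2 := by
          by_contra h; push Not at h
          have : g * (i + 2) ≤ g * q := mul_le_mul_of_nonneg_left h hg.le
          linarith
        have hq5 : i < q + 1 := by exact_mod_cast hq3
        have hq6 : q < i + 2 := by exact_mod_cast hq4
        have hq7 : q = i ∨ q = i + 1 := by omega
        rcases hq7 with rfl | rfl
        · refine ⟨x, ?_, h1, h2.le⟩
          simpa using hs
        · refine ⟨g * (i + 1), ?_, ?_, ?_⟩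
          · rw [abs_lt]; constructor <;> linarith only [h2, hb]
          · push_cast; nlinarith only []
          · push_cast; nlinarith only [hsg, h2, hb]

/-- **Exterior squares.** Every point outside of the `s`-thickening of a union of grid squares lies
in a closed square of side `g - 2 s` outside of this thickening. -/
theorem exterior_square {g s : ℝ} (hs : 0 < s) (hsg : s < g / 2) (S : Set (ℤ × ℤ)) {z : ℝ × ℝ}
    (hz : z ∉ Metric.thickening s (gun g S)) :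
    ∃ c : ℝ × ℝ, z ∈ Metric.closedBall c (g / 2 - s) ∧
      Disjoint (Metric.closedBall c (g / 2 - s)) (Metric.thickening s (gun g S)) := by
  obtain ⟨c1, hc1, h1⟩ := column hs hsg z.1
  obtain ⟨c2, hc2, h2⟩ := column hs hsg z.2
  refine ⟨(c1, c2), ?_, ?_⟩
  · rw [Metric.mem_closedBall, Prod.dist_eq, max_le_iff, Real.dist_eq, Real.dist_eq]
    exact ⟨hc1, hc2⟩
  · rw [Set.disjoint_left]
    intro w hw hw'
    rw [Metric.mem_closedBall, Prod.dist_eq, max_le_iff, Real.dist_eq, Real.dist_eq] at hw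
    obtain ⟨y, ⟨q, hqS, hq1, hq2, hq3, hq4⟩, hy⟩ := Metric.mem_thickening_iff.1 hw'
    rw [Prod.dist_eq, max_lt_iff, Real.dist_eq, Real.dist_eq] at hy
    obtain ⟨y1, hy1, a1, a2⟩ := h1 w.1 y.1 hw.1 hy.1 q.1 hq1 hq2
    obtain ⟨y2, hy2, b1, b2⟩ := h2 w.2 y.2 hw.2 hy.2 q.2 hq3 hq4
    refine hz (Metric.mem_thickening_iff.2 ⟨(y1, y2), ⟨q, hqS, a1, a2, b1, b2⟩, ?_⟩)
    rw [Prod.dist_eq, max_lt_iff, Real.dist_eq, Real.dist_eq]
    exact ⟨hy1, hy2⟩

theorem mem_gsq_floor {g : ℝ} (hg : 0 < g) (z : ℝ × ℝ) : z ∈ gsq g (⌊z.1 / g⌋, ⌊z.2 / g⌋) := by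
  have h1 := Int.floor_le (z.1 / g)
  have h2 := (Int.lt_floor_add_one (z.1 / g)).le
  have h3 := Int.floor_le (z.2 / g)
  have h4 := (Int.lt_floor_add_one (z.2 / g)).le
  rw [le_div_iff₀ hg] at h1 h3
  rw [div_le_iff₀ hg] at h2 h4
  exact ⟨by simp only; linarith only [h1], by simp only; linarith only [h2], by simp only; linarith only [h3],
    by simp only; linarith only [h4]⟩

theorem gsq_dist {g : ℝ} {q : ℤ × ℤ} {z w : ℝ × ℝ} (hz : z ∈ gsq g q) (hw : w ∈ gsq g q) :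
    dist z w ≤ g := by
  obtain ⟨a1, a2, a3, a4⟩ := hz
  obtain ⟨b1, b2, b3, b4⟩ := hw
  rw [Prod.dist_eq, max_le_iff, Real.dist_eq, Real.dist_eq, abs_le, abs_le]
  refine ⟨⟨?_, ?_⟩, ⟨?_, ?_⟩⟩ <;> linarith only [a1, b2, a2, b1, a3, b4, a4, b3]

/-- The squares meeting `D`. -/
def Sout (g : ℝ) (D : Set (ℝ × ℝ)) : Set (ℤ × ℤ) := {q | (gsq g q ∩ D).Nonempty}

/-- The squares well inside `D`. -/
def Sin (g : ℝ) (D : Set (ℝ × ℝ)) : Set (ℤ × ℤ) := {q | ∀ z ∈ gsq g q, 2 * g < dd D z}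

theorem subset_gun_Sout {g : ℝ} (hg : 0 < g) (D : Set (ℝ × ℝ)) : D ⊆ gun g (Sout g D) :=
  fun z hz => ⟨_, ⟨z, mem_gsq_floor hg z, hz⟩, mem_gsq_floor hg z⟩

theorem gun_Sout_subset {g s : ℝ} (hs : s ≤ g) (D : Set (ℝ × ℝ)) :
    Metric.thickening s (gun g (Sout g D)) ⊆ Metric.thickening (2 * g) D := by
  intro z hz
  obtain ⟨y, ⟨q, ⟨w, hw1, hw2⟩, hy⟩, hzy⟩ := Metric.mem_thickening_iff.1 hz
  refine Metric.mem_thickening_iff.2 ⟨w, hw2, ?_⟩
  have := gsq_dist hy hw1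
  have h2 := dist_triangle z y w
  linarith

theorem gun_Sin_subset {g s : ℝ} (hs : s ≤ g) (D : Set (ℝ × ℝ)) :
    Metric.thickening s (gun g (Sin g D)) ⊆ {z | g < dd D z} := by
  intro z hz
  obtain ⟨y, ⟨q, hq, hy⟩, hzy⟩ := Metric.mem_thickening_iff.1 hz
  have h1 := hq y hy
  have h2 := dd_le_add D y z
  rw [dist_comm] at h2
  change g < dd D z
  linarith

theorem subset_gun_Sin {g : ℝ} (hg : 0 < g) (D : Set (ℝ × ℝ)) :
    {z | 4 * g < dd D z} ⊆ gun g (Sin g D) := by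
  intro z hz
  have hz' : 4 * g < dd D z := hz
  refine ⟨_, fun w hw => ?_, mem_gsq_floor hg z⟩
  have h1 := gsq_dist (mem_gsq_floor hg z) hw
  have h2 := dd_le_add D z w
  linarith

theorem Sout_finite {g : ℝ} (hg : 0 < g) {D : Set (ℝ × ℝ)} (hb : Bornology.IsBounded D) :
    (Sout g D).Finite := by
  obtain ⟨R, hR⟩ := hb.exists_norm_le
  have hfin : (Icc (⌊(-R) / g⌋ - 1) (⌈R / g⌉ + 1) ×ˢ Icc (⌊(-R) / g⌋ - 1) (⌈R / g⌉ + 1)
      : Set (ℤ × ℤ)).Finite := (finite_Icc _ _).prod (finite_Icc _ _)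
  refine hfin.subset ?_
  rintro q ⟨z, ⟨a1, a2, a3, a4⟩, hz⟩
  have h0 := hR z hz
  have h1 := (norm_fst_le z).trans h0
  have h2 := (norm_snd_le z).trans h0
  rw [Real.norm_eq_abs, abs_le] at h1 h2
  have key : ∀ (m : ℤ) (x : ℝ), g * m ≤ x → x ≤ g * (m + 1) → -R ≤ x → x ≤ R →
      m ∈ Icc (⌊(-R) / g⌋ - 1) (⌈R / g⌉ + 1) := by
    intro m x e1 e2 e3 e4
    have f1 : -R / g ≤ m + 1 := by rw [div_le_iff₀ hg]; linarith only [e2, e3]
    have f2 : (m : ℝ) ≤ R / g := by rw [le_div_iff₀ hg]; linarith only [e1, e4]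
    have f3 : ((⌊-R / g⌋ : ℤ) : ℝ) ≤ m + 1 := (Int.floor_le _).trans f1
    have f4 : (m : ℝ) ≤ (⌈R / g⌉ : ℤ) := f2.trans (Int.le_ceil _)
    have f5 : ⌊-R / g⌋ ≤ m + 1 := by exact_mod_cast f3
    have f6 : m ≤ ⌈R / g⌉ := by exact_mod_cast f4
    exact ⟨by omega, by omega⟩
  exact ⟨key q.1 z.1 a1 a2 h1.1 h1.2, key q.2 z.2 a3 a4 h2.1 h2.2⟩

end Vale.Agent.P145W85.P145.PT
end

section

/-!
The families of thickenings of finite unions of grid squares.
-/

namespace Vale.Agent.P145W85.P153.F.Top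

open Filter Topology Set MeasureTheory
open Vale.Agent.P145W85.P145.PT Vale.Agent.P145W85.P153

theorem isClosed_gsq (g : ℝ) (q : ℤ × ℤ) : IsClosed (gsq g q) := by
  have : gsq g q = {z : ℝ × ℝ | g * q.1 ≤ z.1} ∩ ({z | z.1 ≤ g * (q.1 + 1)} ∩
      ({z | g * q.2 ≤ z.2} ∩ {z | z.2 ≤ g * (q.2 + 1)})) := by
    ext z; simp only [gsq, mem_ofPred_eq, mem_inter_iff]
  rw [this]
  exact (isClosed_le continuous_const continuous_fst).inter
    ((isClosed_le continuous_fst continuous_const).inter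
      ((isClosed_le continuous_const continuous_snd).inter
        (isClosed_le continuous_snd continuous_const)))

theorem isBounded_gsq (g : ℝ) (q : ℤ × ℤ) : Bornology.IsBounded (gsq g q) := by
  rcases (gsq g q).eq_empty_or_nonempty with h | ⟨z, hz⟩
  · rw [h]; exact Bornology.isBounded_empty
  · refine (Metric.isBounded_closedBall (x := z) (r := g)).subset fun w hw => ?_
    rw [Metric.mem_closedBall]
    exact gsq_dist hw hz

theorem isCompact_gun {g : ℝ} {S : Set (ℤ × ℤ)} (hS : S.Finite) : IsCompact (gun g S) := by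
  have : gun g S = ⋃ q ∈ S, gsq g q := by ext z; simp only [gun, Prod.exists, mem_ofPred_eq, mem_iUnion, exists_prop]
  rw [this]
  exact hS.isCompact_biUnion fun q _ =>
    Metric.isCompact_of_isClosed_isBounded (isClosed_gsq g q) (isBounded_gsq g q)

/-- The complement of a thickening is a union of squares. -/
theorem thickC_gun {g s : ℝ} (hs : 0 < s) (hsg : s < g / 2) (S : Set (ℤ × ℤ)) :
    ThickC (Metric.thickening s (gun g S)) :=
  ⟨g / 2 - s, by linarith only [hsg], fun _ hx => exterior_square hs hsg S hx⟩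

theorem nest_gun {g : ℝ} (hg : 0 < g) {S : Set (ℤ × ℤ)} (hS : S.Finite) :
    Nest 0 (g / 4) (fun s => Metric.thickening s (gun g S)) where
  lt := by linarith only [hg]
  op := fun s _ => Metric.isOpen_thickening
  bdd := fun s _ => (isCompact_gun hS).isBounded.thickening
  thick := fun s hs => thickC_gun hs.1 (by linarith only [hg, hs.2]) S
  nest := fun s hs t ht hst => (Metric.closure_thickening_subset_cthickening s _).trans
    (Metric.cthickening_subset_thickening' ht.1 hst _)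
  exh := fun s hs K hK hKc => by
    rcases (gun g S).eq_empty_or_nonempty with he | hne
    · refine ⟨s / 2, ⟨by linarith only [hs.1], by linarith only [hs.1, hs.2]⟩, by linarith [hs.1], ?_⟩
      rw [he, Metric.thickening_empty] at hK ⊢
      exact hK
    rcases K.eq_empty_or_nonempty with hKe | hKne
    · exact ⟨s / 2, ⟨by linarith only [hs.1], by linarith only [hs.1, hs.2]⟩, by linarith only [hs.1],
        by rw [hKe]; exact empty_subset _⟩
    obtain ⟨z, hz, hmax⟩ := hKc.exists_isMaxOn hKne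
      (Metric.continuous_infDist_pt (gun g S)).continuousOn
    have h1 : Metric.infDist z (gun g S) < s := by
      obtain ⟨y, hy, hzy⟩ := Metric.mem_thickening_iff.1 (hK hz)
      exact lt_of_le_of_lt (Metric.infDist_le_dist_of_mem hy) hzy
    have h0 : 0 ≤ Metric.infDist z (gun g S) := Metric.infDist_nonneg
    refine ⟨(Metric.infDist z (gun g S) + s) / 2, ⟨by linarith only [h1, h0], by linarith [hs.2]⟩,
      by linarith only [h1], fun w hw => ?_⟩
    have h2 : Metric.infDist w (gun g S) ≤ Metric.infDist z (gun g S) := hmax hw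
    obtain ⟨y, hy, hwy⟩ := (Metric.infDist_lt_iff hne (x := w)
      (r := (Metric.infDist z (gun g S) + s) / 2)).1 (by linarith)
    exact Metric.mem_thickening_iff.2 ⟨y, hy, hwy⟩

theorem gun_ball {g : ℝ} {S : Set (ℤ × ℤ)} (hS : S.Finite) :
    ∃ R : ℝ, ∀ s ∈ Ioo 0 (g / 4), Metric.thickening s (gun g S) ⊆ Metric.ball 0 R := by
  obtain ⟨R, hR⟩ := (Metric.isBounded_iff_subset_ball (0 : ℝ × ℝ)).1
    ((isCompact_gun (g := g) hS).isBounded.thickening (δ := g / 4))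
  exact ⟨R, fun s hs => (Metric.thickening_mono hs.2.le _).trans hR⟩

end Vale.Agent.P145W85.P153.F.Top
end

section

/-!
Polynomial interpolation: convergence of polynomials of degree at most `k` at `0, …, k` implies
convergence at `-1`; the Gaussian moments as polynomials.
-/

namespace Vale.Agent.P145W85.P153.F.Top

open Filter Topology Polynomial Vale.Agent.P145W85.P145.PT

theorem exists_interp (k : ℕ) : ∃ l : Fin (k + 1) → ℝ, ∀ q : ℝ[X], q.natDegree ≤ k →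
    q.eval (-1) = ∑ i, l i * q.eval (i : ℝ) := by
  have hinj : Set.InjOn (fun i : Fin (k + 1) => ((i : ℕ) : ℝ)) (Finset.univ : Finset (Fin (k + 1))) := by
    intro i _ j _ h
    have h' : ((i : ℕ) : ℝ) = ((j : ℕ) : ℝ) := h
    exact Fin.ext (by exact_mod_cast h')
  refine ⟨fun i => (Lagrange.basis Finset.univ (fun i : Fin (k + 1) => ((i : ℕ) : ℝ)) i).eval (-1),
    fun q hq => ?_⟩
  have hdeg : q.degree < (Finset.univ : Finset (Fin (k + 1))).card := by
    rw [Finset.card_univ, Fintype.card_fin]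
    refine lt_of_le_of_lt degree_le_natDegree ?_
    exact_mod_cast Nat.lt_succ_of_le hq
  have h := Lagrange.eq_interpolate hinj hdeg
  conv_lhs => rw [h]
  rw [Lagrange.interpolate_apply, eval_finsetSum]
  refine Finset.sum_congr rfl fun i _ => ?_
  rw [eval_mul, eval_C]; ring

/-- The Gaussian moments with a polynomial variance. -/
noncomputable def gmP (v : ℝ[X]) : ℕ → ℝ[X]
  | 0 => 1
  | 1 => 0
  | n + 2 => C ((n : ℝ) + 1) * v * gmP v n

theorem gmP_eval (v : ℝ[X]) (a : ℝ) (n : ℕ) :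
    (gmP v n).eval a = gm (v.eval a) n ∧ (gmP v (n + 1)).eval a = gm (v.eval a) (n + 1) := by
  induction n with
  | zero => simp only [gmP, eval_one, gm, eval_zero, and_self]
  | succ n ih =>
    refine ⟨ih.2, ?_⟩
    change (C ((n : ℝ) + 1) * v * gmP v n).eval a = (n + 1) * v.eval a * gm (v.eval a) n
    rw [eval_mul, eval_mul, eval_C, ih.1]

theorem gmP_deg {v : ℝ[X]} (hv : v.natDegree ≤ 2) (n : ℕ) :
    (gmP v n).natDegree ≤ n ∧ (gmP v (n + 1)).natDegree ≤ n + 1 := by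
  induction n with
  | zero => simp only [gmP, natDegree_one, Std.le_refl, natDegree_zero, zero_add, zero_le, and_self]
  | succ n ih =>
    refine ⟨ih.2, ?_⟩
    change (C ((n : ℝ) + 1) * v * gmP v n).natDegree ≤ n + 1 + 1
    refine (natDegree_mul_le).trans ?_
    have h1 : (C ((n : ℝ) + 1) * v).natDegree ≤ 2 :=
      (natDegree_C_mul_le _ _).trans hv
    have := ih.1
    omega

/-- If `∑ⱼ C(k,j) aʲ bₙⱼ` converges to `gm (α + β a + γ a²) k` for `a = 0, …, k`, then it does so for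
`a = -1`. -/
theorem tendsto_neg_one {ι : Type*} {l : Filter ι} (k : ℕ) (b : ι → ℕ → ℝ) (α β γ : ℝ)
    (h : ∀ i : ℕ, i ≤ k → Tendsto (fun n => ∑ j ∈ Finset.range (k + 1),
      (k.choose j : ℝ) * (i : ℝ) ^ j * b n j) l (𝓝 (gm (α + β * i + γ * (i : ℝ) ^ 2) k))) :
    Tendsto (fun n => ∑ j ∈ Finset.range (k + 1), (k.choose j : ℝ) * (-1) ^ j * b n j) l
      (𝓝 (gm (α + β * (-1) + γ * (-1) ^ 2) k)) := by
  obtain ⟨w, hw⟩ := exists_interp k
  set q : ι → ℝ[X] := fun n => ∑ j ∈ Finset.range (k + 1), C ((k.choose j : ℝ) * b n j) * X ^ j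
    with hq
  have hqe : ∀ n a, (q n).eval a = ∑ j ∈ Finset.range (k + 1), (k.choose j : ℝ) * a ^ j * b n j := by
    intro n a
    rw [hq]; simp only
    rw [eval_finsetSum]
    refine Finset.sum_congr rfl fun j _ => ?_
    rw [eval_mul, eval_C, eval_pow, eval_X]; ring
  have hqd : ∀ n, (q n).natDegree ≤ k := by
    intro n
    refine natDegree_sum_le_of_forall_le _ _ fun j hj => ?_
    refine (natDegree_C_mul_X_pow_le _ _).trans ?_
    have := Finset.mem_range.1 hj; omega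
  set v : ℝ[X] := C α + C β * X + C γ * X ^ 2 with hv
  have hve : ∀ a, v.eval a = α + β * a + γ * a ^ 2 := by
    intro a; rw [hv]; simp
  have hvd : v.natDegree ≤ 2 := by
    rw [hv]
    refine (natDegree_add_le _ _).trans (max_le ((natDegree_add_le _ _).trans (max_le ?_ ?_)) ?_)
    · rw [natDegree_C]; norm_num
    · exact (natDegree_C_mul_le _ _).trans (by rw [natDegree_X]; norm_num)
    · exact natDegree_C_mul_X_pow_le γ 2
  have h1 : ∀ n, ∑ j ∈ Finset.range (k + 1), (k.choose j : ℝ) * (-1) ^ j * b n j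
      = ∑ i, w i * (q n).eval ((i : ℕ) : ℝ) := by
    intro n; rw [← hqe, hw (q n) (hqd n)]
  have h2 : gm (α + β * (-1) + γ * (-1) ^ 2) k
      = ∑ i, w i * gm (α + β * ((i : ℕ) : ℝ) + γ * ((i : ℕ) : ℝ) ^ 2) k := by
    rw [← hve, ← (gmP_eval v (-1) k).1, hw _ (gmP_deg hvd k).1]
    refine Finset.sum_congr rfl fun i _ => ?_
    rw [(gmP_eval v _ k).1, hve]
  simp_rw [h1]
  rw [h2]
  refine tendsto_finsetSum _ fun i _ => ?_
  refine Tendsto.const_mul _ ?_
  simp_rw [hqe]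
  exact h i (Nat.lt_succ_iff.1 i.2)

end Vale.Agent.P145W85.P153.F.Top
end
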